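import Vale.Agent.P154.Chain2

/-! Data of a chain of potentials. -/

namespace Vale.Agent.P154.A2

def D01 : NP where
  A := [(1931, 1023), (-40144, 1023), (4260, 1023), (104188, 1023), (-70235, 1023)]
  B := [(199873, 1023), (-34440, 1023), (-63212, 1023)]
  E := [(97174, 1023)]
  a0 := []
  a1 := []
  a2 := []
  a3 := []
  a4 := []
  b0 := []
  b1 := []
  b2 := []
  b3 := []
  b4 := []
  g0 := []
  g1 := []
  g2 := []

def D02 : NP where
  A := [(-24125, 1023), (56910, 1023), (-96807, 1023), (119384, 1023), (-55362, 1023)]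
  B := [(204178, 1023), (-174711, 1023), (72754, 1023)]
  E := [(-50619, 1023)]
  a0 := [(129434, 1023), (-117801, 1023), (-24053, 1023), (119384, 1023), (-55362, 1023)]
  a1 := [(129434, 1023), (235602, 1023), (120265, 1023), (-955072, 1023), (608982, 1023)]
  a2 := [(58919, 1023), (96671, 1023), (84219, 1023)]
  a3 := [(-19392, 1023), (18074, 1023), (21960, 1023)]
  a4 := [(19922, 1023), (28585, 1023), (21243, 1023)]
  b0 := [(-102940, 1023), (174711, 1023), (-72754, 1023)]
  b1 := [(102940, 1023), (-698844, 1023), (509278, 1023)]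
  b2 := [(25931, 1023), (94431, 1023)]
  b3 := [(-77819, 1023), (43111, 1023)]
  b4 := [(-47542, 1023), (34768, 1023)]
  g0 := [(-50619, 1023)]
  g1 := [(151857, 1023)]
  g2 := [(-87876, 1023)]

def D11 : NP where
  A := [(42438, 1023), (-133327, 1023), (123196, 1023), (-32307, 1023)]
  B := [(100132, 1023), (2451, 1023)]
  E := [(99831, 1023)]
  a0 := []
  a1 := []
  a2 := []
  a3 := []
  a4 := []
  b0 := []
  b1 := []
  b2 := []
  b3 := []
  b4 := []
  g0 := []
  g1 := []
  g2 := []

def D12 : NP where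
  A := [(7432, 1023), (-55316, 1023), (83092, 1023), (-35208, 1023)]
  B := [(83209, 1023), (-3723, 1023)]
  E := [(79965, 1023)]
  a0 := [(170606, 1023), (-59039, 1023), (83092, 1023), (-35208, 1023)]
  a1 := [(170606, 1023), (118078, 1023), (-415460, 1023), (281664, 1023)]
  a2 := [(59272, 1023), (87175, 1023), (90272, 1023)]
  a3 := [(721, 1023), (18779, 1023), (34173, 1023)]
  a4 := [(35249, 1023), (3626, 1023), (14630, 1023)]
  b0 := [(-243139, 1023), (3723, 1023)]
  b1 := [(243139, 1023), (-14892, 1023)]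
  b2 := [(90156, 1023), (91065, 1023)]
  b3 := [(53129, 1023), (31694, 1023)]
  b4 := [(-5612, 1023), (15812, 1023)]
  g0 := [(79965, 1023)]
  g1 := [(-239895, 1023)]
  g2 := [(96495, 1023)]

def D21 : NP where
  A := [(19681, 1023), (-91800, 1023), (64294, 1023)]
  B := [(99830, 1023), (67431, 1023)]
  E := [(98608, 1023)]
  a0 := []
  a1 := []
  a2 := []
  a3 := []
  a4 := []
  b0 := []
  b1 := []
  b2 := []
  b3 := []
  b4 := []
  g0 := []
  g1 := []
  g2 := []

def D22 : NP where
  A := [(-8157, 1023), (-22572, 1023), (31950, 1023)]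
  B := [(98779, 1023), (88026, 1023)]
  E := [(80105, 1023)]
  a0 := [(170727, 1023), (65454, 1023), (31950, 1023)]
  a1 := [(170727, 1023), (-130908, 1023), (-159750, 1023)]
  a2 := [(42708, 1023), (66148, 1023), (85818, 1023)]
  a3 := [(2047, 1023), (18192, 1023), (46043, 1023)]
  a4 := [(53530, 1023), (5252, 1023), (23973, 1023)]
  b0 := [(-258989, 1023), (-88026, 1023)]
  b1 := [(258989, 1023), (352104, 1023)]
  b2 := [(80364, 1023), (81295, 1023)]
  b3 := [(57008, 1023), (36988, 1023)]
  b4 := [(-558, 1023), (18236, 1023)]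
  g0 := [(80105, 1023)]
  g1 := [(-240315, 1023)]
  g2 := [(93888, 1023)]

def p01 : List CL := [[(0, 1023), (102221, 1023), (99660, 1023), (58852, 1023)], [(0, 1023), (21290, 1023)], [(-28225, 1023)]]
def p02 : List CL := [[(0, 1023), (102221, 1023), (94742, 1023), (32767, 1023)], [(0, 1023), (53781, 1023)], [(-24696, 1023)]]
def p11 : List CL := [[(0, 1023), (102129, 1023), (101269, 1023), (94267, 1023)], [(19729, 1023), (-2913, 1023)], [(86104, 1023)]]
def p12 : List CL := [[(0, 1023), (102090, 1023), (99986, 1023), (68692, 1023)], [(2836, 1023), (1104, 1023)], [(1675, 1023)]]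
def p21 : List CL := [[(0, 1023), (99143, 1023), (91009, 1023), (62421, 1023)], [(75779, 1023), (46226, 1023)], [(33956, 1023)]]
def p22 : List CL := [[(0, 1023), (99898, 1023), (92933, 1023), (44283, 1023)], [(66790, 1023), (568, 1023)], [(-11587, 1023)]]
def k01 : List CL := []
def k02 : List CL := [[(0, 1023), (-101065, 1023), (-14925, 1023)], [(-73874, 1023)]]
def k11 : List CL := [[(-60635, 1023)]]
def k12 : List CL := [[(-68669, 1023), (-81557, 1023), (-52344, 1023)], [(-66252, 1023)]]

def D : ℕ → ℕ → NP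
  | 0, 1 => D01
  | 0, 2 => D02
  | 1, 1 => D11
  | 1, 2 => D12
  | 2, 1 => D21
  | 2, 2 => D22
  | _, _ => D01

def psi : ℕ → ℕ → List CL
  | 0, 1 => p01
  | 0, 2 => p02
  | 1, 1 => p11
  | 1, 2 => p12
  | 2, 1 => p21
  | 2, 2 => p22
  | _, _ => []

def hh : ℕ → ℕ → List CL
  | 0, 1 => k01
  | 0, 2 => k02
  | 1, 1 => k11
  | 1, 2 => k12
  | _, _ => []

def psil : ℕ → List (List CL)
  | 0 => [p01, p02]
  | 1 => [p11, p12]
  | 2 => [p21, p22]
  | _ => []

end Vale.Agent.P154.A2
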