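import Vale.Agent.P154.Data.A2D

/-! Certificates of a chain of potentials, node 0. -/

namespace Vale.Agent.P154.A2

def t_b0 : Tree := (.leaf 62 13 1 5 1)
theorem b0 : t_b0.ok 0 1 0 0 (BE 0 D01 (1, 3) (-1, 7) (0, 0) p01 k01 k11) unitBx = true := by decide +kernel

def t_s0 : Tree := (.s1 (.leaf 66 7 13 5 1) (.leaf 72 7 13 5 1))
theorem s0_0 : (Tree.leaf 66 7 13 5 1).ok 0 1 0 0 (SE D02 (0, 0) (1, 3) [p01, p02])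
    ⟨0, 1, 1, 0, 1, 2, 0, 1, 1, 0, 1, 1⟩ = true := by decide +kernel
theorem s0_1 : (Tree.leaf 72 7 13 5 1).ok 0 1 0 0 (SE D02 (0, 0) (1, 3) [p01, p02])
    ⟨0, 1, 1, 1, 2, 2, 0, 1, 1, 0, 1, 1⟩ = true := by decide +kernel
theorem s0 : t_s0.ok 0 1 0 0 (SE D02 (0, 0) (1, 3) [p01, p02]) unitBx = true :=
  (Tree.ok_s1 s0_0 s0_1)

def t_r0 : Tree := (.leaf 53 13 1 5 1)
theorem r0 : t_r0.ok 0 1 0 0 (RE D02 (0, 0)) unitBx = true := by decide +kernel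

def t_u02 : Tree := (.s1 (.s0 (.leaf 93 14 13 5 1) (.leaf 99 14 13 5 1)) (.s0 (.leaf 99 14 13 5 1) (.leaf 106 14 13 5 1)))
theorem u02_0 : (Tree.leaf 93 14 13 5 1).ok 0 1 0 0 (UE0 (1, 0) D02)
    ⟨0, 1, 2, 0, 1, 2, 0, 1, 1, 0, 1, 1⟩ = true := by decide +kernel
theorem u02_1 : (Tree.leaf 99 14 13 5 1).ok 0 1 0 0 (UE0 (1, 0) D02)
    ⟨1, 2, 2, 0, 1, 2, 0, 1, 1, 0, 1, 1⟩ = true := by decide +kernel
theorem u02_2 : (Tree.leaf 99 14 13 5 1).ok 0 1 0 0 (UE0 (1, 0) D02)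
    ⟨0, 1, 2, 1, 2, 2, 0, 1, 1, 0, 1, 1⟩ = true := by decide +kernel
theorem u02_3 : (Tree.leaf 106 14 13 5 1).ok 0 1 0 0 (UE0 (1, 0) D02)
    ⟨1, 2, 2, 1, 2, 2, 0, 1, 1, 0, 1, 1⟩ = true := by decide +kernel
theorem u02 : t_u02.ok 0 1 0 0 (UE0 (1, 0) D02) unitBx = true :=
  (Tree.ok_s1 (Tree.ok_s0 u02_0 u02_1) (Tree.ok_s0 u02_2 u02_3))

def t_v02 : Tree := (.s1 (.leaf 93 14 13 5 1) (.s1 (.leaf 110 14 13 5 1) (.leaf 113 14 13 5 1)))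
theorem v02_0 : (Tree.leaf 93 14 13 5 1).ok 0 1 0 0 (UE1 (1, 1) D02)
    ⟨0, 1, 1, 0, 1, 2, 0, 1, 1, 0, 1, 1⟩ = true := by decide +kernel
theorem v02_1 : (Tree.leaf 110 14 13 5 1).ok 0 1 0 0 (UE1 (1, 1) D02)
    ⟨0, 1, 1, 2, 3, 4, 0, 1, 1, 0, 1, 1⟩ = true := by decide +kernel
theorem v02_2 : (Tree.leaf 113 14 13 5 1).ok 0 1 0 0 (UE1 (1, 1) D02)
    ⟨0, 1, 1, 3, 4, 4, 0, 1, 1, 0, 1, 1⟩ = true := by decide +kernel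
theorem v02 : t_v02.ok 0 1 0 0 (UE1 (1, 1) D02) unitBx = true :=
  (Tree.ok_s1 v02_0 (Tree.ok_s1 v02_1 v02_2))

def t_h02 : Tree := (.s0 (.leaf 104 13 13 5 5) (.leaf 110 13 13 5 5))
theorem h02_0 : (Tree.leaf 104 13 13 5 5).ok 0 1 0 0 (HE 0 D01 D02 (1, 3) (-1, 7) p02 k02 k12)
    ⟨0, 1, 2, 0, 1, 1, 0, 1, 1, 0, 1, 1⟩ = true := by decide +kernel
theorem h02_1 : (Tree.leaf 110 13 13 5 5).ok 0 1 0 0 (HE 0 D01 D02 (1, 3) (-1, 7) p02 k02 k12)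
    ⟨1, 2, 2, 0, 1, 1, 0, 1, 1, 0, 1, 1⟩ = true := by decide +kernel
theorem h02 : t_h02.ok 0 1 0 0 (HE 0 D01 D02 (1, 3) (-1, 7) p02 k02 k12) unitBx = true :=
  (Tree.ok_s0 h02_0 h02_1)

end Vale.Agent.P154.A2
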