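import Vale.Agent.P154.Chain2

/-! Data of a chain of potentials. -/

namespace Vale.Agent.P154.A3

def D01 : NP where
  A := [(-14182, 1023), (9162, 1023), (-16179, 1023), (61600, 1023), (-40401, 1023)]
  B := [(203149, 1023), (-4758, 1023), (-96079, 1023)]
  E := [(100580, 1023)]
  a0 := []
  a1 := []
  a2 := []
  a3 := []
  a4 := []
  b0 := []
  b1 := []
  b2 := []
  b3 := []
  b4 := []
  g0 := []
  g1 := []
  g2 := []

def D02 : NP where
  A := [(2856, 1023), (-21261, 1023), (20366, 1023), (11627, 1023), (-13588, 1023)]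
  B := [(129830, 1023), (-23494, 1023), (-4024, 1023)]
  E := [(20863, 1023)]
  a0 := [(153549, 1023), (-44755, 1023), (16342, 1023), (11627, 1023), (-13588, 1023)]
  a1 := [(153549, 1023), (89510, 1023), (-81710, 1023), (-93016, 1023), (149468, 1023)]
  a2 := [(77467, 1023), (88836, 1023), (76918, 1023)]
  a3 := [(-59585, 1023), (52547, 1023), (67447, 1023)]
  a4 := [(96962, 1023), (16034, 1023), (33192, 1023)]
  b0 := [(-171556, 1023), (23494, 1023), (4024, 1023)]
  b1 := [(171556, 1023), (-93976, 1023), (-28168, 1023)]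
  b2 := [(-91655, 1023), (84920, 1023)]
  b3 := [(80857, 1023), (55506, 1023)]
  b4 := [(75744, 1023), (34856, 1023)]
  g0 := [(20863, 1023)]
  g1 := [(-62589, 1023)]
  g2 := [(-6689, 1023)]

def D03 : NP where
  A := [(-1139, 1023), (18557, 1023), (-69810, 1023), (88505, 1023), (-36113, 1023)]
  B := [(90164, 1023), (-35711, 1023), (47859, 1023)]
  E := [(59527, 1023)]
  a0 := [(148552, 1023), (-17154, 1023), (-21951, 1023), (88505, 1023), (-36113, 1023)]
  a1 := [(148552, 1023), (34308, 1023), (109755, 1023), (-708040, 1023), (397243, 1023)]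
  a2 := [(11273, 1023), (16070, 1023), (-77016, 1023)]
  a3 := [(35342, 1023), (4045, 1023), (-23283, 1023)]
  a4 := [(89963, 1023), (56237, 1023), (-17031, 1023)]
  b0 := [(-209218, 1023), (35711, 1023), (-47859, 1023)]
  b1 := [(209218, 1023), (-142844, 1023), (335013, 1023)]
  b2 := [(28623, 1023), (88303, 1023)]
  b3 := [(-57492, 1023), (81188, 1023)]
  b4 := [(-63284, 1023), (74865, 1023)]
  g0 := [(59527, 1023)]
  g1 := [(-178581, 1023)]
  g2 := [(100484, 1023)]

def D11 : NP where
  A := [(15129, 1023), (-39968, 1023), (20177, 1023), (4662, 1023)]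
  B := [(101368, 1023), (32148, 1023)]
  E := [(101221, 1023)]
  a0 := []
  a1 := []
  a2 := []
  a3 := []
  a4 := []
  b0 := []
  b1 := []
  b2 := []
  b3 := []
  b4 := []
  g0 := []
  g1 := []
  g2 := []

def D12 : NP where
  A := [(9787, 1023), (-38058, 1023), (43828, 1023), (-15557, 1023)]
  B := [(99694, 1023), (-15806, 1023)]
  E := [(36751, 1023)]
  a0 := [(146232, 1023), (-53864, 1023), (43828, 1023), (-15557, 1023)]
  a1 := [(146232, 1023), (107728, 1023), (-219140, 1023), (124456, 1023)]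
  a2 := [(55643, 1023), (65399, 1023), (74933, 1023)]
  a3 := [(-27185, 1023), (51588, 1023), (81684, 1023)]
  a4 := [(94617, 1023), (48506, 1023), (65589, 1023)]
  b0 := [(-173196, 1023), (15806, 1023)]
  b1 := [(173196, 1023), (-63224, 1023)]
  b2 := [(-37958, 1023), (58197, 1023)]
  b3 := [(-15258, 1023), (72387, 1023)]
  b4 := [(73396, 1023), (62674, 1023)]
  g0 := [(36751, 1023)]
  g1 := [(-110253, 1023)]
  g2 := [(44391, 1023)]

def D13 : NP where
  A := [(-1017, 1023), (-2287, 1023), (9357, 1023), (-6053, 1023)]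
  B := [(90127, 1023), (-12147, 1023)]
  E := [(63759, 1023)]
  a0 := [(152869, 1023), (-14434, 1023), (9357, 1023), (-6053, 1023)]
  a1 := [(152869, 1023), (28868, 1023), (-46785, 1023), (48424, 1023)]
  a2 := [(6070, 1023), (-52261, 1023), (95568, 1023)]
  a3 := [(38435, 1023), (-20282, 1023), (62658, 1023)]
  a4 := [(85232, 1023), (-24410, 1023), (49534, 1023)]
  b0 := [(-217645, 1023), (12147, 1023)]
  b1 := [(217645, 1023), (-48588, 1023)]
  b2 := [(41453, 1023), (91134, 1023)]
  b3 := [(-40626, 1023), (22999, 1023)]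
  b4 := [(-79805, 1023), (47021, 1023)]
  g0 := [(63759, 1023)]
  g1 := [(-191277, 1023)]
  g2 := [(100437, 1023)]

def D21 : NP where
  A := [(13345, 1023), (-62515, 1023), (37467, 1023)]
  B := [(101508, 1023), (91427, 1023)]
  E := [(101217, 1023)]
  a0 := []
  a1 := []
  a2 := []
  a3 := []
  a4 := []
  b0 := []
  b1 := []
  b2 := []
  b3 := []
  b4 := []
  g0 := []
  g1 := []
  g2 := []

def D22 : NP where
  A := [(5211, 1023), (-22659, 1023), (12262, 1023)]
  B := [(99795, 1023), (14149, 1023)]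
  E := [(44142, 1023)]
  a0 := [(149148, 1023), (-8510, 1023), (12262, 1023)]
  a1 := [(149148, 1023), (17020, 1023), (-61310, 1023)]
  a2 := [(97286, 1023), (88367, 1023), (97307, 1023)]
  a3 := [(1978, 1023), (62013, 1023), (86932, 1023)]
  a4 := [(77108, 1023), (24146, 1023), (69832, 1023)]
  b0 := [(-188079, 1023), (-14149, 1023)]
  b1 := [(188079, 1023), (56596, 1023)]
  b2 := [(-83974, 1023), (93621, 1023)]
  b3 := [(-62024, 1023), (74470, 1023)]
  b4 := [(63292, 1023), (54330, 1023)]
  g0 := [(44142, 1023)]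
  g1 := [(-132426, 1023)]
  g2 := [(86173, 1023)]

def D23 : NP where
  A := [(-11360, 1023), (-10396, 1023), (22309, 1023)]
  B := [(100798, 1023), (44834, 1023)]
  E := [(73745, 1023)]
  a0 := [(163183, 1023), (34438, 1023), (22309, 1023)]
  a1 := [(163183, 1023), (-68876, 1023), (-111545, 1023)]
  a2 := [(13009, 1023), (88144, 1023), (96588, 1023)]
  a3 := [(34171, 1023), (54356, 1023), (80069, 1023)]
  a4 := [(93983, 1023), (11611, 1023), (50852, 1023)]
  b0 := [(-248288, 1023), (-44834, 1023)]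
  b1 := [(248288, 1023), (179336, 1023)]
  b2 := [(50034, 1023), (94536, 1023)]
  b3 := [(12141, 1023), (72603, 1023)]
  b4 := [(-83004, 1023), (43452, 1023)]
  g0 := [(73745, 1023)]
  g1 := [(-221235, 1023)]
  g2 := [(99820, 1023)]

def p01 : List CL := [[(0, 1023), (102312, 1023), (101287, 1023), (69914, 1023)], [(0, 1023), (-50306, 1023)], [(-43645, 1023)]]
def p02 : List CL := [[(0, 1023), (102312, 1023), (98312, 1023), (-39520, 1023)], [(0, 1023), (34740, 1023)], [(-902, 1023)]]
def p03 : List CL := [[(0, 1023), (102312, 1023), (100745, 1023), (26072, 1023)], [(0, 1023), (32136, 1023)], [(-43230, 1023)]]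
def p11 : List CL := [[(0, 1023), (102151, 1023), (100868, 1023), (72861, 1023)], [(591, 1023), (7758, 1023)], [(-88632, 1023)]]
def p12 : List CL := [[(0, 1023), (102065, 1023), (101026, 1023), (8156, 1023)], [(4961, 1023), (20710, 1023)], [(-34502, 1023)]]
def p13 : List CL := [[(0, 1023), (102160, 1023), (101059, 1023), (-6306, 1023)], [(6679, 1023), (-36182, 1023)], [(44255, 1023)]]
def p21 : List CL := [[(0, 1023), (100935, 1023), (98657, 1023), (74872, 1023)], [(41264, 1023), (-60930, 1023)], [(-29418, 1023)]]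
def p22 : List CL := [[(0, 1023), (101575, 1023), (100125, 1023), (8085, 1023)], [(70089, 1023), (-76764, 1023)], [(1760, 1023)]]
def p23 : List CL := [[(0, 1023), (100950, 1023), (98987, 1023), (31406, 1023)], [(28666, 1023), (-25004, 1023)], [(10347, 1023)]]
def k01 : List CL := []
def k02 : List CL := [[(0, 1023), (65920, 1023), (94370, 1023)], [(-96109, 1023)]]
def k03 : List CL := [[(0, 1023), (-99759, 1023), (94303, 1023)], [(-67165, 1023)]]
def k11 : List CL := [[(-6865, 1023)]]
def k12 : List CL := [[(-50413, 1023), (98046, 1023), (-2817, 1023)], [(-98368, 1023)]]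
def k13 : List CL := [[(-35315, 1023), (97987, 1023), (-78203, 1023)], [(-99196, 1023)]]

def D : ℕ → ℕ → NP
  | 0, 1 => D01
  | 0, 2 => D02
  | 0, 3 => D03
  | 1, 1 => D11
  | 1, 2 => D12
  | 1, 3 => D13
  | 2, 1 => D21
  | 2, 2 => D22
  | 2, 3 => D23
  | _, _ => D01

def psi : ℕ → ℕ → List CL
  | 0, 1 => p01
  | 0, 2 => p02
  | 0, 3 => p03
  | 1, 1 => p11
  | 1, 2 => p12
  | 1, 3 => p13
  | 2, 1 => p21
  | 2, 2 => p22
  | 2, 3 => p23
  | _, _ => []

def hh : ℕ → ℕ → List CL
  | 0, 1 => k01
  | 0, 2 => k02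
  | 0, 3 => k03
  | 1, 1 => k11
  | 1, 2 => k12
  | 1, 3 => k13
  | _, _ => []

def psil : ℕ → List (List CL)
  | 0 => [p01, p02, p03]
  | 1 => [p11, p12, p13]
  | 2 => [p21, p22, p23]
  | _ => []

end Vale.Agent.P154.A3
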