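import Vale.Agent.P154.Data.A3D

/-! Certificates of a chain of potentials, node 0. -/

namespace Vale.Agent.P154.A3

def t_b0 : Tree := (.leaf 61 13 1 5 1)
theorem b0 : t_b0.ok 0 1 0 0 (BE 0 D01 (1, 3) (-1, 7) (0, 0) p01 k01 k11) unitBx = true := by decide +kernel

def t_s0 : Tree := (.s1 (.leaf 65 7 13 5 1) (.leaf 71 7 13 5 1))
theorem s0_0 : (Tree.leaf 65 7 13 5 1).ok 0 1 0 0 (SE D03 (0, 0) (1, 3) [p01, p02, p03])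
    ⟨0, 1, 1, 0, 1, 2, 0, 1, 1, 0, 1, 1⟩ = true := by decide +kernel
theorem s0_1 : (Tree.leaf 71 7 13 5 1).ok 0 1 0 0 (SE D03 (0, 0) (1, 3) [p01, p02, p03])
    ⟨0, 1, 1, 1, 2, 2, 0, 1, 1, 0, 1, 1⟩ = true := by decide +kernel
theorem s0 : t_s0.ok 0 1 0 0 (SE D03 (0, 0) (1, 3) [p01, p02, p03]) unitBx = true :=
  (Tree.ok_s1 s0_0 s0_1)

def t_r0 : Tree := (.leaf 52 13 1 5 1)
theorem r0 : t_r0.ok 0 1 0 0 (RE D03 (0, 0)) unitBx = true := by decide +kernel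

def t_u02 : Tree := (.s0 (.s1 (.leaf 91 14 13 5 1) (.leaf 97 14 13 5 1)) (.leaf 88 14 13 5 1))
theorem u02_0 : (Tree.leaf 91 14 13 5 1).ok 0 1 0 0 (UE0 (1, 0) D02)
    ⟨0, 1, 2, 0, 1, 2, 0, 1, 1, 0, 1, 1⟩ = true := by decide +kernel
theorem u02_1 : (Tree.leaf 97 14 13 5 1).ok 0 1 0 0 (UE0 (1, 0) D02)
    ⟨0, 1, 2, 1, 2, 2, 0, 1, 1, 0, 1, 1⟩ = true := by decide +kernel
theorem u02_2 : (Tree.leaf 88 14 13 5 1).ok 0 1 0 0 (UE0 (1, 0) D02)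
    ⟨1, 2, 2, 0, 1, 1, 0, 1, 1, 0, 1, 1⟩ = true := by decide +kernel
theorem u02 : t_u02.ok 0 1 0 0 (UE0 (1, 0) D02) unitBx = true :=
  (Tree.ok_s0 (Tree.ok_s1 u02_0 u02_1) u02_2)

def t_v02 : Tree := (.s1 (.leaf 91 14 13 5 1) (.leaf 97 14 13 5 1))
theorem v02_0 : (Tree.leaf 91 14 13 5 1).ok 0 1 0 0 (UE1 (1, 1) D02)
    ⟨0, 1, 1, 0, 1, 2, 0, 1, 1, 0, 1, 1⟩ = true := by decide +kernel
theorem v02_1 : (Tree.leaf 97 14 13 5 1).ok 0 1 0 0 (UE1 (1, 1) D02)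
    ⟨0, 1, 1, 1, 2, 2, 0, 1, 1, 0, 1, 1⟩ = true := by decide +kernel
theorem v02 : t_v02.ok 0 1 0 0 (UE1 (1, 1) D02) unitBx = true :=
  (Tree.ok_s1 v02_0 v02_1)

def t_h02 : Tree := (.leaf 93 13 13 5 5)
theorem h02 : t_h02.ok 0 1 0 0 (HE 0 D01 D02 (1, 3) (-1, 7) p02 k02 k12) unitBx = true := by decide +kernel

def t_u03 : Tree := (.s0 (.s1 (.leaf 92 14 13 5 1) (.leaf 99 14 13 5 1)) (.leaf 90 14 13 5 1))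
theorem u03_0 : (Tree.leaf 92 14 13 5 1).ok 0 1 0 0 (UE0 (1, 0) D03)
    ⟨0, 1, 2, 0, 1, 2, 0, 1, 1, 0, 1, 1⟩ = true := by decide +kernel
theorem u03_1 : (Tree.leaf 99 14 13 5 1).ok 0 1 0 0 (UE0 (1, 0) D03)
    ⟨0, 1, 2, 1, 2, 2, 0, 1, 1, 0, 1, 1⟩ = true := by decide +kernel
theorem u03_2 : (Tree.leaf 90 14 13 5 1).ok 0 1 0 0 (UE0 (1, 0) D03)
    ⟨1, 2, 2, 0, 1, 1, 0, 1, 1, 0, 1, 1⟩ = true := by decide +kernel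
theorem u03 : t_u03.ok 0 1 0 0 (UE0 (1, 0) D03) unitBx = true :=
  (Tree.ok_s0 (Tree.ok_s1 u03_0 u03_1) u03_2)

def t_v03 : Tree := (.s1 (.leaf 92 14 13 5 1) (.leaf 99 14 13 5 1))
theorem v03_0 : (Tree.leaf 92 14 13 5 1).ok 0 1 0 0 (UE1 (1, 1) D03)
    ⟨0, 1, 1, 0, 1, 2, 0, 1, 1, 0, 1, 1⟩ = true := by decide +kernel
theorem v03_1 : (Tree.leaf 99 14 13 5 1).ok 0 1 0 0 (UE1 (1, 1) D03)
    ⟨0, 1, 1, 1, 2, 2, 0, 1, 1, 0, 1, 1⟩ = true := by decide +kernel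
theorem v03 : t_v03.ok 0 1 0 0 (UE1 (1, 1) D03) unitBx = true :=
  (Tree.ok_s1 v03_0 v03_1)

def t_h03 : Tree := (.leaf 94 13 13 5 5)
theorem h03 : t_h03.ok 0 1 0 0 (HE 0 D02 D03 (1, 3) (-1, 7) p03 k03 k13) unitBx = true := by decide +kernel

end Vale.Agent.P154.A3
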