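import Vale.Agent.P154.Data.A4D

/-! Certificates of a chain of potentials, node 0. -/

namespace Vale.Agent.P154.A4

def t_b0 : Tree := (.s2 (.s0 (.leaf 192 16 1 6 1) (.leaf 194 16 1 6 1)) (.s2 (.leaf 183 16 1 6 1) (.leaf 183 16 1 6 1)))
theorem b0_0 : (Tree.leaf 192 16 1 6 1).ok 0 1 0 0 (BE 0 D01 (9409, 39999) (-912673, 7999999) (0, 0) p01 k01 k11)
    ⟨0, 1, 2, 0, 1, 1, 0, 1, 2, 0, 1, 1⟩ = true := by decide +kernel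
theorem b0_1 : (Tree.leaf 194 16 1 6 1).ok 0 1 0 0 (BE 0 D01 (9409, 39999) (-912673, 7999999) (0, 0) p01 k01 k11)
    ⟨1, 2, 2, 0, 1, 1, 0, 1, 2, 0, 1, 1⟩ = true := by decide +kernel
theorem b0_2 : (Tree.leaf 183 16 1 6 1).ok 0 1 0 0 (BE 0 D01 (9409, 39999) (-912673, 7999999) (0, 0) p01 k01 k11)
    ⟨0, 1, 1, 0, 1, 1, 2, 3, 4, 0, 1, 1⟩ = true := by decide +kernel
theorem b0_3 : (Tree.leaf 183 16 1 6 1).ok 0 1 0 0 (BE 0 D01 (9409, 39999) (-912673, 7999999) (0, 0) p01 k01 k11)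
    ⟨0, 1, 1, 0, 1, 1, 3, 4, 4, 0, 1, 1⟩ = true := by decide +kernel
theorem b0 : t_b0.ok 0 1 0 0 (BE 0 D01 (9409, 39999) (-912673, 7999999) (0, 0) p01 k01 k11) unitBx = true :=
  (Tree.ok_s2 (Tree.ok_s0 b0_0 b0_1) (Tree.ok_s2 b0_2 b0_3))

def t_s0 : Tree := (.s1 (.leaf 85 9 16 6 1) (.leaf 92 9 16 6 1))
theorem s0_0 : (Tree.leaf 85 9 16 6 1).ok 0 1 0 0 (SE D04 (0, 0) (9409, 39999) [p01, p02, p03, p04])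
    ⟨0, 1, 1, 0, 1, 2, 0, 1, 1, 0, 1, 1⟩ = true := by decide +kernel
theorem s0_1 : (Tree.leaf 92 9 16 6 1).ok 0 1 0 0 (SE D04 (0, 0) (9409, 39999) [p01, p02, p03, p04])
    ⟨0, 1, 1, 1, 2, 2, 0, 1, 1, 0, 1, 1⟩ = true := by decide +kernel
theorem s0 : t_s0.ok 0 1 0 0 (SE D04 (0, 0) (9409, 39999) [p01, p02, p03, p04]) unitBx = true :=
  (Tree.ok_s1 s0_0 s0_1)

def t_r0 : Tree := (.leaf 58 16 1 6 1)
theorem r0 : t_r0.ok 0 1 0 0 (RE D04 (0, 0)) unitBx = true := by decide +kernel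

def t_u02 : Tree := (.s1 (.s0 (.leaf 214 17 16 6 1) (.leaf 221 17 16 6 1)) (.s0 (.leaf 221 17 16 6 1) (.leaf 230 17 16 6 1)))
theorem u02_0 : (Tree.leaf 214 17 16 6 1).ok 0 1 0 0 (UE0 (97, 99) D02)
    ⟨0, 1, 2, 0, 1, 2, 0, 1, 1, 0, 1, 1⟩ = true := by decide +kernel
theorem u02_1 : (Tree.leaf 221 17 16 6 1).ok 0 1 0 0 (UE0 (97, 99) D02)
    ⟨1, 2, 2, 0, 1, 2, 0, 1, 1, 0, 1, 1⟩ = true := by decide +kernel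
theorem u02_2 : (Tree.leaf 221 17 16 6 1).ok 0 1 0 0 (UE0 (97, 99) D02)
    ⟨0, 1, 2, 1, 2, 2, 0, 1, 1, 0, 1, 1⟩ = true := by decide +kernel
theorem u02_3 : (Tree.leaf 230 17 16 6 1).ok 0 1 0 0 (UE0 (97, 99) D02)
    ⟨1, 2, 2, 1, 2, 2, 0, 1, 1, 0, 1, 1⟩ = true := by decide +kernel
theorem u02 : t_u02.ok 0 1 0 0 (UE0 (97, 99) D02) unitBx = true :=
  (Tree.ok_s1 (Tree.ok_s0 u02_0 u02_1) (Tree.ok_s0 u02_2 u02_3))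

def t_v02 : Tree := (.s1 (.leaf 214 17 16 6 1) (.s1 (.leaf 234 17 16 6 1) (.leaf 238 17 16 6 1)))
theorem v02_0 : (Tree.leaf 214 17 16 6 1).ok 0 1 0 0 (UE1 (97, 199) D02)
    ⟨0, 1, 1, 0, 1, 2, 0, 1, 1, 0, 1, 1⟩ = true := by decide +kernel
theorem v02_1 : (Tree.leaf 234 17 16 6 1).ok 0 1 0 0 (UE1 (97, 199) D02)
    ⟨0, 1, 1, 2, 3, 4, 0, 1, 1, 0, 1, 1⟩ = true := by decide +kernel
theorem v02_2 : (Tree.leaf 238 17 16 6 1).ok 0 1 0 0 (UE1 (97, 199) D02)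
    ⟨0, 1, 1, 3, 4, 4, 0, 1, 1, 0, 1, 1⟩ = true := by decide +kernel
theorem v02 : t_v02.ok 0 1 0 0 (UE1 (97, 199) D02) unitBx = true :=
  (Tree.ok_s1 v02_0 (Tree.ok_s1 v02_1 v02_2))

def t_h02 : Tree := (.s0 (.leaf 223 16 16 6 6) (.leaf 230 16 16 6 6))
theorem h02_0 : (Tree.leaf 223 16 16 6 6).ok 0 1 0 0 (HE 0 D01 D02 (9409, 39999) (-912673, 7999999) p02 k02 k12)
    ⟨0, 1, 2, 0, 1, 1, 0, 1, 1, 0, 1, 1⟩ = true := by decide +kernel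
theorem h02_1 : (Tree.leaf 230 16 16 6 6).ok 0 1 0 0 (HE 0 D01 D02 (9409, 39999) (-912673, 7999999) p02 k02 k12)
    ⟨1, 2, 2, 0, 1, 1, 0, 1, 1, 0, 1, 1⟩ = true := by decide +kernel
theorem h02 : t_h02.ok 0 1 0 0 (HE 0 D01 D02 (9409, 39999) (-912673, 7999999) p02 k02 k12) unitBx = true :=
  (Tree.ok_s0 h02_0 h02_1)

def t_u03 : Tree := (.s1 (.s0 (.leaf 213 17 16 6 1) (.leaf 220 17 16 6 1)) (.s0 (.leaf 220 17 16 6 1) (.leaf 229 17 16 6 1)))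
theorem u03_0 : (Tree.leaf 213 17 16 6 1).ok 0 1 0 0 (UE0 (97, 99) D03)
    ⟨0, 1, 2, 0, 1, 2, 0, 1, 1, 0, 1, 1⟩ = true := by decide +kernel
theorem u03_1 : (Tree.leaf 220 17 16 6 1).ok 0 1 0 0 (UE0 (97, 99) D03)
    ⟨1, 2, 2, 0, 1, 2, 0, 1, 1, 0, 1, 1⟩ = true := by decide +kernel
theorem u03_2 : (Tree.leaf 220 17 16 6 1).ok 0 1 0 0 (UE0 (97, 99) D03)
    ⟨0, 1, 2, 1, 2, 2, 0, 1, 1, 0, 1, 1⟩ = true := by decide +kernel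
theorem u03_3 : (Tree.leaf 229 17 16 6 1).ok 0 1 0 0 (UE0 (97, 99) D03)
    ⟨1, 2, 2, 1, 2, 2, 0, 1, 1, 0, 1, 1⟩ = true := by decide +kernel
theorem u03 : t_u03.ok 0 1 0 0 (UE0 (97, 99) D03) unitBx = true :=
  (Tree.ok_s1 (Tree.ok_s0 u03_0 u03_1) (Tree.ok_s0 u03_2 u03_3))

def t_v03 : Tree := (.s1 (.leaf 213 17 16 6 1) (.s1 (.leaf 233 17 16 6 1) (.leaf 238 17 16 6 1)))
theorem v03_0 : (Tree.leaf 213 17 16 6 1).ok 0 1 0 0 (UE1 (97, 199) D03)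
    ⟨0, 1, 1, 0, 1, 2, 0, 1, 1, 0, 1, 1⟩ = true := by decide +kernel
theorem v03_1 : (Tree.leaf 233 17 16 6 1).ok 0 1 0 0 (UE1 (97, 199) D03)
    ⟨0, 1, 1, 2, 3, 4, 0, 1, 1, 0, 1, 1⟩ = true := by decide +kernel
theorem v03_2 : (Tree.leaf 238 17 16 6 1).ok 0 1 0 0 (UE1 (97, 199) D03)
    ⟨0, 1, 1, 3, 4, 4, 0, 1, 1, 0, 1, 1⟩ = true := by decide +kernel
theorem v03 : t_v03.ok 0 1 0 0 (UE1 (97, 199) D03) unitBx = true :=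
  (Tree.ok_s1 v03_0 (Tree.ok_s1 v03_1 v03_2))

def t_h03 : Tree := (.s0 (.leaf 222 16 16 6 6) (.leaf 228 16 16 6 6))
theorem h03_0 : (Tree.leaf 222 16 16 6 6).ok 0 1 0 0 (HE 0 D02 D03 (9409, 39999) (-912673, 7999999) p03 k03 k13)
    ⟨0, 1, 2, 0, 1, 1, 0, 1, 1, 0, 1, 1⟩ = true := by decide +kernel
theorem h03_1 : (Tree.leaf 228 16 16 6 6).ok 0 1 0 0 (HE 0 D02 D03 (9409, 39999) (-912673, 7999999) p03 k03 k13)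
    ⟨1, 2, 2, 0, 1, 1, 0, 1, 1, 0, 1, 1⟩ = true := by decide +kernel
theorem h03 : t_h03.ok 0 1 0 0 (HE 0 D02 D03 (9409, 39999) (-912673, 7999999) p03 k03 k13) unitBx = true :=
  (Tree.ok_s0 h03_0 h03_1)

def t_u04 : Tree := (.s0 (.s1 (.leaf 214 17 16 6 1) (.leaf 222 17 16 6 1)) (.s0 (.leaf 225 17 16 6 1) (.leaf 228 17 16 6 1)))
theorem u04_0 : (Tree.leaf 214 17 16 6 1).ok 0 1 0 0 (UE0 (97, 99) D04)
    ⟨0, 1, 2, 0, 1, 2, 0, 1, 1, 0, 1, 1⟩ = true := by decide +kernel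
theorem u04_1 : (Tree.leaf 222 17 16 6 1).ok 0 1 0 0 (UE0 (97, 99) D04)
    ⟨0, 1, 2, 1, 2, 2, 0, 1, 1, 0, 1, 1⟩ = true := by decide +kernel
theorem u04_2 : (Tree.leaf 225 17 16 6 1).ok 0 1 0 0 (UE0 (97, 99) D04)
    ⟨2, 3, 4, 0, 1, 1, 0, 1, 1, 0, 1, 1⟩ = true := by decide +kernel
theorem u04_3 : (Tree.leaf 228 17 16 6 1).ok 0 1 0 0 (UE0 (97, 99) D04)
    ⟨3, 4, 4, 0, 1, 1, 0, 1, 1, 0, 1, 1⟩ = true := by decide +kernel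
theorem u04 : t_u04.ok 0 1 0 0 (UE0 (97, 99) D04) unitBx = true :=
  (Tree.ok_s0 (Tree.ok_s1 u04_0 u04_1) (Tree.ok_s0 u04_2 u04_3))

def t_v04 : Tree := (.s1 (.leaf 214 17 16 6 1) (.s1 (.leaf 235 17 16 6 1) (.leaf 239 17 16 6 1)))
theorem v04_0 : (Tree.leaf 214 17 16 6 1).ok 0 1 0 0 (UE1 (97, 199) D04)
    ⟨0, 1, 1, 0, 1, 2, 0, 1, 1, 0, 1, 1⟩ = true := by decide +kernel
theorem v04_1 : (Tree.leaf 235 17 16 6 1).ok 0 1 0 0 (UE1 (97, 199) D04)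
    ⟨0, 1, 1, 2, 3, 4, 0, 1, 1, 0, 1, 1⟩ = true := by decide +kernel
theorem v04_2 : (Tree.leaf 239 17 16 6 1).ok 0 1 0 0 (UE1 (97, 199) D04)
    ⟨0, 1, 1, 3, 4, 4, 0, 1, 1, 0, 1, 1⟩ = true := by decide +kernel
theorem v04 : t_v04.ok 0 1 0 0 (UE1 (97, 199) D04) unitBx = true :=
  (Tree.ok_s1 v04_0 (Tree.ok_s1 v04_1 v04_2))

def t_h04 : Tree := (.s0 (.leaf 222 16 16 6 6) (.leaf 229 16 16 6 6))
theorem h04_0 : (Tree.leaf 222 16 16 6 6).ok 0 1 0 0 (HE 0 D03 D04 (9409, 39999) (-912673, 7999999) p04 k04 k14)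
    ⟨0, 1, 2, 0, 1, 1, 0, 1, 1, 0, 1, 1⟩ = true := by decide +kernel
theorem h04_1 : (Tree.leaf 229 16 16 6 6).ok 0 1 0 0 (HE 0 D03 D04 (9409, 39999) (-912673, 7999999) p04 k04 k14)
    ⟨1, 2, 2, 0, 1, 1, 0, 1, 1, 0, 1, 1⟩ = true := by decide +kernel
theorem h04 : t_h04.ok 0 1 0 0 (HE 0 D03 D04 (9409, 39999) (-912673, 7999999) p04 k04 k14) unitBx = true :=
  (Tree.ok_s0 h04_0 h04_1)

end Vale.Agent.P154.A4
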