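import Vale.Agent.P154.Data.A4D

/-! Certificates of a chain of potentials, node 1. -/

namespace Vale.Agent.P154.A4

def t_b1 : Tree := (.s2 (.leaf 144 13 1 5 1) (.leaf 144 13 1 5 1))
theorem b1_0 : (Tree.leaf 144 13 1 5 1).ok 0 1 0 0 (BE 1 D11 (9409, 39999) (-912673, 7999999) (0, 0) p11 k01 k11)
    ⟨0, 1, 1, 0, 1, 1, 0, 1, 2, 0, 1, 1⟩ = true := by decide +kernel
theorem b1_1 : (Tree.leaf 144 13 1 5 1).ok 0 1 0 0 (BE 1 D11 (9409, 39999) (-912673, 7999999) (0, 0) p11 k01 k11)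
    ⟨0, 1, 1, 0, 1, 1, 1, 2, 2, 0, 1, 1⟩ = true := by decide +kernel
theorem b1 : t_b1.ok 0 1 0 0 (BE 1 D11 (9409, 39999) (-912673, 7999999) (0, 0) p11 k01 k11) unitBx = true :=
  (Tree.ok_s2 b1_0 b1_1)

def t_s1 : Tree := (.s2 (.leaf 69 9 13 5 1) (.leaf 69 9 13 5 1))
theorem s1_0 : (Tree.leaf 69 9 13 5 1).ok 0 1 0 0 (SE D14 (0, 0) (9409, 39999) [p11, p12, p13, p14])
    ⟨0, 1, 1, 0, 1, 1, 0, 1, 2, 0, 1, 1⟩ = true := by decide +kernel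
theorem s1_1 : (Tree.leaf 69 9 13 5 1).ok 0 1 0 0 (SE D14 (0, 0) (9409, 39999) [p11, p12, p13, p14])
    ⟨0, 1, 1, 0, 1, 1, 1, 2, 2, 0, 1, 1⟩ = true := by decide +kernel
theorem s1 : t_s1.ok 0 1 0 0 (SE D14 (0, 0) (9409, 39999) [p11, p12, p13, p14]) unitBx = true :=
  (Tree.ok_s2 s1_0 s1_1)

def t_r1 : Tree := (.leaf 47 13 1 5 1)
theorem r1 : t_r1.ok 0 1 0 0 (RE D14 (0, 0)) unitBx = true := by decide +kernel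

def t_u12 : Tree := (.s0 (.s1 (.leaf 175 14 13 5 1) (.leaf 179 14 13 5 1)) (.leaf 171 14 13 5 1))
theorem u12_0 : (Tree.leaf 175 14 13 5 1).ok 0 1 0 0 (UE0 (97, 99) D12)
    ⟨0, 1, 2, 0, 1, 2, 0, 1, 1, 0, 1, 1⟩ = true := by decide +kernel
theorem u12_1 : (Tree.leaf 179 14 13 5 1).ok 0 1 0 0 (UE0 (97, 99) D12)
    ⟨0, 1, 2, 1, 2, 2, 0, 1, 1, 0, 1, 1⟩ = true := by decide +kernel
theorem u12_2 : (Tree.leaf 171 14 13 5 1).ok 0 1 0 0 (UE0 (97, 99) D12)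
    ⟨1, 2, 2, 0, 1, 1, 0, 1, 1, 0, 1, 1⟩ = true := by decide +kernel
theorem u12 : t_u12.ok 0 1 0 0 (UE0 (97, 99) D12) unitBx = true :=
  (Tree.ok_s0 (Tree.ok_s1 u12_0 u12_1) u12_2)

def t_v12 : Tree := (.s1 (.leaf 175 14 13 5 1) (.s1 (.leaf 190 14 13 5 1) (.leaf 192 14 13 5 1)))
theorem v12_0 : (Tree.leaf 175 14 13 5 1).ok 0 1 0 0 (UE1 (97, 199) D12)
    ⟨0, 1, 1, 0, 1, 2, 0, 1, 1, 0, 1, 1⟩ = true := by decide +kernel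
theorem v12_1 : (Tree.leaf 190 14 13 5 1).ok 0 1 0 0 (UE1 (97, 199) D12)
    ⟨0, 1, 1, 2, 3, 4, 0, 1, 1, 0, 1, 1⟩ = true := by decide +kernel
theorem v12_2 : (Tree.leaf 192 14 13 5 1).ok 0 1 0 0 (UE1 (97, 199) D12)
    ⟨0, 1, 1, 3, 4, 4, 0, 1, 1, 0, 1, 1⟩ = true := by decide +kernel
theorem v12 : t_v12.ok 0 1 0 0 (UE1 (97, 199) D12) unitBx = true :=
  (Tree.ok_s1 v12_0 (Tree.ok_s1 v12_1 v12_2))

def t_h12 : Tree := (.s0 (.leaf 196 14 14 6 6) (.leaf 201 14 14 6 6))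
theorem h12_0 : (Tree.leaf 196 14 14 6 6).ok 0 1 0 0 (HE 1 D11 D12 (9409, 39999) (-912673, 7999999) p12 k02 k12)
    ⟨0, 1, 2, 0, 1, 1, 0, 1, 1, 0, 1, 1⟩ = true := by decide +kernel
theorem h12_1 : (Tree.leaf 201 14 14 6 6).ok 0 1 0 0 (HE 1 D11 D12 (9409, 39999) (-912673, 7999999) p12 k02 k12)
    ⟨1, 2, 2, 0, 1, 1, 0, 1, 1, 0, 1, 1⟩ = true := by decide +kernel
theorem h12 : t_h12.ok 0 1 0 0 (HE 1 D11 D12 (9409, 39999) (-912673, 7999999) p12 k02 k12) unitBx = true :=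
  (Tree.ok_s0 h12_0 h12_1)

def t_u13 : Tree := (.s0 (.s1 (.leaf 176 14 13 5 1) (.leaf 180 14 13 5 1)) (.leaf 173 14 13 5 1))
theorem u13_0 : (Tree.leaf 176 14 13 5 1).ok 0 1 0 0 (UE0 (97, 99) D13)
    ⟨0, 1, 2, 0, 1, 2, 0, 1, 1, 0, 1, 1⟩ = true := by decide +kernel
theorem u13_1 : (Tree.leaf 180 14 13 5 1).ok 0 1 0 0 (UE0 (97, 99) D13)
    ⟨0, 1, 2, 1, 2, 2, 0, 1, 1, 0, 1, 1⟩ = true := by decide +kernel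
theorem u13_2 : (Tree.leaf 173 14 13 5 1).ok 0 1 0 0 (UE0 (97, 99) D13)
    ⟨1, 2, 2, 0, 1, 1, 0, 1, 1, 0, 1, 1⟩ = true := by decide +kernel
theorem u13 : t_u13.ok 0 1 0 0 (UE0 (97, 99) D13) unitBx = true :=
  (Tree.ok_s0 (Tree.ok_s1 u13_0 u13_1) u13_2)

def t_v13 : Tree := (.s1 (.leaf 176 14 13 5 1) (.s1 (.leaf 191 14 13 5 1) (.leaf 194 14 13 5 1)))
theorem v13_0 : (Tree.leaf 176 14 13 5 1).ok 0 1 0 0 (UE1 (97, 199) D13)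
    ⟨0, 1, 1, 0, 1, 2, 0, 1, 1, 0, 1, 1⟩ = true := by decide +kernel
theorem v13_1 : (Tree.leaf 191 14 13 5 1).ok 0 1 0 0 (UE1 (97, 199) D13)
    ⟨0, 1, 1, 2, 3, 4, 0, 1, 1, 0, 1, 1⟩ = true := by decide +kernel
theorem v13_2 : (Tree.leaf 194 14 13 5 1).ok 0 1 0 0 (UE1 (97, 199) D13)
    ⟨0, 1, 1, 3, 4, 4, 0, 1, 1, 0, 1, 1⟩ = true := by decide +kernel
theorem v13 : t_v13.ok 0 1 0 0 (UE1 (97, 199) D13) unitBx = true :=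
  (Tree.ok_s1 v13_0 (Tree.ok_s1 v13_1 v13_2))

def t_h13 : Tree := (.s0 (.leaf 196 14 14 6 6) (.leaf 201 14 14 6 6))
theorem h13_0 : (Tree.leaf 196 14 14 6 6).ok 0 1 0 0 (HE 1 D12 D13 (9409, 39999) (-912673, 7999999) p13 k03 k13)
    ⟨0, 1, 2, 0, 1, 1, 0, 1, 1, 0, 1, 1⟩ = true := by decide +kernel
theorem h13_1 : (Tree.leaf 201 14 14 6 6).ok 0 1 0 0 (HE 1 D12 D13 (9409, 39999) (-912673, 7999999) p13 k03 k13)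
    ⟨1, 2, 2, 0, 1, 1, 0, 1, 1, 0, 1, 1⟩ = true := by decide +kernel
theorem h13 : t_h13.ok 0 1 0 0 (HE 1 D12 D13 (9409, 39999) (-912673, 7999999) p13 k03 k13) unitBx = true :=
  (Tree.ok_s0 h13_0 h13_1)

def t_u14 : Tree := (.s0 (.s1 (.leaf 175 14 13 5 1) (.leaf 180 14 13 5 1)) (.leaf 172 14 13 5 1))
theorem u14_0 : (Tree.leaf 175 14 13 5 1).ok 0 1 0 0 (UE0 (97, 99) D14)
    ⟨0, 1, 2, 0, 1, 2, 0, 1, 1, 0, 1, 1⟩ = true := by decide +kernel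
theorem u14_1 : (Tree.leaf 180 14 13 5 1).ok 0 1 0 0 (UE0 (97, 99) D14)
    ⟨0, 1, 2, 1, 2, 2, 0, 1, 1, 0, 1, 1⟩ = true := by decide +kernel
theorem u14_2 : (Tree.leaf 172 14 13 5 1).ok 0 1 0 0 (UE0 (97, 99) D14)
    ⟨1, 2, 2, 0, 1, 1, 0, 1, 1, 0, 1, 1⟩ = true := by decide +kernel
theorem u14 : t_u14.ok 0 1 0 0 (UE0 (97, 99) D14) unitBx = true :=
  (Tree.ok_s0 (Tree.ok_s1 u14_0 u14_1) u14_2)

def t_v14 : Tree := (.s1 (.leaf 175 14 13 5 1) (.s1 (.leaf 190 14 13 5 1) (.leaf 193 14 13 5 1)))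
theorem v14_0 : (Tree.leaf 175 14 13 5 1).ok 0 1 0 0 (UE1 (97, 199) D14)
    ⟨0, 1, 1, 0, 1, 2, 0, 1, 1, 0, 1, 1⟩ = true := by decide +kernel
theorem v14_1 : (Tree.leaf 190 14 13 5 1).ok 0 1 0 0 (UE1 (97, 199) D14)
    ⟨0, 1, 1, 2, 3, 4, 0, 1, 1, 0, 1, 1⟩ = true := by decide +kernel
theorem v14_2 : (Tree.leaf 193 14 13 5 1).ok 0 1 0 0 (UE1 (97, 199) D14)
    ⟨0, 1, 1, 3, 4, 4, 0, 1, 1, 0, 1, 1⟩ = true := by decide +kernel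
theorem v14 : t_v14.ok 0 1 0 0 (UE1 (97, 199) D14) unitBx = true :=
  (Tree.ok_s1 v14_0 (Tree.ok_s1 v14_1 v14_2))

def t_h14 : Tree := (.s0 (.leaf 196 14 14 6 6) (.leaf 201 14 14 6 6))
theorem h14_0 : (Tree.leaf 196 14 14 6 6).ok 0 1 0 0 (HE 1 D13 D14 (9409, 39999) (-912673, 7999999) p14 k04 k14)
    ⟨0, 1, 2, 0, 1, 1, 0, 1, 1, 0, 1, 1⟩ = true := by decide +kernel
theorem h14_1 : (Tree.leaf 201 14 14 6 6).ok 0 1 0 0 (HE 1 D13 D14 (9409, 39999) (-912673, 7999999) p14 k04 k14)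
    ⟨1, 2, 2, 0, 1, 1, 0, 1, 1, 0, 1, 1⟩ = true := by decide +kernel
theorem h14 : t_h14.ok 0 1 0 0 (HE 1 D13 D14 (9409, 39999) (-912673, 7999999) p14 k04 k14) unitBx = true :=
  (Tree.ok_s0 h14_0 h14_1)

end Vale.Agent.P154.A4
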