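import Vale.Agent.P154.Data.A4D

/-! Certificates of a chain of potentials, node 2. -/

namespace Vale.Agent.P154.A4

def t_b2 : Tree := (.leaf 112 10 1 5 1)
theorem b2 : t_b2.ok 0 1 0 0 (BE 2 D21 (9409, 39999) (-912673, 7999999) (-21529, 4095) p21 k01 k11) unitBx = true := by decide +kernel

def t_s2 : Tree := (.s1 (.leaf 69 9 10 5 1) (.leaf 73 9 10 5 1))
theorem s2_0 : (Tree.leaf 69 9 10 5 1).ok 0 1 0 0 (SE D24 (-21525, 4095) (9409, 39999) [p21, p22, p23, p24])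
    ⟨0, 1, 1, 0, 1, 2, 0, 1, 1, 0, 1, 1⟩ = true := by decide +kernel
theorem s2_1 : (Tree.leaf 73 9 10 5 1).ok 0 1 0 0 (SE D24 (-21525, 4095) (9409, 39999) [p21, p22, p23, p24])
    ⟨0, 1, 1, 1, 2, 2, 0, 1, 1, 0, 1, 1⟩ = true := by decide +kernel
theorem s2 : t_s2.ok 0 1 0 0 (SE D24 (-21525, 4095) (9409, 39999) [p21, p22, p23, p24]) unitBx = true :=
  (Tree.ok_s1 s2_0 s2_1)

def t_r2 : Tree := (.leaf 41 10 1 4 1)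
theorem r2 : t_r2.ok 0 1 0 0 (RE D24 (-21525, 4095)) unitBx = true := by decide +kernel

def t_u22 : Tree := (.s1 (.s0 (.leaf 167 14 10 4 1) (.leaf 173 14 10 4 1)) (.s1 (.leaf 169 14 10 4 1) (.leaf 171 14 10 4 1)))
theorem u22_0 : (Tree.leaf 167 14 10 4 1).ok 0 1 0 0 (UE0 (97, 99) D22)
    ⟨0, 1, 2, 0, 1, 2, 0, 1, 1, 0, 1, 1⟩ = true := by decide +kernel
theorem u22_1 : (Tree.leaf 173 14 10 4 1).ok 0 1 0 0 (UE0 (97, 99) D22)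
    ⟨1, 2, 2, 0, 1, 2, 0, 1, 1, 0, 1, 1⟩ = true := by decide +kernel
theorem u22_2 : (Tree.leaf 169 14 10 4 1).ok 0 1 0 0 (UE0 (97, 99) D22)
    ⟨0, 1, 1, 2, 3, 4, 0, 1, 1, 0, 1, 1⟩ = true := by decide +kernel
theorem u22_3 : (Tree.leaf 171 14 10 4 1).ok 0 1 0 0 (UE0 (97, 99) D22)
    ⟨0, 1, 1, 3, 4, 4, 0, 1, 1, 0, 1, 1⟩ = true := by decide +kernel
theorem u22 : t_u22.ok 0 1 0 0 (UE0 (97, 99) D22) unitBx = true :=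
  (Tree.ok_s1 (Tree.ok_s0 u22_0 u22_1) (Tree.ok_s1 u22_2 u22_3))

def t_v22 : Tree := (.s1 (.leaf 167 14 10 4 1) (.s2 (.leaf 173 14 10 4 1) (.leaf 174 14 10 4 1)))
theorem v22_0 : (Tree.leaf 167 14 10 4 1).ok 0 1 0 0 (UE1 (97, 199) D22)
    ⟨0, 1, 1, 0, 1, 2, 0, 1, 1, 0, 1, 1⟩ = true := by decide +kernel
theorem v22_1 : (Tree.leaf 173 14 10 4 1).ok 0 1 0 0 (UE1 (97, 199) D22)
    ⟨0, 1, 1, 1, 2, 2, 0, 1, 2, 0, 1, 1⟩ = true := by decide +kernel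
theorem v22_2 : (Tree.leaf 174 14 10 4 1).ok 0 1 0 0 (UE1 (97, 199) D22)
    ⟨0, 1, 1, 1, 2, 2, 1, 2, 2, 0, 1, 1⟩ = true := by decide +kernel
theorem v22 : t_v22.ok 0 1 0 0 (UE1 (97, 199) D22) unitBx = true :=
  (Tree.ok_s1 v22_0 (Tree.ok_s2 v22_1 v22_2))

def t_h22 : Tree := (.s0 (.leaf 197 14 14 6 6) (.leaf 202 14 14 6 6))
theorem h22_0 : (Tree.leaf 197 14 14 6 6).ok 0 1 0 0 (HE 2 D21 D22 (9409, 39999) (-912673, 7999999) p22 k02 k12)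
    ⟨0, 1, 2, 0, 1, 1, 0, 1, 1, 0, 1, 1⟩ = true := by decide +kernel
theorem h22_1 : (Tree.leaf 202 14 14 6 6).ok 0 1 0 0 (HE 2 D21 D22 (9409, 39999) (-912673, 7999999) p22 k02 k12)
    ⟨1, 2, 2, 0, 1, 1, 0, 1, 1, 0, 1, 1⟩ = true := by decide +kernel
theorem h22 : t_h22.ok 0 1 0 0 (HE 2 D21 D22 (9409, 39999) (-912673, 7999999) p22 k02 k12) unitBx = true :=
  (Tree.ok_s0 h22_0 h22_1)

def t_u23 : Tree := (.s1 (.s0 (.leaf 167 14 10 4 1) (.leaf 172 14 10 4 1)) (.s0 (.leaf 170 14 10 4 1) (.leaf 177 14 10 4 1)))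
theorem u23_0 : (Tree.leaf 167 14 10 4 1).ok 0 1 0 0 (UE0 (97, 99) D23)
    ⟨0, 1, 2, 0, 1, 2, 0, 1, 1, 0, 1, 1⟩ = true := by decide +kernel
theorem u23_1 : (Tree.leaf 172 14 10 4 1).ok 0 1 0 0 (UE0 (97, 99) D23)
    ⟨1, 2, 2, 0, 1, 2, 0, 1, 1, 0, 1, 1⟩ = true := by decide +kernel
theorem u23_2 : (Tree.leaf 170 14 10 4 1).ok 0 1 0 0 (UE0 (97, 99) D23)
    ⟨0, 1, 2, 1, 2, 2, 0, 1, 1, 0, 1, 1⟩ = true := by decide +kernel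
theorem u23_3 : (Tree.leaf 177 14 10 4 1).ok 0 1 0 0 (UE0 (97, 99) D23)
    ⟨1, 2, 2, 1, 2, 2, 0, 1, 1, 0, 1, 1⟩ = true := by decide +kernel
theorem u23 : t_u23.ok 0 1 0 0 (UE0 (97, 99) D23) unitBx = true :=
  (Tree.ok_s1 (Tree.ok_s0 u23_0 u23_1) (Tree.ok_s0 u23_2 u23_3))

def t_v23 : Tree := (.s1 (.leaf 167 14 10 4 1) (.s1 (.leaf 178 14 10 4 1) (.leaf 180 14 10 4 1)))
theorem v23_0 : (Tree.leaf 167 14 10 4 1).ok 0 1 0 0 (UE1 (97, 199) D23)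
    ⟨0, 1, 1, 0, 1, 2, 0, 1, 1, 0, 1, 1⟩ = true := by decide +kernel
theorem v23_1 : (Tree.leaf 178 14 10 4 1).ok 0 1 0 0 (UE1 (97, 199) D23)
    ⟨0, 1, 1, 2, 3, 4, 0, 1, 1, 0, 1, 1⟩ = true := by decide +kernel
theorem v23_2 : (Tree.leaf 180 14 10 4 1).ok 0 1 0 0 (UE1 (97, 199) D23)
    ⟨0, 1, 1, 3, 4, 4, 0, 1, 1, 0, 1, 1⟩ = true := by decide +kernel
theorem v23 : t_v23.ok 0 1 0 0 (UE1 (97, 199) D23) unitBx = true :=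
  (Tree.ok_s1 v23_0 (Tree.ok_s1 v23_1 v23_2))

def t_h23 : Tree := (.s2 (.leaf 190 14 14 6 6) (.leaf 191 14 14 6 6))
theorem h23_0 : (Tree.leaf 190 14 14 6 6).ok 0 1 0 0 (HE 2 D22 D23 (9409, 39999) (-912673, 7999999) p23 k03 k13)
    ⟨0, 1, 1, 0, 1, 1, 0, 1, 2, 0, 1, 1⟩ = true := by decide +kernel
theorem h23_1 : (Tree.leaf 191 14 14 6 6).ok 0 1 0 0 (HE 2 D22 D23 (9409, 39999) (-912673, 7999999) p23 k03 k13)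
    ⟨0, 1, 1, 0, 1, 1, 1, 2, 2, 0, 1, 1⟩ = true := by decide +kernel
theorem h23 : t_h23.ok 0 1 0 0 (HE 2 D22 D23 (9409, 39999) (-912673, 7999999) p23 k03 k13) unitBx = true :=
  (Tree.ok_s2 h23_0 h23_1)

def t_u24 : Tree := (.s1 (.s0 (.leaf 166 14 10 4 1) (.leaf 173 14 10 4 1)) (.s0 (.leaf 170 14 10 4 1) (.leaf 178 14 10 4 1)))
theorem u24_0 : (Tree.leaf 166 14 10 4 1).ok 0 1 0 0 (UE0 (97, 99) D24)
    ⟨0, 1, 2, 0, 1, 2, 0, 1, 1, 0, 1, 1⟩ = true := by decide +kernel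
theorem u24_1 : (Tree.leaf 173 14 10 4 1).ok 0 1 0 0 (UE0 (97, 99) D24)
    ⟨1, 2, 2, 0, 1, 2, 0, 1, 1, 0, 1, 1⟩ = true := by decide +kernel
theorem u24_2 : (Tree.leaf 170 14 10 4 1).ok 0 1 0 0 (UE0 (97, 99) D24)
    ⟨0, 1, 2, 1, 2, 2, 0, 1, 1, 0, 1, 1⟩ = true := by decide +kernel
theorem u24_3 : (Tree.leaf 178 14 10 4 1).ok 0 1 0 0 (UE0 (97, 99) D24)
    ⟨1, 2, 2, 1, 2, 2, 0, 1, 1, 0, 1, 1⟩ = true := by decide +kernel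
theorem u24 : t_u24.ok 0 1 0 0 (UE0 (97, 99) D24) unitBx = true :=
  (Tree.ok_s1 (Tree.ok_s0 u24_0 u24_1) (Tree.ok_s0 u24_2 u24_3))

def t_v24 : Tree := (.s1 (.leaf 166 14 10 4 1) (.s1 (.leaf 178 14 10 4 1) (.leaf 180 14 10 4 1)))
theorem v24_0 : (Tree.leaf 166 14 10 4 1).ok 0 1 0 0 (UE1 (97, 199) D24)
    ⟨0, 1, 1, 0, 1, 2, 0, 1, 1, 0, 1, 1⟩ = true := by decide +kernel
theorem v24_1 : (Tree.leaf 178 14 10 4 1).ok 0 1 0 0 (UE1 (97, 199) D24)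
    ⟨0, 1, 1, 2, 3, 4, 0, 1, 1, 0, 1, 1⟩ = true := by decide +kernel
theorem v24_2 : (Tree.leaf 180 14 10 4 1).ok 0 1 0 0 (UE1 (97, 199) D24)
    ⟨0, 1, 1, 3, 4, 4, 0, 1, 1, 0, 1, 1⟩ = true := by decide +kernel
theorem v24 : t_v24.ok 0 1 0 0 (UE1 (97, 199) D24) unitBx = true :=
  (Tree.ok_s1 v24_0 (Tree.ok_s1 v24_1 v24_2))

def t_h24 : Tree := (.s2 (.leaf 190 14 14 6 6) (.leaf 191 14 14 6 6))
theorem h24_0 : (Tree.leaf 190 14 14 6 6).ok 0 1 0 0 (HE 2 D23 D24 (9409, 39999) (-912673, 7999999) p24 k04 k14)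
    ⟨0, 1, 1, 0, 1, 1, 0, 1, 2, 0, 1, 1⟩ = true := by decide +kernel
theorem h24_1 : (Tree.leaf 191 14 14 6 6).ok 0 1 0 0 (HE 2 D23 D24 (9409, 39999) (-912673, 7999999) p24 k04 k14)
    ⟨0, 1, 1, 0, 1, 1, 1, 2, 2, 0, 1, 1⟩ = true := by decide +kernel
theorem h24 : t_h24.ok 0 1 0 0 (HE 2 D23 D24 (9409, 39999) (-912673, 7999999) p24 k04 k14) unitBx = true :=
  (Tree.ok_s2 h24_0 h24_1)

end Vale.Agent.P154.A4
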