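import Vale.Agent.P154.Data.A5D

/-! Certificates of a chain of potentials, node 1. -/

namespace Vale.Agent.P154.A5

def t_b1 : Tree := (.s2 (.leaf 115 13 1 5 1) (.s2 (.leaf 119 13 1 5 1) (.leaf 119 13 1 5 1)))
theorem b1_0 : (Tree.leaf 115 13 1 5 1).ok 0 1 0 0 (BE 1 D11 (289, 1443) (-4913, 54871) (0, 0) p11 k01 k11)
    ⟨0, 1, 1, 0, 1, 1, 0, 1, 2, 0, 1, 1⟩ = true := by decide +kernel
theorem b1_1 : (Tree.leaf 119 13 1 5 1).ok 0 1 0 0 (BE 1 D11 (289, 1443) (-4913, 54871) (0, 0) p11 k01 k11)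
    ⟨0, 1, 1, 0, 1, 1, 2, 3, 4, 0, 1, 1⟩ = true := by decide +kernel
theorem b1_2 : (Tree.leaf 119 13 1 5 1).ok 0 1 0 0 (BE 1 D11 (289, 1443) (-4913, 54871) (0, 0) p11 k01 k11)
    ⟨0, 1, 1, 0, 1, 1, 3, 4, 4, 0, 1, 1⟩ = true := by decide +kernel
theorem b1 : t_b1.ok 0 1 0 0 (BE 1 D11 (289, 1443) (-4913, 54871) (0, 0) p11 k01 k11) unitBx = true :=
  (Tree.ok_s2 b1_0 (Tree.ok_s2 b1_1 b1_2))

def t_s1 : Tree := (.s1 (.leaf 67 9 13 5 1) (.leaf 71 9 13 5 1))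
theorem s1_0 : (Tree.leaf 67 9 13 5 1).ok 0 1 0 0 (SE D15 (0, 0) (1, 4) [p11, p12, p13, p14, p15])
    ⟨0, 1, 1, 0, 1, 2, 0, 1, 1, 0, 1, 1⟩ = true := by decide +kernel
theorem s1_1 : (Tree.leaf 71 9 13 5 1).ok 0 1 0 0 (SE D15 (0, 0) (1, 4) [p11, p12, p13, p14, p15])
    ⟨0, 1, 1, 1, 2, 2, 0, 1, 1, 0, 1, 1⟩ = true := by decide +kernel
theorem s1 : t_s1.ok 0 1 0 0 (SE D15 (0, 0) (1, 4) [p11, p12, p13, p14, p15]) unitBx = true :=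
  (Tree.ok_s1 s1_0 s1_1)

def t_r1 : Tree := (.leaf 48 13 1 5 1)
theorem r1 : t_r1.ok 0 1 0 0 (RE D15 (0, 0)) unitBx = true := by decide +kernel

def t_u12 : Tree := (.s0 (.s1 (.leaf 145 14 13 5 1) (.leaf 149 14 13 5 1)) (.leaf 141 14 13 5 1))
theorem u12_0 : (Tree.leaf 145 14 13 5 1).ok 0 1 0 0 (UE0 (17, 18) D12)
    ⟨0, 1, 2, 0, 1, 2, 0, 1, 1, 0, 1, 1⟩ = true := by decide +kernel
theorem u12_1 : (Tree.leaf 149 14 13 5 1).ok 0 1 0 0 (UE0 (17, 18) D12)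
    ⟨0, 1, 2, 1, 2, 2, 0, 1, 1, 0, 1, 1⟩ = true := by decide +kernel
theorem u12_2 : (Tree.leaf 141 14 13 5 1).ok 0 1 0 0 (UE0 (17, 18) D12)
    ⟨1, 2, 2, 0, 1, 1, 0, 1, 1, 0, 1, 1⟩ = true := by decide +kernel
theorem u12 : t_u12.ok 0 1 0 0 (UE0 (17, 18) D12) unitBx = true :=
  (Tree.ok_s0 (Tree.ok_s1 u12_0 u12_1) u12_2)

def t_v12 : Tree := (.s1 (.s0 (.leaf 157 14 13 5 1) (.leaf 159 14 13 5 1)) (.s0 (.leaf 160 14 13 5 1) (.leaf 164 14 13 5 1)))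
theorem v12_0 : (Tree.leaf 157 14 13 5 1).ok 0 1 0 0 (UE1 (17, 37) D12)
    ⟨0, 1, 2, 0, 1, 2, 0, 1, 1, 0, 1, 1⟩ = true := by decide +kernel
theorem v12_1 : (Tree.leaf 159 14 13 5 1).ok 0 1 0 0 (UE1 (17, 37) D12)
    ⟨1, 2, 2, 0, 1, 2, 0, 1, 1, 0, 1, 1⟩ = true := by decide +kernel
theorem v12_2 : (Tree.leaf 160 14 13 5 1).ok 0 1 0 0 (UE1 (17, 37) D12)
    ⟨0, 1, 2, 1, 2, 2, 0, 1, 1, 0, 1, 1⟩ = true := by decide +kernel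
theorem v12_3 : (Tree.leaf 164 14 13 5 1).ok 0 1 0 0 (UE1 (17, 37) D12)
    ⟨1, 2, 2, 1, 2, 2, 0, 1, 1, 0, 1, 1⟩ = true := by decide +kernel
theorem v12 : t_v12.ok 0 1 0 0 (UE1 (17, 37) D12) unitBx = true :=
  (Tree.ok_s1 (Tree.ok_s0 v12_0 v12_1) (Tree.ok_s0 v12_2 v12_3))

def t_h12 : Tree := (.s2 (.leaf 159 14 14 6 6) (.leaf 159 14 14 6 6))
theorem h12_0 : (Tree.leaf 159 14 14 6 6).ok 0 1 0 0 (HE 1 D11 D12 (289, 1443) (-4913, 54871) p12 k02 k12)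
    ⟨0, 1, 1, 0, 1, 1, 0, 1, 2, 0, 1, 1⟩ = true := by decide +kernel
theorem h12_1 : (Tree.leaf 159 14 14 6 6).ok 0 1 0 0 (HE 1 D11 D12 (289, 1443) (-4913, 54871) p12 k02 k12)
    ⟨0, 1, 1, 0, 1, 1, 1, 2, 2, 0, 1, 1⟩ = true := by decide +kernel
theorem h12 : t_h12.ok 0 1 0 0 (HE 1 D11 D12 (289, 1443) (-4913, 54871) p12 k02 k12) unitBx = true :=
  (Tree.ok_s2 h12_0 h12_1)

def t_u13 : Tree := (.s1 (.s0 (.leaf 145 14 13 5 1) (.leaf 151 14 13 5 1)) (.s0 (.leaf 150 14 13 5 1) (.leaf 156 14 13 5 1)))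
theorem u13_0 : (Tree.leaf 145 14 13 5 1).ok 0 1 0 0 (UE0 (17, 18) D13)
    ⟨0, 1, 2, 0, 1, 2, 0, 1, 1, 0, 1, 1⟩ = true := by decide +kernel
theorem u13_1 : (Tree.leaf 151 14 13 5 1).ok 0 1 0 0 (UE0 (17, 18) D13)
    ⟨1, 2, 2, 0, 1, 2, 0, 1, 1, 0, 1, 1⟩ = true := by decide +kernel
theorem u13_2 : (Tree.leaf 150 14 13 5 1).ok 0 1 0 0 (UE0 (17, 18) D13)
    ⟨0, 1, 2, 1, 2, 2, 0, 1, 1, 0, 1, 1⟩ = true := by decide +kernel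
theorem u13_3 : (Tree.leaf 156 14 13 5 1).ok 0 1 0 0 (UE0 (17, 18) D13)
    ⟨1, 2, 2, 1, 2, 2, 0, 1, 1, 0, 1, 1⟩ = true := by decide +kernel
theorem u13 : t_u13.ok 0 1 0 0 (UE0 (17, 18) D13) unitBx = true :=
  (Tree.ok_s1 (Tree.ok_s0 u13_0 u13_1) (Tree.ok_s0 u13_2 u13_3))

def t_v13 : Tree := (.s1 (.leaf 145 14 13 5 1) (.s1 (.leaf 160 14 13 5 1) (.leaf 163 14 13 5 1)))
theorem v13_0 : (Tree.leaf 145 14 13 5 1).ok 0 1 0 0 (UE1 (17, 37) D13)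
    ⟨0, 1, 1, 0, 1, 2, 0, 1, 1, 0, 1, 1⟩ = true := by decide +kernel
theorem v13_1 : (Tree.leaf 160 14 13 5 1).ok 0 1 0 0 (UE1 (17, 37) D13)
    ⟨0, 1, 1, 2, 3, 4, 0, 1, 1, 0, 1, 1⟩ = true := by decide +kernel
theorem v13_2 : (Tree.leaf 163 14 13 5 1).ok 0 1 0 0 (UE1 (17, 37) D13)
    ⟨0, 1, 1, 3, 4, 4, 0, 1, 1, 0, 1, 1⟩ = true := by decide +kernel
theorem v13 : t_v13.ok 0 1 0 0 (UE1 (17, 37) D13) unitBx = true :=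
  (Tree.ok_s1 v13_0 (Tree.ok_s1 v13_1 v13_2))

def t_h13 : Tree := (.s2 (.leaf 159 14 14 6 6) (.leaf 159 14 14 6 6))
theorem h13_0 : (Tree.leaf 159 14 14 6 6).ok 0 1 0 0 (HE 1 D12 D13 (289, 1443) (-4913, 54871) p13 k03 k13)
    ⟨0, 1, 1, 0, 1, 1, 0, 1, 2, 0, 1, 1⟩ = true := by decide +kernel
theorem h13_1 : (Tree.leaf 159 14 14 6 6).ok 0 1 0 0 (HE 1 D12 D13 (289, 1443) (-4913, 54871) p13 k03 k13)
    ⟨0, 1, 1, 0, 1, 1, 1, 2, 2, 0, 1, 1⟩ = true := by decide +kernel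
theorem h13 : t_h13.ok 0 1 0 0 (HE 1 D12 D13 (289, 1443) (-4913, 54871) p13 k03 k13) unitBx = true :=
  (Tree.ok_s2 h13_0 h13_1)

def t_u14 : Tree := (.s1 (.s0 (.leaf 145 14 13 5 1) (.leaf 151 14 13 5 1)) (.s0 (.leaf 150 14 13 5 1) (.leaf 157 14 13 5 1)))
theorem u14_0 : (Tree.leaf 145 14 13 5 1).ok 0 1 0 0 (UE0 (17, 18) D14)
    ⟨0, 1, 2, 0, 1, 2, 0, 1, 1, 0, 1, 1⟩ = true := by decide +kernel
theorem u14_1 : (Tree.leaf 151 14 13 5 1).ok 0 1 0 0 (UE0 (17, 18) D14)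
    ⟨1, 2, 2, 0, 1, 2, 0, 1, 1, 0, 1, 1⟩ = true := by decide +kernel
theorem u14_2 : (Tree.leaf 150 14 13 5 1).ok 0 1 0 0 (UE0 (17, 18) D14)
    ⟨0, 1, 2, 1, 2, 2, 0, 1, 1, 0, 1, 1⟩ = true := by decide +kernel
theorem u14_3 : (Tree.leaf 157 14 13 5 1).ok 0 1 0 0 (UE0 (17, 18) D14)
    ⟨1, 2, 2, 1, 2, 2, 0, 1, 1, 0, 1, 1⟩ = true := by decide +kernel
theorem u14 : t_u14.ok 0 1 0 0 (UE0 (17, 18) D14) unitBx = true :=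
  (Tree.ok_s1 (Tree.ok_s0 u14_0 u14_1) (Tree.ok_s0 u14_2 u14_3))

def t_v14 : Tree := (.s1 (.leaf 145 14 13 5 1) (.s1 (.leaf 160 14 13 5 1) (.leaf 163 14 13 5 1)))
theorem v14_0 : (Tree.leaf 145 14 13 5 1).ok 0 1 0 0 (UE1 (17, 37) D14)
    ⟨0, 1, 1, 0, 1, 2, 0, 1, 1, 0, 1, 1⟩ = true := by decide +kernel
theorem v14_1 : (Tree.leaf 160 14 13 5 1).ok 0 1 0 0 (UE1 (17, 37) D14)
    ⟨0, 1, 1, 2, 3, 4, 0, 1, 1, 0, 1, 1⟩ = true := by decide +kernel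
theorem v14_2 : (Tree.leaf 163 14 13 5 1).ok 0 1 0 0 (UE1 (17, 37) D14)
    ⟨0, 1, 1, 3, 4, 4, 0, 1, 1, 0, 1, 1⟩ = true := by decide +kernel
theorem v14 : t_v14.ok 0 1 0 0 (UE1 (17, 37) D14) unitBx = true :=
  (Tree.ok_s1 v14_0 (Tree.ok_s1 v14_1 v14_2))

def t_h14 : Tree := (.s0 (.leaf 165 14 14 6 6) (.leaf 170 14 14 6 6))
theorem h14_0 : (Tree.leaf 165 14 14 6 6).ok 0 1 0 0 (HE 1 D13 D14 (289, 1443) (-4913, 54871) p14 k04 k14)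
    ⟨0, 1, 2, 0, 1, 1, 0, 1, 1, 0, 1, 1⟩ = true := by decide +kernel
theorem h14_1 : (Tree.leaf 170 14 14 6 6).ok 0 1 0 0 (HE 1 D13 D14 (289, 1443) (-4913, 54871) p14 k04 k14)
    ⟨1, 2, 2, 0, 1, 1, 0, 1, 1, 0, 1, 1⟩ = true := by decide +kernel
theorem h14 : t_h14.ok 0 1 0 0 (HE 1 D13 D14 (289, 1443) (-4913, 54871) p14 k04 k14) unitBx = true :=
  (Tree.ok_s0 h14_0 h14_1)

def t_u15 : Tree := (.s0 (.s1 (.leaf 145 14 13 5 1) (.leaf 149 14 13 5 1)) (.leaf 141 14 13 5 1))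
theorem u15_0 : (Tree.leaf 145 14 13 5 1).ok 0 1 0 0 (UE0 (17, 18) D15)
    ⟨0, 1, 2, 0, 1, 2, 0, 1, 1, 0, 1, 1⟩ = true := by decide +kernel
theorem u15_1 : (Tree.leaf 149 14 13 5 1).ok 0 1 0 0 (UE0 (17, 18) D15)
    ⟨0, 1, 2, 1, 2, 2, 0, 1, 1, 0, 1, 1⟩ = true := by decide +kernel
theorem u15_2 : (Tree.leaf 141 14 13 5 1).ok 0 1 0 0 (UE0 (17, 18) D15)
    ⟨1, 2, 2, 0, 1, 1, 0, 1, 1, 0, 1, 1⟩ = true := by decide +kernel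
theorem u15 : t_u15.ok 0 1 0 0 (UE0 (17, 18) D15) unitBx = true :=
  (Tree.ok_s0 (Tree.ok_s1 u15_0 u15_1) u15_2)

def t_v15 : Tree := (.s1 (.leaf 145 14 13 5 1) (.s1 (.leaf 160 14 13 5 1) (.leaf 162 14 13 5 1)))
theorem v15_0 : (Tree.leaf 145 14 13 5 1).ok 0 1 0 0 (UE1 (17, 37) D15)
    ⟨0, 1, 1, 0, 1, 2, 0, 1, 1, 0, 1, 1⟩ = true := by decide +kernel
theorem v15_1 : (Tree.leaf 160 14 13 5 1).ok 0 1 0 0 (UE1 (17, 37) D15)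
    ⟨0, 1, 1, 2, 3, 4, 0, 1, 1, 0, 1, 1⟩ = true := by decide +kernel
theorem v15_2 : (Tree.leaf 162 14 13 5 1).ok 0 1 0 0 (UE1 (17, 37) D15)
    ⟨0, 1, 1, 3, 4, 4, 0, 1, 1, 0, 1, 1⟩ = true := by decide +kernel
theorem v15 : t_v15.ok 0 1 0 0 (UE1 (17, 37) D15) unitBx = true :=
  (Tree.ok_s1 v15_0 (Tree.ok_s1 v15_1 v15_2))

def t_h15 : Tree := (.s3 (.leaf 159 14 14 6 6) (.leaf 159 14 14 6 6))
theorem h15_0 : (Tree.leaf 159 14 14 6 6).ok 0 1 0 0 (HE 1 D14 D15 (289, 1443) (-4913, 54871) p15 k05 k15)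
    ⟨0, 1, 1, 0, 1, 1, 0, 1, 1, 0, 1, 2⟩ = true := by decide +kernel
theorem h15_1 : (Tree.leaf 159 14 14 6 6).ok 0 1 0 0 (HE 1 D14 D15 (289, 1443) (-4913, 54871) p15 k05 k15)
    ⟨0, 1, 1, 0, 1, 1, 0, 1, 1, 1, 2, 2⟩ = true := by decide +kernel
theorem h15 : t_h15.ok 0 1 0 0 (HE 1 D14 D15 (289, 1443) (-4913, 54871) p15 k05 k15) unitBx = true :=
  (Tree.ok_s3 h15_0 h15_1)

end Vale.Agent.P154.A5
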