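import Vale.Agent.P154.Data.A5D

/-! Certificates of a chain of potentials, node 2. -/

namespace Vale.Agent.P154.A5

def t_b2 : Tree := (.leaf 89 10 1 5 1)
theorem b2 : t_b2.ok 0 1 0 0 (BE 2 D21 (289, 1443) (-4913, 54871) (-28919, 4095) p21 k01 k11) unitBx = true := by decide +kernel

def t_s2 : Tree := (.s1 (.leaf 59 9 10 5 1) (.leaf 62 9 10 5 1))
theorem s2_0 : (Tree.leaf 59 9 10 5 1).ok 0 1 0 0 (SE D25 (-28915, 4095) (1, 4) [p21, p22, p23, p24, p25])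
    ⟨0, 1, 1, 0, 1, 2, 0, 1, 1, 0, 1, 1⟩ = true := by decide +kernel
theorem s2_1 : (Tree.leaf 62 9 10 5 1).ok 0 1 0 0 (SE D25 (-28915, 4095) (1, 4) [p21, p22, p23, p24, p25])
    ⟨0, 1, 1, 1, 2, 2, 0, 1, 1, 0, 1, 1⟩ = true := by decide +kernel
theorem s2 : t_s2.ok 0 1 0 0 (SE D25 (-28915, 4095) (1, 4) [p21, p22, p23, p24, p25]) unitBx = true :=
  (Tree.ok_s1 s2_0 s2_1)

def t_r2 : Tree := (.leaf 42 10 1 4 1)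
theorem r2 : t_r2.ok 0 1 0 0 (RE D25 (-28915, 4095)) unitBx = true := by decide +kernel

def t_u22 : Tree := (.s1 (.s0 (.leaf 136 14 10 4 1) (.leaf 141 14 10 4 1)) (.s0 (.leaf 140 14 10 4 1) (.leaf 146 14 10 4 1)))
theorem u22_0 : (Tree.leaf 136 14 10 4 1).ok 0 1 0 0 (UE0 (17, 18) D22)
    ⟨0, 1, 2, 0, 1, 2, 0, 1, 1, 0, 1, 1⟩ = true := by decide +kernel
theorem u22_1 : (Tree.leaf 141 14 10 4 1).ok 0 1 0 0 (UE0 (17, 18) D22)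
    ⟨1, 2, 2, 0, 1, 2, 0, 1, 1, 0, 1, 1⟩ = true := by decide +kernel
theorem u22_2 : (Tree.leaf 140 14 10 4 1).ok 0 1 0 0 (UE0 (17, 18) D22)
    ⟨0, 1, 2, 1, 2, 2, 0, 1, 1, 0, 1, 1⟩ = true := by decide +kernel
theorem u22_3 : (Tree.leaf 146 14 10 4 1).ok 0 1 0 0 (UE0 (17, 18) D22)
    ⟨1, 2, 2, 1, 2, 2, 0, 1, 1, 0, 1, 1⟩ = true := by decide +kernel
theorem u22 : t_u22.ok 0 1 0 0 (UE0 (17, 18) D22) unitBx = true :=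
  (Tree.ok_s1 (Tree.ok_s0 u22_0 u22_1) (Tree.ok_s0 u22_2 u22_3))

def t_v22 : Tree := (.s1 (.s0 (.leaf 147 14 10 4 1) (.leaf 150 14 10 4 1)) (.s1 (.leaf 147 14 10 4 1) (.leaf 150 14 10 4 1)))
theorem v22_0 : (Tree.leaf 147 14 10 4 1).ok 0 1 0 0 (UE1 (17, 37) D22)
    ⟨0, 1, 2, 0, 1, 2, 0, 1, 1, 0, 1, 1⟩ = true := by decide +kernel
theorem v22_1 : (Tree.leaf 150 14 10 4 1).ok 0 1 0 0 (UE1 (17, 37) D22)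
    ⟨1, 2, 2, 0, 1, 2, 0, 1, 1, 0, 1, 1⟩ = true := by decide +kernel
theorem v22_2 : (Tree.leaf 147 14 10 4 1).ok 0 1 0 0 (UE1 (17, 37) D22)
    ⟨0, 1, 1, 2, 3, 4, 0, 1, 1, 0, 1, 1⟩ = true := by decide +kernel
theorem v22_3 : (Tree.leaf 150 14 10 4 1).ok 0 1 0 0 (UE1 (17, 37) D22)
    ⟨0, 1, 1, 3, 4, 4, 0, 1, 1, 0, 1, 1⟩ = true := by decide +kernel
theorem v22 : t_v22.ok 0 1 0 0 (UE1 (17, 37) D22) unitBx = true :=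
  (Tree.ok_s1 (Tree.ok_s0 v22_0 v22_1) (Tree.ok_s1 v22_2 v22_3))

def t_h22 : Tree := (.s2 (.leaf 159 14 14 6 6) (.leaf 160 14 14 6 6))
theorem h22_0 : (Tree.leaf 159 14 14 6 6).ok 0 1 0 0 (HE 2 D21 D22 (289, 1443) (-4913, 54871) p22 k02 k12)
    ⟨0, 1, 1, 0, 1, 1, 0, 1, 2, 0, 1, 1⟩ = true := by decide +kernel
theorem h22_1 : (Tree.leaf 160 14 14 6 6).ok 0 1 0 0 (HE 2 D21 D22 (289, 1443) (-4913, 54871) p22 k02 k12)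
    ⟨0, 1, 1, 0, 1, 1, 1, 2, 2, 0, 1, 1⟩ = true := by decide +kernel
theorem h22 : t_h22.ok 0 1 0 0 (HE 2 D21 D22 (289, 1443) (-4913, 54871) p22 k02 k12) unitBx = true :=
  (Tree.ok_s2 h22_0 h22_1)

def t_u23 : Tree := (.s1 (.s0 (.leaf 136 14 10 4 1) (.leaf 141 14 10 4 1)) (.s0 (.leaf 139 14 10 4 1) (.leaf 146 14 10 4 1)))
theorem u23_0 : (Tree.leaf 136 14 10 4 1).ok 0 1 0 0 (UE0 (17, 18) D23)
    ⟨0, 1, 2, 0, 1, 2, 0, 1, 1, 0, 1, 1⟩ = true := by decide +kernel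
theorem u23_1 : (Tree.leaf 141 14 10 4 1).ok 0 1 0 0 (UE0 (17, 18) D23)
    ⟨1, 2, 2, 0, 1, 2, 0, 1, 1, 0, 1, 1⟩ = true := by decide +kernel
theorem u23_2 : (Tree.leaf 139 14 10 4 1).ok 0 1 0 0 (UE0 (17, 18) D23)
    ⟨0, 1, 2, 1, 2, 2, 0, 1, 1, 0, 1, 1⟩ = true := by decide +kernel
theorem u23_3 : (Tree.leaf 146 14 10 4 1).ok 0 1 0 0 (UE0 (17, 18) D23)
    ⟨1, 2, 2, 1, 2, 2, 0, 1, 1, 0, 1, 1⟩ = true := by decide +kernel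
theorem u23 : t_u23.ok 0 1 0 0 (UE0 (17, 18) D23) unitBx = true :=
  (Tree.ok_s1 (Tree.ok_s0 u23_0 u23_1) (Tree.ok_s0 u23_2 u23_3))

def t_v23 : Tree := (.s1 (.leaf 136 14 10 4 1) (.s1 (.leaf 147 14 10 4 1) (.leaf 149 14 10 4 1)))
theorem v23_0 : (Tree.leaf 136 14 10 4 1).ok 0 1 0 0 (UE1 (17, 37) D23)
    ⟨0, 1, 1, 0, 1, 2, 0, 1, 1, 0, 1, 1⟩ = true := by decide +kernel
theorem v23_1 : (Tree.leaf 147 14 10 4 1).ok 0 1 0 0 (UE1 (17, 37) D23)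
    ⟨0, 1, 1, 2, 3, 4, 0, 1, 1, 0, 1, 1⟩ = true := by decide +kernel
theorem v23_2 : (Tree.leaf 149 14 10 4 1).ok 0 1 0 0 (UE1 (17, 37) D23)
    ⟨0, 1, 1, 3, 4, 4, 0, 1, 1, 0, 1, 1⟩ = true := by decide +kernel
theorem v23 : t_v23.ok 0 1 0 0 (UE1 (17, 37) D23) unitBx = true :=
  (Tree.ok_s1 v23_0 (Tree.ok_s1 v23_1 v23_2))

def t_h23 : Tree := (.s0 (.leaf 166 14 14 6 6) (.leaf 170 14 14 6 6))
theorem h23_0 : (Tree.leaf 166 14 14 6 6).ok 0 1 0 0 (HE 2 D22 D23 (289, 1443) (-4913, 54871) p23 k03 k13)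
    ⟨0, 1, 2, 0, 1, 1, 0, 1, 1, 0, 1, 1⟩ = true := by decide +kernel
theorem h23_1 : (Tree.leaf 170 14 14 6 6).ok 0 1 0 0 (HE 2 D22 D23 (289, 1443) (-4913, 54871) p23 k03 k13)
    ⟨1, 2, 2, 0, 1, 1, 0, 1, 1, 0, 1, 1⟩ = true := by decide +kernel
theorem h23 : t_h23.ok 0 1 0 0 (HE 2 D22 D23 (289, 1443) (-4913, 54871) p23 k03 k13) unitBx = true :=
  (Tree.ok_s0 h23_0 h23_1)

def t_u24 : Tree := (.s1 (.s0 (.leaf 136 14 10 4 1) (.leaf 141 14 10 4 1)) (.s0 (.leaf 139 14 10 4 1) (.leaf 146 14 10 4 1)))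
theorem u24_0 : (Tree.leaf 136 14 10 4 1).ok 0 1 0 0 (UE0 (17, 18) D24)
    ⟨0, 1, 2, 0, 1, 2, 0, 1, 1, 0, 1, 1⟩ = true := by decide +kernel
theorem u24_1 : (Tree.leaf 141 14 10 4 1).ok 0 1 0 0 (UE0 (17, 18) D24)
    ⟨1, 2, 2, 0, 1, 2, 0, 1, 1, 0, 1, 1⟩ = true := by decide +kernel
theorem u24_2 : (Tree.leaf 139 14 10 4 1).ok 0 1 0 0 (UE0 (17, 18) D24)
    ⟨0, 1, 2, 1, 2, 2, 0, 1, 1, 0, 1, 1⟩ = true := by decide +kernel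
theorem u24_3 : (Tree.leaf 146 14 10 4 1).ok 0 1 0 0 (UE0 (17, 18) D24)
    ⟨1, 2, 2, 1, 2, 2, 0, 1, 1, 0, 1, 1⟩ = true := by decide +kernel
theorem u24 : t_u24.ok 0 1 0 0 (UE0 (17, 18) D24) unitBx = true :=
  (Tree.ok_s1 (Tree.ok_s0 u24_0 u24_1) (Tree.ok_s0 u24_2 u24_3))

def t_v24 : Tree := (.s1 (.leaf 136 14 10 4 1) (.s1 (.leaf 147 14 10 4 1) (.leaf 149 14 10 4 1)))
theorem v24_0 : (Tree.leaf 136 14 10 4 1).ok 0 1 0 0 (UE1 (17, 37) D24)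
    ⟨0, 1, 1, 0, 1, 2, 0, 1, 1, 0, 1, 1⟩ = true := by decide +kernel
theorem v24_1 : (Tree.leaf 147 14 10 4 1).ok 0 1 0 0 (UE1 (17, 37) D24)
    ⟨0, 1, 1, 2, 3, 4, 0, 1, 1, 0, 1, 1⟩ = true := by decide +kernel
theorem v24_2 : (Tree.leaf 149 14 10 4 1).ok 0 1 0 0 (UE1 (17, 37) D24)
    ⟨0, 1, 1, 3, 4, 4, 0, 1, 1, 0, 1, 1⟩ = true := by decide +kernel
theorem v24 : t_v24.ok 0 1 0 0 (UE1 (17, 37) D24) unitBx = true :=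
  (Tree.ok_s1 v24_0 (Tree.ok_s1 v24_1 v24_2))

def t_h24 : Tree := (.s0 (.leaf 166 14 14 6 6) (.leaf 170 14 14 6 6))
theorem h24_0 : (Tree.leaf 166 14 14 6 6).ok 0 1 0 0 (HE 2 D23 D24 (289, 1443) (-4913, 54871) p24 k04 k14)
    ⟨0, 1, 2, 0, 1, 1, 0, 1, 1, 0, 1, 1⟩ = true := by decide +kernel
theorem h24_1 : (Tree.leaf 170 14 14 6 6).ok 0 1 0 0 (HE 2 D23 D24 (289, 1443) (-4913, 54871) p24 k04 k14)
    ⟨1, 2, 2, 0, 1, 1, 0, 1, 1, 0, 1, 1⟩ = true := by decide +kernel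
theorem h24 : t_h24.ok 0 1 0 0 (HE 2 D23 D24 (289, 1443) (-4913, 54871) p24 k04 k14) unitBx = true :=
  (Tree.ok_s0 h24_0 h24_1)

def t_u25 : Tree := (.s1 (.s0 (.leaf 136 14 10 4 1) (.leaf 141 14 10 4 1)) (.s1 (.leaf 137 14 10 4 1) (.leaf 140 14 10 4 1)))
theorem u25_0 : (Tree.leaf 136 14 10 4 1).ok 0 1 0 0 (UE0 (17, 18) D25)
    ⟨0, 1, 2, 0, 1, 2, 0, 1, 1, 0, 1, 1⟩ = true := by decide +kernel
theorem u25_1 : (Tree.leaf 141 14 10 4 1).ok 0 1 0 0 (UE0 (17, 18) D25)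
    ⟨1, 2, 2, 0, 1, 2, 0, 1, 1, 0, 1, 1⟩ = true := by decide +kernel
theorem u25_2 : (Tree.leaf 137 14 10 4 1).ok 0 1 0 0 (UE0 (17, 18) D25)
    ⟨0, 1, 1, 2, 3, 4, 0, 1, 1, 0, 1, 1⟩ = true := by decide +kernel
theorem u25_3 : (Tree.leaf 140 14 10 4 1).ok 0 1 0 0 (UE0 (17, 18) D25)
    ⟨0, 1, 1, 3, 4, 4, 0, 1, 1, 0, 1, 1⟩ = true := by decide +kernel
theorem u25 : t_u25.ok 0 1 0 0 (UE0 (17, 18) D25) unitBx = true :=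
  (Tree.ok_s1 (Tree.ok_s0 u25_0 u25_1) (Tree.ok_s1 u25_2 u25_3))

def t_v25 : Tree := (.s1 (.leaf 136 14 10 4 1) (.s1 (.leaf 147 14 10 4 1) (.leaf 149 14 10 4 1)))
theorem v25_0 : (Tree.leaf 136 14 10 4 1).ok 0 1 0 0 (UE1 (17, 37) D25)
    ⟨0, 1, 1, 0, 1, 2, 0, 1, 1, 0, 1, 1⟩ = true := by decide +kernel
theorem v25_1 : (Tree.leaf 147 14 10 4 1).ok 0 1 0 0 (UE1 (17, 37) D25)
    ⟨0, 1, 1, 2, 3, 4, 0, 1, 1, 0, 1, 1⟩ = true := by decide +kernel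
theorem v25_2 : (Tree.leaf 149 14 10 4 1).ok 0 1 0 0 (UE1 (17, 37) D25)
    ⟨0, 1, 1, 3, 4, 4, 0, 1, 1, 0, 1, 1⟩ = true := by decide +kernel
theorem v25 : t_v25.ok 0 1 0 0 (UE1 (17, 37) D25) unitBx = true :=
  (Tree.ok_s1 v25_0 (Tree.ok_s1 v25_1 v25_2))

def t_h25 : Tree := (.s2 (.leaf 159 14 14 6 6) (.leaf 160 14 14 6 6))
theorem h25_0 : (Tree.leaf 159 14 14 6 6).ok 0 1 0 0 (HE 2 D24 D25 (289, 1443) (-4913, 54871) p25 k05 k15)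
    ⟨0, 1, 1, 0, 1, 1, 0, 1, 2, 0, 1, 1⟩ = true := by decide +kernel
theorem h25_1 : (Tree.leaf 160 14 14 6 6).ok 0 1 0 0 (HE 2 D24 D25 (289, 1443) (-4913, 54871) p25 k05 k15)
    ⟨0, 1, 1, 0, 1, 1, 1, 2, 2, 0, 1, 1⟩ = true := by decide +kernel
theorem h25 : t_h25.ok 0 1 0 0 (HE 2 D24 D25 (289, 1443) (-4913, 54871) p25 k05 k15) unitBx = true :=
  (Tree.ok_s2 h25_0 h25_1)

end Vale.Agent.P154.A5
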