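import Vale.Agent.P154.Data.A6D

/-! Certificates of a chain of potentials, node 0. -/

namespace Vale.Agent.P154.A6

def t_b0 : Tree := (.leaf 122 16 1 6 1)
theorem b0 : t_b0.ok 0 1 0 0 (BE 0 D01 (81, 483) (-729, 10647) (0, 0) p01 k01 k11) unitBx = true := by decide +kernel

def t_s0 : Tree := (.s2 (.leaf 66 9 16 6 1) (.leaf 67 9 16 6 1))
theorem s0_0 : (Tree.leaf 66 9 16 6 1).ok 0 1 0 0 (SE D06 (0, 0) (1, 5) [p01, p02, p03, p04, p05, p06])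
    ⟨0, 1, 1, 0, 1, 1, 0, 1, 2, 0, 1, 1⟩ = true := by decide +kernel
theorem s0_1 : (Tree.leaf 67 9 16 6 1).ok 0 1 0 0 (SE D06 (0, 0) (1, 5) [p01, p02, p03, p04, p05, p06])
    ⟨0, 1, 1, 0, 1, 1, 1, 2, 2, 0, 1, 1⟩ = true := by decide +kernel
theorem s0 : t_s0.ok 0 1 0 0 (SE D06 (0, 0) (1, 5) [p01, p02, p03, p04, p05, p06]) unitBx = true :=
  (Tree.ok_s2 s0_0 s0_1)

def t_r0 : Tree := (.leaf 54 16 1 6 1)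
theorem r0 : t_r0.ok 0 1 0 0 (RE D06 (0, 0)) unitBx = true := by decide +kernel

def t_u02 : Tree := (.s1 (.s0 (.leaf 160 17 16 6 1) (.leaf 165 17 16 6 1)) (.s0 (.leaf 166 17 16 6 1) (.leaf 173 17 16 6 1)))
theorem u02_0 : (Tree.leaf 160 17 16 6 1).ok 0 1 0 0 (UE0 (9, 10) D02)
    ⟨0, 1, 2, 0, 1, 2, 0, 1, 1, 0, 1, 1⟩ = true := by decide +kernel
theorem u02_1 : (Tree.leaf 165 17 16 6 1).ok 0 1 0 0 (UE0 (9, 10) D02)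
    ⟨1, 2, 2, 0, 1, 2, 0, 1, 1, 0, 1, 1⟩ = true := by decide +kernel
theorem u02_2 : (Tree.leaf 166 17 16 6 1).ok 0 1 0 0 (UE0 (9, 10) D02)
    ⟨0, 1, 2, 1, 2, 2, 0, 1, 1, 0, 1, 1⟩ = true := by decide +kernel
theorem u02_3 : (Tree.leaf 173 17 16 6 1).ok 0 1 0 0 (UE0 (9, 10) D02)
    ⟨1, 2, 2, 1, 2, 2, 0, 1, 1, 0, 1, 1⟩ = true := by decide +kernel
theorem u02 : t_u02.ok 0 1 0 0 (UE0 (9, 10) D02) unitBx = true :=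
  (Tree.ok_s1 (Tree.ok_s0 u02_0 u02_1) (Tree.ok_s0 u02_2 u02_3))

def t_v02 : Tree := (.s1 (.leaf 160 17 16 6 1) (.s2 (.leaf 170 17 16 6 1) (.leaf 172 17 16 6 1)))
theorem v02_0 : (Tree.leaf 160 17 16 6 1).ok 0 1 0 0 (UE1 (9, 21) D02)
    ⟨0, 1, 1, 0, 1, 2, 0, 1, 1, 0, 1, 1⟩ = true := by decide +kernel
theorem v02_1 : (Tree.leaf 170 17 16 6 1).ok 0 1 0 0 (UE1 (9, 21) D02)
    ⟨0, 1, 1, 1, 2, 2, 0, 1, 2, 0, 1, 1⟩ = true := by decide +kernel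
theorem v02_2 : (Tree.leaf 172 17 16 6 1).ok 0 1 0 0 (UE1 (9, 21) D02)
    ⟨0, 1, 1, 1, 2, 2, 1, 2, 2, 0, 1, 1⟩ = true := by decide +kernel
theorem v02 : t_v02.ok 0 1 0 0 (UE1 (9, 21) D02) unitBx = true :=
  (Tree.ok_s1 v02_0 (Tree.ok_s2 v02_1 v02_2))

def t_h02 : Tree := (.s0 (.leaf 174 16 16 6 6) (.leaf 179 16 16 6 6))
theorem h02_0 : (Tree.leaf 174 16 16 6 6).ok 0 1 0 0 (HE 0 D01 D02 (81, 483) (-729, 10647) p02 k02 k12)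
    ⟨0, 1, 2, 0, 1, 1, 0, 1, 1, 0, 1, 1⟩ = true := by decide +kernel
theorem h02_1 : (Tree.leaf 179 16 16 6 6).ok 0 1 0 0 (HE 0 D01 D02 (81, 483) (-729, 10647) p02 k02 k12)
    ⟨1, 2, 2, 0, 1, 1, 0, 1, 1, 0, 1, 1⟩ = true := by decide +kernel
theorem h02 : t_h02.ok 0 1 0 0 (HE 0 D01 D02 (81, 483) (-729, 10647) p02 k02 k12) unitBx = true :=
  (Tree.ok_s0 h02_0 h02_1)

def t_u03 : Tree := (.s0 (.s1 (.leaf 160 17 16 6 1) (.leaf 167 17 16 6 1)) (.leaf 155 17 16 6 1))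
theorem u03_0 : (Tree.leaf 160 17 16 6 1).ok 0 1 0 0 (UE0 (9, 10) D03)
    ⟨0, 1, 2, 0, 1, 2, 0, 1, 1, 0, 1, 1⟩ = true := by decide +kernel
theorem u03_1 : (Tree.leaf 167 17 16 6 1).ok 0 1 0 0 (UE0 (9, 10) D03)
    ⟨0, 1, 2, 1, 2, 2, 0, 1, 1, 0, 1, 1⟩ = true := by decide +kernel
theorem u03_2 : (Tree.leaf 155 17 16 6 1).ok 0 1 0 0 (UE0 (9, 10) D03)
    ⟨1, 2, 2, 0, 1, 1, 0, 1, 1, 0, 1, 1⟩ = true := by decide +kernel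
theorem u03 : t_u03.ok 0 1 0 0 (UE0 (9, 10) D03) unitBx = true :=
  (Tree.ok_s0 (Tree.ok_s1 u03_0 u03_1) u03_2)

def t_v03 : Tree := (.s1 (.leaf 160 17 16 6 1) (.s1 (.leaf 180 17 16 6 1) (.leaf 184 17 16 6 1)))
theorem v03_0 : (Tree.leaf 160 17 16 6 1).ok 0 1 0 0 (UE1 (9, 21) D03)
    ⟨0, 1, 1, 0, 1, 2, 0, 1, 1, 0, 1, 1⟩ = true := by decide +kernel
theorem v03_1 : (Tree.leaf 180 17 16 6 1).ok 0 1 0 0 (UE1 (9, 21) D03)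
    ⟨0, 1, 1, 2, 3, 4, 0, 1, 1, 0, 1, 1⟩ = true := by decide +kernel
theorem v03_2 : (Tree.leaf 184 17 16 6 1).ok 0 1 0 0 (UE1 (9, 21) D03)
    ⟨0, 1, 1, 3, 4, 4, 0, 1, 1, 0, 1, 1⟩ = true := by decide +kernel
theorem v03 : t_v03.ok 0 1 0 0 (UE1 (9, 21) D03) unitBx = true :=
  (Tree.ok_s1 v03_0 (Tree.ok_s1 v03_1 v03_2))

def t_h03 : Tree := (.s0 (.leaf 172 16 16 6 6) (.leaf 178 16 16 6 6))
theorem h03_0 : (Tree.leaf 172 16 16 6 6).ok 0 1 0 0 (HE 0 D02 D03 (81, 483) (-729, 10647) p03 k03 k13)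
    ⟨0, 1, 2, 0, 1, 1, 0, 1, 1, 0, 1, 1⟩ = true := by decide +kernel
theorem h03_1 : (Tree.leaf 178 16 16 6 6).ok 0 1 0 0 (HE 0 D02 D03 (81, 483) (-729, 10647) p03 k03 k13)
    ⟨1, 2, 2, 0, 1, 1, 0, 1, 1, 0, 1, 1⟩ = true := by decide +kernel
theorem h03 : t_h03.ok 0 1 0 0 (HE 0 D02 D03 (81, 483) (-729, 10647) p03 k03 k13) unitBx = true :=
  (Tree.ok_s0 h03_0 h03_1)

def t_u04 : Tree := (.s0 (.s1 (.leaf 160 17 16 6 1) (.leaf 167 17 16 6 1)) (.leaf 155 17 16 6 1))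
theorem u04_0 : (Tree.leaf 160 17 16 6 1).ok 0 1 0 0 (UE0 (9, 10) D04)
    ⟨0, 1, 2, 0, 1, 2, 0, 1, 1, 0, 1, 1⟩ = true := by decide +kernel
theorem u04_1 : (Tree.leaf 167 17 16 6 1).ok 0 1 0 0 (UE0 (9, 10) D04)
    ⟨0, 1, 2, 1, 2, 2, 0, 1, 1, 0, 1, 1⟩ = true := by decide +kernel
theorem u04_2 : (Tree.leaf 155 17 16 6 1).ok 0 1 0 0 (UE0 (9, 10) D04)
    ⟨1, 2, 2, 0, 1, 1, 0, 1, 1, 0, 1, 1⟩ = true := by decide +kernel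
theorem u04 : t_u04.ok 0 1 0 0 (UE0 (9, 10) D04) unitBx = true :=
  (Tree.ok_s0 (Tree.ok_s1 u04_0 u04_1) u04_2)

def t_v04 : Tree := (.s1 (.leaf 160 17 16 6 1) (.s1 (.leaf 180 17 16 6 1) (.leaf 184 17 16 6 1)))
theorem v04_0 : (Tree.leaf 160 17 16 6 1).ok 0 1 0 0 (UE1 (9, 21) D04)
    ⟨0, 1, 1, 0, 1, 2, 0, 1, 1, 0, 1, 1⟩ = true := by decide +kernel
theorem v04_1 : (Tree.leaf 180 17 16 6 1).ok 0 1 0 0 (UE1 (9, 21) D04)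
    ⟨0, 1, 1, 2, 3, 4, 0, 1, 1, 0, 1, 1⟩ = true := by decide +kernel
theorem v04_2 : (Tree.leaf 184 17 16 6 1).ok 0 1 0 0 (UE1 (9, 21) D04)
    ⟨0, 1, 1, 3, 4, 4, 0, 1, 1, 0, 1, 1⟩ = true := by decide +kernel
theorem v04 : t_v04.ok 0 1 0 0 (UE1 (9, 21) D04) unitBx = true :=
  (Tree.ok_s1 v04_0 (Tree.ok_s1 v04_1 v04_2))

def t_h04 : Tree := (.s0 (.leaf 173 16 16 6 6) (.leaf 178 16 16 6 6))
theorem h04_0 : (Tree.leaf 173 16 16 6 6).ok 0 1 0 0 (HE 0 D03 D04 (81, 483) (-729, 10647) p04 k04 k14)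
    ⟨0, 1, 2, 0, 1, 1, 0, 1, 1, 0, 1, 1⟩ = true := by decide +kernel
theorem h04_1 : (Tree.leaf 178 16 16 6 6).ok 0 1 0 0 (HE 0 D03 D04 (81, 483) (-729, 10647) p04 k04 k14)
    ⟨1, 2, 2, 0, 1, 1, 0, 1, 1, 0, 1, 1⟩ = true := by decide +kernel
theorem h04 : t_h04.ok 0 1 0 0 (HE 0 D03 D04 (81, 483) (-729, 10647) p04 k04 k14) unitBx = true :=
  (Tree.ok_s0 h04_0 h04_1)

def t_u05 : Tree := (.s0 (.s1 (.leaf 160 17 16 6 1) (.leaf 167 17 16 6 1)) (.leaf 155 17 16 6 1))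
theorem u05_0 : (Tree.leaf 160 17 16 6 1).ok 0 1 0 0 (UE0 (9, 10) D05)
    ⟨0, 1, 2, 0, 1, 2, 0, 1, 1, 0, 1, 1⟩ = true := by decide +kernel
theorem u05_1 : (Tree.leaf 167 17 16 6 1).ok 0 1 0 0 (UE0 (9, 10) D05)
    ⟨0, 1, 2, 1, 2, 2, 0, 1, 1, 0, 1, 1⟩ = true := by decide +kernel
theorem u05_2 : (Tree.leaf 155 17 16 6 1).ok 0 1 0 0 (UE0 (9, 10) D05)
    ⟨1, 2, 2, 0, 1, 1, 0, 1, 1, 0, 1, 1⟩ = true := by decide +kernel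
theorem u05 : t_u05.ok 0 1 0 0 (UE0 (9, 10) D05) unitBx = true :=
  (Tree.ok_s0 (Tree.ok_s1 u05_0 u05_1) u05_2)

def t_v05 : Tree := (.s1 (.leaf 160 17 16 6 1) (.s1 (.leaf 180 17 16 6 1) (.leaf 184 17 16 6 1)))
theorem v05_0 : (Tree.leaf 160 17 16 6 1).ok 0 1 0 0 (UE1 (9, 21) D05)
    ⟨0, 1, 1, 0, 1, 2, 0, 1, 1, 0, 1, 1⟩ = true := by decide +kernel
theorem v05_1 : (Tree.leaf 180 17 16 6 1).ok 0 1 0 0 (UE1 (9, 21) D05)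
    ⟨0, 1, 1, 2, 3, 4, 0, 1, 1, 0, 1, 1⟩ = true := by decide +kernel
theorem v05_2 : (Tree.leaf 184 17 16 6 1).ok 0 1 0 0 (UE1 (9, 21) D05)
    ⟨0, 1, 1, 3, 4, 4, 0, 1, 1, 0, 1, 1⟩ = true := by decide +kernel
theorem v05 : t_v05.ok 0 1 0 0 (UE1 (9, 21) D05) unitBx = true :=
  (Tree.ok_s1 v05_0 (Tree.ok_s1 v05_1 v05_2))

def t_h05 : Tree := (.s0 (.leaf 173 16 16 6 6) (.leaf 178 16 16 6 6))
theorem h05_0 : (Tree.leaf 173 16 16 6 6).ok 0 1 0 0 (HE 0 D04 D05 (81, 483) (-729, 10647) p05 k05 k15)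
    ⟨0, 1, 2, 0, 1, 1, 0, 1, 1, 0, 1, 1⟩ = true := by decide +kernel
theorem h05_1 : (Tree.leaf 178 16 16 6 6).ok 0 1 0 0 (HE 0 D04 D05 (81, 483) (-729, 10647) p05 k05 k15)
    ⟨1, 2, 2, 0, 1, 1, 0, 1, 1, 0, 1, 1⟩ = true := by decide +kernel
theorem h05 : t_h05.ok 0 1 0 0 (HE 0 D04 D05 (81, 483) (-729, 10647) p05 k05 k15) unitBx = true :=
  (Tree.ok_s0 h05_0 h05_1)

def t_u06 : Tree := (.s0 (.s1 (.leaf 159 17 16 6 1) (.leaf 164 17 16 6 1)) (.leaf 152 17 16 6 1))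
theorem u06_0 : (Tree.leaf 159 17 16 6 1).ok 0 1 0 0 (UE0 (9, 10) D06)
    ⟨0, 1, 2, 0, 1, 2, 0, 1, 1, 0, 1, 1⟩ = true := by decide +kernel
theorem u06_1 : (Tree.leaf 164 17 16 6 1).ok 0 1 0 0 (UE0 (9, 10) D06)
    ⟨0, 1, 2, 1, 2, 2, 0, 1, 1, 0, 1, 1⟩ = true := by decide +kernel
theorem u06_2 : (Tree.leaf 152 17 16 6 1).ok 0 1 0 0 (UE0 (9, 10) D06)
    ⟨1, 2, 2, 0, 1, 1, 0, 1, 1, 0, 1, 1⟩ = true := by decide +kernel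
theorem u06 : t_u06.ok 0 1 0 0 (UE0 (9, 10) D06) unitBx = true :=
  (Tree.ok_s0 (Tree.ok_s1 u06_0 u06_1) u06_2)

def t_v06 : Tree := (.s1 (.leaf 159 17 16 6 1) (.s1 (.leaf 178 17 16 6 1) (.leaf 181 17 16 6 1)))
theorem v06_0 : (Tree.leaf 159 17 16 6 1).ok 0 1 0 0 (UE1 (9, 21) D06)
    ⟨0, 1, 1, 0, 1, 2, 0, 1, 1, 0, 1, 1⟩ = true := by decide +kernel
theorem v06_1 : (Tree.leaf 178 17 16 6 1).ok 0 1 0 0 (UE1 (9, 21) D06)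
    ⟨0, 1, 1, 2, 3, 4, 0, 1, 1, 0, 1, 1⟩ = true := by decide +kernel
theorem v06_2 : (Tree.leaf 181 17 16 6 1).ok 0 1 0 0 (UE1 (9, 21) D06)
    ⟨0, 1, 1, 3, 4, 4, 0, 1, 1, 0, 1, 1⟩ = true := by decide +kernel
theorem v06 : t_v06.ok 0 1 0 0 (UE1 (9, 21) D06) unitBx = true :=
  (Tree.ok_s1 v06_0 (Tree.ok_s1 v06_1 v06_2))

def t_h06 : Tree := (.s0 (.leaf 172 16 16 6 6) (.leaf 177 16 16 6 6))
theorem h06_0 : (Tree.leaf 172 16 16 6 6).ok 0 1 0 0 (HE 0 D05 D06 (81, 483) (-729, 10647) p06 k06 k16)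
    ⟨0, 1, 2, 0, 1, 1, 0, 1, 1, 0, 1, 1⟩ = true := by decide +kernel
theorem h06_1 : (Tree.leaf 177 16 16 6 6).ok 0 1 0 0 (HE 0 D05 D06 (81, 483) (-729, 10647) p06 k06 k16)
    ⟨1, 2, 2, 0, 1, 1, 0, 1, 1, 0, 1, 1⟩ = true := by decide +kernel
theorem h06 : t_h06.ok 0 1 0 0 (HE 0 D05 D06 (81, 483) (-729, 10647) p06 k06 k16) unitBx = true :=
  (Tree.ok_s0 h06_0 h06_1)

end Vale.Agent.P154.A6
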