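import Vale.Agent.P154.Data.A6D

/-! Certificates of a chain of potentials, node 2. -/

namespace Vale.Agent.P154.A6

def t_b2 : Tree := (.leaf 83 10 1 5 1)
theorem b2 : t_b2.ok 0 1 0 0 (BE 2 D21 (81, 483) (-729, 10647) (-13760, 1023) p21 k01 k11) unitBx = true := by decide +kernel

def t_s2 : Tree := (.leaf 49 9 10 5 1)
theorem s2 : t_s2.ok 0 1 0 0 (SE D26 (-13759, 1023) (1, 5) [p21, p22, p23, p24, p25, p26]) unitBx = true := by decide +kernel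

def t_r2 : Tree := (.leaf 40 10 1 4 1)
theorem r2 : t_r2.ok 0 1 0 0 (RE D26 (-13759, 1023)) unitBx = true := by decide +kernel

def t_u22 : Tree := (.s1 (.s0 (.leaf 124 14 10 4 1) (.leaf 129 14 10 4 1)) (.s2 (.leaf 120 14 10 4 1) (.leaf 121 14 10 4 1)))
theorem u22_0 : (Tree.leaf 124 14 10 4 1).ok 0 1 0 0 (UE0 (9, 10) D22)
    ⟨0, 1, 2, 0, 1, 2, 0, 1, 1, 0, 1, 1⟩ = true := by decide +kernel
theorem u22_1 : (Tree.leaf 129 14 10 4 1).ok 0 1 0 0 (UE0 (9, 10) D22)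
    ⟨1, 2, 2, 0, 1, 2, 0, 1, 1, 0, 1, 1⟩ = true := by decide +kernel
theorem u22_2 : (Tree.leaf 120 14 10 4 1).ok 0 1 0 0 (UE0 (9, 10) D22)
    ⟨0, 1, 1, 1, 2, 2, 0, 1, 2, 0, 1, 1⟩ = true := by decide +kernel
theorem u22_3 : (Tree.leaf 121 14 10 4 1).ok 0 1 0 0 (UE0 (9, 10) D22)
    ⟨0, 1, 1, 1, 2, 2, 1, 2, 2, 0, 1, 1⟩ = true := by decide +kernel
theorem u22 : t_u22.ok 0 1 0 0 (UE0 (9, 10) D22) unitBx = true :=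
  (Tree.ok_s1 (Tree.ok_s0 u22_0 u22_1) (Tree.ok_s2 u22_2 u22_3))

def t_v22 : Tree := (.s1 (.s0 (.leaf 136 14 10 4 1) (.leaf 138 14 10 4 1)) (.s2 (.leaf 130 14 10 4 1) (.leaf 131 14 10 4 1)))
theorem v22_0 : (Tree.leaf 136 14 10 4 1).ok 0 1 0 0 (UE1 (9, 21) D22)
    ⟨0, 1, 2, 0, 1, 2, 0, 1, 1, 0, 1, 1⟩ = true := by decide +kernel
theorem v22_1 : (Tree.leaf 138 14 10 4 1).ok 0 1 0 0 (UE1 (9, 21) D22)
    ⟨1, 2, 2, 0, 1, 2, 0, 1, 1, 0, 1, 1⟩ = true := by decide +kernel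
theorem v22_2 : (Tree.leaf 130 14 10 4 1).ok 0 1 0 0 (UE1 (9, 21) D22)
    ⟨0, 1, 1, 1, 2, 2, 0, 1, 2, 0, 1, 1⟩ = true := by decide +kernel
theorem v22_3 : (Tree.leaf 131 14 10 4 1).ok 0 1 0 0 (UE1 (9, 21) D22)
    ⟨0, 1, 1, 1, 2, 2, 1, 2, 2, 0, 1, 1⟩ = true := by decide +kernel
theorem v22 : t_v22.ok 0 1 0 0 (UE1 (9, 21) D22) unitBx = true :=
  (Tree.ok_s1 (Tree.ok_s0 v22_0 v22_1) (Tree.ok_s2 v22_2 v22_3))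

def t_h22 : Tree := (.s2 (.leaf 149 14 14 6 6) (.leaf 149 14 14 6 6))
theorem h22_0 : (Tree.leaf 149 14 14 6 6).ok 0 1 0 0 (HE 2 D21 D22 (81, 483) (-729, 10647) p22 k02 k12)
    ⟨0, 1, 1, 0, 1, 1, 0, 1, 2, 0, 1, 1⟩ = true := by decide +kernel
theorem h22_1 : (Tree.leaf 149 14 14 6 6).ok 0 1 0 0 (HE 2 D21 D22 (81, 483) (-729, 10647) p22 k02 k12)
    ⟨0, 1, 1, 0, 1, 1, 1, 2, 2, 0, 1, 1⟩ = true := by decide +kernel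
theorem h22 : t_h22.ok 0 1 0 0 (HE 2 D21 D22 (81, 483) (-729, 10647) p22 k02 k12) unitBx = true :=
  (Tree.ok_s2 h22_0 h22_1)

def t_u23 : Tree := (.s1 (.s0 (.leaf 124 14 10 4 1) (.leaf 129 14 10 4 1)) (.s0 (.leaf 128 14 10 4 1) (.leaf 133 14 10 4 1)))
theorem u23_0 : (Tree.leaf 124 14 10 4 1).ok 0 1 0 0 (UE0 (9, 10) D23)
    ⟨0, 1, 2, 0, 1, 2, 0, 1, 1, 0, 1, 1⟩ = true := by decide +kernel
theorem u23_1 : (Tree.leaf 129 14 10 4 1).ok 0 1 0 0 (UE0 (9, 10) D23)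
    ⟨1, 2, 2, 0, 1, 2, 0, 1, 1, 0, 1, 1⟩ = true := by decide +kernel
theorem u23_2 : (Tree.leaf 128 14 10 4 1).ok 0 1 0 0 (UE0 (9, 10) D23)
    ⟨0, 1, 2, 1, 2, 2, 0, 1, 1, 0, 1, 1⟩ = true := by decide +kernel
theorem u23_3 : (Tree.leaf 133 14 10 4 1).ok 0 1 0 0 (UE0 (9, 10) D23)
    ⟨1, 2, 2, 1, 2, 2, 0, 1, 1, 0, 1, 1⟩ = true := by decide +kernel
theorem u23 : t_u23.ok 0 1 0 0 (UE0 (9, 10) D23) unitBx = true :=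
  (Tree.ok_s1 (Tree.ok_s0 u23_0 u23_1) (Tree.ok_s0 u23_2 u23_3))

def t_v23 : Tree := (.s1 (.s0 (.leaf 136 14 10 4 1) (.leaf 138 14 10 4 1)) (.s2 (.leaf 130 14 10 4 1) (.leaf 131 14 10 4 1)))
theorem v23_0 : (Tree.leaf 136 14 10 4 1).ok 0 1 0 0 (UE1 (9, 21) D23)
    ⟨0, 1, 2, 0, 1, 2, 0, 1, 1, 0, 1, 1⟩ = true := by decide +kernel
theorem v23_1 : (Tree.leaf 138 14 10 4 1).ok 0 1 0 0 (UE1 (9, 21) D23)
    ⟨1, 2, 2, 0, 1, 2, 0, 1, 1, 0, 1, 1⟩ = true := by decide +kernel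
theorem v23_2 : (Tree.leaf 130 14 10 4 1).ok 0 1 0 0 (UE1 (9, 21) D23)
    ⟨0, 1, 1, 1, 2, 2, 0, 1, 2, 0, 1, 1⟩ = true := by decide +kernel
theorem v23_3 : (Tree.leaf 131 14 10 4 1).ok 0 1 0 0 (UE1 (9, 21) D23)
    ⟨0, 1, 1, 1, 2, 2, 1, 2, 2, 0, 1, 1⟩ = true := by decide +kernel
theorem v23 : t_v23.ok 0 1 0 0 (UE1 (9, 21) D23) unitBx = true :=
  (Tree.ok_s1 (Tree.ok_s0 v23_0 v23_1) (Tree.ok_s2 v23_2 v23_3))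

def t_h23 : Tree := (.leaf 143 14 14 6 6)
theorem h23 : t_h23.ok 0 1 0 0 (HE 2 D22 D23 (81, 483) (-729, 10647) p23 k03 k13) unitBx = true := by decide +kernel

def t_u24 : Tree := (.s1 (.s0 (.leaf 124 14 10 4 1) (.leaf 128 14 10 4 1)) (.leaf 117 14 10 4 1))
theorem u24_0 : (Tree.leaf 124 14 10 4 1).ok 0 1 0 0 (UE0 (9, 10) D24)
    ⟨0, 1, 2, 0, 1, 2, 0, 1, 1, 0, 1, 1⟩ = true := by decide +kernel
theorem u24_1 : (Tree.leaf 128 14 10 4 1).ok 0 1 0 0 (UE0 (9, 10) D24)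
    ⟨1, 2, 2, 0, 1, 2, 0, 1, 1, 0, 1, 1⟩ = true := by decide +kernel
theorem u24_2 : (Tree.leaf 117 14 10 4 1).ok 0 1 0 0 (UE0 (9, 10) D24)
    ⟨0, 1, 1, 1, 2, 2, 0, 1, 1, 0, 1, 1⟩ = true := by decide +kernel
theorem u24 : t_u24.ok 0 1 0 0 (UE0 (9, 10) D24) unitBx = true :=
  (Tree.ok_s1 (Tree.ok_s0 u24_0 u24_1) u24_2)

def t_v24 : Tree := (.s1 (.s0 (.leaf 136 14 10 4 1) (.leaf 138 14 10 4 1)) (.s2 (.leaf 130 14 10 4 1) (.leaf 131 14 10 4 1)))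
theorem v24_0 : (Tree.leaf 136 14 10 4 1).ok 0 1 0 0 (UE1 (9, 21) D24)
    ⟨0, 1, 2, 0, 1, 2, 0, 1, 1, 0, 1, 1⟩ = true := by decide +kernel
theorem v24_1 : (Tree.leaf 138 14 10 4 1).ok 0 1 0 0 (UE1 (9, 21) D24)
    ⟨1, 2, 2, 0, 1, 2, 0, 1, 1, 0, 1, 1⟩ = true := by decide +kernel
theorem v24_2 : (Tree.leaf 130 14 10 4 1).ok 0 1 0 0 (UE1 (9, 21) D24)
    ⟨0, 1, 1, 1, 2, 2, 0, 1, 2, 0, 1, 1⟩ = true := by decide +kernel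
theorem v24_3 : (Tree.leaf 131 14 10 4 1).ok 0 1 0 0 (UE1 (9, 21) D24)
    ⟨0, 1, 1, 1, 2, 2, 1, 2, 2, 0, 1, 1⟩ = true := by decide +kernel
theorem v24 : t_v24.ok 0 1 0 0 (UE1 (9, 21) D24) unitBx = true :=
  (Tree.ok_s1 (Tree.ok_s0 v24_0 v24_1) (Tree.ok_s2 v24_2 v24_3))

def t_h24 : Tree := (.leaf 143 14 14 6 6)
theorem h24 : t_h24.ok 0 1 0 0 (HE 2 D23 D24 (81, 483) (-729, 10647) p24 k04 k14) unitBx = true := by decide +kernel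

def t_u25 : Tree := (.s1 (.s0 (.leaf 124 14 10 4 1) (.leaf 128 14 10 4 1)) (.s0 (.leaf 127 14 10 4 1) (.leaf 133 14 10 4 1)))
theorem u25_0 : (Tree.leaf 124 14 10 4 1).ok 0 1 0 0 (UE0 (9, 10) D25)
    ⟨0, 1, 2, 0, 1, 2, 0, 1, 1, 0, 1, 1⟩ = true := by decide +kernel
theorem u25_1 : (Tree.leaf 128 14 10 4 1).ok 0 1 0 0 (UE0 (9, 10) D25)
    ⟨1, 2, 2, 0, 1, 2, 0, 1, 1, 0, 1, 1⟩ = true := by decide +kernel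
theorem u25_2 : (Tree.leaf 127 14 10 4 1).ok 0 1 0 0 (UE0 (9, 10) D25)
    ⟨0, 1, 2, 1, 2, 2, 0, 1, 1, 0, 1, 1⟩ = true := by decide +kernel
theorem u25_3 : (Tree.leaf 133 14 10 4 1).ok 0 1 0 0 (UE0 (9, 10) D25)
    ⟨1, 2, 2, 1, 2, 2, 0, 1, 1, 0, 1, 1⟩ = true := by decide +kernel
theorem u25 : t_u25.ok 0 1 0 0 (UE0 (9, 10) D25) unitBx = true :=
  (Tree.ok_s1 (Tree.ok_s0 u25_0 u25_1) (Tree.ok_s0 u25_2 u25_3))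

def t_v25 : Tree := (.s1 (.leaf 124 14 10 4 1) (.s1 (.leaf 135 14 10 4 1) (.leaf 137 14 10 4 1)))
theorem v25_0 : (Tree.leaf 124 14 10 4 1).ok 0 1 0 0 (UE1 (9, 21) D25)
    ⟨0, 1, 1, 0, 1, 2, 0, 1, 1, 0, 1, 1⟩ = true := by decide +kernel
theorem v25_1 : (Tree.leaf 135 14 10 4 1).ok 0 1 0 0 (UE1 (9, 21) D25)
    ⟨0, 1, 1, 2, 3, 4, 0, 1, 1, 0, 1, 1⟩ = true := by decide +kernel
theorem v25_2 : (Tree.leaf 137 14 10 4 1).ok 0 1 0 0 (UE1 (9, 21) D25)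
    ⟨0, 1, 1, 3, 4, 4, 0, 1, 1, 0, 1, 1⟩ = true := by decide +kernel
theorem v25 : t_v25.ok 0 1 0 0 (UE1 (9, 21) D25) unitBx = true :=
  (Tree.ok_s1 v25_0 (Tree.ok_s1 v25_1 v25_2))

def t_h25 : Tree := (.leaf 143 14 14 6 6)
theorem h25 : t_h25.ok 0 1 0 0 (HE 2 D24 D25 (81, 483) (-729, 10647) p25 k05 k15) unitBx = true := by decide +kernel

def t_u26 : Tree := (.s0 (.s1 (.leaf 124 14 10 4 1) (.leaf 126 14 10 4 1)) (.leaf 121 14 10 4 1))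
theorem u26_0 : (Tree.leaf 124 14 10 4 1).ok 0 1 0 0 (UE0 (9, 10) D26)
    ⟨0, 1, 2, 0, 1, 2, 0, 1, 1, 0, 1, 1⟩ = true := by decide +kernel
theorem u26_1 : (Tree.leaf 126 14 10 4 1).ok 0 1 0 0 (UE0 (9, 10) D26)
    ⟨0, 1, 2, 1, 2, 2, 0, 1, 1, 0, 1, 1⟩ = true := by decide +kernel
theorem u26_2 : (Tree.leaf 121 14 10 4 1).ok 0 1 0 0 (UE0 (9, 10) D26)
    ⟨1, 2, 2, 0, 1, 1, 0, 1, 1, 0, 1, 1⟩ = true := by decide +kernel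
theorem u26 : t_u26.ok 0 1 0 0 (UE0 (9, 10) D26) unitBx = true :=
  (Tree.ok_s0 (Tree.ok_s1 u26_0 u26_1) u26_2)

def t_v26 : Tree := (.s1 (.leaf 124 14 10 4 1) (.s1 (.leaf 134 14 10 4 1) (.leaf 136 14 10 4 1)))
theorem v26_0 : (Tree.leaf 124 14 10 4 1).ok 0 1 0 0 (UE1 (9, 21) D26)
    ⟨0, 1, 1, 0, 1, 2, 0, 1, 1, 0, 1, 1⟩ = true := by decide +kernel
theorem v26_1 : (Tree.leaf 134 14 10 4 1).ok 0 1 0 0 (UE1 (9, 21) D26)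
    ⟨0, 1, 1, 2, 3, 4, 0, 1, 1, 0, 1, 1⟩ = true := by decide +kernel
theorem v26_2 : (Tree.leaf 136 14 10 4 1).ok 0 1 0 0 (UE1 (9, 21) D26)
    ⟨0, 1, 1, 3, 4, 4, 0, 1, 1, 0, 1, 1⟩ = true := by decide +kernel
theorem v26 : t_v26.ok 0 1 0 0 (UE1 (9, 21) D26) unitBx = true :=
  (Tree.ok_s1 v26_0 (Tree.ok_s1 v26_1 v26_2))

def t_h26 : Tree := (.s2 (.leaf 147 14 14 6 6) (.leaf 148 14 14 6 6))
theorem h26_0 : (Tree.leaf 147 14 14 6 6).ok 0 1 0 0 (HE 2 D25 D26 (81, 483) (-729, 10647) p26 k06 k16)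
    ⟨0, 1, 1, 0, 1, 1, 0, 1, 2, 0, 1, 1⟩ = true := by decide +kernel
theorem h26_1 : (Tree.leaf 148 14 14 6 6).ok 0 1 0 0 (HE 2 D25 D26 (81, 483) (-729, 10647) p26 k06 k16)
    ⟨0, 1, 1, 0, 1, 1, 1, 2, 2, 0, 1, 1⟩ = true := by decide +kernel
theorem h26 : t_h26.ok 0 1 0 0 (HE 2 D25 D26 (81, 483) (-729, 10647) p26 k06 k16) unitBx = true :=
  (Tree.ok_s2 h26_0 h26_1)

end Vale.Agent.P154.A6
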