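import Vale.Agent.P154.Cert

/-! Certificates for `d = 3`. -/

namespace Vale.Agent.P154.C3

def f2 : CL := [(675, 4095), (-2214, 4095), (3460, 4095), (-3440, 4095), (1981, 4095), (-462, 4095)]
def a2 : CL := [(13799, 4095), (-47372, 4095), (57154, 4095), (-19884, 4095)]
def b2 : CL := [(-20645, 4095), (110842, 4095), (-181249, 4095), (82494, 4095)]
def f3 : CL := [(550, 4095), (-2374, 4095), (4941, 4095), (-5795, 4095), (3513, 4095), (-835, 4095)]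
def a3 : CL := [(280, 4095), (3632, 4095), (-9656, 4095), (8547, 4095)]
def b3 : CL := [(457, 4095), (-12399, 4095), (43216, 4095), (-43314, 4095)]

def p2 : Tree := (.s0 (.leaf 74 6 17 1 1) (.s0 (.leaf 81 6 17 1 1) (.s1 (.s0 (.leaf 102 6 17 1 1) (.leaf 102 6 17 1 1)) (.leaf 99 6 17 1 1))))
theorem hp2 : p2.ok 0 1 0 0 (A1 (1, 2) f2 a2 b2) unitBx = true := by decide +kernel

def q2 : Tree := (.s1 (.s0 (.leaf 121 6 28 1 1) (.s1 (.s0 (.leaf 147 6 28 1 1) (.s0 (.leaf 148 6 28 1 1) (.leaf 148 6 28 1 1))) (.leaf 153 6 28 1 1))) (.leaf 132 6 28 1 1))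
theorem hq2 : q2.ok 0 1 0 0 (A2 (2, 2) f2 a2 b2) unitBx = true := by decide +kernel

def r2 : Tree := (.leaf 180 37 19 7 7)
theorem hr2 : r2.ok (2 + 1) 10000 17320 17321 (baseE1 f2 f3 a2 b2 (1, 2) (1, 249) (L2c 2) (L3c 2)) unitBx = true := by decide +kernel

def p3 : Tree := (.s0 (.s0 (.leaf 210 6 17 1 1) (.s0 (.leaf 217 6 17 1 1) (.leaf 218 6 17 1 1))) (.s0 (.s0 (.leaf 219 6 17 1 1) (.leaf 220 6 17 1 1)) (.s1 (.s0 (.leaf 235 6 17 1 1) (.s1 (.leaf 251 6 17 1 1) (.leaf 252 6 17 1 1))) (.leaf 234 6 17 1 1))))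
theorem hp3 : p3.ok 0 1 0 0 (A1 (578, 999) f3 a3 b3) unitBx = true := by decide +kernel

def q3 : Tree := (.s1 (.s0 (.s0 (.leaf 350 6 28 1 1) (.s0 (.leaf 351 6 28 1 1) (.leaf 352 6 28 1 1))) (.s1 (.s0 (.leaf 375 6 28 1 1) (.s0 (.leaf 376 6 28 1 1) (.s1 (.leaf 401 6 28 1 1) (.leaf 405 6 28 1 1)))) (.leaf 383 6 28 1 1))) (.leaf 365 6 28 1 1))
theorem hq3 : q3.ok 0 1 0 0 (A2 (1156, 999) f3 a3 b3) unitBx = true := by decide +kernel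

def r3 : Tree := (.s1 (.leaf 174 37 19 7 7) (.s0 (.leaf 207 37 19 7 7) (.leaf 216 37 19 7 7)))
theorem hr3_0 : (Tree.leaf 174 37 19 7 7).ok (2 + 1) 10000 17320 17321 (stepE1 f3 f2 f3 a3 b3 (1, 2) (L2c 2) (L3c 2))
    ⟨0, 1, 1, 0, 1, 2, 0, 1, 1, 0, 1, 1⟩ = true := by decide +kernel
theorem hr3_1 : (Tree.leaf 207 37 19 7 7).ok (2 + 1) 10000 17320 17321 (stepE1 f3 f2 f3 a3 b3 (1, 2) (L2c 2) (L3c 2))
    ⟨0, 1, 2, 1, 2, 2, 0, 1, 1, 0, 1, 1⟩ = true := by decide +kernel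
theorem hr3_2 : (Tree.leaf 216 37 19 7 7).ok (2 + 1) 10000 17320 17321 (stepE1 f3 f2 f3 a3 b3 (1, 2) (L2c 2) (L3c 2))
    ⟨1, 2, 2, 1, 2, 2, 0, 1, 1, 0, 1, 1⟩ = true := by decide +kernel
theorem hr3 : r3.ok (2 + 1) 10000 17320 17321 (stepE1 f3 f2 f3 a3 b3 (1, 2) (L2c 2) (L3c 2)) unitBx = true :=
  (Tree.ok_s1 hr3_0 (Tree.ok_s0 hr3_1 hr3_2))

def s3 : Tree := (.s0 (.leaf 189 37 19 7 7) (.leaf 194 37 19 7 7))
theorem hs3_0 : (Tree.leaf 189 37 19 7 7).ok (2 + 1) 10000 17320 17321 (stepE2 f3 f2 f3 a3 b3 (1, 2) (L2c 2) (L3c 2))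
    ⟨0, 1, 2, 0, 1, 1, 0, 1, 1, 0, 1, 1⟩ = true := by decide +kernel
theorem hs3_1 : (Tree.leaf 194 37 19 7 7).ok (2 + 1) 10000 17320 17321 (stepE2 f3 f2 f3 a3 b3 (1, 2) (L2c 2) (L3c 2))
    ⟨1, 2, 2, 0, 1, 1, 0, 1, 1, 0, 1, 1⟩ = true := by decide +kernel
theorem hs3 : s3.ok (2 + 1) 10000 17320 17321 (stepE2 f3 f2 f3 a3 b3 (1, 2) (L2c 2) (L3c 2)) unitBx = true :=
  (Tree.ok_s0 hs3_0 hs3_1)

def tm : Tree := (.leaf 71 16 16 6 1)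
theorem hm : tm.ok 0 1 0 0 (monoE f3) unitBx = true := by decide +kernel

def F : ℕ → CL
  | 2 => f2
  | _ => f3

theorem method (θ : ℝ) (t0 : 0 < θ) (t1 : θ ≤ 1) :
    ∃ (wd cm B : ℝ) (Ψ : ℕ → ℝ → ℝ → ℝ → ℝ),
      Method (2 + 1) (lamd (2 + 1) * θ) wd cm B Ψ := by
  refine ⟨_, _, _, _, method_of 2 (by norm_num) F (1, 249) (by norm_num [cv])
    (mono_of_box _ (box_zero _ _ hm))
    (base_cert 2 10000 17320 17321 (by norm_num) f2 f3 a2 b2 (1, 249) p2 q2 r2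
      (by norm_num) (by norm_num) (by decide) (by decide) (by decide) hp2 hq2 hr2)
    ?_ θ t0 t1⟩
  intro k hk hk'
  have hk2 : k ≤ 2 := by omega
  interval_cases k
  · exact step_cert 2 10000 17320 17321 (by norm_num) f3 f2 f3 a3 b3 (578, 999) (1156, 999)
      p3 q3 r3 s3 (by norm_num) (by norm_num) (by decide) (by decide) (by decide)
      (by norm_num [cv]) (by norm_num [cv]) (by norm_num [cv]) (by norm_num [cv])
      (by norm_num [cv]) hp3 hq3 hr3 hs3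

end Vale.Agent.P154.C3
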