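import Vale.Agent.P154.Cert

/-! Certificates for `d = 4`. -/

namespace Vale.Agent.P154.C4

def f2 : CL := [(768, 4095), (-2688, 4095), (4843, 4095), (-5596, 4095), (3575, 4095), (-902, 4095)]
def a2 : CL := [(18583, 4095), (-69515, 4095), (88659, 4095), (-33185, 4095)]
def b2 : CL := [(-26408, 4095), (145561, 4095), (-245760, 4095), (116240, 4095)]
def f3 : CL := [(606, 4095), (-2159, 4095), (3611, 4095), (-3595, 4095), (1963, 4095), (-426, 4095)]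
def a3 : CL := [(108, 4095), (4227, 4095), (-8318, 4095), (7112, 4095)]
def b3 : CL := [(183, 4095), (-9274, 4095), (28313, 4095), (-29485, 4095)]
def f4 : CL := [(533, 4095), (-2411, 4095), (5222, 4095), (-6258, 4095), (3829, 4095), (-915, 4095)]
def a4 : CL := [(171, 4095), (4869, 4095), (-13011, 4095), (10754, 4095)]
def b4 : CL := [(309, 4095), (-13315, 4095), (50425, 4095), (-50904, 4095)]

def p2 : Tree := (.s0 (.leaf 81 6 17 1 1) (.s0 (.leaf 88 6 17 1 1) (.s0 (.leaf 94 6 17 1 1) (.s1 (.s0 (.leaf 114 6 17 1 1) (.leaf 114 6 17 1 1)) (.leaf 111 6 17 1 1)))))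
theorem hp2 : p2.ok 0 1 0 0 (A1 (1, 3) f2 a2 b2) unitBx = true := by decide +kernel

def q2 : Tree := (.s1 (.s0 (.leaf 132 6 28 1 1) (.s0 (.leaf 133 6 28 1 1) (.s0 (.leaf 134 6 28 1 1) (.s1 (.s0 (.leaf 159 6 28 1 1) (.s1 (.leaf 185 6 28 1 1) (.leaf 187 6 28 1 1))) (.leaf 163 6 28 1 1))))) (.leaf 140 6 28 1 1))
theorem hq2 : q2.ok 0 1 0 0 (A2 (2, 3) f2 a2 b2) unitBx = true := by decide +kernel

def r2 : Tree := (.s2 (.leaf 196 37 19 7 7) (.s1 (.leaf 214 37 19 7 7) (.leaf 214 37 19 7 7)))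
theorem hr2_0 : (Tree.leaf 196 37 19 7 7).ok (3 + 1) 10000 20000 20000 (baseE1 f2 f4 a2 b2 (1, 3) (1, 249) (L2c 3) (L3c 3))
    ⟨0, 1, 1, 0, 1, 1, 0, 1, 2, 0, 1, 1⟩ = true := by decide +kernel
theorem hr2_1 : (Tree.leaf 214 37 19 7 7).ok (3 + 1) 10000 20000 20000 (baseE1 f2 f4 a2 b2 (1, 3) (1, 249) (L2c 3) (L3c 3))
    ⟨0, 1, 1, 0, 1, 2, 1, 2, 2, 0, 1, 1⟩ = true := by decide +kernel
theorem hr2_2 : (Tree.leaf 214 37 19 7 7).ok (3 + 1) 10000 20000 20000 (baseE1 f2 f4 a2 b2 (1, 3) (1, 249) (L2c 3) (L3c 3))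
    ⟨0, 1, 1, 1, 2, 2, 1, 2, 2, 0, 1, 1⟩ = true := by decide +kernel
theorem hr2 : r2.ok (3 + 1) 10000 20000 20000 (baseE1 f2 f4 a2 b2 (1, 3) (1, 249) (L2c 3) (L3c 3)) unitBx = true :=
  (Tree.ok_s2 hr2_0 (Tree.ok_s1 hr2_1 hr2_2))

def p3 : Tree := (.s0 (.leaf 206 6 17 1 1) (.s0 (.leaf 214 6 17 1 1) (.s1 (.s0 (.leaf 234 6 17 1 1) (.leaf 235 6 17 1 1)) (.leaf 232 6 17 1 1))))
theorem hp3 : p3.ok 0 1 0 0 (A1 (501, 999) f3 a3 b3) unitBx = true := by decide +kernel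

def q3 : Tree := (.s1 (.s0 (.leaf 350 6 28 1 1) (.s0 (.leaf 351 6 28 1 1) (.s0 (.leaf 351 6 28 1 1) (.s1 (.leaf 375 6 28 1 1) (.leaf 382 6 28 1 1))))) (.leaf 362 6 28 1 1))
theorem hq3 : q3.ok 0 1 0 0 (A2 (1002, 999) f3 a3 b3) unitBx = true := by decide +kernel

def r3 : Tree := (.s0 (.leaf 194 37 19 7 7) (.leaf 201 37 19 7 7))
theorem hr3_0 : (Tree.leaf 194 37 19 7 7).ok (3 + 1) 10000 20000 20000 (stepE1 f3 f2 f4 a3 b3 (1, 3) (L2c 3) (L3c 3))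
    ⟨0, 1, 2, 0, 1, 1, 0, 1, 1, 0, 1, 1⟩ = true := by decide +kernel
theorem hr3_1 : (Tree.leaf 201 37 19 7 7).ok (3 + 1) 10000 20000 20000 (stepE1 f3 f2 f4 a3 b3 (1, 3) (L2c 3) (L3c 3))
    ⟨1, 2, 2, 0, 1, 1, 0, 1, 1, 0, 1, 1⟩ = true := by decide +kernel
theorem hr3 : r3.ok (3 + 1) 10000 20000 20000 (stepE1 f3 f2 f4 a3 b3 (1, 3) (L2c 3) (L3c 3)) unitBx = true :=
  (Tree.ok_s0 hr3_0 hr3_1)

def s3 : Tree := (.s0 (.s1 (.leaf 211 37 19 7 7) (.leaf 212 37 19 7 7)) (.s1 (.leaf 216 37 19 7 7) (.leaf 218 37 19 7 7)))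
theorem hs3_0 : (Tree.leaf 211 37 19 7 7).ok (3 + 1) 10000 20000 20000 (stepE2 f3 f2 f4 a3 b3 (1, 3) (L2c 3) (L3c 3))
    ⟨0, 1, 2, 0, 1, 2, 0, 1, 1, 0, 1, 1⟩ = true := by decide +kernel
theorem hs3_1 : (Tree.leaf 212 37 19 7 7).ok (3 + 1) 10000 20000 20000 (stepE2 f3 f2 f4 a3 b3 (1, 3) (L2c 3) (L3c 3))
    ⟨0, 1, 2, 1, 2, 2, 0, 1, 1, 0, 1, 1⟩ = true := by decide +kernel
theorem hs3_2 : (Tree.leaf 216 37 19 7 7).ok (3 + 1) 10000 20000 20000 (stepE2 f3 f2 f4 a3 b3 (1, 3) (L2c 3) (L3c 3))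
    ⟨1, 2, 2, 0, 1, 2, 0, 1, 1, 0, 1, 1⟩ = true := by decide +kernel
theorem hs3_3 : (Tree.leaf 218 37 19 7 7).ok (3 + 1) 10000 20000 20000 (stepE2 f3 f2 f4 a3 b3 (1, 3) (L2c 3) (L3c 3))
    ⟨1, 2, 2, 1, 2, 2, 0, 1, 1, 0, 1, 1⟩ = true := by decide +kernel
theorem hs3 : s3.ok (3 + 1) 10000 20000 20000 (stepE2 f3 f2 f4 a3 b3 (1, 3) (L2c 3) (L3c 3)) unitBx = true :=
  (Tree.ok_s0 (Tree.ok_s1 hs3_0 hs3_1) (Tree.ok_s1 hs3_2 hs3_3))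

def p4 : Tree := (.s0 (.s0 (.leaf 210 6 17 1 1) (.s0 (.leaf 217 6 17 1 1) (.leaf 218 6 17 1 1))) (.s0 (.s0 (.leaf 219 6 17 1 1) (.leaf 220 6 17 1 1)) (.s1 (.s0 (.leaf 235 6 17 1 1) (.s1 (.leaf 251 6 17 1 1) (.leaf 252 6 17 1 1))) (.leaf 233 6 17 1 1))))
theorem hp4 : p4.ok 0 1 0 0 (A1 (501, 999) f4 a4 b4) unitBx = true := by decide +kernel

def q4 : Tree := (.s0 (.s0 (.leaf 329 6 28 1 1) (.s1 (.s0 (.leaf 350 6 28 1 1) (.s0 (.leaf 350 6 28 1 1) (.leaf 351 6 28 1 1))) (.leaf 362 6 28 1 1))) (.s1 (.s1 (.s0 (.leaf 375 6 28 1 1) (.s0 (.leaf 376 6 28 1 1) (.s1 (.leaf 401 6 28 1 1) (.leaf 405 6 28 1 1)))) (.leaf 382 6 28 1 1)) (.leaf 363 6 28 1 1)))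
theorem hq4 : q4.ok 0 1 0 0 (A2 (1002, 999) f4 a4 b4) unitBx = true := by decide +kernel

def r4 : Tree := (.s1 (.leaf 179 37 19 7 7) (.s0 (.leaf 212 37 19 7 7) (.s0 (.leaf 254 37 19 7 7) (.leaf 259 37 19 7 7))))
theorem hr4_0 : (Tree.leaf 179 37 19 7 7).ok (3 + 1) 10000 20000 20000 (stepE1 f4 f3 f4 a4 b4 (1, 3) (L2c 3) (L3c 3))
    ⟨0, 1, 1, 0, 1, 2, 0, 1, 1, 0, 1, 1⟩ = true := by decide +kernel
theorem hr4_1 : (Tree.leaf 212 37 19 7 7).ok (3 + 1) 10000 20000 20000 (stepE1 f4 f3 f4 a4 b4 (1, 3) (L2c 3) (L3c 3))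
    ⟨0, 1, 2, 1, 2, 2, 0, 1, 1, 0, 1, 1⟩ = true := by decide +kernel
theorem hr4_2 : (Tree.leaf 254 37 19 7 7).ok (3 + 1) 10000 20000 20000 (stepE1 f4 f3 f4 a4 b4 (1, 3) (L2c 3) (L3c 3))
    ⟨2, 3, 4, 1, 2, 2, 0, 1, 1, 0, 1, 1⟩ = true := by decide +kernel
theorem hr4_3 : (Tree.leaf 259 37 19 7 7).ok (3 + 1) 10000 20000 20000 (stepE1 f4 f3 f4 a4 b4 (1, 3) (L2c 3) (L3c 3))
    ⟨3, 4, 4, 1, 2, 2, 0, 1, 1, 0, 1, 1⟩ = true := by decide +kernel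
theorem hr4 : r4.ok (3 + 1) 10000 20000 20000 (stepE1 f4 f3 f4 a4 b4 (1, 3) (L2c 3) (L3c 3)) unitBx = true :=
  (Tree.ok_s1 hr4_0 (Tree.ok_s0 hr4_1 (Tree.ok_s0 hr4_2 hr4_3)))

def s4 : Tree := (.s0 (.leaf 193 37 19 7 7) (.leaf 199 37 19 7 7))
theorem hs4_0 : (Tree.leaf 193 37 19 7 7).ok (3 + 1) 10000 20000 20000 (stepE2 f4 f3 f4 a4 b4 (1, 3) (L2c 3) (L3c 3))
    ⟨0, 1, 2, 0, 1, 1, 0, 1, 1, 0, 1, 1⟩ = true := by decide +kernel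
theorem hs4_1 : (Tree.leaf 199 37 19 7 7).ok (3 + 1) 10000 20000 20000 (stepE2 f4 f3 f4 a4 b4 (1, 3) (L2c 3) (L3c 3))
    ⟨1, 2, 2, 0, 1, 1, 0, 1, 1, 0, 1, 1⟩ = true := by decide +kernel
theorem hs4 : s4.ok (3 + 1) 10000 20000 20000 (stepE2 f4 f3 f4 a4 b4 (1, 3) (L2c 3) (L3c 3)) unitBx = true :=
  (Tree.ok_s0 hs4_0 hs4_1)

def tm : Tree := (.leaf 71 16 16 6 1)
theorem hm : tm.ok 0 1 0 0 (monoE f4) unitBx = true := by decide +kernel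

def F : ℕ → CL
  | 2 => f2
  | 3 => f3
  | _ => f4

theorem method (θ : ℝ) (t0 : 0 < θ) (t1 : θ ≤ 1) :
    ∃ (wd cm B : ℝ) (Ψ : ℕ → ℝ → ℝ → ℝ → ℝ),
      Method (3 + 1) (lamd (3 + 1) * θ) wd cm B Ψ := by
  refine ⟨_, _, _, _, method_of 3 (by norm_num) F (1, 249) (by norm_num [cv])
    (mono_of_box _ (box_zero _ _ hm))
    (base_cert 3 10000 20000 20000 (by norm_num) f2 f4 a2 b2 (1, 249) p2 q2 r2
      (by norm_num) (by norm_num) (by decide) (by decide) (by decide) hp2 hq2 hr2)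
    ?_ θ t0 t1⟩
  intro k hk hk'
  have hk2 : k ≤ 3 := by omega
  interval_cases k
  · exact step_cert 3 10000 20000 20000 (by norm_num) f3 f2 f4 a3 b3 (501, 999) (1002, 999)
      p3 q3 r3 s3 (by norm_num) (by norm_num) (by decide) (by decide) (by decide)
      (by norm_num [cv]) (by norm_num [cv]) (by norm_num [cv]) (by norm_num [cv])
      (by norm_num [cv]) hp3 hq3 hr3 hs3
  · exact step_cert 3 10000 20000 20000 (by norm_num) f4 f3 f4 a4 b4 (501, 999) (1002, 999)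
      p4 q4 r4 s4 (by norm_num) (by norm_num) (by decide) (by decide) (by decide)
      (by norm_num [cv]) (by norm_num [cv]) (by norm_num [cv]) (by norm_num [cv])
      (by norm_num [cv]) hp4 hq4 hr4 hs4

end Vale.Agent.P154.C4
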