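import Vale.Agent.P154.Cert

/-! Certificates for `d = 5`. -/

namespace Vale.Agent.P154.C5

def f2 : CL := [(849, 4095), (-3219, 4095), (6289, 4095), (-7468, 4095), (4700, 4095), (-1151, 4095)]
def a2 : CL := [(24038, 4095), (-86126, 4095), (102552, 4095), (-35150, 4095)]
def b2 : CL := [(-26215, 4095), (150346, 4095), (-245760, 4095), (105427, 4095)]
def f3 : CL := [(610, 4095), (-1965, 4095), (2998, 4095), (-2908, 4095), (1632, 4095), (-367, 4095)]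
def a3 : CL := [(16, 4095), (3570, 4095), (-6121, 4095), (6178, 4095)]
def b3 : CL := [(0, 4095), (-5054, 4095), (15385, 4095), (-21850, 4095)]
def f4 : CL := [(549, 4095), (-2039, 4095), (3600, 4095), (-3736, 4095), (2083, 4095), (-457, 4095)]
def a4 : CL := [(96, 4095), (4017, 4095), (-8578, 4095), (7372, 4095)]
def b4 : CL := [(178, 4095), (-9889, 4095), (31897, 4095), (-32382, 4095)]
def f5 : CL := [(493, 4095), (-2182, 4095), (4685, 4095), (-5624, 4095), (3456, 4095), (-828, 4095)]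
def a5 : CL := [(111, 4095), (4280, 4095), (-11229, 4095), (9533, 4095)]
def b5 : CL := [(211, 4095), (-11545, 4095), (44104, 4095), (-45346, 4095)]

def p2 : Tree := (.s0 (.leaf 86 6 17 1 1) (.s0 (.leaf 93 6 17 1 1) (.s0 (.leaf 98 6 17 1 1) (.s1 (.leaf 114 6 17 1 1) (.leaf 115 6 17 1 1)))))
theorem hp2 : p2.ok 0 1 0 0 (A1 (1, 4) f2 a2 b2) unitBx = true := by decide +kernel

def q2 : Tree := (.s0 (.leaf 121 6 28 1 1) (.s1 (.s0 (.leaf 141 6 28 1 1) (.s0 (.leaf 145 6 28 1 1) (.s1 (.s0 (.leaf 168 6 28 1 1) (.leaf 168 6 28 1 1)) (.leaf 171 6 28 1 1)))) (.leaf 148 6 28 1 1)))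
theorem hq2 : q2.ok 0 1 0 0 (A2 (2, 4) f2 a2 b2) unitBx = true := by decide +kernel

def r2 : Tree := (.s2 (.s0 (.leaf 231 37 19 7 7) (.leaf 235 37 19 7 7)) (.s1 (.leaf 215 37 19 7 7) (.s0 (.s3 (.leaf 255 37 19 7 7) (.leaf 255 37 19 7 7)) (.leaf 254 37 19 7 7))))
theorem hr2_0 : (Tree.leaf 231 37 19 7 7).ok (4 + 1) 10000 22360 22361 (baseE1 f2 f5 a2 b2 (1, 4) (1, 249) (L2c 4) (L3c 4))
    ⟨0, 1, 2, 0, 1, 1, 0, 1, 2, 0, 1, 1⟩ = true := by decide +kernel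
theorem hr2_1 : (Tree.leaf 235 37 19 7 7).ok (4 + 1) 10000 22360 22361 (baseE1 f2 f5 a2 b2 (1, 4) (1, 249) (L2c 4) (L3c 4))
    ⟨1, 2, 2, 0, 1, 1, 0, 1, 2, 0, 1, 1⟩ = true := by decide +kernel
theorem hr2_2 : (Tree.leaf 215 37 19 7 7).ok (4 + 1) 10000 22360 22361 (baseE1 f2 f5 a2 b2 (1, 4) (1, 249) (L2c 4) (L3c 4))
    ⟨0, 1, 1, 0, 1, 2, 1, 2, 2, 0, 1, 1⟩ = true := by decide +kernel
theorem hr2_3 : (Tree.leaf 255 37 19 7 7).ok (4 + 1) 10000 22360 22361 (baseE1 f2 f5 a2 b2 (1, 4) (1, 249) (L2c 4) (L3c 4))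
    ⟨0, 1, 2, 1, 2, 2, 1, 2, 2, 0, 1, 2⟩ = true := by decide +kernel
theorem hr2_4 : (Tree.leaf 255 37 19 7 7).ok (4 + 1) 10000 22360 22361 (baseE1 f2 f5 a2 b2 (1, 4) (1, 249) (L2c 4) (L3c 4))
    ⟨0, 1, 2, 1, 2, 2, 1, 2, 2, 1, 2, 2⟩ = true := by decide +kernel
theorem hr2_5 : (Tree.leaf 254 37 19 7 7).ok (4 + 1) 10000 22360 22361 (baseE1 f2 f5 a2 b2 (1, 4) (1, 249) (L2c 4) (L3c 4))
    ⟨1, 2, 2, 1, 2, 2, 1, 2, 2, 0, 1, 1⟩ = true := by decide +kernel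
theorem hr2 : r2.ok (4 + 1) 10000 22360 22361 (baseE1 f2 f5 a2 b2 (1, 4) (1, 249) (L2c 4) (L3c 4)) unitBx = true :=
  (Tree.ok_s2 (Tree.ok_s0 hr2_0 hr2_1) (Tree.ok_s1 hr2_2 (Tree.ok_s0 (Tree.ok_s3 hr2_3 hr2_4) hr2_5)))

def p3 : Tree := (.s0 (.leaf 205 6 17 1 1) (.s0 (.leaf 213 6 17 1 1) (.s1 (.s0 (.leaf 234 6 17 1 1) (.leaf 234 6 17 1 1)) (.leaf 231 6 17 1 1))))
theorem hp3 : p3.ok 0 1 0 0 (A1 (448, 999) f3 a3 b3) unitBx = true := by decide +kernel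

def q3 : Tree := (.s1 (.s0 (.leaf 349 6 28 1 1) (.s0 (.leaf 350 6 28 1 1) (.s1 (.s0 (.leaf 374 6 28 1 1) (.leaf 375 6 28 1 1)) (.leaf 381 6 28 1 1)))) (.leaf 360 6 28 1 1))
theorem hq3 : q3.ok 0 1 0 0 (A2 (896, 999) f3 a3 b3) unitBx = true := by decide +kernel

def r3 : Tree := (.s0 (.leaf 198 37 19 7 7) (.leaf 205 37 19 7 7))
theorem hr3_0 : (Tree.leaf 198 37 19 7 7).ok (4 + 1) 10000 22360 22361 (stepE1 f3 f2 f5 a3 b3 (1, 4) (L2c 4) (L3c 4))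
    ⟨0, 1, 2, 0, 1, 1, 0, 1, 1, 0, 1, 1⟩ = true := by decide +kernel
theorem hr3_1 : (Tree.leaf 205 37 19 7 7).ok (4 + 1) 10000 22360 22361 (stepE1 f3 f2 f5 a3 b3 (1, 4) (L2c 4) (L3c 4))
    ⟨1, 2, 2, 0, 1, 1, 0, 1, 1, 0, 1, 1⟩ = true := by decide +kernel
theorem hr3 : r3.ok (4 + 1) 10000 22360 22361 (stepE1 f3 f2 f5 a3 b3 (1, 4) (L2c 4) (L3c 4)) unitBx = true :=
  (Tree.ok_s0 hr3_0 hr3_1)

def s3 : Tree := (.s1 (.leaf 180 37 19 7 7) (.s0 (.leaf 216 37 19 7 7) (.s0 (.leaf 256 37 19 7 7) (.s1 (.leaf 277 37 19 7 7) (.leaf 280 37 19 7 7)))))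
theorem hs3_0 : (Tree.leaf 180 37 19 7 7).ok (4 + 1) 10000 22360 22361 (stepE2 f3 f2 f5 a3 b3 (1, 4) (L2c 4) (L3c 4))
    ⟨0, 1, 1, 0, 1, 2, 0, 1, 1, 0, 1, 1⟩ = true := by decide +kernel
theorem hs3_1 : (Tree.leaf 216 37 19 7 7).ok (4 + 1) 10000 22360 22361 (stepE2 f3 f2 f5 a3 b3 (1, 4) (L2c 4) (L3c 4))
    ⟨0, 1, 2, 1, 2, 2, 0, 1, 1, 0, 1, 1⟩ = true := by decide +kernel
theorem hs3_2 : (Tree.leaf 256 37 19 7 7).ok (4 + 1) 10000 22360 22361 (stepE2 f3 f2 f5 a3 b3 (1, 4) (L2c 4) (L3c 4))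
    ⟨2, 3, 4, 1, 2, 2, 0, 1, 1, 0, 1, 1⟩ = true := by decide +kernel
theorem hs3_3 : (Tree.leaf 277 37 19 7 7).ok (4 + 1) 10000 22360 22361 (stepE2 f3 f2 f5 a3 b3 (1, 4) (L2c 4) (L3c 4))
    ⟨3, 4, 4, 2, 3, 4, 0, 1, 1, 0, 1, 1⟩ = true := by decide +kernel
theorem hs3_4 : (Tree.leaf 280 37 19 7 7).ok (4 + 1) 10000 22360 22361 (stepE2 f3 f2 f5 a3 b3 (1, 4) (L2c 4) (L3c 4))
    ⟨3, 4, 4, 3, 4, 4, 0, 1, 1, 0, 1, 1⟩ = true := by decide +kernel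
theorem hs3 : s3.ok (4 + 1) 10000 22360 22361 (stepE2 f3 f2 f5 a3 b3 (1, 4) (L2c 4) (L3c 4)) unitBx = true :=
  (Tree.ok_s1 hs3_0 (Tree.ok_s0 hs3_1 (Tree.ok_s0 hs3_2 (Tree.ok_s1 hs3_3 hs3_4))))

def p4 : Tree := (.s0 (.leaf 206 6 17 1 1) (.s0 (.leaf 214 6 17 1 1) (.s1 (.s0 (.leaf 234 6 17 1 1) (.leaf 235 6 17 1 1)) (.leaf 232 6 17 1 1))))
theorem hp4 : p4.ok 0 1 0 0 (A1 (448, 999) f4 a4 b4) unitBx = true := by decide +kernel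

def q4 : Tree := (.s1 (.s0 (.leaf 349 6 28 1 1) (.s0 (.leaf 350 6 28 1 1) (.s0 (.leaf 351 6 28 1 1) (.leaf 351 6 28 1 1)))) (.leaf 361 6 28 1 1))
theorem hq4 : q4.ok 0 1 0 0 (A2 (896, 999) f4 a4 b4) unitBx = true := by decide +kernel

def r4 : Tree := (.s1 (.leaf 182 37 19 7 7) (.s0 (.leaf 215 37 19 7 7) (.leaf 223 37 19 7 7)))
theorem hr4_0 : (Tree.leaf 182 37 19 7 7).ok (4 + 1) 10000 22360 22361 (stepE1 f4 f3 f5 a4 b4 (1, 4) (L2c 4) (L3c 4))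
    ⟨0, 1, 1, 0, 1, 2, 0, 1, 1, 0, 1, 1⟩ = true := by decide +kernel
theorem hr4_1 : (Tree.leaf 215 37 19 7 7).ok (4 + 1) 10000 22360 22361 (stepE1 f4 f3 f5 a4 b4 (1, 4) (L2c 4) (L3c 4))
    ⟨0, 1, 2, 1, 2, 2, 0, 1, 1, 0, 1, 1⟩ = true := by decide +kernel
theorem hr4_2 : (Tree.leaf 223 37 19 7 7).ok (4 + 1) 10000 22360 22361 (stepE1 f4 f3 f5 a4 b4 (1, 4) (L2c 4) (L3c 4))
    ⟨1, 2, 2, 1, 2, 2, 0, 1, 1, 0, 1, 1⟩ = true := by decide +kernel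
theorem hr4 : r4.ok (4 + 1) 10000 22360 22361 (stepE1 f4 f3 f5 a4 b4 (1, 4) (L2c 4) (L3c 4)) unitBx = true :=
  (Tree.ok_s1 hr4_0 (Tree.ok_s0 hr4_1 hr4_2))

def s4 : Tree := (.s0 (.leaf 197 37 19 7 7) (.s1 (.leaf 219 37 19 7 7) (.leaf 222 37 19 7 7)))
theorem hs4_0 : (Tree.leaf 197 37 19 7 7).ok (4 + 1) 10000 22360 22361 (stepE2 f4 f3 f5 a4 b4 (1, 4) (L2c 4) (L3c 4))
    ⟨0, 1, 2, 0, 1, 1, 0, 1, 1, 0, 1, 1⟩ = true := by decide +kernel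
theorem hs4_1 : (Tree.leaf 219 37 19 7 7).ok (4 + 1) 10000 22360 22361 (stepE2 f4 f3 f5 a4 b4 (1, 4) (L2c 4) (L3c 4))
    ⟨1, 2, 2, 0, 1, 2, 0, 1, 1, 0, 1, 1⟩ = true := by decide +kernel
theorem hs4_2 : (Tree.leaf 222 37 19 7 7).ok (4 + 1) 10000 22360 22361 (stepE2 f4 f3 f5 a4 b4 (1, 4) (L2c 4) (L3c 4))
    ⟨1, 2, 2, 1, 2, 2, 0, 1, 1, 0, 1, 1⟩ = true := by decide +kernel
theorem hs4 : s4.ok (4 + 1) 10000 22360 22361 (stepE2 f4 f3 f5 a4 b4 (1, 4) (L2c 4) (L3c 4)) unitBx = true :=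
  (Tree.ok_s0 hs4_0 (Tree.ok_s1 hs4_1 hs4_2))

def p5 : Tree := (.s0 (.s0 (.leaf 209 6 17 1 1) (.s0 (.leaf 217 6 17 1 1) (.leaf 218 6 17 1 1))) (.s0 (.leaf 214 6 17 1 1) (.s1 (.s0 (.leaf 235 6 17 1 1) (.s1 (.leaf 251 6 17 1 1) (.leaf 252 6 17 1 1))) (.leaf 233 6 17 1 1))))
theorem hp5 : p5.ok 0 1 0 0 (A1 (448, 999) f5 a5 b5) unitBx = true := by decide +kernel

def q5 : Tree := (.s0 (.s0 (.leaf 327 6 28 1 1) (.s0 (.leaf 328 6 28 1 1) (.s1 (.leaf 350 6 28 1 1) (.leaf 361 6 28 1 1)))) (.s1 (.s0 (.s0 (.leaf 350 6 28 1 1) (.leaf 351 6 28 1 1)) (.s1 (.s0 (.leaf 375 6 28 1 1) (.s1 (.leaf 401 6 28 1 1) (.leaf 404 6 28 1 1))) (.leaf 381 6 28 1 1))) (.leaf 361 6 28 1 1)))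
theorem hq5 : q5.ok 0 1 0 0 (A2 (896, 999) f5 a5 b5) unitBx = true := by decide +kernel

def r5 : Tree := (.s1 (.leaf 183 37 19 7 7) (.s0 (.leaf 216 37 19 7 7) (.s0 (.leaf 257 37 19 7 7) (.leaf 263 37 19 7 7))))
theorem hr5_0 : (Tree.leaf 183 37 19 7 7).ok (4 + 1) 10000 22360 22361 (stepE1 f5 f4 f5 a5 b5 (1, 4) (L2c 4) (L3c 4))
    ⟨0, 1, 1, 0, 1, 2, 0, 1, 1, 0, 1, 1⟩ = true := by decide +kernel
theorem hr5_1 : (Tree.leaf 216 37 19 7 7).ok (4 + 1) 10000 22360 22361 (stepE1 f5 f4 f5 a5 b5 (1, 4) (L2c 4) (L3c 4))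
    ⟨0, 1, 2, 1, 2, 2, 0, 1, 1, 0, 1, 1⟩ = true := by decide +kernel
theorem hr5_2 : (Tree.leaf 257 37 19 7 7).ok (4 + 1) 10000 22360 22361 (stepE1 f5 f4 f5 a5 b5 (1, 4) (L2c 4) (L3c 4))
    ⟨2, 3, 4, 1, 2, 2, 0, 1, 1, 0, 1, 1⟩ = true := by decide +kernel
theorem hr5_3 : (Tree.leaf 263 37 19 7 7).ok (4 + 1) 10000 22360 22361 (stepE1 f5 f4 f5 a5 b5 (1, 4) (L2c 4) (L3c 4))
    ⟨3, 4, 4, 1, 2, 2, 0, 1, 1, 0, 1, 1⟩ = true := by decide +kernel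
theorem hr5 : r5.ok (4 + 1) 10000 22360 22361 (stepE1 f5 f4 f5 a5 b5 (1, 4) (L2c 4) (L3c 4)) unitBx = true :=
  (Tree.ok_s1 hr5_0 (Tree.ok_s0 hr5_1 (Tree.ok_s0 hr5_2 hr5_3)))

def s5 : Tree := (.s0 (.leaf 197 37 19 7 7) (.s1 (.leaf 220 37 19 7 7) (.leaf 222 37 19 7 7)))
theorem hs5_0 : (Tree.leaf 197 37 19 7 7).ok (4 + 1) 10000 22360 22361 (stepE2 f5 f4 f5 a5 b5 (1, 4) (L2c 4) (L3c 4))
    ⟨0, 1, 2, 0, 1, 1, 0, 1, 1, 0, 1, 1⟩ = true := by decide +kernel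
theorem hs5_1 : (Tree.leaf 220 37 19 7 7).ok (4 + 1) 10000 22360 22361 (stepE2 f5 f4 f5 a5 b5 (1, 4) (L2c 4) (L3c 4))
    ⟨1, 2, 2, 0, 1, 2, 0, 1, 1, 0, 1, 1⟩ = true := by decide +kernel
theorem hs5_2 : (Tree.leaf 222 37 19 7 7).ok (4 + 1) 10000 22360 22361 (stepE2 f5 f4 f5 a5 b5 (1, 4) (L2c 4) (L3c 4))
    ⟨1, 2, 2, 1, 2, 2, 0, 1, 1, 0, 1, 1⟩ = true := by decide +kernel
theorem hs5 : s5.ok (4 + 1) 10000 22360 22361 (stepE2 f5 f4 f5 a5 b5 (1, 4) (L2c 4) (L3c 4)) unitBx = true :=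
  (Tree.ok_s0 hs5_0 (Tree.ok_s1 hs5_1 hs5_2))

def tm : Tree := (.leaf 71 16 16 6 1)
theorem hm : tm.ok 0 1 0 0 (monoE f5) unitBx = true := by decide +kernel

def F : ℕ → CL
  | 2 => f2
  | 3 => f3
  | 4 => f4
  | _ => f5

theorem method (θ : ℝ) (t0 : 0 < θ) (t1 : θ ≤ 1) :
    ∃ (wd cm B : ℝ) (Ψ : ℕ → ℝ → ℝ → ℝ → ℝ),
      Method (4 + 1) (lamd (4 + 1) * θ) wd cm B Ψ := by
  refine ⟨_, _, _, _, method_of 4 (by norm_num) F (1, 249) (by norm_num [cv])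
    (mono_of_box _ (box_zero _ _ hm))
    (base_cert 4 10000 22360 22361 (by norm_num) f2 f5 a2 b2 (1, 249) p2 q2 r2
      (by norm_num) (by norm_num) (by decide) (by decide) (by decide) hp2 hq2 hr2)
    ?_ θ t0 t1⟩
  intro k hk hk'
  have hk2 : k ≤ 4 := by omega
  interval_cases k
  · exact step_cert 4 10000 22360 22361 (by norm_num) f3 f2 f5 a3 b3 (448, 999) (896, 999)
      p3 q3 r3 s3 (by norm_num) (by norm_num) (by decide) (by decide) (by decide)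
      (by norm_num [cv]) (by norm_num [cv]) (by norm_num [cv]) (by norm_num [cv])
      (by norm_num [cv]) hp3 hq3 hr3 hs3
  · exact step_cert 4 10000 22360 22361 (by norm_num) f4 f3 f5 a4 b4 (448, 999) (896, 999)
      p4 q4 r4 s4 (by norm_num) (by norm_num) (by decide) (by decide) (by decide)
      (by norm_num [cv]) (by norm_num [cv]) (by norm_num [cv]) (by norm_num [cv])
      (by norm_num [cv]) hp4 hq4 hr4 hs4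
  · exact step_cert 4 10000 22360 22361 (by norm_num) f5 f4 f5 a5 b5 (448, 999) (896, 999)
      p5 q5 r5 s5 (by norm_num) (by norm_num) (by decide) (by decide) (by decide)
      (by norm_num [cv]) (by norm_num [cv]) (by norm_num [cv]) (by norm_num [cv])
      (by norm_num [cv]) hp5 hq5 hr5 hs5

end Vale.Agent.P154.C5
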