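import Vale.Agent.P154.Cert

/-! Certificates for `d = 6`. -/

namespace Vale.Agent.P154.C6

def f2 : CL := [(996, 4095), (-4131, 4095), (8535, 4095), (-10148, 4095), (6235, 4095), (-1487, 4095)]
def a2 : CL := [(30755, 4095), (-106468, 4095), (120801, 4095), (-39296, 4095)]
def b2 : CL := [(-26538, 4095), (156069, 4095), (-245760, 4095), (95858, 4095)]
def f3 : CL := [(600, 4095), (-1849, 4095), (2801, 4095), (-2882, 4095), (1757, 4095), (-427, 4095)]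
def a3 : CL := [(1713, 4095), (-4119, 4095), (4675, 4095), (1744, 4095)]
def b3 : CL := [(-2078, 4095), (13198, 4095), (-23634, 4095), (510, 4095)]
def f4 : CL := [(540, 4095), (-1761, 4095), (2683, 4095), (-2540, 4095), (1375, 4095), (-297, 4095)]
def a4 : CL := [(16, 4095), (3379, 4095), (-5893, 4095), (5608, 4095)]
def b4 : CL := [(0, 4095), (-6543, 4095), (19129, 4095), (-22271, 4095)]
def f5 : CL := [(501, 4095), (-1881, 4095), (3386, 4095), (-3586, 4095), (2033, 4095), (-453, 4095)]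
def a5 : CL := [(69, 4095), (3476, 4095), (-7398, 4095), (6542, 4095)]
def b5 : CL := [(130, 4095), (-8925, 4095), (29270, 4095), (-29964, 4095)]
def f6 : CL := [(461, 4095), (-2019, 4095), (4326, 4095), (-5219, 4095), (3231, 4095), (-780, 4095)]
def a6 : CL := [(59, 4095), (3934, 4095), (-10073, 4095), (8664, 4095)]
def b6 : CL := [(105, 4095), (-9927, 4095), (38819, 4095), (-40794, 4095)]

def p2 : Tree := (.s0 (.leaf 90 6 17 1 1) (.s0 (.leaf 97 6 17 1 1) (.s0 (.leaf 103 6 17 1 1) (.s0 (.leaf 108 6 17 1 1) (.leaf 108 6 17 1 1)))))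
theorem hp2 : p2.ok 0 1 0 0 (A1 (1, 5) f2 a2 b2) unitBx = true := by decide +kernel

def q2 : Tree := (.s0 (.leaf 122 6 28 1 1) (.s1 (.s0 (.leaf 148 6 28 1 1) (.s0 (.leaf 149 6 28 1 1) (.s1 (.s0 (.leaf 175 6 28 1 1) (.leaf 175 6 28 1 1)) (.leaf 178 6 28 1 1)))) (.leaf 154 6 28 1 1)))
theorem hq2 : q2.ok 0 1 0 0 (A2 (2, 5) f2 a2 b2) unitBx = true := by decide +kernel

def r2 : Tree := (.s1 (.leaf 221 37 19 7 7) (.s0 (.s2 (.leaf 262 37 19 7 7) (.s3 (.leaf 268 37 19 7 7) (.leaf 268 37 19 7 7))) (.leaf 261 37 19 7 7)))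
theorem hr2_0 : (Tree.leaf 221 37 19 7 7).ok (5 + 1) 10000 24494 24495 (baseE1 f2 f6 a2 b2 (1, 5) (1, 249) (L2c 5) (L3c 5))
    ⟨0, 1, 1, 0, 1, 2, 0, 1, 1, 0, 1, 1⟩ = true := by decide +kernel
theorem hr2_1 : (Tree.leaf 262 37 19 7 7).ok (5 + 1) 10000 24494 24495 (baseE1 f2 f6 a2 b2 (1, 5) (1, 249) (L2c 5) (L3c 5))
    ⟨0, 1, 2, 1, 2, 2, 0, 1, 2, 0, 1, 1⟩ = true := by decide +kernel
theorem hr2_2 : (Tree.leaf 268 37 19 7 7).ok (5 + 1) 10000 24494 24495 (baseE1 f2 f6 a2 b2 (1, 5) (1, 249) (L2c 5) (L3c 5))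
    ⟨0, 1, 2, 1, 2, 2, 1, 2, 2, 0, 1, 2⟩ = true := by decide +kernel
theorem hr2_3 : (Tree.leaf 268 37 19 7 7).ok (5 + 1) 10000 24494 24495 (baseE1 f2 f6 a2 b2 (1, 5) (1, 249) (L2c 5) (L3c 5))
    ⟨0, 1, 2, 1, 2, 2, 1, 2, 2, 1, 2, 2⟩ = true := by decide +kernel
theorem hr2_4 : (Tree.leaf 261 37 19 7 7).ok (5 + 1) 10000 24494 24495 (baseE1 f2 f6 a2 b2 (1, 5) (1, 249) (L2c 5) (L3c 5))
    ⟨1, 2, 2, 1, 2, 2, 0, 1, 1, 0, 1, 1⟩ = true := by decide +kernel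
theorem hr2 : r2.ok (5 + 1) 10000 24494 24495 (baseE1 f2 f6 a2 b2 (1, 5) (1, 249) (L2c 5) (L3c 5)) unitBx = true :=
  (Tree.ok_s1 hr2_0 (Tree.ok_s0 (Tree.ok_s2 hr2_1 (Tree.ok_s3 hr2_2 hr2_3)) hr2_4))

def p3 : Tree := (.s0 (.leaf 205 6 17 1 1) (.s0 (.leaf 212 6 17 1 1) (.s1 (.s0 (.leaf 233 6 17 1 1) (.leaf 234 6 17 1 1)) (.leaf 231 6 17 1 1))))
theorem hp3 : p3.ok 0 1 0 0 (A1 (409, 999) f3 a3 b3) unitBx = true := by decide +kernel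

def q3 : Tree := (.s1 (.s0 (.leaf 348 6 28 1 1) (.s0 (.leaf 349 6 28 1 1) (.s1 (.s0 (.leaf 374 6 28 1 1) (.leaf 375 6 28 1 1)) (.leaf 380 6 28 1 1)))) (.leaf 360 6 28 1 1))
theorem hq3 : q3.ok 0 1 0 0 (A2 (818, 999) f3 a3 b3) unitBx = true := by decide +kernel

def r3 : Tree := (.s0 (.leaf 201 37 19 7 7) (.leaf 208 37 19 7 7))
theorem hr3_0 : (Tree.leaf 201 37 19 7 7).ok (5 + 1) 10000 24494 24495 (stepE1 f3 f2 f6 a3 b3 (1, 5) (L2c 5) (L3c 5))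
    ⟨0, 1, 2, 0, 1, 1, 0, 1, 1, 0, 1, 1⟩ = true := by decide +kernel
theorem hr3_1 : (Tree.leaf 208 37 19 7 7).ok (5 + 1) 10000 24494 24495 (stepE1 f3 f2 f6 a3 b3 (1, 5) (L2c 5) (L3c 5))
    ⟨1, 2, 2, 0, 1, 1, 0, 1, 1, 0, 1, 1⟩ = true := by decide +kernel
theorem hr3 : r3.ok (5 + 1) 10000 24494 24495 (stepE1 f3 f2 f6 a3 b3 (1, 5) (L2c 5) (L3c 5)) unitBx = true :=
  (Tree.ok_s0 hr3_0 hr3_1)

def s3 : Tree := (.s1 (.leaf 183 37 19 7 7) (.s0 (.s1 (.leaf 237 37 19 7 7) (.leaf 237 37 19 7 7)) (.s0 (.leaf 259 37 19 7 7) (.s1 (.leaf 279 37 19 7 7) (.leaf 282 37 19 7 7)))))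
theorem hs3_0 : (Tree.leaf 183 37 19 7 7).ok (5 + 1) 10000 24494 24495 (stepE2 f3 f2 f6 a3 b3 (1, 5) (L2c 5) (L3c 5))
    ⟨0, 1, 1, 0, 1, 2, 0, 1, 1, 0, 1, 1⟩ = true := by decide +kernel
theorem hs3_1 : (Tree.leaf 237 37 19 7 7).ok (5 + 1) 10000 24494 24495 (stepE2 f3 f2 f6 a3 b3 (1, 5) (L2c 5) (L3c 5))
    ⟨0, 1, 2, 2, 3, 4, 0, 1, 1, 0, 1, 1⟩ = true := by decide +kernel
theorem hs3_2 : (Tree.leaf 237 37 19 7 7).ok (5 + 1) 10000 24494 24495 (stepE2 f3 f2 f6 a3 b3 (1, 5) (L2c 5) (L3c 5))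
    ⟨0, 1, 2, 3, 4, 4, 0, 1, 1, 0, 1, 1⟩ = true := by decide +kernel
theorem hs3_3 : (Tree.leaf 259 37 19 7 7).ok (5 + 1) 10000 24494 24495 (stepE2 f3 f2 f6 a3 b3 (1, 5) (L2c 5) (L3c 5))
    ⟨2, 3, 4, 1, 2, 2, 0, 1, 1, 0, 1, 1⟩ = true := by decide +kernel
theorem hs3_4 : (Tree.leaf 279 37 19 7 7).ok (5 + 1) 10000 24494 24495 (stepE2 f3 f2 f6 a3 b3 (1, 5) (L2c 5) (L3c 5))
    ⟨3, 4, 4, 2, 3, 4, 0, 1, 1, 0, 1, 1⟩ = true := by decide +kernel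
theorem hs3_5 : (Tree.leaf 282 37 19 7 7).ok (5 + 1) 10000 24494 24495 (stepE2 f3 f2 f6 a3 b3 (1, 5) (L2c 5) (L3c 5))
    ⟨3, 4, 4, 3, 4, 4, 0, 1, 1, 0, 1, 1⟩ = true := by decide +kernel
theorem hs3 : s3.ok (5 + 1) 10000 24494 24495 (stepE2 f3 f2 f6 a3 b3 (1, 5) (L2c 5) (L3c 5)) unitBx = true :=
  (Tree.ok_s1 hs3_0 (Tree.ok_s0 (Tree.ok_s1 hs3_1 hs3_2) (Tree.ok_s0 hs3_3 (Tree.ok_s1 hs3_4 hs3_5))))

def p4 : Tree := (.s0 (.leaf 205 6 17 1 1) (.s0 (.leaf 213 6 17 1 1) (.leaf 214 6 17 1 1)))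
theorem hp4 : p4.ok 0 1 0 0 (A1 (409, 999) f4 a4 b4) unitBx = true := by decide +kernel

def q4 : Tree := (.s1 (.s0 (.leaf 348 6 28 1 1) (.s0 (.leaf 349 6 28 1 1) (.leaf 350 6 28 1 1))) (.leaf 359 6 28 1 1))
theorem hq4 : q4.ok 0 1 0 0 (A2 (818, 999) f4 a4 b4) unitBx = true := by decide +kernel

def r4 : Tree := (.s0 (.leaf 200 37 19 7 7) (.s0 (.leaf 241 37 19 7 7) (.leaf 245 37 19 7 7)))
theorem hr4_0 : (Tree.leaf 200 37 19 7 7).ok (5 + 1) 10000 24494 24495 (stepE1 f4 f3 f6 a4 b4 (1, 5) (L2c 5) (L3c 5))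
    ⟨0, 1, 2, 0, 1, 1, 0, 1, 1, 0, 1, 1⟩ = true := by decide +kernel
theorem hr4_1 : (Tree.leaf 241 37 19 7 7).ok (5 + 1) 10000 24494 24495 (stepE1 f4 f3 f6 a4 b4 (1, 5) (L2c 5) (L3c 5))
    ⟨2, 3, 4, 0, 1, 1, 0, 1, 1, 0, 1, 1⟩ = true := by decide +kernel
theorem hr4_2 : (Tree.leaf 245 37 19 7 7).ok (5 + 1) 10000 24494 24495 (stepE1 f4 f3 f6 a4 b4 (1, 5) (L2c 5) (L3c 5))
    ⟨3, 4, 4, 0, 1, 1, 0, 1, 1, 0, 1, 1⟩ = true := by decide +kernel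
theorem hr4 : r4.ok (5 + 1) 10000 24494 24495 (stepE1 f4 f3 f6 a4 b4 (1, 5) (L2c 5) (L3c 5)) unitBx = true :=
  (Tree.ok_s0 hr4_0 (Tree.ok_s0 hr4_1 hr4_2))

def s4 : Tree := (.s0 (.s1 (.leaf 218 37 19 7 7) (.leaf 218 37 19 7 7)) (.s1 (.leaf 222 37 19 7 7) (.leaf 224 37 19 7 7)))
theorem hs4_0 : (Tree.leaf 218 37 19 7 7).ok (5 + 1) 10000 24494 24495 (stepE2 f4 f3 f6 a4 b4 (1, 5) (L2c 5) (L3c 5))
    ⟨0, 1, 2, 0, 1, 2, 0, 1, 1, 0, 1, 1⟩ = true := by decide +kernel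
theorem hs4_1 : (Tree.leaf 218 37 19 7 7).ok (5 + 1) 10000 24494 24495 (stepE2 f4 f3 f6 a4 b4 (1, 5) (L2c 5) (L3c 5))
    ⟨0, 1, 2, 1, 2, 2, 0, 1, 1, 0, 1, 1⟩ = true := by decide +kernel
theorem hs4_2 : (Tree.leaf 222 37 19 7 7).ok (5 + 1) 10000 24494 24495 (stepE2 f4 f3 f6 a4 b4 (1, 5) (L2c 5) (L3c 5))
    ⟨1, 2, 2, 0, 1, 2, 0, 1, 1, 0, 1, 1⟩ = true := by decide +kernel
theorem hs4_3 : (Tree.leaf 224 37 19 7 7).ok (5 + 1) 10000 24494 24495 (stepE2 f4 f3 f6 a4 b4 (1, 5) (L2c 5) (L3c 5))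
    ⟨1, 2, 2, 1, 2, 2, 0, 1, 1, 0, 1, 1⟩ = true := by decide +kernel
theorem hs4 : s4.ok (5 + 1) 10000 24494 24495 (stepE2 f4 f3 f6 a4 b4 (1, 5) (L2c 5) (L3c 5)) unitBx = true :=
  (Tree.ok_s0 (Tree.ok_s1 hs4_0 hs4_1) (Tree.ok_s1 hs4_2 hs4_3))

def p5 : Tree := (.s0 (.leaf 205 6 17 1 1) (.s0 (.leaf 213 6 17 1 1) (.s0 (.leaf 219 6 17 1 1) (.s1 (.leaf 235 6 17 1 1) (.leaf 237 6 17 1 1)))))
theorem hp5 : p5.ok 0 1 0 0 (A1 (409, 999) f5 a5 b5) unitBx = true := by decide +kernel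

def q5 : Tree := (.s1 (.s0 (.leaf 348 6 28 1 1) (.s0 (.leaf 350 6 28 1 1) (.s0 (.leaf 350 6 28 1 1) (.s1 (.leaf 375 6 28 1 1) (.leaf 380 6 28 1 1))))) (.leaf 359 6 28 1 1))
theorem hq5 : q5.ok 0 1 0 0 (A2 (818, 999) f5 a5 b5) unitBx = true := by decide +kernel

def r5 : Tree := (.s1 (.leaf 185 37 19 7 7) (.s0 (.leaf 218 37 19 7 7) (.s1 (.leaf 244 37 19 7 7) (.s0 (.leaf 278 37 19 7 7) (.leaf 283 37 19 7 7)))))
theorem hr5_0 : (Tree.leaf 185 37 19 7 7).ok (5 + 1) 10000 24494 24495 (stepE1 f5 f4 f6 a5 b5 (1, 5) (L2c 5) (L3c 5))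
    ⟨0, 1, 1, 0, 1, 2, 0, 1, 1, 0, 1, 1⟩ = true := by decide +kernel
theorem hr5_1 : (Tree.leaf 218 37 19 7 7).ok (5 + 1) 10000 24494 24495 (stepE1 f5 f4 f6 a5 b5 (1, 5) (L2c 5) (L3c 5))
    ⟨0, 1, 2, 1, 2, 2, 0, 1, 1, 0, 1, 1⟩ = true := by decide +kernel
theorem hr5_2 : (Tree.leaf 244 37 19 7 7).ok (5 + 1) 10000 24494 24495 (stepE1 f5 f4 f6 a5 b5 (1, 5) (L2c 5) (L3c 5))
    ⟨1, 2, 2, 2, 3, 4, 0, 1, 1, 0, 1, 1⟩ = true := by decide +kernel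
theorem hr5_3 : (Tree.leaf 278 37 19 7 7).ok (5 + 1) 10000 24494 24495 (stepE1 f5 f4 f6 a5 b5 (1, 5) (L2c 5) (L3c 5))
    ⟨2, 3, 4, 3, 4, 4, 0, 1, 1, 0, 1, 1⟩ = true := by decide +kernel
theorem hr5_4 : (Tree.leaf 283 37 19 7 7).ok (5 + 1) 10000 24494 24495 (stepE1 f5 f4 f6 a5 b5 (1, 5) (L2c 5) (L3c 5))
    ⟨3, 4, 4, 3, 4, 4, 0, 1, 1, 0, 1, 1⟩ = true := by decide +kernel
theorem hr5 : r5.ok (5 + 1) 10000 24494 24495 (stepE1 f5 f4 f6 a5 b5 (1, 5) (L2c 5) (L3c 5)) unitBx = true :=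
  (Tree.ok_s1 hr5_0 (Tree.ok_s0 hr5_1 (Tree.ok_s1 hr5_2 (Tree.ok_s0 hr5_3 hr5_4))))

def s5 : Tree := (.s0 (.leaf 200 37 19 7 7) (.s1 (.leaf 222 37 19 7 7) (.leaf 224 37 19 7 7)))
theorem hs5_0 : (Tree.leaf 200 37 19 7 7).ok (5 + 1) 10000 24494 24495 (stepE2 f5 f4 f6 a5 b5 (1, 5) (L2c 5) (L3c 5))
    ⟨0, 1, 2, 0, 1, 1, 0, 1, 1, 0, 1, 1⟩ = true := by decide +kernel
theorem hs5_1 : (Tree.leaf 222 37 19 7 7).ok (5 + 1) 10000 24494 24495 (stepE2 f5 f4 f6 a5 b5 (1, 5) (L2c 5) (L3c 5))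
    ⟨1, 2, 2, 0, 1, 2, 0, 1, 1, 0, 1, 1⟩ = true := by decide +kernel
theorem hs5_2 : (Tree.leaf 224 37 19 7 7).ok (5 + 1) 10000 24494 24495 (stepE2 f5 f4 f6 a5 b5 (1, 5) (L2c 5) (L3c 5))
    ⟨1, 2, 2, 1, 2, 2, 0, 1, 1, 0, 1, 1⟩ = true := by decide +kernel
theorem hs5 : s5.ok (5 + 1) 10000 24494 24495 (stepE2 f5 f4 f6 a5 b5 (1, 5) (L2c 5) (L3c 5)) unitBx = true :=
  (Tree.ok_s0 hs5_0 (Tree.ok_s1 hs5_1 hs5_2))

def p6 : Tree := (.s0 (.s0 (.leaf 209 6 17 1 1) (.s0 (.leaf 216 6 17 1 1) (.leaf 217 6 17 1 1))) (.s0 (.leaf 214 6 17 1 1) (.s1 (.s0 (.leaf 234 6 17 1 1) (.leaf 235 6 17 1 1)) (.leaf 232 6 17 1 1))))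
theorem hp6 : p6.ok 0 1 0 0 (A1 (409, 999) f6 a6 b6) unitBx = true := by decide +kernel

def q6 : Tree := (.s0 (.s0 (.leaf 326 6 28 1 1) (.s0 (.leaf 327 6 28 1 1) (.s0 (.leaf 327 6 28 1 1) (.leaf 327 6 28 1 1)))) (.s1 (.s0 (.leaf 350 6 28 1 1) (.s1 (.s0 (.leaf 375 6 28 1 1) (.s1 (.leaf 401 6 28 1 1) (.leaf 404 6 28 1 1))) (.leaf 380 6 28 1 1))) (.leaf 360 6 28 1 1)))
theorem hq6 : q6.ok 0 1 0 0 (A2 (818, 999) f6 a6 b6) unitBx = true := by decide +kernel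

def r6 : Tree := (.s1 (.leaf 186 37 19 7 7) (.s0 (.leaf 219 37 19 7 7) (.s1 (.leaf 244 37 19 7 7) (.leaf 245 37 19 7 7))))
theorem hr6_0 : (Tree.leaf 186 37 19 7 7).ok (5 + 1) 10000 24494 24495 (stepE1 f6 f5 f6 a6 b6 (1, 5) (L2c 5) (L3c 5))
    ⟨0, 1, 1, 0, 1, 2, 0, 1, 1, 0, 1, 1⟩ = true := by decide +kernel
theorem hr6_1 : (Tree.leaf 219 37 19 7 7).ok (5 + 1) 10000 24494 24495 (stepE1 f6 f5 f6 a6 b6 (1, 5) (L2c 5) (L3c 5))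
    ⟨0, 1, 2, 1, 2, 2, 0, 1, 1, 0, 1, 1⟩ = true := by decide +kernel
theorem hr6_2 : (Tree.leaf 244 37 19 7 7).ok (5 + 1) 10000 24494 24495 (stepE1 f6 f5 f6 a6 b6 (1, 5) (L2c 5) (L3c 5))
    ⟨1, 2, 2, 2, 3, 4, 0, 1, 1, 0, 1, 1⟩ = true := by decide +kernel
theorem hr6_3 : (Tree.leaf 245 37 19 7 7).ok (5 + 1) 10000 24494 24495 (stepE1 f6 f5 f6 a6 b6 (1, 5) (L2c 5) (L3c 5))
    ⟨1, 2, 2, 3, 4, 4, 0, 1, 1, 0, 1, 1⟩ = true := by decide +kernel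
theorem hr6 : r6.ok (5 + 1) 10000 24494 24495 (stepE1 f6 f5 f6 a6 b6 (1, 5) (L2c 5) (L3c 5)) unitBx = true :=
  (Tree.ok_s1 hr6_0 (Tree.ok_s0 hr6_1 (Tree.ok_s1 hr6_2 hr6_3)))

def s6 : Tree := (.s0 (.leaf 200 37 19 7 7) (.leaf 205 37 19 7 7))
theorem hs6_0 : (Tree.leaf 200 37 19 7 7).ok (5 + 1) 10000 24494 24495 (stepE2 f6 f5 f6 a6 b6 (1, 5) (L2c 5) (L3c 5))
    ⟨0, 1, 2, 0, 1, 1, 0, 1, 1, 0, 1, 1⟩ = true := by decide +kernel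
theorem hs6_1 : (Tree.leaf 205 37 19 7 7).ok (5 + 1) 10000 24494 24495 (stepE2 f6 f5 f6 a6 b6 (1, 5) (L2c 5) (L3c 5))
    ⟨1, 2, 2, 0, 1, 1, 0, 1, 1, 0, 1, 1⟩ = true := by decide +kernel
theorem hs6 : s6.ok (5 + 1) 10000 24494 24495 (stepE2 f6 f5 f6 a6 b6 (1, 5) (L2c 5) (L3c 5)) unitBx = true :=
  (Tree.ok_s0 hs6_0 hs6_1)

def tm : Tree := (.leaf 71 16 16 6 1)
theorem hm : tm.ok 0 1 0 0 (monoE f6) unitBx = true := by decide +kernel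

def F : ℕ → CL
  | 2 => f2
  | 3 => f3
  | 4 => f4
  | 5 => f5
  | _ => f6

theorem method (θ : ℝ) (t0 : 0 < θ) (t1 : θ ≤ 1) :
    ∃ (wd cm B : ℝ) (Ψ : ℕ → ℝ → ℝ → ℝ → ℝ),
      Method (5 + 1) (lamd (5 + 1) * θ) wd cm B Ψ := by
  refine ⟨_, _, _, _, method_of 5 (by norm_num) F (1, 249) (by norm_num [cv])
    (mono_of_box _ (box_zero _ _ hm))
    (base_cert 5 10000 24494 24495 (by norm_num) f2 f6 a2 b2 (1, 249) p2 q2 r2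
      (by norm_num) (by norm_num) (by decide) (by decide) (by decide) hp2 hq2 hr2)
    ?_ θ t0 t1⟩
  intro k hk hk'
  have hk2 : k ≤ 5 := by omega
  interval_cases k
  · exact step_cert 5 10000 24494 24495 (by norm_num) f3 f2 f6 a3 b3 (409, 999) (818, 999)
      p3 q3 r3 s3 (by norm_num) (by norm_num) (by decide) (by decide) (by decide)
      (by norm_num [cv]) (by norm_num [cv]) (by norm_num [cv]) (by norm_num [cv])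
      (by norm_num [cv]) hp3 hq3 hr3 hs3
  · exact step_cert 5 10000 24494 24495 (by norm_num) f4 f3 f6 a4 b4 (409, 999) (818, 999)
      p4 q4 r4 s4 (by norm_num) (by norm_num) (by decide) (by decide) (by decide)
      (by norm_num [cv]) (by norm_num [cv]) (by norm_num [cv]) (by norm_num [cv])
      (by norm_num [cv]) hp4 hq4 hr4 hs4
  · exact step_cert 5 10000 24494 24495 (by norm_num) f5 f4 f6 a5 b5 (409, 999) (818, 999)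
      p5 q5 r5 s5 (by norm_num) (by norm_num) (by decide) (by decide) (by decide)
      (by norm_num [cv]) (by norm_num [cv]) (by norm_num [cv]) (by norm_num [cv])
      (by norm_num [cv]) hp5 hq5 hr5 hs5
  · exact step_cert 5 10000 24494 24495 (by norm_num) f6 f5 f6 a6 b6 (409, 999) (818, 999)
      p6 q6 r6 s6 (by norm_num) (by norm_num) (by decide) (by decide) (by decide)
      (by norm_num [cv]) (by norm_num [cv]) (by norm_num [cv]) (by norm_num [cv])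
      (by norm_num [cv]) hp6 hq6 hr6 hs6

end Vale.Agent.P154.C6
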