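import Vale.Agent.P154.Cert

/-! Certificates for `d = 7`. -/

namespace Vale.Agent.P154.C7

def f2 : CL := [(1223, 4095), (-5392, 4095), (11257, 4095), (-12961, 4095), (7604, 4095), (-1731, 4095)]
def a2 : CL := [(31283, 4095), (-97598, 4095), (96458, 4095), (-23871, 4095)]
def b2 : CL := [(-35753, 4095), (182983, 4095), (-245760, 4095), (71747, 4095)]
def f3 : CL := [(607, 4095), (-1902, 4095), (3056, 4095), (-3365, 4095), (2135, 4095), (-531, 4095)]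
def a3 : CL := [(5239, 4095), (-17737, 4095), (21351, 4095), (-4539, 4095)]
def b3 : CL := [(-6908, 4095), (45867, 4095), (-82555, 4095), (30816, 4095)]
def f4 : CL := [(535, 4095), (-1641, 4095), (2364, 4095), (-2231, 4095), (1259, 4095), (-286, 4095)]
def a4 : CL := [(16, 4095), (2686, 4095), (-4172, 4095), (4840, 4095)]
def b4 : CL := [(0, 4095), (-3284, 4095), (9092, 4095), (-16154, 4095)]
def f5 : CL := [(500, 4095), (-1693, 4095), (2706, 4095), (-2644, 4095), (1442, 4095), (-311, 4095)]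
def a5 : CL := [(16, 4095), (3353, 4095), (-6320, 4095), (5806, 4095)]
def b5 : CL := [(0, 4095), (-7166, 4095), (22082, 4095), (-24105, 4095)]
def f6 : CL := [(466, 4095), (-1781, 4095), (3291, 4095), (-3565, 4095), (2051, 4095), (-462, 4095)]
def a6 : CL := [(56, 4095), (3228, 4095), (-7064, 4095), (6346, 4095)]
def b6 : CL := [(105, 4095), (-8669, 4095), (29215, 4095), (-29963, 4095)]
def f7 : CL := [(433, 4095), (-1886, 4095), (4043, 4095), (-4894, 4095), (3038, 4095), (-734, 4095)]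
def a7 : CL := [(37, 4095), (3716, 4095), (-9519, 4095), (8274, 4095)]
def b7 : CL := [(54, 4095), (-9217, 4095), (36647, 4095), (-38919, 4095)]

def p2 : Tree := (.s0 (.leaf 94 6 17 1 1) (.s0 (.leaf 100 6 17 1 1) (.s0 (.leaf 106 6 17 1 1) (.s0 (.leaf 111 6 17 1 1) (.leaf 112 6 17 1 1)))))
theorem hp2 : p2.ok 0 1 0 0 (A1 (1, 6) f2 a2 b2) unitBx = true := by decide +kernel

def q2 : Tree := (.s0 (.leaf 133 6 28 1 1) (.s1 (.s0 (.leaf 154 6 28 1 1) (.s0 (.leaf 158 6 28 1 1) (.s1 (.s0 (.leaf 181 6 28 1 1) (.leaf 181 6 28 1 1)) (.leaf 183 6 28 1 1)))) (.leaf 159 6 28 1 1)))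
theorem hq2 : q2.ok 0 1 0 0 (A2 (2, 6) f2 a2 b2) unitBx = true := by decide +kernel

def r2 : Tree := (.s1 (.leaf 227 37 19 7 7) (.s0 (.s2 (.leaf 268 37 19 7 7) (.s2 (.leaf 274 37 19 7 7) (.leaf 274 37 19 7 7))) (.leaf 266 37 19 7 7)))
theorem hr2_0 : (Tree.leaf 227 37 19 7 7).ok (6 + 1) 10000 26457 26458 (baseE1 f2 f7 a2 b2 (1, 6) (1, 249) (L2c 6) (L3c 6))
    ⟨0, 1, 1, 0, 1, 2, 0, 1, 1, 0, 1, 1⟩ = true := by decide +kernel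
theorem hr2_1 : (Tree.leaf 268 37 19 7 7).ok (6 + 1) 10000 26457 26458 (baseE1 f2 f7 a2 b2 (1, 6) (1, 249) (L2c 6) (L3c 6))
    ⟨0, 1, 2, 1, 2, 2, 0, 1, 2, 0, 1, 1⟩ = true := by decide +kernel
theorem hr2_2 : (Tree.leaf 274 37 19 7 7).ok (6 + 1) 10000 26457 26458 (baseE1 f2 f7 a2 b2 (1, 6) (1, 249) (L2c 6) (L3c 6))
    ⟨0, 1, 2, 1, 2, 2, 2, 3, 4, 0, 1, 1⟩ = true := by decide +kernel
theorem hr2_3 : (Tree.leaf 274 37 19 7 7).ok (6 + 1) 10000 26457 26458 (baseE1 f2 f7 a2 b2 (1, 6) (1, 249) (L2c 6) (L3c 6))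
    ⟨0, 1, 2, 1, 2, 2, 3, 4, 4, 0, 1, 1⟩ = true := by decide +kernel
theorem hr2_4 : (Tree.leaf 266 37 19 7 7).ok (6 + 1) 10000 26457 26458 (baseE1 f2 f7 a2 b2 (1, 6) (1, 249) (L2c 6) (L3c 6))
    ⟨1, 2, 2, 1, 2, 2, 0, 1, 1, 0, 1, 1⟩ = true := by decide +kernel
theorem hr2 : r2.ok (6 + 1) 10000 26457 26458 (baseE1 f2 f7 a2 b2 (1, 6) (1, 249) (L2c 6) (L3c 6)) unitBx = true :=
  (Tree.ok_s1 hr2_0 (Tree.ok_s0 (Tree.ok_s2 hr2_1 (Tree.ok_s2 hr2_2 hr2_3)) hr2_4))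

def p3 : Tree := (.s0 (.leaf 207 6 17 1 1) (.s0 (.leaf 214 6 17 1 1) (.s1 (.s0 (.leaf 235 6 17 1 1) (.leaf 235 6 17 1 1)) (.leaf 232 6 17 1 1))))
theorem hp3 : p3.ok 0 1 0 0 (A1 (378, 999) f3 a3 b3) unitBx = true := by decide +kernel

def q3 : Tree := (.s1 (.s0 (.leaf 348 6 28 1 1) (.s1 (.s0 (.leaf 373 6 28 1 1) (.s0 (.leaf 374 6 28 1 1) (.leaf 375 6 28 1 1))) (.leaf 379 6 28 1 1))) (.leaf 359 6 28 1 1))
theorem hq3 : q3.ok 0 1 0 0 (A2 (756, 999) f3 a3 b3) unitBx = true := by decide +kernel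

def r3 : Tree := (.leaf 171 37 19 7 7)
theorem hr3 : r3.ok (6 + 1) 10000 26457 26458 (stepE1 f3 f2 f7 a3 b3 (1, 6) (L2c 6) (L3c 6)) unitBx = true := by decide +kernel

def s3 : Tree := (.s1 (.s3 (.leaf 192 37 19 7 7) (.leaf 192 37 19 7 7)) (.s1 (.s3 (.leaf 211 37 19 7 7) (.s0 (.leaf 246 37 19 7 7) (.leaf 251 37 19 7 7))) (.s0 (.s3 (.leaf 246 37 19 7 7) (.leaf 246 37 19 7 7)) (.leaf 247 37 19 7 7))))
theorem hs3_0 : (Tree.leaf 192 37 19 7 7).ok (6 + 1) 10000 26457 26458 (stepE2 f3 f2 f7 a3 b3 (1, 6) (L2c 6) (L3c 6))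
    ⟨0, 1, 1, 0, 1, 2, 0, 1, 1, 0, 1, 2⟩ = true := by decide +kernel
theorem hs3_1 : (Tree.leaf 192 37 19 7 7).ok (6 + 1) 10000 26457 26458 (stepE2 f3 f2 f7 a3 b3 (1, 6) (L2c 6) (L3c 6))
    ⟨0, 1, 1, 0, 1, 2, 0, 1, 1, 1, 2, 2⟩ = true := by decide +kernel
theorem hs3_2 : (Tree.leaf 211 37 19 7 7).ok (6 + 1) 10000 26457 26458 (stepE2 f3 f2 f7 a3 b3 (1, 6) (L2c 6) (L3c 6))
    ⟨0, 1, 1, 2, 3, 4, 0, 1, 1, 0, 1, 2⟩ = true := by decide +kernel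
theorem hs3_3 : (Tree.leaf 246 37 19 7 7).ok (6 + 1) 10000 26457 26458 (stepE2 f3 f2 f7 a3 b3 (1, 6) (L2c 6) (L3c 6))
    ⟨0, 1, 2, 2, 3, 4, 0, 1, 1, 1, 2, 2⟩ = true := by decide +kernel
theorem hs3_4 : (Tree.leaf 251 37 19 7 7).ok (6 + 1) 10000 26457 26458 (stepE2 f3 f2 f7 a3 b3 (1, 6) (L2c 6) (L3c 6))
    ⟨1, 2, 2, 2, 3, 4, 0, 1, 1, 1, 2, 2⟩ = true := by decide +kernel
theorem hs3_5 : (Tree.leaf 246 37 19 7 7).ok (6 + 1) 10000 26457 26458 (stepE2 f3 f2 f7 a3 b3 (1, 6) (L2c 6) (L3c 6))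
    ⟨0, 1, 2, 3, 4, 4, 0, 1, 1, 0, 1, 2⟩ = true := by decide +kernel
theorem hs3_6 : (Tree.leaf 246 37 19 7 7).ok (6 + 1) 10000 26457 26458 (stepE2 f3 f2 f7 a3 b3 (1, 6) (L2c 6) (L3c 6))
    ⟨0, 1, 2, 3, 4, 4, 0, 1, 1, 1, 2, 2⟩ = true := by decide +kernel
theorem hs3_7 : (Tree.leaf 247 37 19 7 7).ok (6 + 1) 10000 26457 26458 (stepE2 f3 f2 f7 a3 b3 (1, 6) (L2c 6) (L3c 6))
    ⟨1, 2, 2, 3, 4, 4, 0, 1, 1, 0, 1, 1⟩ = true := by decide +kernel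
theorem hs3 : s3.ok (6 + 1) 10000 26457 26458 (stepE2 f3 f2 f7 a3 b3 (1, 6) (L2c 6) (L3c 6)) unitBx = true :=
  (Tree.ok_s1 (Tree.ok_s3 hs3_0 hs3_1) (Tree.ok_s1 (Tree.ok_s3 hs3_2 (Tree.ok_s0 hs3_3 hs3_4)) (Tree.ok_s0 (Tree.ok_s3 hs3_5 hs3_6) hs3_7)))

def p4 : Tree := (.s0 (.leaf 204 6 17 1 1) (.s0 (.leaf 212 6 17 1 1) (.leaf 213 6 17 1 1)))
theorem hp4 : p4.ok 0 1 0 0 (A1 (378, 999) f4 a4 b4) unitBx = true := by decide +kernel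

def q4 : Tree := (.s0 (.leaf 326 6 28 1 1) (.s1 (.s0 (.leaf 349 6 28 1 1) (.leaf 350 6 28 1 1)) (.leaf 358 6 28 1 1)))
theorem hq4 : q4.ok 0 1 0 0 (A2 (756, 999) f4 a4 b4) unitBx = true := by decide +kernel

def r4 : Tree := (.s0 (.leaf 203 37 19 7 7) (.leaf 210 37 19 7 7))
theorem hr4_0 : (Tree.leaf 203 37 19 7 7).ok (6 + 1) 10000 26457 26458 (stepE1 f4 f3 f7 a4 b4 (1, 6) (L2c 6) (L3c 6))
    ⟨0, 1, 2, 0, 1, 1, 0, 1, 1, 0, 1, 1⟩ = true := by decide +kernel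
theorem hr4_1 : (Tree.leaf 210 37 19 7 7).ok (6 + 1) 10000 26457 26458 (stepE1 f4 f3 f7 a4 b4 (1, 6) (L2c 6) (L3c 6))
    ⟨1, 2, 2, 0, 1, 1, 0, 1, 1, 0, 1, 1⟩ = true := by decide +kernel
theorem hr4 : r4.ok (6 + 1) 10000 26457 26458 (stepE1 f4 f3 f7 a4 b4 (1, 6) (L2c 6) (L3c 6)) unitBx = true :=
  (Tree.ok_s0 hr4_0 hr4_1)

def s4 : Tree := (.s0 (.s1 (.leaf 220 37 19 7 7) (.leaf 221 37 19 7 7)) (.s1 (.leaf 225 37 19 7 7) (.leaf 226 37 19 7 7)))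
theorem hs4_0 : (Tree.leaf 220 37 19 7 7).ok (6 + 1) 10000 26457 26458 (stepE2 f4 f3 f7 a4 b4 (1, 6) (L2c 6) (L3c 6))
    ⟨0, 1, 2, 0, 1, 2, 0, 1, 1, 0, 1, 1⟩ = true := by decide +kernel
theorem hs4_1 : (Tree.leaf 221 37 19 7 7).ok (6 + 1) 10000 26457 26458 (stepE2 f4 f3 f7 a4 b4 (1, 6) (L2c 6) (L3c 6))
    ⟨0, 1, 2, 1, 2, 2, 0, 1, 1, 0, 1, 1⟩ = true := by decide +kernel
theorem hs4_2 : (Tree.leaf 225 37 19 7 7).ok (6 + 1) 10000 26457 26458 (stepE2 f4 f3 f7 a4 b4 (1, 6) (L2c 6) (L3c 6))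
    ⟨1, 2, 2, 0, 1, 2, 0, 1, 1, 0, 1, 1⟩ = true := by decide +kernel
theorem hs4_3 : (Tree.leaf 226 37 19 7 7).ok (6 + 1) 10000 26457 26458 (stepE2 f4 f3 f7 a4 b4 (1, 6) (L2c 6) (L3c 6))
    ⟨1, 2, 2, 1, 2, 2, 0, 1, 1, 0, 1, 1⟩ = true := by decide +kernel
theorem hs4 : s4.ok (6 + 1) 10000 26457 26458 (stepE2 f4 f3 f7 a4 b4 (1, 6) (L2c 6) (L3c 6)) unitBx = true :=
  (Tree.ok_s0 (Tree.ok_s1 hs4_0 hs4_1) (Tree.ok_s1 hs4_2 hs4_3))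

def p5 : Tree := (.s0 (.leaf 205 6 17 1 1) (.s0 (.leaf 213 6 17 1 1) (.s1 (.leaf 229 6 17 1 1) (.leaf 231 6 17 1 1))))
theorem hp5 : p5.ok 0 1 0 0 (A1 (378, 999) f5 a5 b5) unitBx = true := by decide +kernel

def q5 : Tree := (.s1 (.s0 (.leaf 348 6 28 1 1) (.s0 (.leaf 349 6 28 1 1) (.leaf 350 6 28 1 1))) (.leaf 358 6 28 1 1))
theorem hq5 : q5.ok 0 1 0 0 (A2 (756, 999) f5 a5 b5) unitBx = true := by decide +kernel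

def r5 : Tree := (.s1 (.leaf 187 37 19 7 7) (.s0 (.leaf 221 37 19 7 7) (.s1 (.leaf 246 37 19 7 7) (.s0 (.leaf 280 37 19 7 7) (.leaf 285 37 19 7 7)))))
theorem hr5_0 : (Tree.leaf 187 37 19 7 7).ok (6 + 1) 10000 26457 26458 (stepE1 f5 f4 f7 a5 b5 (1, 6) (L2c 6) (L3c 6))
    ⟨0, 1, 1, 0, 1, 2, 0, 1, 1, 0, 1, 1⟩ = true := by decide +kernel
theorem hr5_1 : (Tree.leaf 221 37 19 7 7).ok (6 + 1) 10000 26457 26458 (stepE1 f5 f4 f7 a5 b5 (1, 6) (L2c 6) (L3c 6))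
    ⟨0, 1, 2, 1, 2, 2, 0, 1, 1, 0, 1, 1⟩ = true := by decide +kernel
theorem hr5_2 : (Tree.leaf 246 37 19 7 7).ok (6 + 1) 10000 26457 26458 (stepE1 f5 f4 f7 a5 b5 (1, 6) (L2c 6) (L3c 6))
    ⟨1, 2, 2, 2, 3, 4, 0, 1, 1, 0, 1, 1⟩ = true := by decide +kernel
theorem hr5_3 : (Tree.leaf 280 37 19 7 7).ok (6 + 1) 10000 26457 26458 (stepE1 f5 f4 f7 a5 b5 (1, 6) (L2c 6) (L3c 6))
    ⟨2, 3, 4, 3, 4, 4, 0, 1, 1, 0, 1, 1⟩ = true := by decide +kernel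
theorem hr5_4 : (Tree.leaf 285 37 19 7 7).ok (6 + 1) 10000 26457 26458 (stepE1 f5 f4 f7 a5 b5 (1, 6) (L2c 6) (L3c 6))
    ⟨3, 4, 4, 3, 4, 4, 0, 1, 1, 0, 1, 1⟩ = true := by decide +kernel
theorem hr5 : r5.ok (6 + 1) 10000 26457 26458 (stepE1 f5 f4 f7 a5 b5 (1, 6) (L2c 6) (L3c 6)) unitBx = true :=
  (Tree.ok_s1 hr5_0 (Tree.ok_s0 hr5_1 (Tree.ok_s1 hr5_2 (Tree.ok_s0 hr5_3 hr5_4))))

def s5 : Tree := (.s0 (.s1 (.leaf 220 37 19 7 7) (.leaf 220 37 19 7 7)) (.s1 (.leaf 225 37 19 7 7) (.leaf 226 37 19 7 7)))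
theorem hs5_0 : (Tree.leaf 220 37 19 7 7).ok (6 + 1) 10000 26457 26458 (stepE2 f5 f4 f7 a5 b5 (1, 6) (L2c 6) (L3c 6))
    ⟨0, 1, 2, 0, 1, 2, 0, 1, 1, 0, 1, 1⟩ = true := by decide +kernel
theorem hs5_1 : (Tree.leaf 220 37 19 7 7).ok (6 + 1) 10000 26457 26458 (stepE2 f5 f4 f7 a5 b5 (1, 6) (L2c 6) (L3c 6))
    ⟨0, 1, 2, 1, 2, 2, 0, 1, 1, 0, 1, 1⟩ = true := by decide +kernel
theorem hs5_2 : (Tree.leaf 225 37 19 7 7).ok (6 + 1) 10000 26457 26458 (stepE2 f5 f4 f7 a5 b5 (1, 6) (L2c 6) (L3c 6))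
    ⟨1, 2, 2, 0, 1, 2, 0, 1, 1, 0, 1, 1⟩ = true := by decide +kernel
theorem hs5_3 : (Tree.leaf 226 37 19 7 7).ok (6 + 1) 10000 26457 26458 (stepE2 f5 f4 f7 a5 b5 (1, 6) (L2c 6) (L3c 6))
    ⟨1, 2, 2, 1, 2, 2, 0, 1, 1, 0, 1, 1⟩ = true := by decide +kernel
theorem hs5 : s5.ok (6 + 1) 10000 26457 26458 (stepE2 f5 f4 f7 a5 b5 (1, 6) (L2c 6) (L3c 6)) unitBx = true :=
  (Tree.ok_s0 (Tree.ok_s1 hs5_0 hs5_1) (Tree.ok_s1 hs5_2 hs5_3))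

def p6 : Tree := (.s0 (.leaf 205 6 17 1 1) (.s0 (.leaf 213 6 17 1 1) (.s0 (.leaf 219 6 17 1 1) (.s1 (.leaf 234 6 17 1 1) (.leaf 237 6 17 1 1)))))
theorem hp6 : p6.ok 0 1 0 0 (A1 (378, 999) f6 a6 b6) unitBx = true := by decide +kernel

def q6 : Tree := (.s0 (.leaf 326 6 28 1 1) (.s1 (.s0 (.leaf 349 6 28 1 1) (.s0 (.leaf 350 6 28 1 1) (.s1 (.leaf 375 6 28 1 1) (.leaf 380 6 28 1 1)))) (.leaf 359 6 28 1 1)))
theorem hq6 : q6.ok 0 1 0 0 (A2 (756, 999) f6 a6 b6) unitBx = true := by decide +kernel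

def r6 : Tree := (.s1 (.leaf 188 37 19 7 7) (.s0 (.leaf 221 37 19 7 7) (.leaf 229 37 19 7 7)))
theorem hr6_0 : (Tree.leaf 188 37 19 7 7).ok (6 + 1) 10000 26457 26458 (stepE1 f6 f5 f7 a6 b6 (1, 6) (L2c 6) (L3c 6))
    ⟨0, 1, 1, 0, 1, 2, 0, 1, 1, 0, 1, 1⟩ = true := by decide +kernel
theorem hr6_1 : (Tree.leaf 221 37 19 7 7).ok (6 + 1) 10000 26457 26458 (stepE1 f6 f5 f7 a6 b6 (1, 6) (L2c 6) (L3c 6))
    ⟨0, 1, 2, 1, 2, 2, 0, 1, 1, 0, 1, 1⟩ = true := by decide +kernel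
theorem hr6_2 : (Tree.leaf 229 37 19 7 7).ok (6 + 1) 10000 26457 26458 (stepE1 f6 f5 f7 a6 b6 (1, 6) (L2c 6) (L3c 6))
    ⟨1, 2, 2, 1, 2, 2, 0, 1, 1, 0, 1, 1⟩ = true := by decide +kernel
theorem hr6 : r6.ok (6 + 1) 10000 26457 26458 (stepE1 f6 f5 f7 a6 b6 (1, 6) (L2c 6) (L3c 6)) unitBx = true :=
  (Tree.ok_s1 hr6_0 (Tree.ok_s0 hr6_1 hr6_2))

def s6 : Tree := (.s0 (.leaf 202 37 19 7 7) (.leaf 207 37 19 7 7))
theorem hs6_0 : (Tree.leaf 202 37 19 7 7).ok (6 + 1) 10000 26457 26458 (stepE2 f6 f5 f7 a6 b6 (1, 6) (L2c 6) (L3c 6))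
    ⟨0, 1, 2, 0, 1, 1, 0, 1, 1, 0, 1, 1⟩ = true := by decide +kernel
theorem hs6_1 : (Tree.leaf 207 37 19 7 7).ok (6 + 1) 10000 26457 26458 (stepE2 f6 f5 f7 a6 b6 (1, 6) (L2c 6) (L3c 6))
    ⟨1, 2, 2, 0, 1, 1, 0, 1, 1, 0, 1, 1⟩ = true := by decide +kernel
theorem hs6 : s6.ok (6 + 1) 10000 26457 26458 (stepE2 f6 f5 f7 a6 b6 (1, 6) (L2c 6) (L3c 6)) unitBx = true :=
  (Tree.ok_s0 hs6_0 hs6_1)

def p7 : Tree := (.s0 (.s0 (.leaf 209 6 17 1 1) (.s0 (.leaf 216 6 17 1 1) (.leaf 217 6 17 1 1))) (.s0 (.leaf 213 6 17 1 1) (.s1 (.s0 (.leaf 234 6 17 1 1) (.leaf 235 6 17 1 1)) (.leaf 232 6 17 1 1))))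
theorem hp7 : p7.ok 0 1 0 0 (A1 (378, 999) f7 a7 b7) unitBx = true := by decide +kernel

def q7 : Tree := (.s0 (.s0 (.leaf 325 6 28 1 1) (.s0 (.leaf 326 6 28 1 1) (.leaf 326 6 28 1 1))) (.s1 (.s0 (.leaf 349 6 28 1 1) (.s1 (.s0 (.leaf 374 6 28 1 1) (.s1 (.leaf 401 6 28 1 1) (.leaf 403 6 28 1 1))) (.leaf 380 6 28 1 1))) (.leaf 359 6 28 1 1)))
theorem hq7 : q7.ok 0 1 0 0 (A2 (756, 999) f7 a7 b7) unitBx = true := by decide +kernel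

def r7 : Tree := (.s1 (.leaf 188 37 19 7 7) (.s0 (.leaf 221 37 19 7 7) (.s1 (.leaf 247 37 19 7 7) (.leaf 248 37 19 7 7))))
theorem hr7_0 : (Tree.leaf 188 37 19 7 7).ok (6 + 1) 10000 26457 26458 (stepE1 f7 f6 f7 a7 b7 (1, 6) (L2c 6) (L3c 6))
    ⟨0, 1, 1, 0, 1, 2, 0, 1, 1, 0, 1, 1⟩ = true := by decide +kernel
theorem hr7_1 : (Tree.leaf 221 37 19 7 7).ok (6 + 1) 10000 26457 26458 (stepE1 f7 f6 f7 a7 b7 (1, 6) (L2c 6) (L3c 6))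
    ⟨0, 1, 2, 1, 2, 2, 0, 1, 1, 0, 1, 1⟩ = true := by decide +kernel
theorem hr7_2 : (Tree.leaf 247 37 19 7 7).ok (6 + 1) 10000 26457 26458 (stepE1 f7 f6 f7 a7 b7 (1, 6) (L2c 6) (L3c 6))
    ⟨1, 2, 2, 2, 3, 4, 0, 1, 1, 0, 1, 1⟩ = true := by decide +kernel
theorem hr7_3 : (Tree.leaf 248 37 19 7 7).ok (6 + 1) 10000 26457 26458 (stepE1 f7 f6 f7 a7 b7 (1, 6) (L2c 6) (L3c 6))
    ⟨1, 2, 2, 3, 4, 4, 0, 1, 1, 0, 1, 1⟩ = true := by decide +kernel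
theorem hr7 : r7.ok (6 + 1) 10000 26457 26458 (stepE1 f7 f6 f7 a7 b7 (1, 6) (L2c 6) (L3c 6)) unitBx = true :=
  (Tree.ok_s1 hr7_0 (Tree.ok_s0 hr7_1 (Tree.ok_s1 hr7_2 hr7_3)))

def s7 : Tree := (.s0 (.leaf 203 37 19 7 7) (.leaf 207 37 19 7 7))
theorem hs7_0 : (Tree.leaf 203 37 19 7 7).ok (6 + 1) 10000 26457 26458 (stepE2 f7 f6 f7 a7 b7 (1, 6) (L2c 6) (L3c 6))
    ⟨0, 1, 2, 0, 1, 1, 0, 1, 1, 0, 1, 1⟩ = true := by decide +kernel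
theorem hs7_1 : (Tree.leaf 207 37 19 7 7).ok (6 + 1) 10000 26457 26458 (stepE2 f7 f6 f7 a7 b7 (1, 6) (L2c 6) (L3c 6))
    ⟨1, 2, 2, 0, 1, 1, 0, 1, 1, 0, 1, 1⟩ = true := by decide +kernel
theorem hs7 : s7.ok (6 + 1) 10000 26457 26458 (stepE2 f7 f6 f7 a7 b7 (1, 6) (L2c 6) (L3c 6)) unitBx = true :=
  (Tree.ok_s0 hs7_0 hs7_1)

def tm : Tree := (.leaf 71 16 16 6 1)
theorem hm : tm.ok 0 1 0 0 (monoE f7) unitBx = true := by decide +kernel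

def F : ℕ → CL
  | 2 => f2
  | 3 => f3
  | 4 => f4
  | 5 => f5
  | 6 => f6
  | _ => f7

theorem method (θ : ℝ) (t0 : 0 < θ) (t1 : θ ≤ 1) :
    ∃ (wd cm B : ℝ) (Ψ : ℕ → ℝ → ℝ → ℝ → ℝ),
      Method (6 + 1) (lamd (6 + 1) * θ) wd cm B Ψ := by
  refine ⟨_, _, _, _, method_of 6 (by norm_num) F (1, 249) (by norm_num [cv])
    (mono_of_box _ (box_zero _ _ hm))
    (base_cert 6 10000 26457 26458 (by norm_num) f2 f7 a2 b2 (1, 249) p2 q2 r2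
      (by norm_num) (by norm_num) (by decide) (by decide) (by decide) hp2 hq2 hr2)
    ?_ θ t0 t1⟩
  intro k hk hk'
  have hk2 : k ≤ 6 := by omega
  interval_cases k
  · exact step_cert 6 10000 26457 26458 (by norm_num) f3 f2 f7 a3 b3 (378, 999) (756, 999)
      p3 q3 r3 s3 (by norm_num) (by norm_num) (by decide) (by decide) (by decide)
      (by norm_num [cv]) (by norm_num [cv]) (by norm_num [cv]) (by norm_num [cv])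
      (by norm_num [cv]) hp3 hq3 hr3 hs3
  · exact step_cert 6 10000 26457 26458 (by norm_num) f4 f3 f7 a4 b4 (378, 999) (756, 999)
      p4 q4 r4 s4 (by norm_num) (by norm_num) (by decide) (by decide) (by decide)
      (by norm_num [cv]) (by norm_num [cv]) (by norm_num [cv]) (by norm_num [cv])
      (by norm_num [cv]) hp4 hq4 hr4 hs4
  · exact step_cert 6 10000 26457 26458 (by norm_num) f5 f4 f7 a5 b5 (378, 999) (756, 999)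
      p5 q5 r5 s5 (by norm_num) (by norm_num) (by decide) (by decide) (by decide)
      (by norm_num [cv]) (by norm_num [cv]) (by norm_num [cv]) (by norm_num [cv])
      (by norm_num [cv]) hp5 hq5 hr5 hs5
  · exact step_cert 6 10000 26457 26458 (by norm_num) f6 f5 f7 a6 b6 (378, 999) (756, 999)
      p6 q6 r6 s6 (by norm_num) (by norm_num) (by decide) (by decide) (by decide)
      (by norm_num [cv]) (by norm_num [cv]) (by norm_num [cv]) (by norm_num [cv])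
      (by norm_num [cv]) hp6 hq6 hr6 hs6
  · exact step_cert 6 10000 26457 26458 (by norm_num) f7 f6 f7 a7 b7 (378, 999) (756, 999)
      p7 q7 r7 s7 (by norm_num) (by norm_num) (by decide) (by decide) (by decide)
      (by norm_num [cv]) (by norm_num [cv]) (by norm_num [cv]) (by norm_num [cv])
      (by norm_num [cv]) hp7 hq7 hr7 hs7

end Vale.Agent.P154.C7
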