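import Vale.Agent.P154.Cert

/-! Certificates for `d = 8`. -/

namespace Vale.Agent.P154.C8

def f2 : CL := [(1639, 4095), (-7650, 4095), (15972, 4095), (-17665, 4095), (9819, 4095), (-2115, 4095)]
def a2 : CL := [(22620, 4095), (-49773, 4095), (19441, 4095), (14431, 4095)]
def b2 : CL := [(-64629, 4095), (245760, 4095), (-232404, 4095), (15888, 4095)]
def f3 : CL := [(577, 4095), (-1718, 4095), (2611, 4095), (-2803, 4095), (1760, 4095), (-427, 4095)]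
def a3 : CL := [(1648, 4095), (-3276, 4095), (1531, 4095), (4643, 4095)]
def b3 : CL := [(-2307, 4095), (16273, 4095), (-26194, 4095), (-3102, 4095)]
def f4 : CL := [(521, 4095), (-1536, 4095), (2137, 4095), (-2015, 4095), (1158, 4095), (-265, 4095)]
def a4 : CL := [(16, 4095), (2756, 4095), (-4763, 4095), (5576, 4095)]
def b4 : CL := [(0, 4095), (-1711, 4095), (5837, 4095), (-15571, 4095)]
def f5 : CL := [(489, 4095), (-1557, 4095), (2324, 4095), (-2186, 4095), (1183, 4095), (-253, 4095)]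
def a5 : CL := [(16, 4095), (3069, 4095), (-5652, 4095), (5589, 4095)]
def b5 : CL := [(0, 4095), (-6863, 4095), (20638, 4095), (-23601, 4095)]
def f6 : CL := [(461, 4095), (-1633, 4095), (2782, 4095), (-2860, 4095), (1601, 4095), (-351, 4095)]
def a6 : CL := [(16, 4095), (3115, 4095), (-6370, 4095), (5941, 4095)]
def b6 : CL := [(0, 4095), (-7234, 4095), (23682, 4095), (-25403, 4095)]
def f7 : CL := [(431, 4095), (-1701, 4095), (3298, 4095), (-3727, 4095), (2209, 4095), (-510, 4095)]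
def a7 : CL := [(59, 4095), (2909, 4095), (-6806, 4095), (6332, 4095)]
def b7 : CL := [(120, 4095), (-8646, 4095), (30352, 4095), (-31422, 4095)]
def f8 : CL := [(401, 4095), (-1778, 4095), (3934, 4095), (-4902, 4095), (3109, 4095), (-764, 4095)]
def a8 : CL := [(16, 4095), (3788, 4095), (-10206, 4095), (8952, 4095)]
def b8 : CL := [(0, 4095), (-8903, 4095), (37733, 4095), (-41241, 4095)]

def p2 : Tree := (.s0 (.leaf 97 6 17 1 1) (.s0 (.leaf 103 6 17 1 1) (.s0 (.leaf 109 6 17 1 1) (.s0 (.leaf 114 6 17 1 1) (.leaf 114 6 17 1 1)))))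
theorem hp2 : p2.ok 0 1 0 0 (A1 (1, 7) f2 a2 b2) unitBx = true := by decide +kernel

def q2 : Tree := (.s0 (.leaf 133 6 28 1 1) (.s1 (.s0 (.leaf 160 6 28 1 1) (.s0 (.leaf 160 6 28 1 1) (.s0 (.leaf 161 6 28 1 1) (.leaf 161 6 28 1 1)))) (.leaf 164 6 28 1 1)))
theorem hq2 : q2.ok 0 1 0 0 (A2 (2, 7) f2 a2 b2) unitBx = true := by decide +kernel

def r2 : Tree := (.s1 (.leaf 232 37 19 7 7) (.s0 (.s2 (.leaf 273 37 19 7 7) (.leaf 273 37 19 7 7)) (.leaf 270 37 19 7 7)))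
theorem hr2_0 : (Tree.leaf 232 37 19 7 7).ok (7 + 1) 10000 28284 28285 (baseE1 f2 f8 a2 b2 (1, 7) (1, 249) (L2c 7) (L3c 7))
    ⟨0, 1, 1, 0, 1, 2, 0, 1, 1, 0, 1, 1⟩ = true := by decide +kernel
theorem hr2_1 : (Tree.leaf 273 37 19 7 7).ok (7 + 1) 10000 28284 28285 (baseE1 f2 f8 a2 b2 (1, 7) (1, 249) (L2c 7) (L3c 7))
    ⟨0, 1, 2, 1, 2, 2, 0, 1, 2, 0, 1, 1⟩ = true := by decide +kernel
theorem hr2_2 : (Tree.leaf 273 37 19 7 7).ok (7 + 1) 10000 28284 28285 (baseE1 f2 f8 a2 b2 (1, 7) (1, 249) (L2c 7) (L3c 7))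
    ⟨0, 1, 2, 1, 2, 2, 1, 2, 2, 0, 1, 1⟩ = true := by decide +kernel
theorem hr2_3 : (Tree.leaf 270 37 19 7 7).ok (7 + 1) 10000 28284 28285 (baseE1 f2 f8 a2 b2 (1, 7) (1, 249) (L2c 7) (L3c 7))
    ⟨1, 2, 2, 1, 2, 2, 0, 1, 1, 0, 1, 1⟩ = true := by decide +kernel
theorem hr2 : r2.ok (7 + 1) 10000 28284 28285 (baseE1 f2 f8 a2 b2 (1, 7) (1, 249) (L2c 7) (L3c 7)) unitBx = true :=
  (Tree.ok_s1 hr2_0 (Tree.ok_s0 (Tree.ok_s2 hr2_1 hr2_2) hr2_3))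

def p3 : Tree := (.s0 (.leaf 205 6 17 1 1) (.s0 (.leaf 212 6 17 1 1) (.s0 (.leaf 218 6 17 1 1) (.s1 (.leaf 234 6 17 1 1) (.leaf 236 6 17 1 1)))))
theorem hp3 : p3.ok 0 1 0 0 (A1 (354, 999) f3 a3 b3) unitBx = true := by decide +kernel

def q3 : Tree := (.s1 (.s0 (.leaf 347 6 28 1 1) (.s0 (.leaf 349 6 28 1 1) (.s0 (.leaf 349 6 28 1 1) (.s1 (.leaf 374 6 28 1 1) (.leaf 379 6 28 1 1))))) (.leaf 358 6 28 1 1))
theorem hq3 : q3.ok 0 1 0 0 (A2 (708, 999) f3 a3 b3) unitBx = true := by decide +kernel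

def r3 : Tree := (.leaf 174 37 19 7 7)
theorem hr3 : r3.ok (7 + 1) 10000 28284 28285 (stepE1 f3 f2 f8 a3 b3 (1, 7) (L2c 7) (L3c 7)) unitBx = true := by decide +kernel

def s3 : Tree := (.s1 (.s3 (.leaf 194 37 19 7 7) (.s1 (.leaf 213 37 19 7 7) (.leaf 213 37 19 7 7))) (.s2 (.leaf 196 37 19 7 7) (.s0 (.s1 (.leaf 248 37 19 7 7) (.leaf 249 37 19 7 7)) (.s0 (.leaf 270 37 19 7 7) (.leaf 274 37 19 7 7)))))
theorem hs3_0 : (Tree.leaf 194 37 19 7 7).ok (7 + 1) 10000 28284 28285 (stepE2 f3 f2 f8 a3 b3 (1, 7) (L2c 7) (L3c 7))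
    ⟨0, 1, 1, 0, 1, 2, 0, 1, 1, 0, 1, 2⟩ = true := by decide +kernel
theorem hs3_1 : (Tree.leaf 213 37 19 7 7).ok (7 + 1) 10000 28284 28285 (stepE2 f3 f2 f8 a3 b3 (1, 7) (L2c 7) (L3c 7))
    ⟨0, 1, 1, 0, 1, 4, 0, 1, 1, 1, 2, 2⟩ = true := by decide +kernel
theorem hs3_2 : (Tree.leaf 213 37 19 7 7).ok (7 + 1) 10000 28284 28285 (stepE2 f3 f2 f8 a3 b3 (1, 7) (L2c 7) (L3c 7))
    ⟨0, 1, 1, 1, 2, 4, 0, 1, 1, 1, 2, 2⟩ = true := by decide +kernel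
theorem hs3_3 : (Tree.leaf 196 37 19 7 7).ok (7 + 1) 10000 28284 28285 (stepE2 f3 f2 f8 a3 b3 (1, 7) (L2c 7) (L3c 7))
    ⟨0, 1, 1, 1, 2, 2, 0, 1, 2, 0, 1, 1⟩ = true := by decide +kernel
theorem hs3_4 : (Tree.leaf 248 37 19 7 7).ok (7 + 1) 10000 28284 28285 (stepE2 f3 f2 f8 a3 b3 (1, 7) (L2c 7) (L3c 7))
    ⟨0, 1, 2, 2, 3, 4, 1, 2, 2, 0, 1, 1⟩ = true := by decide +kernel
theorem hs3_5 : (Tree.leaf 249 37 19 7 7).ok (7 + 1) 10000 28284 28285 (stepE2 f3 f2 f8 a3 b3 (1, 7) (L2c 7) (L3c 7))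
    ⟨0, 1, 2, 3, 4, 4, 1, 2, 2, 0, 1, 1⟩ = true := by decide +kernel
theorem hs3_6 : (Tree.leaf 270 37 19 7 7).ok (7 + 1) 10000 28284 28285 (stepE2 f3 f2 f8 a3 b3 (1, 7) (L2c 7) (L3c 7))
    ⟨2, 3, 4, 1, 2, 2, 1, 2, 2, 0, 1, 1⟩ = true := by decide +kernel
theorem hs3_7 : (Tree.leaf 274 37 19 7 7).ok (7 + 1) 10000 28284 28285 (stepE2 f3 f2 f8 a3 b3 (1, 7) (L2c 7) (L3c 7))
    ⟨3, 4, 4, 1, 2, 2, 1, 2, 2, 0, 1, 1⟩ = true := by decide +kernel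
theorem hs3 : s3.ok (7 + 1) 10000 28284 28285 (stepE2 f3 f2 f8 a3 b3 (1, 7) (L2c 7) (L3c 7)) unitBx = true :=
  (Tree.ok_s1 (Tree.ok_s3 hs3_0 (Tree.ok_s1 hs3_1 hs3_2)) (Tree.ok_s2 hs3_3 (Tree.ok_s0 (Tree.ok_s1 hs3_4 hs3_5) (Tree.ok_s0 hs3_6 hs3_7))))

def p4 : Tree := (.s0 (.leaf 204 6 17 1 1) (.s0 (.leaf 212 6 17 1 1) (.leaf 213 6 17 1 1)))
theorem hp4 : p4.ok 0 1 0 0 (A1 (354, 999) f4 a4 b4) unitBx = true := by decide +kernel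

def q4 : Tree := (.s0 (.leaf 325 6 28 1 1) (.s0 (.leaf 326 6 28 1 1) (.s1 (.leaf 349 6 28 1 1) (.leaf 358 6 28 1 1))))
theorem hq4 : q4.ok 0 1 0 0 (A2 (708, 999) f4 a4 b4) unitBx = true := by decide +kernel

def r4 : Tree := (.s0 (.leaf 205 37 19 7 7) (.leaf 212 37 19 7 7))
theorem hr4_0 : (Tree.leaf 205 37 19 7 7).ok (7 + 1) 10000 28284 28285 (stepE1 f4 f3 f8 a4 b4 (1, 7) (L2c 7) (L3c 7))
    ⟨0, 1, 2, 0, 1, 1, 0, 1, 1, 0, 1, 1⟩ = true := by decide +kernel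
theorem hr4_1 : (Tree.leaf 212 37 19 7 7).ok (7 + 1) 10000 28284 28285 (stepE1 f4 f3 f8 a4 b4 (1, 7) (L2c 7) (L3c 7))
    ⟨1, 2, 2, 0, 1, 1, 0, 1, 1, 0, 1, 1⟩ = true := by decide +kernel
theorem hr4 : r4.ok (7 + 1) 10000 28284 28285 (stepE1 f4 f3 f8 a4 b4 (1, 7) (L2c 7) (L3c 7)) unitBx = true :=
  (Tree.ok_s0 hr4_0 hr4_1)

def s4 : Tree := (.s1 (.leaf 188 37 19 7 7) (.s0 (.leaf 223 37 19 7 7) (.s0 (.leaf 263 37 19 7 7) (.leaf 267 37 19 7 7))))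
theorem hs4_0 : (Tree.leaf 188 37 19 7 7).ok (7 + 1) 10000 28284 28285 (stepE2 f4 f3 f8 a4 b4 (1, 7) (L2c 7) (L3c 7))
    ⟨0, 1, 1, 0, 1, 2, 0, 1, 1, 0, 1, 1⟩ = true := by decide +kernel
theorem hs4_1 : (Tree.leaf 223 37 19 7 7).ok (7 + 1) 10000 28284 28285 (stepE2 f4 f3 f8 a4 b4 (1, 7) (L2c 7) (L3c 7))
    ⟨0, 1, 2, 1, 2, 2, 0, 1, 1, 0, 1, 1⟩ = true := by decide +kernel
theorem hs4_2 : (Tree.leaf 263 37 19 7 7).ok (7 + 1) 10000 28284 28285 (stepE2 f4 f3 f8 a4 b4 (1, 7) (L2c 7) (L3c 7))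
    ⟨2, 3, 4, 1, 2, 2, 0, 1, 1, 0, 1, 1⟩ = true := by decide +kernel
theorem hs4_3 : (Tree.leaf 267 37 19 7 7).ok (7 + 1) 10000 28284 28285 (stepE2 f4 f3 f8 a4 b4 (1, 7) (L2c 7) (L3c 7))
    ⟨3, 4, 4, 1, 2, 2, 0, 1, 1, 0, 1, 1⟩ = true := by decide +kernel
theorem hs4 : s4.ok (7 + 1) 10000 28284 28285 (stepE2 f4 f3 f8 a4 b4 (1, 7) (L2c 7) (L3c 7)) unitBx = true :=
  (Tree.ok_s1 hs4_0 (Tree.ok_s0 hs4_1 (Tree.ok_s0 hs4_2 hs4_3)))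

def p5 : Tree := (.s0 (.leaf 205 6 17 1 1) (.s1 (.leaf 223 6 17 1 1) (.leaf 225 6 17 1 1)))
theorem hp5 : p5.ok 0 1 0 0 (A1 (354, 999) f5 a5 b5) unitBx = true := by decide +kernel

def q5 : Tree := (.s0 (.leaf 325 6 28 1 1) (.s1 (.leaf 349 6 28 1 1) (.leaf 358 6 28 1 1)))
theorem hq5 : q5.ok 0 1 0 0 (A2 (708, 999) f5 a5 b5) unitBx = true := by decide +kernel

def r5 : Tree := (.s1 (.leaf 190 37 19 7 7) (.s0 (.leaf 223 37 19 7 7) (.s0 (.leaf 264 37 19 7 7) (.leaf 268 37 19 7 7))))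
theorem hr5_0 : (Tree.leaf 190 37 19 7 7).ok (7 + 1) 10000 28284 28285 (stepE1 f5 f4 f8 a5 b5 (1, 7) (L2c 7) (L3c 7))
    ⟨0, 1, 1, 0, 1, 2, 0, 1, 1, 0, 1, 1⟩ = true := by decide +kernel
theorem hr5_1 : (Tree.leaf 223 37 19 7 7).ok (7 + 1) 10000 28284 28285 (stepE1 f5 f4 f8 a5 b5 (1, 7) (L2c 7) (L3c 7))
    ⟨0, 1, 2, 1, 2, 2, 0, 1, 1, 0, 1, 1⟩ = true := by decide +kernel
theorem hr5_2 : (Tree.leaf 264 37 19 7 7).ok (7 + 1) 10000 28284 28285 (stepE1 f5 f4 f8 a5 b5 (1, 7) (L2c 7) (L3c 7))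
    ⟨2, 3, 4, 1, 2, 2, 0, 1, 1, 0, 1, 1⟩ = true := by decide +kernel
theorem hr5_3 : (Tree.leaf 268 37 19 7 7).ok (7 + 1) 10000 28284 28285 (stepE1 f5 f4 f8 a5 b5 (1, 7) (L2c 7) (L3c 7))
    ⟨3, 4, 4, 1, 2, 2, 0, 1, 1, 0, 1, 1⟩ = true := by decide +kernel
theorem hr5 : r5.ok (7 + 1) 10000 28284 28285 (stepE1 f5 f4 f8 a5 b5 (1, 7) (L2c 7) (L3c 7)) unitBx = true :=
  (Tree.ok_s1 hr5_0 (Tree.ok_s0 hr5_1 (Tree.ok_s0 hr5_2 hr5_3)))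

def s5 : Tree := (.s0 (.leaf 204 37 19 7 7) (.s1 (.leaf 227 37 19 7 7) (.leaf 228 37 19 7 7)))
theorem hs5_0 : (Tree.leaf 204 37 19 7 7).ok (7 + 1) 10000 28284 28285 (stepE2 f5 f4 f8 a5 b5 (1, 7) (L2c 7) (L3c 7))
    ⟨0, 1, 2, 0, 1, 1, 0, 1, 1, 0, 1, 1⟩ = true := by decide +kernel
theorem hs5_1 : (Tree.leaf 227 37 19 7 7).ok (7 + 1) 10000 28284 28285 (stepE2 f5 f4 f8 a5 b5 (1, 7) (L2c 7) (L3c 7))
    ⟨1, 2, 2, 0, 1, 2, 0, 1, 1, 0, 1, 1⟩ = true := by decide +kernel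
theorem hs5_2 : (Tree.leaf 228 37 19 7 7).ok (7 + 1) 10000 28284 28285 (stepE2 f5 f4 f8 a5 b5 (1, 7) (L2c 7) (L3c 7))
    ⟨1, 2, 2, 1, 2, 2, 0, 1, 1, 0, 1, 1⟩ = true := by decide +kernel
theorem hs5 : s5.ok (7 + 1) 10000 28284 28285 (stepE2 f5 f4 f8 a5 b5 (1, 7) (L2c 7) (L3c 7)) unitBx = true :=
  (Tree.ok_s0 hs5_0 (Tree.ok_s1 hs5_1 hs5_2))

def p6 : Tree := (.s0 (.leaf 205 6 17 1 1) (.s1 (.leaf 223 6 17 1 1) (.leaf 225 6 17 1 1)))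
theorem hp6 : p6.ok 0 1 0 0 (A1 (354, 999) f6 a6 b6) unitBx = true := by decide +kernel

def q6 : Tree := (.s0 (.leaf 325 6 28 1 1) (.s1 (.leaf 349 6 28 1 1) (.leaf 358 6 28 1 1)))
theorem hq6 : q6.ok 0 1 0 0 (A2 (708, 999) f6 a6 b6) unitBx = true := by decide +kernel

def r6 : Tree := (.s1 (.leaf 190 37 19 7 7) (.s1 (.leaf 208 37 19 7 7) (.s0 (.leaf 241 37 19 7 7) (.leaf 249 37 19 7 7))))
theorem hr6_0 : (Tree.leaf 190 37 19 7 7).ok (7 + 1) 10000 28284 28285 (stepE1 f6 f5 f8 a6 b6 (1, 7) (L2c 7) (L3c 7))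
    ⟨0, 1, 1, 0, 1, 2, 0, 1, 1, 0, 1, 1⟩ = true := by decide +kernel
theorem hr6_1 : (Tree.leaf 208 37 19 7 7).ok (7 + 1) 10000 28284 28285 (stepE1 f6 f5 f8 a6 b6 (1, 7) (L2c 7) (L3c 7))
    ⟨0, 1, 1, 2, 3, 4, 0, 1, 1, 0, 1, 1⟩ = true := by decide +kernel
theorem hr6_2 : (Tree.leaf 241 37 19 7 7).ok (7 + 1) 10000 28284 28285 (stepE1 f6 f5 f8 a6 b6 (1, 7) (L2c 7) (L3c 7))
    ⟨0, 1, 2, 3, 4, 4, 0, 1, 1, 0, 1, 1⟩ = true := by decide +kernel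
theorem hr6_3 : (Tree.leaf 249 37 19 7 7).ok (7 + 1) 10000 28284 28285 (stepE1 f6 f5 f8 a6 b6 (1, 7) (L2c 7) (L3c 7))
    ⟨1, 2, 2, 3, 4, 4, 0, 1, 1, 0, 1, 1⟩ = true := by decide +kernel
theorem hr6 : r6.ok (7 + 1) 10000 28284 28285 (stepE1 f6 f5 f8 a6 b6 (1, 7) (L2c 7) (L3c 7)) unitBx = true :=
  (Tree.ok_s1 hr6_0 (Tree.ok_s1 hr6_1 (Tree.ok_s0 hr6_2 hr6_3)))

def s6 : Tree := (.s0 (.leaf 204 37 19 7 7) (.leaf 209 37 19 7 7))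
theorem hs6_0 : (Tree.leaf 204 37 19 7 7).ok (7 + 1) 10000 28284 28285 (stepE2 f6 f5 f8 a6 b6 (1, 7) (L2c 7) (L3c 7))
    ⟨0, 1, 2, 0, 1, 1, 0, 1, 1, 0, 1, 1⟩ = true := by decide +kernel
theorem hs6_1 : (Tree.leaf 209 37 19 7 7).ok (7 + 1) 10000 28284 28285 (stepE2 f6 f5 f8 a6 b6 (1, 7) (L2c 7) (L3c 7))
    ⟨1, 2, 2, 0, 1, 1, 0, 1, 1, 0, 1, 1⟩ = true := by decide +kernel
theorem hs6 : s6.ok (7 + 1) 10000 28284 28285 (stepE2 f6 f5 f8 a6 b6 (1, 7) (L2c 7) (L3c 7)) unitBx = true :=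
  (Tree.ok_s0 hs6_0 hs6_1)

def p7 : Tree := (.s0 (.s0 (.leaf 208 6 17 1 1) (.leaf 211 6 17 1 1)) (.s0 (.leaf 213 6 17 1 1) (.s0 (.leaf 219 6 17 1 1) (.s1 (.leaf 234 6 17 1 1) (.leaf 237 6 17 1 1)))))
theorem hp7 : p7.ok 0 1 0 0 (A1 (354, 999) f7 a7 b7) unitBx = true := by decide +kernel

def q7 : Tree := (.s0 (.s0 (.leaf 325 6 28 1 1) (.leaf 326 6 28 1 1)) (.s1 (.s0 (.leaf 349 6 28 1 1) (.s0 (.leaf 349 6 28 1 1) (.leaf 350 6 28 1 1))) (.leaf 358 6 28 1 1)))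
theorem hq7 : q7.ok 0 1 0 0 (A2 (708, 999) f7 a7 b7) unitBx = true := by decide +kernel

def r7 : Tree := (.s1 (.leaf 190 37 19 7 7) (.s0 (.leaf 223 37 19 7 7) (.leaf 231 37 19 7 7)))
theorem hr7_0 : (Tree.leaf 190 37 19 7 7).ok (7 + 1) 10000 28284 28285 (stepE1 f7 f6 f8 a7 b7 (1, 7) (L2c 7) (L3c 7))
    ⟨0, 1, 1, 0, 1, 2, 0, 1, 1, 0, 1, 1⟩ = true := by decide +kernel
theorem hr7_1 : (Tree.leaf 223 37 19 7 7).ok (7 + 1) 10000 28284 28285 (stepE1 f7 f6 f8 a7 b7 (1, 7) (L2c 7) (L3c 7))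
    ⟨0, 1, 2, 1, 2, 2, 0, 1, 1, 0, 1, 1⟩ = true := by decide +kernel
theorem hr7_2 : (Tree.leaf 231 37 19 7 7).ok (7 + 1) 10000 28284 28285 (stepE1 f7 f6 f8 a7 b7 (1, 7) (L2c 7) (L3c 7))
    ⟨1, 2, 2, 1, 2, 2, 0, 1, 1, 0, 1, 1⟩ = true := by decide +kernel
theorem hr7 : r7.ok (7 + 1) 10000 28284 28285 (stepE1 f7 f6 f8 a7 b7 (1, 7) (L2c 7) (L3c 7)) unitBx = true :=
  (Tree.ok_s1 hr7_0 (Tree.ok_s0 hr7_1 hr7_2))

def s7 : Tree := (.leaf 170 37 19 7 7)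
theorem hs7 : s7.ok (7 + 1) 10000 28284 28285 (stepE2 f7 f6 f8 a7 b7 (1, 7) (L2c 7) (L3c 7)) unitBx = true := by decide +kernel

def p8 : Tree := (.s0 (.s0 (.leaf 209 6 17 1 1) (.s0 (.leaf 216 6 17 1 1) (.leaf 217 6 17 1 1))) (.s0 (.leaf 213 6 17 1 1) (.s1 (.s0 (.leaf 234 6 17 1 1) (.leaf 235 6 17 1 1)) (.leaf 232 6 17 1 1))))
theorem hp8 : p8.ok 0 1 0 0 (A1 (354, 999) f8 a8 b8) unitBx = true := by decide +kernel

def q8 : Tree := (.s0 (.s0 (.leaf 325 6 28 1 1) (.s0 (.leaf 325 6 28 1 1) (.s0 (.leaf 326 6 28 1 1) (.leaf 326 6 28 1 1)))) (.s1 (.s0 (.leaf 349 6 28 1 1) (.s1 (.s0 (.leaf 374 6 28 1 1) (.s1 (.leaf 400 6 28 1 1) (.leaf 403 6 28 1 1))) (.leaf 379 6 28 1 1))) (.leaf 358 6 28 1 1)))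
theorem hq8 : q8.ok 0 1 0 0 (A2 (708, 999) f8 a8 b8) unitBx = true := by decide +kernel

def r8 : Tree := (.s1 (.leaf 191 37 19 7 7) (.s0 (.leaf 224 37 19 7 7) (.leaf 231 37 19 7 7)))
theorem hr8_0 : (Tree.leaf 191 37 19 7 7).ok (7 + 1) 10000 28284 28285 (stepE1 f8 f7 f8 a8 b8 (1, 7) (L2c 7) (L3c 7))
    ⟨0, 1, 1, 0, 1, 2, 0, 1, 1, 0, 1, 1⟩ = true := by decide +kernel
theorem hr8_1 : (Tree.leaf 224 37 19 7 7).ok (7 + 1) 10000 28284 28285 (stepE1 f8 f7 f8 a8 b8 (1, 7) (L2c 7) (L3c 7))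
    ⟨0, 1, 2, 1, 2, 2, 0, 1, 1, 0, 1, 1⟩ = true := by decide +kernel
theorem hr8_2 : (Tree.leaf 231 37 19 7 7).ok (7 + 1) 10000 28284 28285 (stepE1 f8 f7 f8 a8 b8 (1, 7) (L2c 7) (L3c 7))
    ⟨1, 2, 2, 1, 2, 2, 0, 1, 1, 0, 1, 1⟩ = true := by decide +kernel
theorem hr8 : r8.ok (7 + 1) 10000 28284 28285 (stepE1 f8 f7 f8 a8 b8 (1, 7) (L2c 7) (L3c 7)) unitBx = true :=
  (Tree.ok_s1 hr8_0 (Tree.ok_s0 hr8_1 hr8_2))

def s8 : Tree := (.leaf 171 37 19 7 7)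
theorem hs8 : s8.ok (7 + 1) 10000 28284 28285 (stepE2 f8 f7 f8 a8 b8 (1, 7) (L2c 7) (L3c 7)) unitBx = true := by decide +kernel

def tm : Tree := (.leaf 71 16 16 6 1)
theorem hm : tm.ok 0 1 0 0 (monoE f8) unitBx = true := by decide +kernel

def F : ℕ → CL
  | 2 => f2
  | 3 => f3
  | 4 => f4
  | 5 => f5
  | 6 => f6
  | 7 => f7
  | _ => f8

theorem method (θ : ℝ) (t0 : 0 < θ) (t1 : θ ≤ 1) :
    ∃ (wd cm B : ℝ) (Ψ : ℕ → ℝ → ℝ → ℝ → ℝ),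
      Method (7 + 1) (lamd (7 + 1) * θ) wd cm B Ψ := by
  refine ⟨_, _, _, _, method_of 7 (by norm_num) F (1, 249) (by norm_num [cv])
    (mono_of_box _ (box_zero _ _ hm))
    (base_cert 7 10000 28284 28285 (by norm_num) f2 f8 a2 b2 (1, 249) p2 q2 r2
      (by norm_num) (by norm_num) (by decide) (by decide) (by decide) hp2 hq2 hr2)
    ?_ θ t0 t1⟩
  intro k hk hk'
  have hk2 : k ≤ 7 := by omega
  interval_cases k
  · exact step_cert 7 10000 28284 28285 (by norm_num) f3 f2 f8 a3 b3 (354, 999) (708, 999)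
      p3 q3 r3 s3 (by norm_num) (by norm_num) (by decide) (by decide) (by decide)
      (by norm_num [cv]) (by norm_num [cv]) (by norm_num [cv]) (by norm_num [cv])
      (by norm_num [cv]) hp3 hq3 hr3 hs3
  · exact step_cert 7 10000 28284 28285 (by norm_num) f4 f3 f8 a4 b4 (354, 999) (708, 999)
      p4 q4 r4 s4 (by norm_num) (by norm_num) (by decide) (by decide) (by decide)
      (by norm_num [cv]) (by norm_num [cv]) (by norm_num [cv]) (by norm_num [cv])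
      (by norm_num [cv]) hp4 hq4 hr4 hs4
  · exact step_cert 7 10000 28284 28285 (by norm_num) f5 f4 f8 a5 b5 (354, 999) (708, 999)
      p5 q5 r5 s5 (by norm_num) (by norm_num) (by decide) (by decide) (by decide)
      (by norm_num [cv]) (by norm_num [cv]) (by norm_num [cv]) (by norm_num [cv])
      (by norm_num [cv]) hp5 hq5 hr5 hs5
  · exact step_cert 7 10000 28284 28285 (by norm_num) f6 f5 f8 a6 b6 (354, 999) (708, 999)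
      p6 q6 r6 s6 (by norm_num) (by norm_num) (by decide) (by decide) (by decide)
      (by norm_num [cv]) (by norm_num [cv]) (by norm_num [cv]) (by norm_num [cv])
      (by norm_num [cv]) hp6 hq6 hr6 hs6
  · exact step_cert 7 10000 28284 28285 (by norm_num) f7 f6 f8 a7 b7 (354, 999) (708, 999)
      p7 q7 r7 s7 (by norm_num) (by norm_num) (by decide) (by decide) (by decide)
      (by norm_num [cv]) (by norm_num [cv]) (by norm_num [cv]) (by norm_num [cv])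
      (by norm_num [cv]) hp7 hq7 hr7 hs7
  · exact step_cert 7 10000 28284 28285 (by norm_num) f8 f7 f8 a8 b8 (354, 999) (708, 999)
      p8 q8 r8 s8 (by norm_num) (by norm_num) (by decide) (by decide) (by decide)
      (by norm_num [cv]) (by norm_num [cv]) (by norm_num [cv]) (by norm_num [cv])
      (by norm_num [cv]) hp8 hq8 hr8 hs8

end Vale.Agent.P154.C8
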