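import Vale.Agent.P154.RegPhi

/-! Data of a chain of potentials. -/

namespace Vale.Agent.P154.G1

def D01 : NP where
  A := [(-24671, 4095), (104610, 4095), (-153417, 4095), (89954, 4095), (-14742, 4095), (-1734, 4095)]
  B := [(147115, 4095), (-306922, 4095), (329360, 4095), (-96152, 4095)]
  E := [(103115, 4095)]
  a0 := []
  a1 := []
  a2 := []
  a3 := []
  a4 := []
  b0 := []
  b1 := []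
  b2 := []
  b3 := []
  b4 := []
  g0 := []
  g1 := []
  g2 := []

def D02 : NP where
  A := [(889, 4095), (-1952, 4095), (3221, 4095), (-4341, 4095), (2382, 4095), (-199, 4095)]
  B := [(64865, 4095), (10672, 4095), (-8119, 4095), (5983, 4095)]
  E := [(23131, 4095)]
  a0 := [(88885, 4095), (8720, 4095), (-4898, 4095), (1642, 4095), (2382, 4095), (-199, 4095)]
  a1 := [(88885, 4095), (-17440, 4095), (24490, 4095), (-13136, 4095), (-26202, 4095), (2786, 4095)]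
  a2 := [(52688, 4095), (-87349, 4095), (240660, 4095), (45429, 4095)]
  a3 := [(201565, 4095), (55121, 4095), (408057, 4095), (-144058, 4095)]
  a4 := [(192913, 4095), (125291, 4095), (-397223, 4095), (9035, 4095)]
  b0 := [(-111127, 4095), (-10672, 4095), (8119, 4095), (-5983, 4095)]
  b1 := [(111127, 4095), (42688, 4095), (-56833, 4095), (59830, 4095)]
  b2 := [(-212263, 4095), (-3465, 4095), (-347466, 4095)]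
  b3 := [(-246653, 4095), (-409574, 4095), (194807, 4095)]
  b4 := [(-126133, 4095), (315287, 4095), (96297, 4095)]
  g0 := [(23131, 4095)]
  g1 := [(-69393, 4095)]
  g2 := [(180498, 4095), (98815, 4095)]

def D03 : NP where
  A := [(888, 4095), (-1921, 4095), (3369, 4095), (-5174, 4095), (3485, 4095), (-647, 4095)]
  B := [(64863, 4095), (10126, 4095), (-6675, 4095), (5087, 4095)]
  E := [(23132, 4095)]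
  a0 := [(88883, 4095), (8205, 4095), (-3306, 4095), (-87, 4095), (3485, 4095), (-647, 4095)]
  a1 := [(88883, 4095), (-16410, 4095), (16530, 4095), (696, 4095), (-38335, 4095), (9058, 4095)]
  a2 := [(81, 4095), (-102330, 4095), (115106, 4095), (13477, 4095)]
  a3 := [(201, 4095), (105995, 4095), (300161, 4095), (-283729, 4095)]
  a4 := [(169, 4095), (226436, 4095), (-179583, 4095), (267627, 4095)]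
  b0 := [(-111127, 4095), (-10126, 4095), (6675, 4095), (-5087, 4095)]
  b1 := [(111127, 4095), (40504, 4095), (-46725, 4095), (50870, 4095)]
  b2 := [(-62131, 4095), (111280, 4095), (-154245, 4095)]
  b3 := [(40734, 4095), (-409600, 4095), (290887, 4095)]
  b4 := [(-130349, 4095), (372311, 4095), (-269712, 4095)]
  g0 := [(23132, 4095)]
  g1 := [(-69396, 4095)]
  g2 := [(73768, 4095), (-25763, 4095)]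

def D04 : NP where
  A := [(887, 4095), (-2437, 4095), (2267, 4095), (-817, 4095), (146, 4095), (-46, 4095)]
  B := [(64860, 4095), (10336, 4095), (-1614, 4095), (-181, 4095)]
  E := [(23133, 4095)]
  a0 := [(88880, 4095), (7899, 4095), (653, 4095), (-998, 4095), (146, 4095), (-46, 4095)]
  a1 := [(88880, 4095), (-15798, 4095), (-3265, 4095), (7984, 4095), (-1606, 4095), (644, 4095)]
  a2 := [(22, 4095), (-44590, 4095), (34300, 4095), (-2398, 4095)]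
  a3 := [(0, 4095), (176891, 4095), (42854, 4095), (-18584, 4095)]
  a4 := [(0, 4095), (233118, 4095), (-227176, 4095), (-17729, 4095)]
  b0 := [(-111126, 4095), (-10336, 4095), (1614, 4095), (181, 4095)]
  b1 := [(111126, 4095), (41344, 4095), (-11298, 4095), (-1810, 4095)]
  b2 := [(-62248, 4095), (-31047, 4095), (-31851, 4095)]
  b3 := [(37712, 4095), (-409600, 4095), (136372, 4095)]
  b4 := [(-122771, 4095), (246542, 4095), (-37456, 4095)]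
  g0 := [(23133, 4095)]
  g1 := [(-69399, 4095)]
  g2 := [(73684, 4095), (45981, 4095)]

def D11 : NP where
  A := [(6987, 4095), (-15893, 4095), (13019, 4095), (-2285, 4095), (-1828, 4095)]
  B := [(45677, 4095), (42073, 4095), (-19331, 4095)]
  E := [(114344, 4095)]
  a0 := []
  a1 := []
  a2 := []
  a3 := []
  a4 := []
  b0 := []
  b1 := []
  b2 := []
  b3 := []
  b4 := []
  g0 := []
  g1 := []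
  g2 := []

def D12 : NP where
  A := [(3207, 4095), (-6338, 4095), (5771, 4095), (-2922, 4095), (282, 4095)]
  B := [(75541, 4095), (2015, 4095), (-3604, 4095)]
  E := [(28792, 4095)]
  a0 := [(107540, 4095), (-4323, 4095), (2167, 4095), (-2922, 4095), (282, 4095)]
  a1 := [(107540, 4095), (8646, 4095), (-10835, 4095), (23376, 4095), (-3102, 4095)]
  a2 := [(6159, 4095), (-130318, 4095), (13868, 4095), (-24908, 4095)]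
  a3 := [(48609, 4095), (52269, 4095), (214391, 4095), (78181, 4095)]
  a4 := [(96112, 4095), (149403, 4095), (-321331, 4095), (-17050, 4095)]
  b0 := [(-133125, 4095), (-2015, 4095), (3604, 4095)]
  b1 := [(133125, 4095), (8060, 4095), (-25228, 4095)]
  b2 := [(-92857, 4095), (184575, 4095), (2438, 4095)]
  b3 := [(-61920, 4095), (-409347, 4095), (-116833, 4095)]
  b4 := [(-118114, 4095), (318792, 4095), (360698, 4095)]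
  g0 := [(28792, 4095)]
  g1 := [(-86376, 4095)]
  g2 := [(110858, 4095), (-16399, 4095)]

def D13 : NP where
  A := [(3386, 4095), (-9589, 4095), (9992, 4095), (-4207, 4095), (418, 4095)]
  B := [(68213, 4095), (20837, 4095), (-8292, 4095)]
  E := [(35853, 4095)]
  a0 := [(107452, 4095), (11248, 4095), (1700, 4095), (-4207, 4095), (418, 4095)]
  a1 := [(107452, 4095), (-22496, 4095), (-8500, 4095), (33656, 4095), (-4598, 4095)]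
  a2 := [(22, 4095), (-82517, 4095), (-3320, 4095), (-87704, 4095)]
  a3 := [(0, 4095), (133852, 4095), (177209, 4095), (178725, 4095)]
  a4 := [(0, 4095), (386242, 4095), (-205415, 4095), (-41434, 4095)]
  b0 := [(-139919, 4095), (-20837, 4095), (8292, 4095)]
  b1 := [(139919, 4095), (83348, 4095), (-58044, 4095)]
  b2 := [(-58799, 4095), (-30960, 4095), (192048, 4095)]
  b3 := [(45516, 4095), (-372350, 4095), (-366219, 4095)]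
  b4 := [(-228954, 4095), (402295, 4095), (293994, 4095)]
  g0 := [(35853, 4095)]
  g1 := [(-107559, 4095)]
  g2 := [(114198, 4095), (-8528, 4095)]

def D14 : NP where
  A := [(1678, 4095), (-8534, 4095), (11475, 4095), (-5209, 4095), (590, 4095)]
  B := [(72055, 4095), (26896, 4095), (-10843, 4095)]
  E := [(33132, 4095)]
  a0 := [(106865, 4095), (18362, 4095), (632, 4095), (-5209, 4095), (590, 4095)]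
  a1 := [(106865, 4095), (-36724, 4095), (-3160, 4095), (41672, 4095), (-6490, 4095)]
  a2 := [(118, 4095), (-110915, 4095), (38186, 4095), (5205, 4095)]
  a3 := [(267, 4095), (117209, 4095), (284917, 4095), (179609, 4095)]
  a4 := [(187, 4095), (331667, 4095), (-205101, 4095), (236670, 4095)]
  b0 := [(-138319, 4095), (-26896, 4095), (10843, 4095)]
  b1 := [(138319, 4095), (107584, 4095), (-75901, 4095)]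
  b2 := [(-61584, 4095), (-19698, 4095), (68350, 4095)]
  b3 := [(54699, 4095), (-409600, 4095), (-291042, 4095)]
  b4 := [(-234828, 4095), (404341, 4095), (300238, 4095)]
  g0 := [(33132, 4095)]
  g1 := [(-99396, 4095)]
  g2 := [(105997, 4095), (2849, 4095)]

def D21 : NP where
  A := [(8984, 4095), (19712, 4095), (-74992, 4095), (39982, 4095)]
  B := [(34536, 4095), (-108704, 4095), (161465, 4095)]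
  E := [(268934, 4095)]
  a0 := []
  a1 := []
  a2 := []
  a3 := []
  a4 := []
  b0 := []
  b1 := []
  b2 := []
  b3 := []
  b4 := []
  g0 := []
  g1 := []
  g2 := []

def D22 : NP where
  A := [(6512, 4095), (-16576, 4095), (3649, 4095), (201, 4095)]
  B := [(92314, 4095), (-8662, 4095), (5489, 4095)]
  E := [(36615, 4095)]
  a0 := [(135441, 4095), (-25238, 4095), (9138, 4095), (201, 4095)]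
  a1 := [(135441, 4095), (50476, 4095), (-45690, 4095), (-1608, 4095)]
  a2 := [(171, 4095), (-172752, 4095), (124429, 4095), (15022, 4095)]
  a3 := [(661, 4095), (45802, 4095), (-73386, 4095), (230767, 4095)]
  a4 := [(645, 4095), (409600, 4095), (-4886, 4095), (-409564, 4095)]
  b0 := [(-165544, 4095), (8662, 4095), (-5489, 4095)]
  b1 := [(165544, 4095), (-34648, 4095), (38423, 4095)]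
  b2 := [(-88458, 4095), (227630, 4095), (-181368, 4095)]
  b3 := [(39762, 4095), (-409600, 4095), (5527, 4095)]
  b4 := [(-170411, 4095), (88045, 4095), (292478, 4095)]
  g0 := [(36615, 4095)]
  g1 := [(-109845, 4095)]
  g2 := [(116886, 4095), (15677, 4095)]

def D23 : NP where
  A := [(-167, 4095), (-8481, 4095), (1838, 4095), (305, 4095)]
  B := [(101763, 4095), (-3523, 4095), (8401, 4095)]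
  E := [(41117, 4095)]
  a0 := [(142713, 4095), (-12004, 4095), (10239, 4095), (305, 4095)]
  a1 := [(142713, 4095), (24008, 4095), (-51195, 4095), (-2440, 4095)]
  a2 := [(22, 4095), (-103445, 4095), (120326, 4095), (15711, 4095)]
  a3 := [(0, 4095), (42235, 4095), (18839, 4095), (307201, 4095)]
  a4 := [(0, 4095), (249438, 4095), (-409600, 4095), (-409600, 4095)]
  b0 := [(-183997, 4095), (3523, 4095), (-8401, 4095)]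
  b1 := [(183997, 4095), (-14092, 4095), (58807, 4095)]
  b2 := [(-96273, 4095), (115358, 4095), (-234327, 4095)]
  b3 := [(61269, 4095), (-409600, 4095), (25634, 4095)]
  b4 := [(-228105, 4095), (409600, 4095), (282757, 4095)]
  g0 := [(41117, 4095)]
  g1 := [(-123351, 4095)]
  g2 := [(130965, 4095), (46694, 4095)]

def D24 : NP where
  A := [(-8603, 4095), (-2033, 4095), (4658, 4095), (-439, 4095)]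
  B := [(111115, 4095), (17302, 4095), (-166, 4095)]
  E := [(47096, 4095)]
  a0 := [(149608, 4095), (15269, 4095), (4492, 4095), (-439, 4095)]
  a1 := [(149608, 4095), (-30538, 4095), (-22460, 4095), (3512, 4095)]
  a2 := [(22, 4095), (-109394, 4095), (83562, 4095), (9616, 4095)]
  a3 := [(1, 4095), (75638, 4095), (83519, 4095), (156498, 4095)]
  a4 := [(0, 4095), (393773, 4095), (-409600, 4095), (242429, 4095)]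
  b0 := [(-205307, 4095), (-17302, 4095), (166, 4095)]
  b1 := [(205307, 4095), (69208, 4095), (-1162, 4095)]
  b2 := [(-105703, 4095), (43041, 4095), (-90597, 4095)]
  b3 := [(56507, 4095), (-409600, 4095), (-62050, 4095)]
  b4 := [(-237692, 4095), (315657, 4095), (37317, 4095)]
  g0 := [(47096, 4095)]
  g1 := [(-141288, 4095)]
  g2 := [(150010, 4095), (28641, 4095)]

def p01 : List CL := [[(0, 4095), (73401, 4095), (2350, 4095), (-460, 4095), (12444, 4095)], [(0, 4095), (-315, 4095), (-5551, 4095)], [(4012, 4095), (-11614, 4095)]]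
def p02 : List CL := [[(0, 4095), (73401, 4095), (2377, 4095), (3083, 4095), (-2846, 4095)], [(0, 4095), (2653, 4095), (1979, 4095)], [(2838, 4095), (-7, 4095)]]
def p03 : List CL := [[(0, 4095), (73401, 4095), (5324, 4095), (-3634, 4095), (-1371, 4095)], [(0, 4095), (8159, 4095), (-6296, 4095)], [(-552, 4095), (18560, 4095)]]
def p04 : List CL := [[(0, 4095), (73401, 4095), (11669, 4095), (-3650, 4095), (5590, 4095)], [(0, 4095), (31045, 4095), (-36561, 4095)], [(3455, 4095), (19173, 4095)]]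
def p11 : List CL := [[(0, 4095), (81818, 4095), (14966, 4095), (8851, 4095), (-7790, 4095)], [(5259, 4095), (-4590, 4095), (-11898, 4095)], [(9845, 4095), (8352, 4095)]]
def p12 : List CL := [[(0, 4095), (82662, 4095), (16419, 4095), (-12087, 4095), (15115, 4095)], [(3764, 4095), (19239, 4095), (-50200, 4095)], [(3407, 4095), (31163, 4095)]]
def p13 : List CL := [[(0, 4095), (85217, 4095), (6525, 4095), (-885, 4095), (832, 4095)], [(3176, 4095), (8068, 4095), (-19830, 4095)], [(6178, 4095), (16605, 4095)]]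
def p14 : List CL := [[(0, 4095), (88260, 4095), (3032, 4095), (-2993, 4095), (7579, 4095)], [(2387, 4095), (-2194, 4095), (3461, 4095)], [(-766, 4095), (8455, 4095)]]
def p21 : List CL := [[(0, 4095), (120453, 4095), (12240, 4095), (4100, 4095), (26240, 4095)], [(13452, 4095), (3522, 4095), (21950, 4095)], [(24288, 4095), (-58209, 4095)]]
def p22 : List CL := [[(0, 4095), (113775, 4095), (28380, 4095), (-6873, 4095), (15909, 4095)], [(14782, 4095), (-12322, 4095), (-3255, 4095)], [(18824, 4095), (-11553, 4095)]]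
def p23 : List CL := [[(0, 4095), (105055, 4095), (47214, 4095), (-24990, 4095), (18818, 4095)], [(13593, 4095), (-18058, 4095), (-10100, 4095)], [(13016, 4095), (6109, 4095)]]
def p24 : List CL := [[(0, 4095), (97738, 4095), (56386, 4095), (-23574, 4095), (-12385, 4095)], [(9183, 4095), (-40540, 4095), (27052, 4095)], [(12855, 4095), (21028, 4095)]]
def k01 : List CL := []
def k02 : List CL := [[(0, 4095), (-34091, 4095), (409600, 4095), (409600, 4095)], [(-189074, 4095), (-409600, 4095)], [(409600, 4095)]]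
def k03 : List CL := [[(0, 4095), (-47366, 4095), (409600, 4095), (396247, 4095)], [(-148929, 4095), (-409600, 4095)], [(-197066, 4095)]]
def k04 : List CL := [[(0, 4095), (-90305, 4095), (409600, 4095), (328195, 4095)], [(-134832, 4095), (-409600, 4095)], [(-79637, 4095)]]
def k11 : List CL := [[(-5084, 4095)]]
def k12 : List CL := [[(-5417, 4095), (25989, 4095), (409600, 4095), (-409600, 4095)], [(-198078, 4095), (-84340, 4095)], [(115028, 4095)]]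
def k13 : List CL := [[(-10940, 4095), (75725, 4095), (409600, 4095), (-23650, 4095)], [(-257235, 4095), (-409600, 4095)], [(67576, 4095)]]
def k14 : List CL := [[(-14153, 4095), (150103, 4095), (409600, 4095), (20394, 4095)], [(-384662, 4095), (-280839, 4095)], [(-39838, 4095)]]

def D : ℕ → ℕ → NP
  | 0, 1 => D01
  | 0, 2 => D02
  | 0, 3 => D03
  | 0, 4 => D04
  | 1, 1 => D11
  | 1, 2 => D12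
  | 1, 3 => D13
  | 1, 4 => D14
  | 2, 1 => D21
  | 2, 2 => D22
  | 2, 3 => D23
  | 2, 4 => D24
  | _, _ => D01

def psi : ℕ → ℕ → List CL
  | 0, 1 => p01
  | 0, 2 => p02
  | 0, 3 => p03
  | 0, 4 => p04
  | 1, 1 => p11
  | 1, 2 => p12
  | 1, 3 => p13
  | 1, 4 => p14
  | 2, 1 => p21
  | 2, 2 => p22
  | 2, 3 => p23
  | 2, 4 => p24
  | _, _ => []

def hh : ℕ → ℕ → List CL
  | 0, 1 => k01
  | 0, 2 => k02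
  | 0, 3 => k03
  | 0, 4 => k04
  | 1, 1 => k11
  | 1, 2 => k12
  | 1, 3 => k13
  | 1, 4 => k14
  | _, _ => []

def psil : ℕ → List (List CL)
  | 0 => [p01, p02, p03, p04]
  | 1 => [p11, p12, p13, p14]
  | 2 => [p21, p22, p23, p24]
  | _ => []

/-! Certificates. -/

/-- the leaves of all trees -/
theorem lv :
    ((Tree.leaf 77 16 1 6 1).ok 0 1 0 0 (BEr 0 D01 (1, 3) (-1, 7) (1, 4) (0, 0) p01 k01 k11) ⟨0, 1, 1, 0, 1, 1, 0, 1, 2, 0, 1, 1⟩ = true ∧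
      (Tree.leaf 77 16 1 6 1).ok 0 1 0 0 (BEr 0 D01 (1, 3) (-1, 7) (1, 4) (0, 0) p01 k01 k11) ⟨0, 1, 1, 0, 1, 1, 1, 2, 2, 0, 1, 1⟩ = true) ∧
    ((Tree.leaf 78 9 16 6 1).ok 0 1 0 0 (SE D04 (0, 0) (1, 3) [p01, p02, p03, p04]) ⟨0, 1, 1, 0, 1, 2, 0, 1, 2, 0, 1, 1⟩ = true ∧
      (Tree.leaf 82 9 16 6 1).ok 0 1 0 0 (SE D04 (0, 0) (1, 3) [p01, p02, p03, p04]) ⟨0, 1, 1, 1, 2, 2, 0, 1, 2, 0, 1, 1⟩ = true ∧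
      (Tree.leaf 70 9 16 6 1).ok 0 1 0 0 (SE D04 (0, 0) (1, 3) [p01, p02, p03, p04]) ⟨0, 1, 1, 0, 1, 1, 2, 3, 4, 0, 1, 1⟩ = true ∧
      (Tree.leaf 71 9 16 6 1).ok 0 1 0 0 (SE D04 (0, 0) (1, 3) [p01, p02, p03, p04]) ⟨0, 1, 1, 0, 1, 1, 3, 4, 4, 0, 1, 1⟩ = true) ∧
    ((Tree.leaf 54 16 1 6 1).ok 0 1 0 0 (RE D04 (0, 0)) ⟨0, 1, 1, 0, 1, 1, 0, 1, 1, 0, 1, 1⟩ = true) ∧
    ((Tree.leaf 120 17 16 6 1).ok 0 1 0 0 (UE0 (1, 0) D02) ⟨0, 1, 4, 0, 1, 2, 0, 1, 1, 0, 1, 1⟩ = true ∧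
      (Tree.leaf 124 17 16 6 1).ok 0 1 0 0 (UE0 (1, 0) D02) ⟨1, 2, 4, 0, 1, 2, 0, 1, 1, 0, 1, 1⟩ = true ∧
      (Tree.leaf 116 17 16 6 1).ok 0 1 0 0 (UE0 (1, 0) D02) ⟨0, 1, 2, 1, 2, 2, 0, 1, 2, 0, 1, 1⟩ = true ∧
      (Tree.leaf 118 17 16 6 1).ok 0 1 0 0 (UE0 (1, 0) D02) ⟨0, 1, 2, 1, 2, 2, 1, 2, 2, 0, 1, 1⟩ = true ∧
      (Tree.leaf 130 17 16 6 1).ok 0 1 0 0 (UE0 (1, 0) D02) ⟨4, 5, 8, 0, 1, 1, 0, 1, 1, 0, 1, 1⟩ = true ∧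
      (Tree.leaf 132 17 16 6 1).ok 0 1 0 0 (UE0 (1, 0) D02) ⟨5, 6, 8, 0, 1, 1, 0, 1, 1, 0, 1, 1⟩ = true ∧
      (Tree.leaf 118 17 16 6 1).ok 0 1 0 0 (UE0 (1, 0) D02) ⟨3, 4, 4, 0, 1, 1, 0, 1, 1, 0, 1, 1⟩ = true) ∧
    ((Tree.leaf 120 17 16 6 1).ok 0 1 0 0 (UE1 (1, 1) D02) ⟨0, 1, 1, 0, 1, 4, 0, 1, 1, 0, 1, 1⟩ = true ∧
      (Tree.leaf 136 17 16 6 1).ok 0 1 0 0 (UE1 (1, 1) D02) ⟨0, 1, 2, 1, 2, 4, 0, 1, 1, 0, 1, 1⟩ = true ∧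
      (Tree.leaf 140 17 16 6 1).ok 0 1 0 0 (UE1 (1, 1) D02) ⟨1, 2, 2, 1, 2, 4, 0, 1, 1, 0, 1, 1⟩ = true ∧
      (Tree.leaf 116 17 16 6 1).ok 0 1 0 0 (UE1 (1, 1) D02) ⟨0, 1, 1, 1, 2, 2, 0, 1, 2, 0, 1, 1⟩ = true ∧
      (Tree.leaf 122 17 16 6 1).ok 0 1 0 0 (UE1 (1, 1) D02) ⟨0, 1, 1, 1, 2, 2, 2, 3, 4, 0, 1, 1⟩ = true ∧
      (Tree.leaf 123 17 16 6 1).ok 0 1 0 0 (UE1 (1, 1) D02) ⟨0, 1, 1, 1, 2, 2, 3, 4, 4, 0, 1, 1⟩ = true) ∧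
    ((Tree.leaf 128 16 16 6 6).ok 0 1 0 0 (HEr 0 D01 D02 (1, 3) (-1, 7) (1, 4) p02 k02 k12) ⟨0, 1, 2, 0, 1, 1, 0, 1, 2, 0, 1, 1⟩ = true ∧
      (Tree.leaf 128 16 16 6 6).ok 0 1 0 0 (HEr 0 D01 D02 (1, 3) (-1, 7) (1, 4) p02 k02 k12) ⟨0, 1, 2, 0, 1, 1, 1, 2, 2, 0, 1, 1⟩ = true ∧
      (Tree.leaf 133 16 16 6 6).ok 0 1 0 0 (HEr 0 D01 D02 (1, 3) (-1, 7) (1, 4) p02 k02 k12) ⟨1, 2, 2, 0, 1, 1, 0, 1, 2, 0, 1, 1⟩ = true ∧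
      (Tree.leaf 134 16 16 6 6).ok 0 1 0 0 (HEr 0 D01 D02 (1, 3) (-1, 7) (1, 4) p02 k02 k12) ⟨1, 2, 2, 0, 1, 1, 1, 2, 2, 0, 1, 1⟩ = true) ∧
    ((Tree.leaf 120 17 16 6 1).ok 0 1 0 0 (UE0 (1, 0) D03) ⟨0, 1, 4, 0, 1, 2, 0, 1, 1, 0, 1, 1⟩ = true ∧
      (Tree.leaf 124 17 16 6 1).ok 0 1 0 0 (UE0 (1, 0) D03) ⟨1, 2, 4, 0, 1, 2, 0, 1, 1, 0, 1, 1⟩ = true ∧
      (Tree.leaf 113 17 16 6 1).ok 0 1 0 0 (UE0 (1, 0) D03) ⟨1, 2, 2, 0, 1, 2, 0, 1, 1, 0, 1, 1⟩ = true ∧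
      (Tree.leaf 126 17 16 6 1).ok 0 1 0 0 (UE0 (1, 0) D03) ⟨0, 1, 4, 1, 2, 2, 0, 1, 1, 0, 1, 1⟩ = true ∧
      (Tree.leaf 131 17 16 6 1).ok 0 1 0 0 (UE0 (1, 0) D03) ⟨1, 2, 4, 1, 2, 2, 0, 1, 1, 0, 1, 1⟩ = true ∧
      (Tree.leaf 121 17 16 6 1).ok 0 1 0 0 (UE0 (1, 0) D03) ⟨1, 2, 2, 1, 2, 2, 0, 1, 1, 0, 1, 1⟩ = true) ∧
    ((Tree.leaf 106 17 16 6 1).ok 0 1 0 0 (UE1 (1, 1) D03) ⟨0, 1, 1, 0, 1, 2, 0, 1, 1, 0, 1, 1⟩ = true ∧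
      (Tree.leaf 139 17 16 6 1).ok 0 1 0 0 (UE1 (1, 1) D03) ⟨0, 1, 2, 2, 3, 4, 0, 1, 1, 0, 1, 1⟩ = true ∧
      (Tree.leaf 144 17 16 6 1).ok 0 1 0 0 (UE1 (1, 1) D03) ⟨1, 2, 2, 2, 3, 4, 0, 1, 1, 0, 1, 1⟩ = true ∧
      (Tree.leaf 144 17 16 6 1).ok 0 1 0 0 (UE1 (1, 1) D03) ⟨0, 1, 1, 6, 7, 8, 0, 1, 1, 0, 1, 1⟩ = true ∧
      (Tree.leaf 146 17 16 6 1).ok 0 1 0 0 (UE1 (1, 1) D03) ⟨0, 1, 1, 7, 8, 8, 0, 1, 1, 0, 1, 1⟩ = true) ∧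
    ((Tree.leaf 126 16 16 6 6).ok 0 1 0 0 (HEr 0 D02 D03 (1, 3) (-1, 7) (1, 4) p03 k03 k13) ⟨0, 1, 2, 0, 1, 1, 0, 1, 1, 0, 1, 2⟩ = true ∧
      (Tree.leaf 126 16 16 6 6).ok 0 1 0 0 (HEr 0 D02 D03 (1, 3) (-1, 7) (1, 4) p03 k03 k13) ⟨0, 1, 2, 0, 1, 1, 0, 1, 1, 1, 2, 2⟩ = true ∧
      (Tree.leaf 132 16 16 6 6).ok 0 1 0 0 (HEr 0 D02 D03 (1, 3) (-1, 7) (1, 4) p03 k03 k13) ⟨1, 2, 2, 0, 1, 1, 0, 1, 1, 0, 1, 2⟩ = true ∧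
      (Tree.leaf 133 16 16 6 6).ok 0 1 0 0 (HEr 0 D02 D03 (1, 3) (-1, 7) (1, 4) p03 k03 k13) ⟨1, 2, 2, 0, 1, 1, 0, 1, 1, 1, 2, 2⟩ = true) ∧
    ((Tree.leaf 119 17 16 6 1).ok 0 1 0 0 (UE0 (1, 0) D04) ⟨0, 1, 4, 0, 1, 2, 0, 1, 1, 0, 1, 1⟩ = true ∧
      (Tree.leaf 122 17 16 6 1).ok 0 1 0 0 (UE0 (1, 0) D04) ⟨1, 2, 4, 0, 1, 2, 0, 1, 1, 0, 1, 1⟩ = true ∧
      (Tree.leaf 123 17 16 6 1).ok 0 1 0 0 (UE0 (1, 0) D04) ⟨0, 1, 4, 1, 2, 2, 0, 1, 1, 0, 1, 1⟩ = true ∧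
      (Tree.leaf 127 17 16 6 1).ok 0 1 0 0 (UE0 (1, 0) D04) ⟨1, 2, 4, 1, 2, 2, 0, 1, 1, 0, 1, 1⟩ = true ∧
      (Tree.leaf 98 17 16 6 1).ok 0 1 0 0 (UE0 (1, 0) D04) ⟨1, 2, 2, 0, 1, 1, 0, 1, 1, 0, 1, 1⟩ = true) ∧
    ((Tree.leaf 119 17 16 6 1).ok 0 1 0 0 (UE1 (1, 1) D04) ⟨0, 1, 2, 0, 1, 2, 0, 1, 1, 0, 1, 1⟩ = true ∧
      (Tree.leaf 122 17 16 6 1).ok 0 1 0 0 (UE1 (1, 1) D04) ⟨1, 2, 2, 0, 1, 2, 0, 1, 1, 0, 1, 1⟩ = true ∧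
      (Tree.leaf 113 17 16 6 1).ok 0 1 0 0 (UE1 (1, 1) D04) ⟨0, 1, 1, 1, 2, 2, 0, 1, 2, 0, 1, 1⟩ = true ∧
      (Tree.leaf 128 17 16 6 1).ok 0 1 0 0 (UE1 (1, 1) D04) ⟨0, 1, 2, 1, 2, 2, 1, 2, 2, 0, 1, 1⟩ = true ∧
      (Tree.leaf 133 17 16 6 1).ok 0 1 0 0 (UE1 (1, 1) D04) ⟨1, 2, 2, 1, 2, 2, 1, 2, 2, 0, 1, 1⟩ = true) ∧
    ((Tree.leaf 136 16 16 6 6).ok 0 1 0 0 (HEr 0 D03 D04 (1, 3) (-1, 7) (1, 4) p04 k04 k14) ⟨0, 1, 2, 0, 1, 2, 0, 1, 1, 0, 1, 1⟩ = true ∧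
      (Tree.leaf 137 16 16 6 6).ok 0 1 0 0 (HEr 0 D03 D04 (1, 3) (-1, 7) (1, 4) p04 k04 k14) ⟨0, 1, 2, 1, 2, 2, 0, 1, 1, 0, 1, 1⟩ = true ∧
      (Tree.leaf 130 16 16 6 6).ok 0 1 0 0 (HEr 0 D03 D04 (1, 3) (-1, 7) (1, 4) p04 k04 k14) ⟨1, 2, 2, 0, 1, 1, 0, 1, 2, 0, 1, 1⟩ = true ∧
      (Tree.leaf 131 16 16 6 6).ok 0 1 0 0 (HEr 0 D03 D04 (1, 3) (-1, 7) (1, 4) p04 k04 k14) ⟨1, 2, 2, 0, 1, 1, 1, 2, 2, 0, 1, 1⟩ = true) ∧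
    ((Tree.leaf 65 13 1 5 1).ok 0 1 0 0 (BEr 1 D11 (1, 3) (-1, 7) (1, 4) (0, 0) p11 k01 k11) ⟨0, 1, 1, 0, 1, 1, 0, 1, 2, 0, 1, 1⟩ = true ∧
      (Tree.leaf 69 13 1 5 1).ok 0 1 0 0 (BEr 1 D11 (1, 3) (-1, 7) (1, 4) (0, 0) p11 k01 k11) ⟨0, 1, 1, 0, 1, 1, 2, 3, 4, 0, 1, 1⟩ = true ∧
      (Tree.leaf 69 13 1 5 1).ok 0 1 0 0 (BEr 1 D11 (1, 3) (-1, 7) (1, 4) (0, 0) p11 k01 k11) ⟨0, 1, 1, 0, 1, 1, 3, 4, 4, 0, 1, 1⟩ = true) ∧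
    ((Tree.leaf 68 9 13 5 1).ok 0 1 0 0 (SE D14 (0, 0) (1, 3) [p11, p12, p13, p14]) ⟨0, 1, 1, 0, 1, 2, 0, 1, 2, 0, 1, 1⟩ = true ∧
      (Tree.leaf 73 9 13 5 1).ok 0 1 0 0 (SE D14 (0, 0) (1, 3) [p11, p12, p13, p14]) ⟨0, 1, 1, 1, 2, 2, 0, 1, 2, 0, 1, 1⟩ = true ∧
      (Tree.leaf 63 9 13 5 1).ok 0 1 0 0 (SE D14 (0, 0) (1, 3) [p11, p12, p13, p14]) ⟨0, 1, 1, 0, 1, 1, 2, 3, 4, 0, 1, 1⟩ = true ∧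
      (Tree.leaf 63 9 13 5 1).ok 0 1 0 0 (SE D14 (0, 0) (1, 3) [p11, p12, p13, p14]) ⟨0, 1, 1, 0, 1, 1, 3, 4, 4, 0, 1, 1⟩ = true) ∧
    ((Tree.leaf 48 13 1 5 1).ok 0 1 0 0 (RE D14 (0, 0)) ⟨0, 1, 1, 0, 1, 1, 0, 1, 1, 0, 1, 1⟩ = true) ∧
    ((Tree.leaf 101 14 13 5 1).ok 0 1 0 0 (UE0 (1, 0) D12) ⟨0, 1, 4, 0, 1, 2, 0, 1, 1, 0, 1, 1⟩ = true ∧
      (Tree.leaf 104 14 13 5 1).ok 0 1 0 0 (UE0 (1, 0) D12) ⟨0, 1, 4, 1, 2, 2, 0, 1, 1, 0, 1, 1⟩ = true ∧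
      (Tree.leaf 93 14 13 5 1).ok 0 1 0 0 (UE0 (1, 0) D12) ⟨1, 2, 4, 0, 1, 1, 0, 1, 1, 0, 1, 1⟩ = true ∧
      (Tree.leaf 85 14 13 5 1).ok 0 1 0 0 (UE0 (1, 0) D12) ⟨1, 2, 2, 0, 1, 1, 0, 1, 1, 0, 1, 1⟩ = true) ∧
    ((Tree.leaf 113 14 13 5 1).ok 0 1 0 0 (UE1 (1, 1) D12) ⟨0, 1, 4, 0, 1, 2, 0, 1, 1, 0, 1, 1⟩ = true ∧
      (Tree.leaf 114 14 13 5 1).ok 0 1 0 0 (UE1 (1, 1) D12) ⟨1, 2, 4, 0, 1, 2, 0, 1, 1, 0, 1, 1⟩ = true ∧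
      (Tree.leaf 103 14 13 5 1).ok 0 1 0 0 (UE1 (1, 1) D12) ⟨1, 2, 2, 0, 1, 2, 0, 1, 1, 0, 1, 1⟩ = true ∧
      (Tree.leaf 116 14 13 5 1).ok 0 1 0 0 (UE1 (1, 1) D12) ⟨0, 1, 4, 1, 2, 2, 0, 1, 1, 0, 1, 1⟩ = true ∧
      (Tree.leaf 118 14 13 5 1).ok 0 1 0 0 (UE1 (1, 1) D12) ⟨1, 2, 4, 1, 2, 2, 0, 1, 1, 0, 1, 1⟩ = true ∧
      (Tree.leaf 108 14 13 5 1).ok 0 1 0 0 (UE1 (1, 1) D12) ⟨1, 2, 2, 1, 2, 2, 0, 1, 1, 0, 1, 1⟩ = true) ∧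
    ((Tree.leaf 124 14 14 6 6).ok 0 1 0 0 (HEr 1 D11 D12 (1, 3) (-1, 7) (1, 4) p12 k02 k12) ⟨0, 1, 2, 0, 1, 2, 0, 1, 1, 0, 1, 1⟩ = true ∧
      (Tree.leaf 125 14 14 6 6).ok 0 1 0 0 (HEr 1 D11 D12 (1, 3) (-1, 7) (1, 4) p12 k02 k12) ⟨0, 1, 2, 1, 2, 2, 0, 1, 1, 0, 1, 1⟩ = true ∧
      (Tree.leaf 120 14 14 6 6).ok 0 1 0 0 (HEr 1 D11 D12 (1, 3) (-1, 7) (1, 4) p12 k02 k12) ⟨1, 2, 2, 0, 1, 1, 0, 1, 2, 0, 1, 1⟩ = true ∧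
      (Tree.leaf 122 14 14 6 6).ok 0 1 0 0 (HEr 1 D11 D12 (1, 3) (-1, 7) (1, 4) p12 k02 k12) ⟨1, 2, 2, 0, 1, 1, 1, 2, 2, 0, 1, 1⟩ = true) ∧
    ((Tree.leaf 101 14 13 5 1).ok 0 1 0 0 (UE0 (1, 0) D13) ⟨0, 1, 4, 0, 1, 2, 0, 1, 1, 0, 1, 1⟩ = true ∧
      (Tree.leaf 104 14 13 5 1).ok 0 1 0 0 (UE0 (1, 0) D13) ⟨1, 2, 4, 0, 1, 2, 0, 1, 1, 0, 1, 1⟩ = true ∧
      (Tree.leaf 105 14 13 5 1).ok 0 1 0 0 (UE0 (1, 0) D13) ⟨0, 1, 4, 1, 2, 2, 0, 1, 1, 0, 1, 1⟩ = true ∧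
      (Tree.leaf 109 14 13 5 1).ok 0 1 0 0 (UE0 (1, 0) D13) ⟨1, 2, 4, 1, 2, 2, 0, 1, 1, 0, 1, 1⟩ = true ∧
      (Tree.leaf 86 14 13 5 1).ok 0 1 0 0 (UE0 (1, 0) D13) ⟨1, 2, 2, 0, 1, 1, 0, 1, 1, 0, 1, 1⟩ = true) ∧
    ((Tree.leaf 89 14 13 5 1).ok 0 1 0 0 (UE1 (1, 1) D13) ⟨0, 1, 1, 0, 1, 2, 0, 1, 1, 0, 1, 1⟩ = true ∧
      (Tree.leaf 104 14 13 5 1).ok 0 1 0 0 (UE1 (1, 1) D13) ⟨0, 1, 1, 2, 3, 4, 0, 1, 1, 0, 1, 1⟩ = true ∧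
      (Tree.leaf 118 14 13 5 1).ok 0 1 0 0 (UE1 (1, 1) D13) ⟨0, 1, 2, 3, 4, 4, 0, 1, 1, 0, 1, 1⟩ = true ∧
      (Tree.leaf 122 14 13 5 1).ok 0 1 0 0 (UE1 (1, 1) D13) ⟨1, 2, 2, 3, 4, 4, 0, 1, 1, 0, 1, 1⟩ = true) ∧
    ((Tree.leaf 117 14 14 6 6).ok 0 1 0 0 (HEr 1 D12 D13 (1, 3) (-1, 7) (1, 4) p13 k03 k13) ⟨0, 1, 2, 0, 1, 1, 0, 1, 1, 0, 1, 2⟩ = true ∧
      (Tree.leaf 117 14 14 6 6).ok 0 1 0 0 (HEr 1 D12 D13 (1, 3) (-1, 7) (1, 4) p13 k03 k13) ⟨0, 1, 2, 0, 1, 1, 0, 1, 1, 1, 2, 2⟩ = true ∧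
      (Tree.leaf 128 14 14 6 6).ok 0 1 0 0 (HEr 1 D12 D13 (1, 3) (-1, 7) (1, 4) p13 k03 k13) ⟨2, 3, 4, 0, 1, 1, 0, 1, 1, 0, 1, 1⟩ = true ∧
      (Tree.leaf 131 14 14 6 6).ok 0 1 0 0 (HEr 1 D12 D13 (1, 3) (-1, 7) (1, 4) p13 k03 k13) ⟨3, 4, 4, 0, 1, 1, 0, 1, 1, 0, 1, 1⟩ = true) ∧
    ((Tree.leaf 101 14 13 5 1).ok 0 1 0 0 (UE0 (1, 0) D14) ⟨0, 1, 4, 0, 1, 2, 0, 1, 1, 0, 1, 1⟩ = true ∧
      (Tree.leaf 104 14 13 5 1).ok 0 1 0 0 (UE0 (1, 0) D14) ⟨1, 2, 4, 0, 1, 2, 0, 1, 1, 0, 1, 1⟩ = true ∧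
      (Tree.leaf 105 14 13 5 1).ok 0 1 0 0 (UE0 (1, 0) D14) ⟨0, 1, 4, 1, 2, 2, 0, 1, 1, 0, 1, 1⟩ = true ∧
      (Tree.leaf 109 14 13 5 1).ok 0 1 0 0 (UE0 (1, 0) D14) ⟨1, 2, 4, 1, 2, 2, 0, 1, 1, 0, 1, 1⟩ = true ∧
      (Tree.leaf 86 14 13 5 1).ok 0 1 0 0 (UE0 (1, 0) D14) ⟨1, 2, 2, 0, 1, 1, 0, 1, 1, 0, 1, 1⟩ = true) ∧
    ((Tree.leaf 89 14 13 5 1).ok 0 1 0 0 (UE1 (1, 1) D14) ⟨0, 1, 1, 0, 1, 2, 0, 1, 1, 0, 1, 1⟩ = true ∧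
      (Tree.leaf 105 14 13 5 1).ok 0 1 0 0 (UE1 (1, 1) D14) ⟨0, 1, 1, 2, 3, 4, 0, 1, 1, 0, 1, 1⟩ = true ∧
      (Tree.leaf 111 14 13 5 1).ok 0 1 0 0 (UE1 (1, 1) D14) ⟨0, 1, 1, 3, 4, 4, 0, 1, 2, 0, 1, 1⟩ = true ∧
      (Tree.leaf 112 14 13 5 1).ok 0 1 0 0 (UE1 (1, 1) D14) ⟨0, 1, 1, 3, 4, 4, 1, 2, 2, 0, 1, 1⟩ = true) ∧
    ((Tree.leaf 125 14 14 6 6).ok 0 1 0 0 (HEr 1 D13 D14 (1, 3) (-1, 7) (1, 4) p14 k04 k14) ⟨0, 1, 4, 0, 1, 1, 0, 1, 1, 0, 1, 1⟩ = true ∧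
      (Tree.leaf 126 14 14 6 6).ok 0 1 0 0 (HEr 1 D13 D14 (1, 3) (-1, 7) (1, 4) p14 k04 k14) ⟨1, 2, 4, 0, 1, 1, 0, 1, 1, 0, 1, 1⟩ = true ∧
      (Tree.leaf 128 14 14 6 6).ok 0 1 0 0 (HEr 1 D13 D14 (1, 3) (-1, 7) (1, 4) p14 k04 k14) ⟨2, 3, 4, 0, 1, 1, 0, 1, 1, 0, 1, 1⟩ = true ∧
      (Tree.leaf 131 14 14 6 6).ok 0 1 0 0 (HEr 1 D13 D14 (1, 3) (-1, 7) (1, 4) p14 k04 k14) ⟨3, 4, 4, 0, 1, 1, 0, 1, 1, 0, 1, 1⟩ = true) ∧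
    ((Tree.leaf 65 10 1 5 1).ok 0 1 0 0 (BEr 2 D21 (1, 3) (-1, 7) (1, 4) (-6492, 4095) p21 k01 k11) ⟨0, 1, 2, 0, 1, 1, 0, 1, 2, 0, 1, 1⟩ = true ∧
      (Tree.leaf 65 10 1 5 1).ok 0 1 0 0 (BEr 2 D21 (1, 3) (-1, 7) (1, 4) (-6492, 4095) p21 k01 k11) ⟨0, 1, 2, 0, 1, 1, 1, 2, 2, 0, 1, 1⟩ = true ∧
      (Tree.leaf 67 10 1 5 1).ok 0 1 0 0 (BEr 2 D21 (1, 3) (-1, 7) (1, 4) (-6492, 4095) p21 k01 k11) ⟨1, 2, 2, 0, 1, 1, 0, 1, 2, 0, 1, 1⟩ = true ∧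
      (Tree.leaf 67 10 1 5 1).ok 0 1 0 0 (BEr 2 D21 (1, 3) (-1, 7) (1, 4) (-6492, 4095) p21 k01 k11) ⟨1, 2, 2, 0, 1, 1, 1, 2, 2, 0, 1, 1⟩ = true) ∧
    ((Tree.leaf 59 9 10 5 1).ok 0 1 0 0 (SE D24 (-6488, 4095) (1, 3) [p21, p22, p23, p24]) ⟨0, 1, 1, 0, 1, 2, 0, 1, 2, 0, 1, 1⟩ = true ∧
      (Tree.leaf 62 9 10 5 1).ok 0 1 0 0 (SE D24 (-6488, 4095) (1, 3) [p21, p22, p23, p24]) ⟨0, 1, 1, 1, 2, 2, 0, 1, 2, 0, 1, 1⟩ = true ∧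
      (Tree.leaf 57 9 10 5 1).ok 0 1 0 0 (SE D24 (-6488, 4095) (1, 3) [p21, p22, p23, p24]) ⟨0, 1, 1, 0, 1, 1, 2, 3, 4, 0, 1, 1⟩ = true ∧
      (Tree.leaf 57 9 10 5 1).ok 0 1 0 0 (SE D24 (-6488, 4095) (1, 3) [p21, p22, p23, p24]) ⟨0, 1, 1, 0, 1, 1, 3, 4, 4, 0, 1, 1⟩ = true) ∧
    ((Tree.leaf 40 10 1 4 1).ok 0 1 0 0 (RE D24 (-6488, 4095)) ⟨0, 1, 1, 0, 1, 1, 0, 1, 1, 0, 1, 1⟩ = true) ∧
    ((Tree.leaf 91 14 10 4 1).ok 0 1 0 0 (UE0 (1, 0) D22) ⟨0, 1, 4, 0, 1, 2, 0, 1, 1, 0, 1, 1⟩ = true ∧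
      (Tree.leaf 94 14 10 4 1).ok 0 1 0 0 (UE0 (1, 0) D22) ⟨1, 2, 4, 0, 1, 2, 0, 1, 1, 0, 1, 1⟩ = true ∧
      (Tree.leaf 93 14 10 4 1).ok 0 1 0 0 (UE0 (1, 0) D22) ⟨0, 1, 4, 1, 2, 2, 0, 1, 1, 0, 1, 1⟩ = true ∧
      (Tree.leaf 98 14 10 4 1).ok 0 1 0 0 (UE0 (1, 0) D22) ⟨1, 2, 4, 1, 2, 2, 0, 1, 1, 0, 1, 1⟩ = true ∧
      (Tree.leaf 79 14 10 4 1).ok 0 1 0 0 (UE0 (1, 0) D22) ⟨1, 2, 2, 0, 1, 1, 0, 1, 1, 0, 1, 1⟩ = true) ∧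
    ((Tree.leaf 104 14 10 4 1).ok 0 1 0 0 (UE1 (1, 1) D22) ⟨0, 1, 4, 0, 1, 2, 0, 1, 1, 0, 1, 1⟩ = true ∧
      (Tree.leaf 105 14 10 4 1).ok 0 1 0 0 (UE1 (1, 1) D22) ⟨1, 2, 4, 0, 1, 2, 0, 1, 1, 0, 1, 1⟩ = true ∧
      (Tree.leaf 94 14 10 4 1).ok 0 1 0 0 (UE1 (1, 1) D22) ⟨1, 2, 2, 0, 1, 2, 0, 1, 1, 0, 1, 1⟩ = true ∧
      (Tree.leaf 93 14 10 4 1).ok 0 1 0 0 (UE1 (1, 1) D22) ⟨0, 1, 1, 2, 3, 4, 0, 1, 2, 0, 1, 1⟩ = true ∧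
      (Tree.leaf 94 14 10 4 1).ok 0 1 0 0 (UE1 (1, 1) D22) ⟨0, 1, 1, 2, 3, 4, 1, 2, 2, 0, 1, 1⟩ = true ∧
      (Tree.leaf 95 14 10 4 1).ok 0 1 0 0 (UE1 (1, 1) D22) ⟨0, 1, 1, 3, 4, 4, 0, 1, 2, 0, 1, 1⟩ = true ∧
      (Tree.leaf 96 14 10 4 1).ok 0 1 0 0 (UE1 (1, 1) D22) ⟨0, 1, 1, 3, 4, 4, 1, 2, 2, 0, 1, 1⟩ = true) ∧
    ((Tree.leaf 117 14 14 6 6).ok 0 1 0 0 (HEr 2 D21 D22 (1, 3) (-1, 7) (1, 4) p22 k02 k12) ⟨0, 1, 2, 0, 1, 1, 0, 1, 2, 0, 1, 1⟩ = true ∧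
      (Tree.leaf 118 14 14 6 6).ok 0 1 0 0 (HEr 2 D21 D22 (1, 3) (-1, 7) (1, 4) p22 k02 k12) ⟨0, 1, 2, 0, 1, 1, 1, 2, 2, 0, 1, 1⟩ = true ∧
      (Tree.leaf 122 14 14 6 6).ok 0 1 0 0 (HEr 2 D21 D22 (1, 3) (-1, 7) (1, 4) p22 k02 k12) ⟨1, 2, 2, 0, 1, 1, 0, 1, 2, 0, 1, 1⟩ = true ∧
      (Tree.leaf 123 14 14 6 6).ok 0 1 0 0 (HEr 2 D21 D22 (1, 3) (-1, 7) (1, 4) p22 k02 k12) ⟨1, 2, 2, 0, 1, 1, 1, 2, 2, 0, 1, 1⟩ = true) ∧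
    ((Tree.leaf 91 14 10 4 1).ok 0 1 0 0 (UE0 (1, 0) D23) ⟨0, 1, 4, 0, 1, 2, 0, 1, 1, 0, 1, 1⟩ = true ∧
      (Tree.leaf 94 14 10 4 1).ok 0 1 0 0 (UE0 (1, 0) D23) ⟨1, 2, 4, 0, 1, 2, 0, 1, 1, 0, 1, 1⟩ = true ∧
      (Tree.leaf 94 14 10 4 1).ok 0 1 0 0 (UE0 (1, 0) D23) ⟨0, 1, 4, 1, 2, 2, 0, 1, 1, 0, 1, 1⟩ = true ∧
      (Tree.leaf 98 14 10 4 1).ok 0 1 0 0 (UE0 (1, 0) D23) ⟨1, 2, 4, 1, 2, 2, 0, 1, 1, 0, 1, 1⟩ = true ∧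
      (Tree.leaf 79 14 10 4 1).ok 0 1 0 0 (UE0 (1, 0) D23) ⟨1, 2, 2, 0, 1, 1, 0, 1, 1, 0, 1, 1⟩ = true) ∧
    ((Tree.leaf 79 14 10 4 1).ok 0 1 0 0 (UE1 (1, 1) D23) ⟨0, 1, 1, 0, 1, 2, 0, 1, 1, 0, 1, 1⟩ = true ∧
      (Tree.leaf 93 14 10 4 1).ok 0 1 0 0 (UE1 (1, 1) D23) ⟨0, 1, 1, 2, 3, 4, 0, 1, 2, 0, 1, 1⟩ = true ∧
      (Tree.leaf 94 14 10 4 1).ok 0 1 0 0 (UE1 (1, 1) D23) ⟨0, 1, 1, 2, 3, 4, 1, 2, 2, 0, 1, 1⟩ = true ∧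
      (Tree.leaf 95 14 10 4 1).ok 0 1 0 0 (UE1 (1, 1) D23) ⟨0, 1, 1, 3, 4, 4, 0, 1, 2, 0, 1, 1⟩ = true ∧
      (Tree.leaf 96 14 10 4 1).ok 0 1 0 0 (UE1 (1, 1) D23) ⟨0, 1, 1, 3, 4, 4, 1, 2, 2, 0, 1, 1⟩ = true) ∧
    ((Tree.leaf 125 14 14 6 6).ok 0 1 0 0 (HEr 2 D22 D23 (1, 3) (-1, 7) (1, 4) p23 k03 k13) ⟨0, 1, 2, 0, 1, 2, 0, 1, 1, 0, 1, 1⟩ = true ∧
      (Tree.leaf 126 14 14 6 6).ok 0 1 0 0 (HEr 2 D22 D23 (1, 3) (-1, 7) (1, 4) p23 k03 k13) ⟨0, 1, 2, 1, 2, 2, 0, 1, 1, 0, 1, 1⟩ = true ∧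
      (Tree.leaf 121 14 14 6 6).ok 0 1 0 0 (HEr 2 D22 D23 (1, 3) (-1, 7) (1, 4) p23 k03 k13) ⟨1, 2, 2, 0, 1, 1, 0, 1, 2, 0, 1, 1⟩ = true ∧
      (Tree.leaf 122 14 14 6 6).ok 0 1 0 0 (HEr 2 D22 D23 (1, 3) (-1, 7) (1, 4) p23 k03 k13) ⟨1, 2, 2, 0, 1, 1, 1, 2, 2, 0, 1, 1⟩ = true) ∧
    ((Tree.leaf 91 14 10 4 1).ok 0 1 0 0 (UE0 (1, 0) D24) ⟨0, 1, 4, 0, 1, 2, 0, 1, 1, 0, 1, 1⟩ = true ∧
      (Tree.leaf 93 14 10 4 1).ok 0 1 0 0 (UE0 (1, 0) D24) ⟨1, 2, 4, 0, 1, 2, 0, 1, 1, 0, 1, 1⟩ = true ∧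
      (Tree.leaf 93 14 10 4 1).ok 0 1 0 0 (UE0 (1, 0) D24) ⟨0, 1, 4, 1, 2, 2, 0, 1, 1, 0, 1, 1⟩ = true ∧
      (Tree.leaf 97 14 10 4 1).ok 0 1 0 0 (UE0 (1, 0) D24) ⟨1, 2, 4, 1, 2, 2, 0, 1, 1, 0, 1, 1⟩ = true ∧
      (Tree.leaf 78 14 10 4 1).ok 0 1 0 0 (UE0 (1, 0) D24) ⟨1, 2, 2, 0, 1, 1, 0, 1, 1, 0, 1, 1⟩ = true) ∧
    ((Tree.leaf 79 14 10 4 1).ok 0 1 0 0 (UE1 (1, 1) D24) ⟨0, 1, 1, 0, 1, 2, 0, 1, 1, 0, 1, 1⟩ = true ∧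
      (Tree.leaf 93 14 10 4 1).ok 0 1 0 0 (UE1 (1, 1) D24) ⟨0, 1, 1, 2, 3, 4, 0, 1, 2, 0, 1, 1⟩ = true ∧
      (Tree.leaf 93 14 10 4 1).ok 0 1 0 0 (UE1 (1, 1) D24) ⟨0, 1, 1, 2, 3, 4, 1, 2, 2, 0, 1, 1⟩ = true ∧
      (Tree.leaf 100 14 10 4 1).ok 0 1 0 0 (UE1 (1, 1) D24) ⟨0, 1, 1, 6, 7, 8, 0, 1, 1, 0, 1, 1⟩ = true ∧
      (Tree.leaf 101 14 10 4 1).ok 0 1 0 0 (UE1 (1, 1) D24) ⟨0, 1, 1, 7, 8, 8, 0, 1, 1, 0, 1, 1⟩ = true) ∧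
    ((Tree.leaf 125 14 14 6 6).ok 0 1 0 0 (HEr 2 D23 D24 (1, 3) (-1, 7) (1, 4) p24 k04 k14) ⟨0, 1, 2, 0, 1, 2, 0, 1, 1, 0, 1, 1⟩ = true ∧
      (Tree.leaf 126 14 14 6 6).ok 0 1 0 0 (HEr 2 D23 D24 (1, 3) (-1, 7) (1, 4) p24 k04 k14) ⟨0, 1, 2, 1, 2, 2, 0, 1, 1, 0, 1, 1⟩ = true ∧
      (Tree.leaf 127 14 14 6 6).ok 0 1 0 0 (HEr 2 D23 D24 (1, 3) (-1, 7) (1, 4) p24 k04 k14) ⟨1, 2, 2, 0, 1, 2, 0, 1, 1, 0, 1, 1⟩ = true ∧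
      (Tree.leaf 132 14 14 6 6).ok 0 1 0 0 (HEr 2 D23 D24 (1, 3) (-1, 7) (1, 4) p24 k04 k14) ⟨1, 2, 2, 1, 2, 2, 0, 1, 1, 0, 1, 1⟩ = true) :=
  ⟨⟨by decide +kernel, by decide +kernel⟩,
   ⟨by decide +kernel, by decide +kernel, by decide +kernel, by decide +kernel⟩,
   by decide +kernel,
   ⟨by decide +kernel, by decide +kernel, by decide +kernel, by decide +kernel, by decide +kernel, by decide +kernel, by decide +kernel⟩,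
   ⟨by decide +kernel, by decide +kernel, by decide +kernel, by decide +kernel, by decide +kernel, by decide +kernel⟩,
   ⟨by decide +kernel, by decide +kernel, by decide +kernel, by decide +kernel⟩,
   ⟨by decide +kernel, by decide +kernel, by decide +kernel, by decide +kernel, by decide +kernel, by decide +kernel⟩,
   ⟨by decide +kernel, by decide +kernel, by decide +kernel, by decide +kernel, by decide +kernel⟩,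
   ⟨by decide +kernel, by decide +kernel, by decide +kernel, by decide +kernel⟩,
   ⟨by decide +kernel, by decide +kernel, by decide +kernel, by decide +kernel, by decide +kernel⟩,
   ⟨by decide +kernel, by decide +kernel, by decide +kernel, by decide +kernel, by decide +kernel⟩,
   ⟨by decide +kernel, by decide +kernel, by decide +kernel, by decide +kernel⟩,
   ⟨by decide +kernel, by decide +kernel, by decide +kernel⟩,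
   ⟨by decide +kernel, by decide +kernel, by decide +kernel, by decide +kernel⟩,
   by decide +kernel,
   ⟨by decide +kernel, by decide +kernel, by decide +kernel, by decide +kernel⟩,
   ⟨by decide +kernel, by decide +kernel, by decide +kernel, by decide +kernel, by decide +kernel, by decide +kernel⟩,
   ⟨by decide +kernel, by decide +kernel, by decide +kernel, by decide +kernel⟩,
   ⟨by decide +kernel, by decide +kernel, by decide +kernel, by decide +kernel, by decide +kernel⟩,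
   ⟨by decide +kernel, by decide +kernel, by decide +kernel, by decide +kernel⟩,
   ⟨by decide +kernel, by decide +kernel, by decide +kernel, by decide +kernel⟩,
   ⟨by decide +kernel, by decide +kernel, by decide +kernel, by decide +kernel, by decide +kernel⟩,
   ⟨by decide +kernel, by decide +kernel, by decide +kernel, by decide +kernel⟩,
   ⟨by decide +kernel, by decide +kernel, by decide +kernel, by decide +kernel⟩,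
   ⟨by decide +kernel, by decide +kernel, by decide +kernel, by decide +kernel⟩,
   ⟨by decide +kernel, by decide +kernel, by decide +kernel, by decide +kernel⟩,
   by decide +kernel,
   ⟨by decide +kernel, by decide +kernel, by decide +kernel, by decide +kernel, by decide +kernel⟩,
   ⟨by decide +kernel, by decide +kernel, by decide +kernel, by decide +kernel, by decide +kernel, by decide +kernel, by decide +kernel⟩,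
   ⟨by decide +kernel, by decide +kernel, by decide +kernel, by decide +kernel⟩,
   ⟨by decide +kernel, by decide +kernel, by decide +kernel, by decide +kernel, by decide +kernel⟩,
   ⟨by decide +kernel, by decide +kernel, by decide +kernel, by decide +kernel, by decide +kernel⟩,
   ⟨by decide +kernel, by decide +kernel, by decide +kernel, by decide +kernel⟩,
   ⟨by decide +kernel, by decide +kernel, by decide +kernel, by decide +kernel, by decide +kernel⟩,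
   ⟨by decide +kernel, by decide +kernel, by decide +kernel, by decide +kernel, by decide +kernel⟩,
   ⟨by decide +kernel, by decide +kernel, by decide +kernel, by decide +kernel⟩⟩

def t_b0 : Tree := (.s2 (.leaf 77 16 1 6 1) (.leaf 77 16 1 6 1))
theorem b0 : t_b0.ok 0 1 0 0 (BEr 0 D01 (1, 3) (-1, 7) (1, 4) (0, 0) p01 k01 k11) unitBx = true :=
  (Tree.ok_s2 lv.1.1 lv.1.2)

def t_s0 : Tree := (.s2 (.s1 (.leaf 78 9 16 6 1) (.leaf 82 9 16 6 1)) (.s2 (.leaf 70 9 16 6 1) (.leaf 71 9 16 6 1)))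
theorem s0 : t_s0.ok 0 1 0 0 (SE D04 (0, 0) (1, 3) [p01, p02, p03, p04]) unitBx = true :=
  (Tree.ok_s2 (Tree.ok_s1 lv.2.1.1 lv.2.1.2.1) (Tree.ok_s2 lv.2.1.2.2.1 lv.2.1.2.2.2))

def t_r0 : Tree := (.leaf 54 16 1 6 1)
theorem r0 : t_r0.ok 0 1 0 0 (RE D04 (0, 0)) unitBx = true :=
  lv.2.2.1

def t_u02 : Tree := (.s0 (.s1 (.s0 (.leaf 120 17 16 6 1) (.leaf 124 17 16 6 1)) (.s2 (.leaf 116 17 16 6 1) (.leaf 118 17 16 6 1))) (.s0 (.s0 (.leaf 130 17 16 6 1) (.leaf 132 17 16 6 1)) (.leaf 118 17 16 6 1)))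
theorem u02 : t_u02.ok 0 1 0 0 (UE0 (1, 0) D02) unitBx = true :=
  (Tree.ok_s0 (Tree.ok_s1 (Tree.ok_s0 lv.2.2.2.1.1 lv.2.2.2.1.2.1) (Tree.ok_s2 lv.2.2.2.1.2.2.1 lv.2.2.2.1.2.2.2.1)) (Tree.ok_s0 (Tree.ok_s0 lv.2.2.2.1.2.2.2.2.1 lv.2.2.2.1.2.2.2.2.2.1) lv.2.2.2.1.2.2.2.2.2.2))

def t_v02 : Tree := (.s1 (.s1 (.leaf 120 17 16 6 1) (.s0 (.leaf 136 17 16 6 1) (.leaf 140 17 16 6 1))) (.s2 (.leaf 116 17 16 6 1) (.s2 (.leaf 122 17 16 6 1) (.leaf 123 17 16 6 1))))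
theorem v02 : t_v02.ok 0 1 0 0 (UE1 (1, 1) D02) unitBx = true :=
  (Tree.ok_s1 (Tree.ok_s1 lv.2.2.2.2.1.1 (Tree.ok_s0 lv.2.2.2.2.1.2.1 lv.2.2.2.2.1.2.2.1)) (Tree.ok_s2 lv.2.2.2.2.1.2.2.2.1 (Tree.ok_s2 lv.2.2.2.2.1.2.2.2.2.1 lv.2.2.2.2.1.2.2.2.2.2)))

def t_h02 : Tree := (.s0 (.s2 (.leaf 128 16 16 6 6) (.leaf 128 16 16 6 6)) (.s2 (.leaf 133 16 16 6 6) (.leaf 134 16 16 6 6)))
theorem h02 : t_h02.ok 0 1 0 0 (HEr 0 D01 D02 (1, 3) (-1, 7) (1, 4) p02 k02 k12) unitBx = true :=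
  (Tree.ok_s0 (Tree.ok_s2 lv.2.2.2.2.2.1.1 lv.2.2.2.2.2.1.2.1) (Tree.ok_s2 lv.2.2.2.2.2.1.2.2.1 lv.2.2.2.2.2.1.2.2.2))

def t_u03 : Tree := (.s1 (.s0 (.s0 (.leaf 120 17 16 6 1) (.leaf 124 17 16 6 1)) (.leaf 113 17 16 6 1)) (.s0 (.s0 (.leaf 126 17 16 6 1) (.leaf 131 17 16 6 1)) (.leaf 121 17 16 6 1)))
theorem u03 : t_u03.ok 0 1 0 0 (UE0 (1, 0) D03) unitBx = true :=
  (Tree.ok_s1 (Tree.ok_s0 (Tree.ok_s0 lv.2.2.2.2.2.2.1.1 lv.2.2.2.2.2.2.1.2.1) lv.2.2.2.2.2.2.1.2.2.1) (Tree.ok_s0 (Tree.ok_s0 lv.2.2.2.2.2.2.1.2.2.2.1 lv.2.2.2.2.2.2.1.2.2.2.2.1) lv.2.2.2.2.2.2.1.2.2.2.2.2))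

def t_v03 : Tree := (.s1 (.leaf 106 17 16 6 1) (.s1 (.s0 (.leaf 139 17 16 6 1) (.leaf 144 17 16 6 1)) (.s1 (.leaf 144 17 16 6 1) (.leaf 146 17 16 6 1))))
theorem v03 : t_v03.ok 0 1 0 0 (UE1 (1, 1) D03) unitBx = true :=
  (Tree.ok_s1 lv.2.2.2.2.2.2.2.1.1 (Tree.ok_s1 (Tree.ok_s0 lv.2.2.2.2.2.2.2.1.2.1 lv.2.2.2.2.2.2.2.1.2.2.1) (Tree.ok_s1 lv.2.2.2.2.2.2.2.1.2.2.2.1 lv.2.2.2.2.2.2.2.1.2.2.2.2)))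

def t_h03 : Tree := (.s0 (.s3 (.leaf 126 16 16 6 6) (.leaf 126 16 16 6 6)) (.s3 (.leaf 132 16 16 6 6) (.leaf 133 16 16 6 6)))
theorem h03 : t_h03.ok 0 1 0 0 (HEr 0 D02 D03 (1, 3) (-1, 7) (1, 4) p03 k03 k13) unitBx = true :=
  (Tree.ok_s0 (Tree.ok_s3 lv.2.2.2.2.2.2.2.2.1.1 lv.2.2.2.2.2.2.2.2.1.2.1) (Tree.ok_s3 lv.2.2.2.2.2.2.2.2.1.2.2.1 lv.2.2.2.2.2.2.2.2.1.2.2.2))

def t_u04 : Tree := (.s0 (.s1 (.s0 (.leaf 119 17 16 6 1) (.leaf 122 17 16 6 1)) (.s0 (.leaf 123 17 16 6 1) (.leaf 127 17 16 6 1))) (.leaf 98 17 16 6 1))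
theorem u04 : t_u04.ok 0 1 0 0 (UE0 (1, 0) D04) unitBx = true :=
  (Tree.ok_s0 (Tree.ok_s1 (Tree.ok_s0 lv.2.2.2.2.2.2.2.2.2.1.1 lv.2.2.2.2.2.2.2.2.2.1.2.1) (Tree.ok_s0 lv.2.2.2.2.2.2.2.2.2.1.2.2.1 lv.2.2.2.2.2.2.2.2.2.1.2.2.2.1)) lv.2.2.2.2.2.2.2.2.2.1.2.2.2.2)

def t_v04 : Tree := (.s1 (.s0 (.leaf 119 17 16 6 1) (.leaf 122 17 16 6 1)) (.s2 (.leaf 113 17 16 6 1) (.s0 (.leaf 128 17 16 6 1) (.leaf 133 17 16 6 1))))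
theorem v04 : t_v04.ok 0 1 0 0 (UE1 (1, 1) D04) unitBx = true :=
  (Tree.ok_s1 (Tree.ok_s0 lv.2.2.2.2.2.2.2.2.2.2.1.1 lv.2.2.2.2.2.2.2.2.2.2.1.2.1) (Tree.ok_s2 lv.2.2.2.2.2.2.2.2.2.2.1.2.2.1 (Tree.ok_s0 lv.2.2.2.2.2.2.2.2.2.2.1.2.2.2.1 lv.2.2.2.2.2.2.2.2.2.2.1.2.2.2.2)))

def t_h04 : Tree := (.s0 (.s1 (.leaf 136 16 16 6 6) (.leaf 137 16 16 6 6)) (.s2 (.leaf 130 16 16 6 6) (.leaf 131 16 16 6 6)))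
theorem h04 : t_h04.ok 0 1 0 0 (HEr 0 D03 D04 (1, 3) (-1, 7) (1, 4) p04 k04 k14) unitBx = true :=
  (Tree.ok_s0 (Tree.ok_s1 lv.2.2.2.2.2.2.2.2.2.2.2.1.1 lv.2.2.2.2.2.2.2.2.2.2.2.1.2.1) (Tree.ok_s2 lv.2.2.2.2.2.2.2.2.2.2.2.1.2.2.1 lv.2.2.2.2.2.2.2.2.2.2.2.1.2.2.2))

def t_b1 : Tree := (.s2 (.leaf 65 13 1 5 1) (.s2 (.leaf 69 13 1 5 1) (.leaf 69 13 1 5 1)))
theorem b1 : t_b1.ok 0 1 0 0 (BEr 1 D11 (1, 3) (-1, 7) (1, 4) (0, 0) p11 k01 k11) unitBx = true :=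
  (Tree.ok_s2 lv.2.2.2.2.2.2.2.2.2.2.2.2.1.1 (Tree.ok_s2 lv.2.2.2.2.2.2.2.2.2.2.2.2.1.2.1 lv.2.2.2.2.2.2.2.2.2.2.2.2.1.2.2))

def t_s1 : Tree := (.s2 (.s1 (.leaf 68 9 13 5 1) (.leaf 73 9 13 5 1)) (.s2 (.leaf 63 9 13 5 1) (.leaf 63 9 13 5 1)))
theorem s1 : t_s1.ok 0 1 0 0 (SE D14 (0, 0) (1, 3) [p11, p12, p13, p14]) unitBx = true :=
  (Tree.ok_s2 (Tree.ok_s1 lv.2.2.2.2.2.2.2.2.2.2.2.2.2.1.1 lv.2.2.2.2.2.2.2.2.2.2.2.2.2.1.2.1) (Tree.ok_s2 lv.2.2.2.2.2.2.2.2.2.2.2.2.2.1.2.2.1 lv.2.2.2.2.2.2.2.2.2.2.2.2.2.1.2.2.2))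

def t_r1 : Tree := (.leaf 48 13 1 5 1)
theorem r1 : t_r1.ok 0 1 0 0 (RE D14 (0, 0)) unitBx = true :=
  lv.2.2.2.2.2.2.2.2.2.2.2.2.2.2.1

def t_u12 : Tree := (.s0 (.s0 (.s1 (.leaf 101 14 13 5 1) (.leaf 104 14 13 5 1)) (.leaf 93 14 13 5 1)) (.leaf 85 14 13 5 1))
theorem u12 : t_u12.ok 0 1 0 0 (UE0 (1, 0) D12) unitBx = true :=
  (Tree.ok_s0 (Tree.ok_s0 (Tree.ok_s1 lv.2.2.2.2.2.2.2.2.2.2.2.2.2.2.2.1.1 lv.2.2.2.2.2.2.2.2.2.2.2.2.2.2.2.1.2.1) lv.2.2.2.2.2.2.2.2.2.2.2.2.2.2.2.1.2.2.1) lv.2.2.2.2.2.2.2.2.2.2.2.2.2.2.2.1.2.2.2)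

def t_v12 : Tree := (.s1 (.s0 (.s0 (.leaf 113 14 13 5 1) (.leaf 114 14 13 5 1)) (.leaf 103 14 13 5 1)) (.s0 (.s0 (.leaf 116 14 13 5 1) (.leaf 118 14 13 5 1)) (.leaf 108 14 13 5 1)))
theorem v12 : t_v12.ok 0 1 0 0 (UE1 (1, 1) D12) unitBx = true :=
  (Tree.ok_s1 (Tree.ok_s0 (Tree.ok_s0 lv.2.2.2.2.2.2.2.2.2.2.2.2.2.2.2.2.1.1 lv.2.2.2.2.2.2.2.2.2.2.2.2.2.2.2.2.1.2.1) lv.2.2.2.2.2.2.2.2.2.2.2.2.2.2.2.2.1.2.2.1) (Tree.ok_s0 (Tree.ok_s0 lv.2.2.2.2.2.2.2.2.2.2.2.2.2.2.2.2.1.2.2.2.1 lv.2.2.2.2.2.2.2.2.2.2.2.2.2.2.2.2.1.2.2.2.2.1) lv.2.2.2.2.2.2.2.2.2.2.2.2.2.2.2.2.1.2.2.2.2.2))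

def t_h12 : Tree := (.s0 (.s1 (.leaf 124 14 14 6 6) (.leaf 125 14 14 6 6)) (.s2 (.leaf 120 14 14 6 6) (.leaf 122 14 14 6 6)))
theorem h12 : t_h12.ok 0 1 0 0 (HEr 1 D11 D12 (1, 3) (-1, 7) (1, 4) p12 k02 k12) unitBx = true :=
  (Tree.ok_s0 (Tree.ok_s1 lv.2.2.2.2.2.2.2.2.2.2.2.2.2.2.2.2.2.1.1 lv.2.2.2.2.2.2.2.2.2.2.2.2.2.2.2.2.2.1.2.1) (Tree.ok_s2 lv.2.2.2.2.2.2.2.2.2.2.2.2.2.2.2.2.2.1.2.2.1 lv.2.2.2.2.2.2.2.2.2.2.2.2.2.2.2.2.2.1.2.2.2))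

def t_u13 : Tree := (.s0 (.s1 (.s0 (.leaf 101 14 13 5 1) (.leaf 104 14 13 5 1)) (.s0 (.leaf 105 14 13 5 1) (.leaf 109 14 13 5 1))) (.leaf 86 14 13 5 1))
theorem u13 : t_u13.ok 0 1 0 0 (UE0 (1, 0) D13) unitBx = true :=
  (Tree.ok_s0 (Tree.ok_s1 (Tree.ok_s0 lv.2.2.2.2.2.2.2.2.2.2.2.2.2.2.2.2.2.2.1.1 lv.2.2.2.2.2.2.2.2.2.2.2.2.2.2.2.2.2.2.1.2.1) (Tree.ok_s0 lv.2.2.2.2.2.2.2.2.2.2.2.2.2.2.2.2.2.2.1.2.2.1 lv.2.2.2.2.2.2.2.2.2.2.2.2.2.2.2.2.2.2.1.2.2.2.1)) lv.2.2.2.2.2.2.2.2.2.2.2.2.2.2.2.2.2.2.1.2.2.2.2)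

def t_v13 : Tree := (.s1 (.leaf 89 14 13 5 1) (.s1 (.leaf 104 14 13 5 1) (.s0 (.leaf 118 14 13 5 1) (.leaf 122 14 13 5 1))))
theorem v13 : t_v13.ok 0 1 0 0 (UE1 (1, 1) D13) unitBx = true :=
  (Tree.ok_s1 lv.2.2.2.2.2.2.2.2.2.2.2.2.2.2.2.2.2.2.2.1.1 (Tree.ok_s1 lv.2.2.2.2.2.2.2.2.2.2.2.2.2.2.2.2.2.2.2.1.2.1 (Tree.ok_s0 lv.2.2.2.2.2.2.2.2.2.2.2.2.2.2.2.2.2.2.2.1.2.2.1 lv.2.2.2.2.2.2.2.2.2.2.2.2.2.2.2.2.2.2.2.1.2.2.2)))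

def t_h13 : Tree := (.s0 (.s3 (.leaf 117 14 14 6 6) (.leaf 117 14 14 6 6)) (.s0 (.leaf 128 14 14 6 6) (.leaf 131 14 14 6 6)))
theorem h13 : t_h13.ok 0 1 0 0 (HEr 1 D12 D13 (1, 3) (-1, 7) (1, 4) p13 k03 k13) unitBx = true :=
  (Tree.ok_s0 (Tree.ok_s3 lv.2.2.2.2.2.2.2.2.2.2.2.2.2.2.2.2.2.2.2.2.1.1 lv.2.2.2.2.2.2.2.2.2.2.2.2.2.2.2.2.2.2.2.2.1.2.1) (Tree.ok_s0 lv.2.2.2.2.2.2.2.2.2.2.2.2.2.2.2.2.2.2.2.2.1.2.2.1 lv.2.2.2.2.2.2.2.2.2.2.2.2.2.2.2.2.2.2.2.2.1.2.2.2))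

def t_u14 : Tree := (.s0 (.s1 (.s0 (.leaf 101 14 13 5 1) (.leaf 104 14 13 5 1)) (.s0 (.leaf 105 14 13 5 1) (.leaf 109 14 13 5 1))) (.leaf 86 14 13 5 1))
theorem u14 : t_u14.ok 0 1 0 0 (UE0 (1, 0) D14) unitBx = true :=
  (Tree.ok_s0 (Tree.ok_s1 (Tree.ok_s0 lv.2.2.2.2.2.2.2.2.2.2.2.2.2.2.2.2.2.2.2.2.2.1.1 lv.2.2.2.2.2.2.2.2.2.2.2.2.2.2.2.2.2.2.2.2.2.1.2.1) (Tree.ok_s0 lv.2.2.2.2.2.2.2.2.2.2.2.2.2.2.2.2.2.2.2.2.2.1.2.2.1 lv.2.2.2.2.2.2.2.2.2.2.2.2.2.2.2.2.2.2.2.2.2.1.2.2.2.1)) lv.2.2.2.2.2.2.2.2.2.2.2.2.2.2.2.2.2.2.2.2.2.1.2.2.2.2)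

def t_v14 : Tree := (.s1 (.leaf 89 14 13 5 1) (.s1 (.leaf 105 14 13 5 1) (.s2 (.leaf 111 14 13 5 1) (.leaf 112 14 13 5 1))))
theorem v14 : t_v14.ok 0 1 0 0 (UE1 (1, 1) D14) unitBx = true :=
  (Tree.ok_s1 lv.2.2.2.2.2.2.2.2.2.2.2.2.2.2.2.2.2.2.2.2.2.2.1.1 (Tree.ok_s1 lv.2.2.2.2.2.2.2.2.2.2.2.2.2.2.2.2.2.2.2.2.2.2.1.2.1 (Tree.ok_s2 lv.2.2.2.2.2.2.2.2.2.2.2.2.2.2.2.2.2.2.2.2.2.2.1.2.2.1 lv.2.2.2.2.2.2.2.2.2.2.2.2.2.2.2.2.2.2.2.2.2.2.1.2.2.2)))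

def t_h14 : Tree := (.s0 (.s0 (.leaf 125 14 14 6 6) (.leaf 126 14 14 6 6)) (.s0 (.leaf 128 14 14 6 6) (.leaf 131 14 14 6 6)))
theorem h14 : t_h14.ok 0 1 0 0 (HEr 1 D13 D14 (1, 3) (-1, 7) (1, 4) p14 k04 k14) unitBx = true :=
  (Tree.ok_s0 (Tree.ok_s0 lv.2.2.2.2.2.2.2.2.2.2.2.2.2.2.2.2.2.2.2.2.2.2.2.1.1 lv.2.2.2.2.2.2.2.2.2.2.2.2.2.2.2.2.2.2.2.2.2.2.2.1.2.1) (Tree.ok_s0 lv.2.2.2.2.2.2.2.2.2.2.2.2.2.2.2.2.2.2.2.2.2.2.2.1.2.2.1 lv.2.2.2.2.2.2.2.2.2.2.2.2.2.2.2.2.2.2.2.2.2.2.2.1.2.2.2))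

def t_b2 : Tree := (.s0 (.s2 (.leaf 65 10 1 5 1) (.leaf 65 10 1 5 1)) (.s2 (.leaf 67 10 1 5 1) (.leaf 67 10 1 5 1)))
theorem b2 : t_b2.ok 0 1 0 0 (BEr 2 D21 (1, 3) (-1, 7) (1, 4) (-6492, 4095) p21 k01 k11) unitBx = true :=
  (Tree.ok_s0 (Tree.ok_s2 lv.2.2.2.2.2.2.2.2.2.2.2.2.2.2.2.2.2.2.2.2.2.2.2.2.1.1 lv.2.2.2.2.2.2.2.2.2.2.2.2.2.2.2.2.2.2.2.2.2.2.2.2.1.2.1) (Tree.ok_s2 lv.2.2.2.2.2.2.2.2.2.2.2.2.2.2.2.2.2.2.2.2.2.2.2.2.1.2.2.1 lv.2.2.2.2.2.2.2.2.2.2.2.2.2.2.2.2.2.2.2.2.2.2.2.2.1.2.2.2))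

def t_s2 : Tree := (.s2 (.s1 (.leaf 59 9 10 5 1) (.leaf 62 9 10 5 1)) (.s2 (.leaf 57 9 10 5 1) (.leaf 57 9 10 5 1)))
theorem s2 : t_s2.ok 0 1 0 0 (SE D24 (-6488, 4095) (1, 3) [p21, p22, p23, p24]) unitBx = true :=
  (Tree.ok_s2 (Tree.ok_s1 lv.2.2.2.2.2.2.2.2.2.2.2.2.2.2.2.2.2.2.2.2.2.2.2.2.2.1.1 lv.2.2.2.2.2.2.2.2.2.2.2.2.2.2.2.2.2.2.2.2.2.2.2.2.2.1.2.1) (Tree.ok_s2 lv.2.2.2.2.2.2.2.2.2.2.2.2.2.2.2.2.2.2.2.2.2.2.2.2.2.1.2.2.1 lv.2.2.2.2.2.2.2.2.2.2.2.2.2.2.2.2.2.2.2.2.2.2.2.2.2.1.2.2.2))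

def t_r2 : Tree := (.leaf 40 10 1 4 1)
theorem r2 : t_r2.ok 0 1 0 0 (RE D24 (-6488, 4095)) unitBx = true :=
  lv.2.2.2.2.2.2.2.2.2.2.2.2.2.2.2.2.2.2.2.2.2.2.2.2.2.2.1

def t_u22 : Tree := (.s0 (.s1 (.s0 (.leaf 91 14 10 4 1) (.leaf 94 14 10 4 1)) (.s0 (.leaf 93 14 10 4 1) (.leaf 98 14 10 4 1))) (.leaf 79 14 10 4 1))
theorem u22 : t_u22.ok 0 1 0 0 (UE0 (1, 0) D22) unitBx = true :=
  (Tree.ok_s0 (Tree.ok_s1 (Tree.ok_s0 lv.2.2.2.2.2.2.2.2.2.2.2.2.2.2.2.2.2.2.2.2.2.2.2.2.2.2.2.1.1 lv.2.2.2.2.2.2.2.2.2.2.2.2.2.2.2.2.2.2.2.2.2.2.2.2.2.2.2.1.2.1) (Tree.ok_s0 lv.2.2.2.2.2.2.2.2.2.2.2.2.2.2.2.2.2.2.2.2.2.2.2.2.2.2.2.1.2.2.1 lv.2.2.2.2.2.2.2.2.2.2.2.2.2.2.2.2.2.2.2.2.2.2.2.2.2.2.2.1.2.2.2.1)) lv.2.2.2.2.2.2.2.2.2.2.2.2.2.2.2.2.2.2.2.2.2.2.2.2.2.2.2.1.2.2.2.2)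

def t_v22 : Tree := (.s1 (.s0 (.s0 (.leaf 104 14 10 4 1) (.leaf 105 14 10 4 1)) (.leaf 94 14 10 4 1)) (.s1 (.s2 (.leaf 93 14 10 4 1) (.leaf 94 14 10 4 1)) (.s2 (.leaf 95 14 10 4 1) (.leaf 96 14 10 4 1))))
theorem v22 : t_v22.ok 0 1 0 0 (UE1 (1, 1) D22) unitBx = true :=
  (Tree.ok_s1 (Tree.ok_s0 (Tree.ok_s0 lv.2.2.2.2.2.2.2.2.2.2.2.2.2.2.2.2.2.2.2.2.2.2.2.2.2.2.2.2.1.1 lv.2.2.2.2.2.2.2.2.2.2.2.2.2.2.2.2.2.2.2.2.2.2.2.2.2.2.2.2.1.2.1) lv.2.2.2.2.2.2.2.2.2.2.2.2.2.2.2.2.2.2.2.2.2.2.2.2.2.2.2.2.1.2.2.1) (Tree.ok_s1 (Tree.ok_s2 lv.2.2.2.2.2.2.2.2.2.2.2.2.2.2.2.2.2.2.2.2.2.2.2.2.2.2.2.2.1.2.2.2.1 lv.2.2.2.2.2.2.2.2.2.2.2.2.2.2.2.2.2.2.2.2.2.2.2.2.2.2.2.2.1.2.2.2.2.1) (Tree.ok_s2 lv.2.2.2.2.2.2.2.2.2.2.2.2.2.2.2.2.2.2.2.2.2.2.2.2.2.2.2.2.1.2.2.2.2.2.1 lv.2.2.2.2.2.2.2.2.2.2.2.2.2.2.2.2.2.2.2.2.2.2.2.2.2.2.2.2.1.2.2.2.2.2.2)))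

def t_h22 : Tree := (.s0 (.s2 (.leaf 117 14 14 6 6) (.leaf 118 14 14 6 6)) (.s2 (.leaf 122 14 14 6 6) (.leaf 123 14 14 6 6)))
theorem h22 : t_h22.ok 0 1 0 0 (HEr 2 D21 D22 (1, 3) (-1, 7) (1, 4) p22 k02 k12) unitBx = true :=
  (Tree.ok_s0 (Tree.ok_s2 lv.2.2.2.2.2.2.2.2.2.2.2.2.2.2.2.2.2.2.2.2.2.2.2.2.2.2.2.2.2.1.1 lv.2.2.2.2.2.2.2.2.2.2.2.2.2.2.2.2.2.2.2.2.2.2.2.2.2.2.2.2.2.1.2.1) (Tree.ok_s2 lv.2.2.2.2.2.2.2.2.2.2.2.2.2.2.2.2.2.2.2.2.2.2.2.2.2.2.2.2.2.1.2.2.1 lv.2.2.2.2.2.2.2.2.2.2.2.2.2.2.2.2.2.2.2.2.2.2.2.2.2.2.2.2.2.1.2.2.2))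

def t_u23 : Tree := (.s0 (.s1 (.s0 (.leaf 91 14 10 4 1) (.leaf 94 14 10 4 1)) (.s0 (.leaf 94 14 10 4 1) (.leaf 98 14 10 4 1))) (.leaf 79 14 10 4 1))
theorem u23 : t_u23.ok 0 1 0 0 (UE0 (1, 0) D23) unitBx = true :=
  (Tree.ok_s0 (Tree.ok_s1 (Tree.ok_s0 lv.2.2.2.2.2.2.2.2.2.2.2.2.2.2.2.2.2.2.2.2.2.2.2.2.2.2.2.2.2.2.1.1 lv.2.2.2.2.2.2.2.2.2.2.2.2.2.2.2.2.2.2.2.2.2.2.2.2.2.2.2.2.2.2.1.2.1) (Tree.ok_s0 lv.2.2.2.2.2.2.2.2.2.2.2.2.2.2.2.2.2.2.2.2.2.2.2.2.2.2.2.2.2.2.1.2.2.1 lv.2.2.2.2.2.2.2.2.2.2.2.2.2.2.2.2.2.2.2.2.2.2.2.2.2.2.2.2.2.2.1.2.2.2.1)) lv.2.2.2.2.2.2.2.2.2.2.2.2.2.2.2.2.2.2.2.2.2.2.2.2.2.2.2.2.2.2.1.2.2.2.2)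

def t_v23 : Tree := (.s1 (.leaf 79 14 10 4 1) (.s1 (.s2 (.leaf 93 14 10 4 1) (.leaf 94 14 10 4 1)) (.s2 (.leaf 95 14 10 4 1) (.leaf 96 14 10 4 1))))
theorem v23 : t_v23.ok 0 1 0 0 (UE1 (1, 1) D23) unitBx = true :=
  (Tree.ok_s1 lv.2.2.2.2.2.2.2.2.2.2.2.2.2.2.2.2.2.2.2.2.2.2.2.2.2.2.2.2.2.2.2.1.1 (Tree.ok_s1 (Tree.ok_s2 lv.2.2.2.2.2.2.2.2.2.2.2.2.2.2.2.2.2.2.2.2.2.2.2.2.2.2.2.2.2.2.2.1.2.1 lv.2.2.2.2.2.2.2.2.2.2.2.2.2.2.2.2.2.2.2.2.2.2.2.2.2.2.2.2.2.2.2.1.2.2.1) (Tree.ok_s2 lv.2.2.2.2.2.2.2.2.2.2.2.2.2.2.2.2.2.2.2.2.2.2.2.2.2.2.2.2.2.2.2.1.2.2.2.1 lv.2.2.2.2.2.2.2.2.2.2.2.2.2.2.2.2.2.2.2.2.2.2.2.2.2.2.2.2.2.2.2.1.2.2.2.2)))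

def t_h23 : Tree := (.s0 (.s1 (.leaf 125 14 14 6 6) (.leaf 126 14 14 6 6)) (.s2 (.leaf 121 14 14 6 6) (.leaf 122 14 14 6 6)))
theorem h23 : t_h23.ok 0 1 0 0 (HEr 2 D22 D23 (1, 3) (-1, 7) (1, 4) p23 k03 k13) unitBx = true :=
  (Tree.ok_s0 (Tree.ok_s1 lv.2.2.2.2.2.2.2.2.2.2.2.2.2.2.2.2.2.2.2.2.2.2.2.2.2.2.2.2.2.2.2.2.1.1 lv.2.2.2.2.2.2.2.2.2.2.2.2.2.2.2.2.2.2.2.2.2.2.2.2.2.2.2.2.2.2.2.2.1.2.1) (Tree.ok_s2 lv.2.2.2.2.2.2.2.2.2.2.2.2.2.2.2.2.2.2.2.2.2.2.2.2.2.2.2.2.2.2.2.2.1.2.2.1 lv.2.2.2.2.2.2.2.2.2.2.2.2.2.2.2.2.2.2.2.2.2.2.2.2.2.2.2.2.2.2.2.2.1.2.2.2))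

def t_u24 : Tree := (.s0 (.s1 (.s0 (.leaf 91 14 10 4 1) (.leaf 93 14 10 4 1)) (.s0 (.leaf 93 14 10 4 1) (.leaf 97 14 10 4 1))) (.leaf 78 14 10 4 1))
theorem u24 : t_u24.ok 0 1 0 0 (UE0 (1, 0) D24) unitBx = true :=
  (Tree.ok_s0 (Tree.ok_s1 (Tree.ok_s0 lv.2.2.2.2.2.2.2.2.2.2.2.2.2.2.2.2.2.2.2.2.2.2.2.2.2.2.2.2.2.2.2.2.2.1.1 lv.2.2.2.2.2.2.2.2.2.2.2.2.2.2.2.2.2.2.2.2.2.2.2.2.2.2.2.2.2.2.2.2.2.1.2.1) (Tree.ok_s0 lv.2.2.2.2.2.2.2.2.2.2.2.2.2.2.2.2.2.2.2.2.2.2.2.2.2.2.2.2.2.2.2.2.2.1.2.2.1 lv.2.2.2.2.2.2.2.2.2.2.2.2.2.2.2.2.2.2.2.2.2.2.2.2.2.2.2.2.2.2.2.2.2.1.2.2.2.1)) lv.2.2.2.2.2.2.2.2.2.2.2.2.2.2.2.2.2.2.2.2.2.2.2.2.2.2.2.2.2.2.2.2.2.1.2.2.2.2)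

def t_v24 : Tree := (.s1 (.leaf 79 14 10 4 1) (.s1 (.s2 (.leaf 93 14 10 4 1) (.leaf 93 14 10 4 1)) (.s1 (.leaf 100 14 10 4 1) (.leaf 101 14 10 4 1))))
theorem v24 : t_v24.ok 0 1 0 0 (UE1 (1, 1) D24) unitBx = true :=
  (Tree.ok_s1 lv.2.2.2.2.2.2.2.2.2.2.2.2.2.2.2.2.2.2.2.2.2.2.2.2.2.2.2.2.2.2.2.2.2.2.1.1 (Tree.ok_s1 (Tree.ok_s2 lv.2.2.2.2.2.2.2.2.2.2.2.2.2.2.2.2.2.2.2.2.2.2.2.2.2.2.2.2.2.2.2.2.2.2.1.2.1 lv.2.2.2.2.2.2.2.2.2.2.2.2.2.2.2.2.2.2.2.2.2.2.2.2.2.2.2.2.2.2.2.2.2.2.1.2.2.1) (Tree.ok_s1 lv.2.2.2.2.2.2.2.2.2.2.2.2.2.2.2.2.2.2.2.2.2.2.2.2.2.2.2.2.2.2.2.2.2.2.1.2.2.2.1 lv.2.2.2.2.2.2.2.2.2.2.2.2.2.2.2.2.2.2.2.2.2.2.2.2.2.2.2.2.2.2.2.2.2.2.1.2.2.2.2)))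

def t_h24 : Tree := (.s0 (.s1 (.leaf 125 14 14 6 6) (.leaf 126 14 14 6 6)) (.s1 (.leaf 127 14 14 6 6) (.leaf 132 14 14 6 6)))
theorem h24 : t_h24.ok 0 1 0 0 (HEr 2 D23 D24 (1, 3) (-1, 7) (1, 4) p24 k04 k14) unitBx = true :=
  (Tree.ok_s0 (Tree.ok_s1 lv.2.2.2.2.2.2.2.2.2.2.2.2.2.2.2.2.2.2.2.2.2.2.2.2.2.2.2.2.2.2.2.2.2.2.2.1 lv.2.2.2.2.2.2.2.2.2.2.2.2.2.2.2.2.2.2.2.2.2.2.2.2.2.2.2.2.2.2.2.2.2.2.2.2.1) (Tree.ok_s1 lv.2.2.2.2.2.2.2.2.2.2.2.2.2.2.2.2.2.2.2.2.2.2.2.2.2.2.2.2.2.2.2.2.2.2.2.2.2.1 lv.2.2.2.2.2.2.2.2.2.2.2.2.2.2.2.2.2.2.2.2.2.2.2.2.2.2.2.2.2.2.2.2.2.2.2.2.2.2))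

/-! A certified chain of potentials. -/

theorem cert : ChainR 4 (-1 / 2) D psi hh (1, 3) (-1, 7) (1, 0) (1, 1) (1, 3) (-6492, 4095) (-6488, 4095) (1, 4) psil where
  hd := by norm_num
  hl0 := by norm_num
  hl1 := by norm_num
  hne := by norm_num
  e2 := by norm_num [cv]
  e3 := by norm_num [cv]
  hf := by norm_num [cv]
  hmb := by norm_num [cv]
  hw := by norm_num [cv]
  r1 := by norm_num [cv]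
  r2 := by norm_num [cv]
  r3 := by norm_num [cv]
  r4 := by norm_num [cv]
  hc := by norm_num [cv]
  hc' := by norm_num [cv]
  hU0 := by
    intro j k hj h2 hk
    interval_cases j <;> interval_cases k
    exacts [box_zero _ _ u02, box_zero _ _ u03, box_zero _ _ u04, box_zero _ _ u12, box_zero _ _ u13, box_zero _ _ u14, box_zero _ _ u22, box_zero _ _ u23, box_zero _ _ u24]
  hU1 := by
    intro j k hj h2 hk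
    interval_cases j <;> interval_cases k
    exacts [box_zero _ _ v02, box_zero _ _ v03, box_zero _ _ v04, box_zero _ _ v12, box_zero _ _ v13, box_zero _ _ v14, box_zero _ _ v22, box_zero _ _ v23, box_zero _ _ v24]
  hH := by
    intro j k hj h2 hk
    interval_cases j <;> interval_cases k
    exacts [box_zero _ _ h02, box_zero _ _ h03, box_zero _ _ h04, box_zero _ _ h12, box_zero _ _ h13, box_zero _ _ h14, box_zero _ _ h22, box_zero _ _ h23, box_zero _ _ h24]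
  hB := by
    intro j hj
    interval_cases j
    exacts [box_zero _ _ b0, box_zero _ _ b1, box_zero _ _ b2]
  hS := by
    intro j hj
    interval_cases j
    exacts [box_zero _ _ s0, box_zero _ _ s1, box_zero _ _ s2]
  hR := by
    intro j hj
    interval_cases j
    exacts [box_zero _ _ r0, box_zero _ _ r1, box_zero _ _ r2]
  hpsi := by
    intro j hj P C
    interval_cases j <;> simp [Finset.sum_range_succ, psi, psil, h2sR] <;> ring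

end Vale.Agent.P154.G1
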