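import Vale.Agent.P154.Phi

/-! Data of a family of potentials for the Poisson tree. -/

namespace Vale.Agent.P154.M1

def D00 : NP where
  A := [(7435, 8191), (-19211, 8191), (19896, 8191), (-11041, 8191), (2063, 8191), (858, 8191)]
  B := [(105777, 8191), (38655, 8191), (-24753, 8191), (15144, 8191)]
  E := [(51948, 8191)]
  a0 := [(165160, 8191), (19444, 8191), (-4857, 8191), (4103, 8191), (2063, 8191), (858, 8191)]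
  a1 := [(165160, 8191), (-38888, 8191), (24285, 8191), (-32824, 8191), (-22693, 8191), (-12012, 8191)]
  a2 := [(527, 8191), (-202119, 8191), (351547, 8191), (-765, 8191)]
  a3 := [(3842, 8191), (280294, 8191), (-147697, 8191), (678095, 8191)]
  a4 := [(7340, 8191), (379965, 8191), (294707, 8191), (615807, 8191)]
  b0 := [(-209673, 8191), (-38655, 8191), (24753, 8191), (-15144, 8191)]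
  b1 := [(209673, 8191), (154620, 8191), (-173271, 8191), (151440, 8191)]
  b2 := [(-99702, 8191), (152897, 8191), (-288567, 8191)]
  b3 := [(8685, 8191), (-571062, 8191), (388013, 8191)]
  b4 := [(-198245, 8191), (649576, 8191), (566096, 8191)]
  g0 := [(51948, 8191)]
  g1 := [(-155844, 8191)]
  g2 := [(167022, 8191), (-107351, 8191)]

def D01 : NP where
  A := [(3969, 8191), (-5773, 8191), (34, 8191), (2318, 8191), (-1491, 8191), (943, 8191)]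
  B := [(113032, 8191), (21835, 8191), (-10935, 8191), (10891, 8191)]
  E := [(48085, 8191)]
  a0 := [(165086, 8191), (16062, 8191), (-10901, 8191), (13209, 8191), (-1491, 8191), (943, 8191)]
  a1 := [(165086, 8191), (-32124, 8191), (54505, 8191), (-105672, 8191), (16401, 8191), (-13202, 8191)]
  a2 := [(1594, 8191), (-96970, 8191), (132793, 8191), (-95993, 8191)]
  a3 := [(8136, 8191), (412908, 8191), (-309807, 8191), (422108, 8191)]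
  a4 := [(10466, 8191), (493436, 8191), (171190, 8191), (611629, 8191)]
  b0 := [(-209202, 8191), (-21835, 8191), (10935, 8191), (-10891, 8191)]
  b1 := [(209202, 8191), (87340, 8191), (-76545, 8191), (108910, 8191)]
  b2 := [(-111799, 8191), (106446, 8191), (-34447, 8191)]
  b3 := [(33605, 8191), (-578138, 8191), (258261, 8191)]
  b4 := [(-217383, 8191), (733012, 8191), (677474, 8191)]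
  g0 := [(48085, 8191)]
  g1 := [(-144255, 8191)]
  g2 := [(156119, 8191), (-126331, 8191)]

def D02 : NP where
  A := [(5701, 8191), (-14726, 8191), (19092, 8191), (-18297, 8191), (9717, 8191), (-1487, 8191)]
  B := [(109403, 8191), (29970, 8191), (-17414, 8191), (12864, 8191)]
  E := [(50015, 8191)]
  a0 := [(165119, 8191), (15244, 8191), (1678, 8191), (-5433, 8191), (9717, 8191), (-1487, 8191)]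
  a1 := [(165119, 8191), (-30488, 8191), (-8390, 8191), (43464, 8191), (-106887, 8191), (20818, 8191)]
  a2 := [(49, 8191), (-281335, 8191), (155456, 8191), (-28228, 8191)]
  a3 := [(17, 8191), (304819, 8191), (819199, 8191), (-303608, 8191)]
  a4 := [(25, 8191), (764167, 8191), (41346, 8191), (170808, 8191)]
  b0 := [(-209433, 8191), (-29970, 8191), (17414, 8191), (-12864, 8191)]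
  b1 := [(209433, 8191), (119880, 8191), (-121898, 8191), (128640, 8191)]
  b2 := [(-103410, 8191), (460617, 8191), (-127106, 8191)]
  b3 := [(35703, 8191), (-612195, 8191), (-129527, 8191)]
  b4 := [(-216344, 8191), (765604, 8191), (252159, 8191)]
  g0 := [(50015, 8191)]
  g1 := [(-150045, 8191)]
  g2 := [(159315, 8191), (-301686, 8191)]

def D03 : NP where
  A := [(1729, 8191), (-4549, 8191), (3959, 8191), (-1233, 8191), (140, 8191), (-46, 8191)]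
  B := [(117865, 8191), (19834, 8191), (-2977, 8191), (101, 8191)]
  E := [(45410, 8191)]
  a0 := [(165004, 8191), (15285, 8191), (982, 8191), (-1132, 8191), (140, 8191), (-46, 8191)]
  a1 := [(165004, 8191), (-30570, 8191), (-4910, 8191), (9056, 8191), (-1540, 8191), (644, 8191)]
  a2 := [(2008, 8191), (-41730, 8191), (115706, 8191), (-12769, 8191)]
  a3 := [(15506, 8191), (454233, 8191), (141785, 8191), (96926, 8191)]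
  a4 := [(30106, 8191), (652331, 8191), (-603512, 8191), (-160041, 8191)]
  b0 := [(-208685, 8191), (-19834, 8191), (2977, 8191), (-101, 8191)]
  b1 := [(208685, 8191), (79336, 8191), (-20839, 8191), (1010, 8191)]
  b2 := [(-117804, 8191), (-188258, 8191), (-107044, 8191)]
  b3 := [(9838, 8191), (-798259, 8191), (23330, 8191)]
  b4 := [(-186922, 8191), (129151, 8191), (492475, 8191)]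
  g0 := [(45410, 8191)]
  g1 := [(-136230, 8191)]
  g2 := [(150729, 8191), (166688, 8191)]

def D10 : NP where
  A := [(14625, 8191), (-18251, 8191), (-29, 8191), (5701, 8191), (-2046, 8191)]
  B := [(111984, 8191), (-1590, 8191), (3430, 8191)]
  E := [(39433, 8191)]
  a0 := [(166042, 8191), (-19841, 8191), (3401, 8191), (5701, 8191), (-2046, 8191)]
  a1 := [(166042, 8191), (39682, 8191), (-17005, 8191), (-45608, 8191), (22506, 8191)]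
  a2 := [(46, 8191), (-64050, 8191), (291520, 8191), (29653, 8191)]
  a3 := [(0, 8191), (283640, 8191), (4771, 8191), (233080, 8191)]
  a4 := [(0, 8191), (321352, 8191), (-813312, 8191), (-638711, 8191)]
  b0 := [(-190850, 8191), (1590, 8191), (-3430, 8191)]
  b1 := [(190850, 8191), (-6360, 8191), (24010, 8191)]
  b2 := [(-107592, 8191), (-158341, 8191), (-358288, 8191)]
  b3 := [(60105, 8191), (-774265, 8191), (97860, 8191)]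
  b4 := [(-198776, 8191), (731450, 8191), (652202, 8191)]
  g0 := [(39433, 8191)]
  g1 := [(-118299, 8191)]
  g2 := [(125603, 8191), (273858, 8191)]

def D11 : NP where
  A := [(9176, 8191), (-12974, 8191), (2272, 8191), (2826, 8191), (-1300, 8191)]
  B := [(119360, 8191), (3322, 8191), (243, 8191)]
  E := [(41866, 8191)]
  a0 := [(170402, 8191), (-9652, 8191), (2515, 8191), (2826, 8191), (-1300, 8191)]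
  a1 := [(170402, 8191), (19304, 8191), (-12575, 8191), (-22608, 8191), (14300, 8191)]
  a2 := [(64, 8191), (-228106, 8191), (182089, 8191), (594, 8191)]
  a3 := [(65, 8191), (152170, 8191), (71279, 8191), (40739, 8191)]
  a4 := [(57, 8191), (557116, 8191), (-819200, 8191), (-516433, 8191)]
  b0 := [(-203092, 8191), (-3322, 8191), (-243, 8191)]
  b1 := [(203092, 8191), (13288, 8191), (1701, 8191)]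
  b2 := [(-114592, 8191), (244456, 8191), (-195855, 8191)]
  b3 := [(70976, 8191), (-819200, 8191), (349928, 8191)]
  b4 := [(-225854, 8191), (539534, 8191), (634193, 8191)]
  g0 := [(41866, 8191)]
  g1 := [(-125598, 8191)]
  g2 := [(133431, 8191), (13803, 8191)]

def D12 : NP where
  A := [(3036, 8191), (-6474, 8191), (4960, 8191), (-1520, 8191), (-2, 8191)]
  B := [(127196, 8191), (10775, 8191), (-4080, 8191)]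
  E := [(43610, 8191)]
  a0 := [(173842, 8191), (4301, 8191), (880, 8191), (-1520, 8191), (-2, 8191)]
  a1 := [(173842, 8191), (-8602, 8191), (-4400, 8191), (12160, 8191), (22, 8191)]
  a2 := [(46, 8191), (-165585, 8191), (83950, 8191), (-48866, 8191)]
  a3 := [(0, 8191), (171528, 8191), (135953, 8191), (35133, 8191)]
  a4 := [(0, 8191), (690519, 8191), (-667533, 8191), (3662, 8191)]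
  b0 := [(-214416, 8191), (-10775, 8191), (4080, 8191)]
  b1 := [(214416, 8191), (43100, 8191), (-28560, 8191)]
  b2 := [(-114827, 8191), (108767, 8191), (4996, 8191)]
  b3 := [(106699, 8191), (-775694, 8191), (129138, 8191)]
  b4 := [(-325865, 8191), (587721, 8191), (40964, 8191)]
  g0 := [(43610, 8191)]
  g1 := [(-130830, 8191)]
  g2 := [(138905, 8191), (17660, 8191)]

def D13 : NP where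
  A := [(-41, 8191), (-4243, 8191), (5758, 8191), (-1495, 8191), (21, 8191)]
  B := [(131916, 8191), (23584, 8191), (-3812, 8191)]
  E := [(47357, 8191)]
  a0 := [(179232, 8191), (19341, 8191), (1946, 8191), (-1495, 8191), (21, 8191)]
  a1 := [(179232, 8191), (-38682, 8191), (-9730, 8191), (11960, 8191), (-231, 8191)]
  a2 := [(46, 8191), (-78855, 8191), (120316, 8191), (-149154, 8191)]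
  a3 := [(0, 8191), (235602, 8191), (583415, 8191), (421097, 8191)]
  a4 := [(0, 8191), (673738, 8191), (-276422, 8191), (367304, 8191)]
  b0 := [(-226630, 8191), (-23584, 8191), (3812, 8191)]
  b1 := [(226630, 8191), (94336, 8191), (-26684, 8191)]
  b2 := [(-107169, 8191), (-191047, 8191), (146087, 8191)]
  b3 := [(119466, 8191), (-654805, 8191), (-797045, 8191)]
  b4 := [(-414603, 8191), (819198, 8191), (107907, 8191)]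
  g0 := [(47357, 8191)]
  g1 := [(-142071, 8191)]
  g2 := [(150841, 8191), (72391, 8191)]

def D20 : NP where
  A := [(12943, 8191), (-37073, 8191), (11558, 8191), (-1348, 8191)]
  B := [(111678, 8191), (-7144, 8191), (6975, 8191)]
  E := [(41576, 8191)]
  a0 := [(166197, 8191), (-44217, 8191), (18533, 8191), (-1348, 8191)]
  a1 := [(166197, 8191), (88434, 8191), (-92665, 8191), (10784, 8191)]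
  a2 := [(46, 8191), (-184067, 8191), (455293, 8191), (31393, 8191)]
  a3 := [(0, 8191), (255594, 8191), (-34150, 8191), (421936, 8191)]
  a4 := [(0, 8191), (742275, 8191), (-561617, 8191), (-365774, 8191)]
  b0 := [(-194830, 8191), (7144, 8191), (-6975, 8191)]
  b1 := [(194830, 8191), (-28576, 8191), (48825, 8191)]
  b2 := [(-107049, 8191), (-48321, 8191), (-552320, 8191)]
  b3 := [(57062, 8191), (-795463, 8191), (34859, 8191)]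
  b4 := [(-205475, 8191), (128028, 8191), (443424, 8191)]
  g0 := [(41576, 8191)]
  g1 := [(-124728, 8191)]
  g2 := [(132427, 8191), (300591, 8191)]

def D21 : NP where
  A := [(7668, 8191), (-31213, 8191), (12045, 8191), (-2246, 8191)]
  B := [(127290, 8191), (-4053, 8191), (4455, 8191)]
  E := [(46513, 8191)]
  a0 := [(181471, 8191), (-35266, 8191), (16500, 8191), (-2246, 8191)]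
  a1 := [(181471, 8191), (70532, 8191), (-82500, 8191), (17968, 8191)]
  a2 := [(46, 8191), (-220822, 8191), (295204, 8191), (-4286, 8191)]
  a3 := [(0, 8191), (206481, 8191), (-120964, 8191), (517604, 8191)]
  a4 := [(0, 8191), (819200, 8191), (-755930, 8191), (-819200, 8191)]
  b0 := [(-220316, 8191), (4053, 8191), (-4455, 8191)]
  b1 := [(220316, 8191), (-16212, 8191), (31185, 8191)]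
  b2 := [(-121684, 8191), (147382, 8191), (-326847, 8191)]
  b3 := [(58513, 8191), (-703354, 8191), (-59856, 8191)]
  b4 := [(-217801, 8191), (267186, 8191), (752435, 8191)]
  g0 := [(46513, 8191)]
  g1 := [(-139539, 8191)]
  g2 := [(148152, 8191), (124576, 8191)]

def D22 : NP where
  A := [(-1816, 8191), (-18922, 8191), (9043, 8191), (-2472, 8191)]
  B := [(146663, 8191), (-2086, 8191), (855, 8191)]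
  E := [(51834, 8191)]
  a0 := [(196681, 8191), (-21008, 8191), (9898, 8191), (-2472, 8191)]
  a1 := [(196681, 8191), (42016, 8191), (-49490, 8191), (19776, 8191)]
  a2 := [(46, 8191), (-242237, 8191), (185525, 8191), (-62076, 8191)]
  a3 := [(0, 8191), (151557, 8191), (-29833, 8191), (379698, 8191)]
  a4 := [(0, 8191), (795489, 8191), (-566909, 8191), (-819200, 8191)]
  b0 := [(-250331, 8191), (2086, 8191), (-855, 8191)]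
  b1 := [(250331, 8191), (-8344, 8191), (5985, 8191)]
  b2 := [(-139648, 8191), (265691, 8191), (-147223, 8191)]
  b3 := [(97144, 8191), (-819200, 8191), (30824, 8191)]
  b4 := [(-303242, 8191), (283502, 8191), (819200, 8191)]
  g0 := [(51834, 8191)]
  g1 := [(-155502, 8191)]
  g2 := [(165100, 8191), (30065, 8191)]

def D23 : NP where
  A := [(-18446, 8191), (581, 8191), (6902, 8191), (-2803, 8191)]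
  B := [(167650, 8191), (18875, 8191), (-7003, 8191)]
  E := [(60804, 8191)]
  a0 := [(210008, 8191), (19456, 8191), (-101, 8191), (-2803, 8191)]
  a1 := [(210008, 8191), (-38912, 8191), (505, 8191), (22424, 8191)]
  a2 := [(46, 8191), (-176983, 8191), (76657, 8191), (-85809, 8191)]
  a3 := [(0, 8191), (99705, 8191), (412035, 8191), (286169, 8191)]
  a4 := [(0, 8191), (645720, 8191), (-566381, 8191), (-52357, 8191)]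
  b0 := [(-289258, 8191), (-18875, 8191), (7003, 8191)]
  b1 := [(289258, 8191), (75500, 8191), (-49021, 8191)]
  b2 := [(-155763, 8191), (114384, 8191), (44150, 8191)]
  b3 := [(125252, 8191), (-819200, 8191), (-343975, 8191)]
  b4 := [(-398806, 8191), (819200, 8191), (199927, 8191)]
  g0 := [(60804, 8191)]
  g1 := [(-182412, 8191)]
  g2 := [(193672, 8191), (28851, 8191)]

def p00 : List CL := [[(0, 8191), (134823, 8191), (4531, 8191), (1615, 8191), (3917, 8191)], [(0, 8191), (3119, 8191), (-2835, 8191)], [(909, 8191), (2430, 8191)]]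
def p01 : List CL := [[(0, 8191), (134823, 8191), (4374, 8191), (2314, 8191), (79, 8191)], [(0, 8191), (3080, 8191), (-1797, 8191)], [(1781, 8191), (-629, 8191)]]
def p02 : List CL := [[(0, 8191), (134823, 8191), (6853, 8191), (-978, 8191), (19224, 8191)], [(0, 8191), (14651, 8191), (-28916, 8191)], [(5836, 8191), (8832, 8191)]]
def p03 : List CL := [[(0, 8191), (134823, 8191), (18600, 8191), (-15542, 8191), (52024, 8191)], [(0, 8191), (61477, 8191), (-73742, 8191)], [(40930, 8191), (-11537, 8191)]]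
def p10 : List CL := [[(0, 8191), (143068, 8191), (17633, 8191), (7267, 8191), (-10558, 8191)], [(10236, 8191), (15041, 8191), (-22705, 8191)], [(2267, 8191), (20530, 8191)]]
def p11 : List CL := [[(0, 8191), (141044, 8191), (17040, 8191), (-13062, 8191), (35762, 8191)], [(7436, 8191), (22711, 8191), (-64650, 8191)], [(10951, 8191), (19431, 8191)]]
def p12 : List CL := [[(0, 8191), (139877, 8191), (11853, 8191), (2601, 8191), (-4899, 8191)], [(3794, 8191), (7410, 8191), (-851, 8191)], [(2852, 8191), (13185, 8191)]]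
def p13 : List CL := [[(0, 8191), (148114, 8191), (2251, 8191), (20669, 8191), (-27985, 8191)], [(1963, 8191), (7064, 8191), (1715, 8191)], [(13337, 8191), (14418, 8191)]]
def p20 : List CL := [[(0, 8191), (171733, 8191), (-18780, 8191), (103319, 8191), (-40182, 8191)], [(14815, 8191), (63682, 8191), (-128482, 8191)], [(-9690, 8191), (77256, 8191)]]
def p21 : List CL := [[(0, 8191), (156824, 8191), (65005, 8191), (-34531, 8191), (4880, 8191)], [(24034, 8191), (-20715, 8191), (51000, 8191)], [(4185, 8191), (-17911, 8191)]]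
def p22 : List CL := [[(0, 8191), (158559, 8191), (59727, 8191), (-40589, 8191), (33639, 8191)], [(20258, 8191), (-26671, 8191), (27140, 8191)], [(12758, 8191), (-20870, 8191)]]
def p23 : List CL := [[(0, 8191), (154553, 8191), (58951, 8191), (-41978, 8191), (9610, 8191)], [(-2563, 8191), (20763, 8191), (-49551, 8191)], [(1246, 8191), (53670, 8191)]]
def k00 : List CL := [[(0, 8191), (97877, 8191), (439364, 8191), (2158, 8191)], [(-284648, 8191), (-469441, 8191)], [(83419, 8191)]]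
def k01 : List CL := [[(0, 8191), (39965, 8191), (730660, 8191), (-19686, 8191)], [(-278064, 8191), (-748815, 8191)], [(152344, 8191)]]
def k02 : List CL := [[(0, 8191), (-45531, 8191), (819200, 8191), (37586, 8191)], [(-249804, 8191), (-787183, 8191)], [(102712, 8191)]]
def k03 : List CL := [[(0, 8191), (-175002, 8191), (819200, 8191), (-19946, 8191)], [(-238369, 8191), (-457838, 8191)], [(-90324, 8191)]]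
def k10 : List CL := [[(-4153, 8191), (-49482, 8191), (118283, 8191), (-14154, 8191)], [(-149375, 8191), (-170344, 8191)], [(35077, 8191)]]
def k11 : List CL := [[(-10509, 8191), (48484, 8191), (132315, 8191), (6869, 8191)], [(-231968, 8191), (-225528, 8191)], [(50425, 8191)]]
def k12 : List CL := [[(-10361, 8191), (78783, 8191), (441186, 8191), (16736, 8191)], [(-306485, 8191), (-577279, 8191)], [(138084, 8191)]]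
def k13 : List CL := [[(-19956, 8191), (163825, 8191), (819200, 8191), (25760, 8191)], [(-483962, 8191), (-819200, 8191)], [(113648, 8191)]]

def D : ℕ → ℕ → NP
  | 0, 0 => D00
  | 0, 1 => D01
  | 0, 2 => D02
  | 0, 3 => D03
  | 1, 0 => D10
  | 1, 1 => D11
  | 1, 2 => D12
  | 1, 3 => D13
  | 2, 0 => D20
  | 2, 1 => D21
  | 2, 2 => D22
  | 2, 3 => D23
  | _, _ => D03

def psi : ℕ → ℕ → List CL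
  | 0, 0 => p00
  | 0, 1 => p01
  | 0, 2 => p02
  | 0, 3 => p03
  | 1, 0 => p10
  | 1, 1 => p11
  | 1, 2 => p12
  | 1, 3 => p13
  | 2, 0 => p20
  | 2, 1 => p21
  | 2, 2 => p22
  | 2, 3 => p23
  | _, _ => []

def hh : ℕ → ℕ → List CL
  | 0, 0 => k00
  | 0, 1 => k01
  | 0, 2 => k02
  | 0, 3 => k03
  | 1, 0 => k10
  | 1, 1 => k11
  | 1, 2 => k12
  | 1, 3 => k13
  | _, _ => []

def w2 : ℕ → ℤ × ℕ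
  | 0 => (0, 0)
  | 1 => (0, 0)
  | 2 => (-13912, 8191)
  | _ => (0, 0)

def dl : ℕ → ℤ × ℕ
  | 0 => (0, 0)
  | 1 => (0, 0)
  | 2 => (8, 8191)
  | _ => (0, 0)

/-! Certificates. -/

/-- the leaves of all trees -/
theorem lv :
    ((Tree.leaf 118 9 16 6 1).ok 0 1 0 0 (SEG D03 (0, 0) (sP (24, 24) (1, 24)) p00 p01 p02 p03) ⟨0, 1, 1, 0, 1, 2, 0, 1, 2, 0, 1, 1⟩ = true ∧
      (Tree.leaf 122 9 16 6 1).ok 0 1 0 0 (SEG D03 (0, 0) (sP (24, 24) (1, 24)) p00 p01 p02 p03) ⟨0, 1, 1, 1, 2, 2, 0, 1, 2, 0, 1, 1⟩ = true ∧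
      (Tree.leaf 110 9 16 6 1).ok 0 1 0 0 (SEG D03 (0, 0) (sP (24, 24) (1, 24)) p00 p01 p02 p03) ⟨0, 1, 1, 0, 1, 1, 2, 3, 4, 0, 1, 1⟩ = true ∧
      (Tree.leaf 110 9 16 6 1).ok 0 1 0 0 (SEG D03 (0, 0) (sP (24, 24) (1, 24)) p00 p01 p02 p03) ⟨0, 1, 1, 0, 1, 1, 3, 4, 4, 0, 1, 1⟩ = true) ∧
    ((Tree.leaf 54 16 1 6 1).ok 0 1 0 0 (RE D03 (0, 0)) ⟨0, 1, 1, 0, 1, 1, 0, 1, 1, 0, 1, 1⟩ = true) ∧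
    ((Tree.leaf 107 17 16 6 1).ok 0 1 0 0 (UE0 (1, 0) D00) ⟨0, 1, 2, 0, 1, 2, 0, 1, 1, 0, 1, 1⟩ = true ∧
      (Tree.leaf 127 17 16 6 1).ok 0 1 0 0 (UE0 (1, 0) D00) ⟨0, 1, 4, 1, 2, 2, 0, 1, 1, 0, 1, 1⟩ = true ∧
      (Tree.leaf 132 17 16 6 1).ok 0 1 0 0 (UE0 (1, 0) D00) ⟨1, 2, 4, 1, 2, 2, 0, 1, 1, 0, 1, 1⟩ = true ∧
      (Tree.leaf 102 17 16 6 1).ok 0 1 0 0 (UE0 (1, 0) D00) ⟨1, 2, 2, 0, 1, 1, 0, 1, 1, 0, 1, 1⟩ = true) ∧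
    ((Tree.leaf 107 17 16 6 1).ok 0 1 0 0 (UE1 (1, 1) D00) ⟨0, 1, 1, 0, 1, 2, 0, 1, 1, 0, 1, 1⟩ = true ∧
      (Tree.leaf 126 17 16 6 1).ok 0 1 0 0 (UE1 (1, 1) D00) ⟨0, 1, 1, 2, 3, 4, 0, 1, 1, 0, 1, 1⟩ = true ∧
      (Tree.leaf 144 17 16 6 1).ok 0 1 0 0 (UE1 (1, 1) D00) ⟨0, 1, 2, 3, 4, 4, 0, 1, 1, 0, 1, 1⟩ = true ∧
      (Tree.leaf 148 17 16 6 1).ok 0 1 0 0 (UE1 (1, 1) D00) ⟨1, 2, 2, 3, 4, 4, 0, 1, 1, 0, 1, 1⟩ = true) ∧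
    ((Tree.leaf 108 17 16 6 1).ok 0 1 0 0 (UE0 (1, 0) D01) ⟨0, 1, 4, 0, 1, 1, 0, 1, 1, 0, 1, 1⟩ = true ∧
      (Tree.leaf 113 17 16 6 1).ok 0 1 0 0 (UE0 (1, 0) D01) ⟨1, 2, 4, 0, 1, 1, 0, 1, 1, 0, 1, 1⟩ = true ∧
      (Tree.leaf 102 17 16 6 1).ok 0 1 0 0 (UE0 (1, 0) D01) ⟨1, 2, 2, 0, 1, 1, 0, 1, 1, 0, 1, 1⟩ = true) ∧
    ((Tree.leaf 107 17 16 6 1).ok 0 1 0 0 (UE1 (1, 1) D01) ⟨0, 1, 1, 0, 1, 2, 0, 1, 1, 0, 1, 1⟩ = true ∧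
      (Tree.leaf 126 17 16 6 1).ok 0 1 0 0 (UE1 (1, 1) D01) ⟨0, 1, 1, 2, 3, 4, 0, 1, 1, 0, 1, 1⟩ = true ∧
      (Tree.leaf 143 17 16 6 1).ok 0 1 0 0 (UE1 (1, 1) D01) ⟨0, 1, 2, 3, 4, 4, 0, 1, 1, 0, 1, 1⟩ = true ∧
      (Tree.leaf 149 17 16 6 1).ok 0 1 0 0 (UE1 (1, 1) D01) ⟨1, 2, 2, 3, 4, 4, 0, 1, 1, 0, 1, 1⟩ = true) ∧
    ((Tree.leaf 121 17 16 6 1).ok 0 1 0 0 (UE0 (1, 0) D02) ⟨0, 1, 4, 0, 1, 2, 0, 1, 1, 0, 1, 1⟩ = true ∧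
      (Tree.leaf 125 17 16 6 1).ok 0 1 0 0 (UE0 (1, 0) D02) ⟨1, 2, 4, 0, 1, 2, 0, 1, 1, 0, 1, 1⟩ = true ∧
      (Tree.leaf 114 17 16 6 1).ok 0 1 0 0 (UE0 (1, 0) D02) ⟨0, 1, 2, 1, 2, 2, 0, 1, 1, 0, 1, 1⟩ = true ∧
      (Tree.leaf 103 17 16 6 1).ok 0 1 0 0 (UE0 (1, 0) D02) ⟨1, 2, 2, 0, 1, 1, 0, 1, 1, 0, 1, 1⟩ = true) ∧
    ((Tree.leaf 136 17 16 6 1).ok 0 1 0 0 (UE1 (1, 1) D02) ⟨0, 1, 2, 0, 1, 4, 0, 1, 1, 0, 1, 1⟩ = true ∧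
      (Tree.leaf 137 17 16 6 1).ok 0 1 0 0 (UE1 (1, 1) D02) ⟨0, 1, 2, 1, 2, 4, 0, 1, 1, 0, 1, 1⟩ = true ∧
      (Tree.leaf 125 17 16 6 1).ok 0 1 0 0 (UE1 (1, 1) D02) ⟨1, 2, 2, 0, 1, 2, 0, 1, 1, 0, 1, 1⟩ = true ∧
      (Tree.leaf 141 17 16 6 1).ok 0 1 0 0 (UE1 (1, 1) D02) ⟨0, 1, 2, 2, 3, 4, 0, 1, 1, 0, 1, 1⟩ = true ∧
      (Tree.leaf 145 17 16 6 1).ok 0 1 0 0 (UE1 (1, 1) D02) ⟨1, 2, 2, 2, 3, 4, 0, 1, 1, 0, 1, 1⟩ = true ∧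
      (Tree.leaf 145 17 16 6 1).ok 0 1 0 0 (UE1 (1, 1) D02) ⟨0, 1, 1, 6, 7, 8, 0, 1, 1, 0, 1, 1⟩ = true ∧
      (Tree.leaf 147 17 16 6 1).ok 0 1 0 0 (UE1 (1, 1) D02) ⟨0, 1, 1, 7, 8, 8, 0, 1, 1, 0, 1, 1⟩ = true) ∧
    ((Tree.leaf 120 17 16 6 1).ok 0 1 0 0 (UE0 (1, 0) D03) ⟨0, 1, 4, 0, 1, 2, 0, 1, 1, 0, 1, 1⟩ = true ∧
      (Tree.leaf 123 17 16 6 1).ok 0 1 0 0 (UE0 (1, 0) D03) ⟨0, 1, 4, 1, 2, 2, 0, 1, 1, 0, 1, 1⟩ = true ∧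
      (Tree.leaf 110 17 16 6 1).ok 0 1 0 0 (UE0 (1, 0) D03) ⟨1, 2, 4, 0, 1, 1, 0, 1, 1, 0, 1, 1⟩ = true ∧
      (Tree.leaf 99 17 16 6 1).ok 0 1 0 0 (UE0 (1, 0) D03) ⟨1, 2, 2, 0, 1, 1, 0, 1, 1, 0, 1, 1⟩ = true) ∧
    ((Tree.leaf 110 17 16 6 1).ok 0 1 0 0 (UE1 (1, 1) D03) ⟨0, 1, 1, 0, 1, 2, 0, 1, 2, 0, 1, 1⟩ = true ∧
      (Tree.leaf 114 17 16 6 1).ok 0 1 0 0 (UE1 (1, 1) D03) ⟨0, 1, 1, 1, 2, 2, 0, 1, 2, 0, 1, 1⟩ = true ∧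
      (Tree.leaf 115 17 16 6 1).ok 0 1 0 0 (UE1 (1, 1) D03) ⟨0, 1, 1, 0, 1, 2, 2, 3, 4, 0, 1, 1⟩ = true ∧
      (Tree.leaf 120 17 16 6 1).ok 0 1 0 0 (UE1 (1, 1) D03) ⟨0, 1, 1, 1, 2, 2, 2, 3, 4, 0, 1, 1⟩ = true ∧
      (Tree.leaf 115 17 16 6 1).ok 0 1 0 0 (UE1 (1, 1) D03) ⟨0, 1, 1, 0, 1, 2, 3, 4, 4, 0, 1, 1⟩ = true ∧
      (Tree.leaf 120 17 16 6 1).ok 0 1 0 0 (UE1 (1, 1) D03) ⟨0, 1, 1, 1, 2, 2, 3, 4, 4, 0, 1, 1⟩ = true) ∧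
    ((Tree.leaf 147 16 16 6 6).ok 0 1 0 0 (GM 0 0 (D 0) (1, 3) (-1, 7) (0, 0) (1, 4) (.q 144 624) p00 k00 k10) ⟨0, 1, 2, 0, 1, 2, 0, 1, 1, 0, 1, 1⟩ = true ∧
      (Tree.leaf 148 16 16 6 6).ok 0 1 0 0 (GM 0 0 (D 0) (1, 3) (-1, 7) (0, 0) (1, 4) (.q 144 624) p00 k00 k10) ⟨0, 1, 2, 1, 2, 2, 0, 1, 1, 0, 1, 1⟩ = true ∧
      (Tree.leaf 142 16 16 6 6).ok 0 1 0 0 (GM 0 0 (D 0) (1, 3) (-1, 7) (0, 0) (1, 4) (.q 144 624) p00 k00 k10) ⟨1, 2, 2, 0, 1, 1, 0, 1, 2, 0, 1, 1⟩ = true ∧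
      (Tree.leaf 143 16 16 6 6).ok 0 1 0 0 (GM 0 0 (D 0) (1, 3) (-1, 7) (0, 0) (1, 4) (.q 144 624) p00 k00 k10) ⟨1, 2, 2, 0, 1, 1, 1, 2, 2, 0, 1, 1⟩ = true) ∧
    ((Tree.leaf 137 16 16 6 6).ok 0 1 0 0 (GM 0 0 (D 0) (1, 3) (-1, 7) (0, 0) (1, 4) (tau1 (1, 3)) p00 k00 k10) ⟨0, 1, 2, 0, 1, 2, 0, 1, 1, 0, 1, 1⟩ = true ∧
      (Tree.leaf 138 16 16 6 6).ok 0 1 0 0 (GM 0 0 (D 0) (1, 3) (-1, 7) (0, 0) (1, 4) (tau1 (1, 3)) p00 k00 k10) ⟨0, 1, 2, 1, 2, 2, 0, 1, 1, 0, 1, 1⟩ = true ∧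
      (Tree.leaf 133 16 16 6 6).ok 0 1 0 0 (GM 0 0 (D 0) (1, 3) (-1, 7) (0, 0) (1, 4) (tau1 (1, 3)) p00 k00 k10) ⟨1, 2, 2, 0, 1, 1, 0, 1, 2, 0, 1, 1⟩ = true ∧
      (Tree.leaf 134 16 16 6 6).ok 0 1 0 0 (GM 0 0 (D 0) (1, 3) (-1, 7) (0, 0) (1, 4) (tau1 (1, 3)) p00 k00 k10) ⟨1, 2, 2, 0, 1, 1, 1, 2, 2, 0, 1, 1⟩ = true) ∧
    ((Tree.leaf 137 16 16 6 6).ok 0 1 0 0 (GM 0 1 (D 0) (1, 3) (-1, 7) (0, 0) (1, 4) (.q 144 624) p01 k01 k11) ⟨0, 1, 2, 0, 1, 1, 0, 1, 1, 0, 1, 2⟩ = true ∧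
      (Tree.leaf 137 16 16 6 6).ok 0 1 0 0 (GM 0 1 (D 0) (1, 3) (-1, 7) (0, 0) (1, 4) (.q 144 624) p01 k01 k11) ⟨0, 1, 2, 0, 1, 1, 0, 1, 1, 1, 2, 2⟩ = true ∧
      (Tree.leaf 151 16 16 6 6).ok 0 1 0 0 (GM 0 1 (D 0) (1, 3) (-1, 7) (0, 0) (1, 4) (.q 144 624) p01 k01 k11) ⟨2, 3, 4, 0, 1, 1, 0, 1, 1, 0, 1, 1⟩ = true ∧
      (Tree.leaf 154 16 16 6 6).ok 0 1 0 0 (GM 0 1 (D 0) (1, 3) (-1, 7) (0, 0) (1, 4) (.q 144 624) p01 k01 k11) ⟨3, 4, 4, 0, 1, 1, 0, 1, 1, 0, 1, 1⟩ = true) ∧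
    ((Tree.leaf 127 16 16 6 6).ok 0 1 0 0 (GM 0 1 (D 0) (1, 3) (-1, 7) (0, 0) (1, 4) (tau1 (1, 3)) p01 k01 k11) ⟨0, 1, 2, 0, 1, 1, 0, 1, 1, 0, 1, 2⟩ = true ∧
      (Tree.leaf 128 16 16 6 6).ok 0 1 0 0 (GM 0 1 (D 0) (1, 3) (-1, 7) (0, 0) (1, 4) (tau1 (1, 3)) p01 k01 k11) ⟨0, 1, 2, 0, 1, 1, 0, 1, 1, 1, 2, 2⟩ = true ∧
      (Tree.leaf 141 16 16 6 6).ok 0 1 0 0 (GM 0 1 (D 0) (1, 3) (-1, 7) (0, 0) (1, 4) (tau1 (1, 3)) p01 k01 k11) ⟨2, 3, 4, 0, 1, 1, 0, 1, 1, 0, 1, 1⟩ = true ∧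
      (Tree.leaf 145 16 16 6 6).ok 0 1 0 0 (GM 0 1 (D 0) (1, 3) (-1, 7) (0, 0) (1, 4) (tau1 (1, 3)) p01 k01 k11) ⟨3, 4, 4, 0, 1, 1, 0, 1, 1, 0, 1, 1⟩ = true) ∧
    ((Tree.leaf 147 16 16 6 6).ok 0 1 0 0 (GM 0 2 (D 0) (1, 3) (-1, 7) (0, 0) (1, 4) (.q 144 624) p02 k02 k12) ⟨0, 1, 2, 0, 1, 2, 0, 1, 1, 0, 1, 1⟩ = true ∧
      (Tree.leaf 148 16 16 6 6).ok 0 1 0 0 (GM 0 2 (D 0) (1, 3) (-1, 7) (0, 0) (1, 4) (.q 144 624) p02 k02 k12) ⟨0, 1, 2, 1, 2, 2, 0, 1, 1, 0, 1, 1⟩ = true ∧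
      (Tree.leaf 151 16 16 6 6).ok 0 1 0 0 (GM 0 2 (D 0) (1, 3) (-1, 7) (0, 0) (1, 4) (.q 144 624) p02 k02 k12) ⟨2, 3, 4, 0, 1, 1, 0, 1, 1, 0, 1, 1⟩ = true ∧
      (Tree.leaf 155 16 16 6 6).ok 0 1 0 0 (GM 0 2 (D 0) (1, 3) (-1, 7) (0, 0) (1, 4) (.q 144 624) p02 k02 k12) ⟨3, 4, 4, 0, 1, 1, 0, 1, 1, 0, 1, 1⟩ = true) ∧
    ((Tree.leaf 137 16 16 6 6).ok 0 1 0 0 (GM 0 2 (D 0) (1, 3) (-1, 7) (0, 0) (1, 4) (tau1 (1, 3)) p02 k02 k12) ⟨0, 1, 2, 0, 1, 2, 0, 1, 1, 0, 1, 1⟩ = true ∧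
      (Tree.leaf 139 16 16 6 6).ok 0 1 0 0 (GM 0 2 (D 0) (1, 3) (-1, 7) (0, 0) (1, 4) (tau1 (1, 3)) p02 k02 k12) ⟨0, 1, 2, 1, 2, 2, 0, 1, 1, 0, 1, 1⟩ = true ∧
      (Tree.leaf 142 16 16 6 6).ok 0 1 0 0 (GM 0 2 (D 0) (1, 3) (-1, 7) (0, 0) (1, 4) (tau1 (1, 3)) p02 k02 k12) ⟨2, 3, 4, 0, 1, 1, 0, 1, 1, 0, 1, 1⟩ = true ∧
      (Tree.leaf 145 16 16 6 6).ok 0 1 0 0 (GM 0 2 (D 0) (1, 3) (-1, 7) (0, 0) (1, 4) (tau1 (1, 3)) p02 k02 k12) ⟨3, 4, 4, 0, 1, 1, 0, 1, 1, 0, 1, 1⟩ = true) ∧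
    ((Tree.leaf 138 16 16 6 6).ok 0 1 0 0 (GM 0 3 (D 0) (1, 3) (-1, 7) (0, 0) (1, 4) (.q 144 624) p03 k03 k13) ⟨0, 1, 1, 0, 1, 2, 0, 1, 1, 0, 1, 2⟩ = true ∧
      (Tree.leaf 139 16 16 6 6).ok 0 1 0 0 (GM 0 3 (D 0) (1, 3) (-1, 7) (0, 0) (1, 4) (.q 144 624) p03 k03 k13) ⟨0, 1, 1, 1, 2, 2, 0, 1, 1, 0, 1, 2⟩ = true ∧
      (Tree.leaf 136 16 16 6 6).ok 0 1 0 0 (GM 0 3 (D 0) (1, 3) (-1, 7) (0, 0) (1, 4) (.q 144 624) p03 k03 k13) ⟨0, 1, 2, 0, 1, 1, 0, 1, 1, 1, 2, 2⟩ = true ∧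
      (Tree.leaf 141 16 16 6 6).ok 0 1 0 0 (GM 0 3 (D 0) (1, 3) (-1, 7) (0, 0) (1, 4) (.q 144 624) p03 k03 k13) ⟨1, 2, 2, 0, 1, 1, 0, 1, 1, 1, 2, 2⟩ = true) ∧
    ((Tree.leaf 128 16 16 6 6).ok 0 1 0 0 (GM 0 3 (D 0) (1, 3) (-1, 7) (0, 0) (1, 4) (tau1 (1, 3)) p03 k03 k13) ⟨0, 1, 1, 0, 1, 2, 0, 1, 1, 0, 1, 2⟩ = true ∧
      (Tree.leaf 130 16 16 6 6).ok 0 1 0 0 (GM 0 3 (D 0) (1, 3) (-1, 7) (0, 0) (1, 4) (tau1 (1, 3)) p03 k03 k13) ⟨0, 1, 1, 1, 2, 2, 0, 1, 1, 0, 1, 2⟩ = true ∧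
      (Tree.leaf 127 16 16 6 6).ok 0 1 0 0 (GM 0 3 (D 0) (1, 3) (-1, 7) (0, 0) (1, 4) (tau1 (1, 3)) p03 k03 k13) ⟨0, 1, 2, 0, 1, 1, 0, 1, 1, 1, 2, 2⟩ = true ∧
      (Tree.leaf 132 16 16 6 6).ok 0 1 0 0 (GM 0 3 (D 0) (1, 3) (-1, 7) (0, 0) (1, 4) (tau1 (1, 3)) p03 k03 k13) ⟨1, 2, 2, 0, 1, 1, 0, 1, 1, 1, 2, 2⟩ = true) ∧
    ((Tree.leaf 107 9 13 5 1).ok 0 1 0 0 (SEG D13 (0, 0) (sP (24, 24) (1, 24)) p10 p11 p12 p13) ⟨0, 1, 1, 0, 1, 2, 0, 1, 2, 0, 1, 1⟩ = true ∧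
      (Tree.leaf 111 9 13 5 1).ok 0 1 0 0 (SEG D13 (0, 0) (sP (24, 24) (1, 24)) p10 p11 p12 p13) ⟨0, 1, 1, 1, 2, 2, 0, 1, 2, 0, 1, 1⟩ = true ∧
      (Tree.leaf 101 9 13 5 1).ok 0 1 0 0 (SEG D13 (0, 0) (sP (24, 24) (1, 24)) p10 p11 p12 p13) ⟨0, 1, 1, 0, 1, 1, 2, 3, 4, 0, 1, 1⟩ = true ∧
      (Tree.leaf 102 9 13 5 1).ok 0 1 0 0 (SEG D13 (0, 0) (sP (24, 24) (1, 24)) p10 p11 p12 p13) ⟨0, 1, 1, 0, 1, 1, 3, 4, 4, 0, 1, 1⟩ = true) ∧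
    ((Tree.leaf 48 13 1 5 1).ok 0 1 0 0 (RE D13 (0, 0)) ⟨0, 1, 1, 0, 1, 1, 0, 1, 1, 0, 1, 1⟩ = true) ∧
    ((Tree.leaf 101 14 13 5 1).ok 0 1 0 0 (UE0 (1, 0) D10) ⟨0, 1, 4, 0, 1, 2, 0, 1, 1, 0, 1, 1⟩ = true ∧
      (Tree.leaf 105 14 13 5 1).ok 0 1 0 0 (UE0 (1, 0) D10) ⟨1, 2, 4, 0, 1, 2, 0, 1, 1, 0, 1, 1⟩ = true ∧
      (Tree.leaf 106 14 13 5 1).ok 0 1 0 0 (UE0 (1, 0) D10) ⟨0, 1, 4, 1, 2, 2, 0, 1, 1, 0, 1, 1⟩ = true ∧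
      (Tree.leaf 110 14 13 5 1).ok 0 1 0 0 (UE0 (1, 0) D10) ⟨1, 2, 4, 1, 2, 2, 0, 1, 1, 0, 1, 1⟩ = true ∧
      (Tree.leaf 87 14 13 5 1).ok 0 1 0 0 (UE0 (1, 0) D10) ⟨1, 2, 2, 0, 1, 1, 0, 1, 1, 0, 1, 1⟩ = true) ∧
    ((Tree.leaf 114 14 13 5 1).ok 0 1 0 0 (UE1 (1, 1) D10) ⟨0, 1, 4, 0, 1, 2, 0, 1, 1, 0, 1, 1⟩ = true ∧
      (Tree.leaf 115 14 13 5 1).ok 0 1 0 0 (UE1 (1, 1) D10) ⟨1, 2, 4, 0, 1, 2, 0, 1, 1, 0, 1, 1⟩ = true ∧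
      (Tree.leaf 105 14 13 5 1).ok 0 1 0 0 (UE1 (1, 1) D10) ⟨1, 2, 2, 0, 1, 2, 0, 1, 1, 0, 1, 1⟩ = true ∧
      (Tree.leaf 98 14 13 5 1).ok 0 1 0 0 (UE1 (1, 1) D10) ⟨0, 1, 1, 1, 2, 2, 0, 1, 2, 0, 1, 1⟩ = true ∧
      (Tree.leaf 110 14 13 5 1).ok 0 1 0 0 (UE1 (1, 1) D10) ⟨0, 1, 2, 1, 2, 2, 1, 2, 2, 0, 1, 1⟩ = true ∧
      (Tree.leaf 115 14 13 5 1).ok 0 1 0 0 (UE1 (1, 1) D10) ⟨1, 2, 2, 1, 2, 2, 1, 2, 2, 0, 1, 1⟩ = true) ∧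
    ((Tree.leaf 101 14 13 5 1).ok 0 1 0 0 (UE0 (1, 0) D11) ⟨0, 1, 4, 0, 1, 2, 0, 1, 1, 0, 1, 1⟩ = true ∧
      (Tree.leaf 104 14 13 5 1).ok 0 1 0 0 (UE0 (1, 0) D11) ⟨1, 2, 4, 0, 1, 2, 0, 1, 1, 0, 1, 1⟩ = true ∧
      (Tree.leaf 105 14 13 5 1).ok 0 1 0 0 (UE0 (1, 0) D11) ⟨0, 1, 2, 2, 3, 4, 0, 1, 1, 0, 1, 1⟩ = true ∧
      (Tree.leaf 108 14 13 5 1).ok 0 1 0 0 (UE0 (1, 0) D11) ⟨0, 1, 2, 3, 4, 4, 0, 1, 1, 0, 1, 1⟩ = true ∧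
      (Tree.leaf 87 14 13 5 1).ok 0 1 0 0 (UE0 (1, 0) D11) ⟨1, 2, 2, 0, 1, 1, 0, 1, 1, 0, 1, 1⟩ = true) ∧
    ((Tree.leaf 89 14 13 5 1).ok 0 1 0 0 (UE1 (1, 1) D11) ⟨0, 1, 1, 0, 1, 2, 0, 1, 1, 0, 1, 1⟩ = true ∧
      (Tree.leaf 116 14 13 5 1).ok 0 1 0 0 (UE1 (1, 1) D11) ⟨0, 1, 2, 2, 3, 4, 0, 1, 1, 0, 1, 1⟩ = true ∧
      (Tree.leaf 120 14 13 5 1).ok 0 1 0 0 (UE1 (1, 1) D11) ⟨1, 2, 2, 2, 3, 4, 0, 1, 1, 0, 1, 1⟩ = true ∧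
      (Tree.leaf 111 14 13 5 1).ok 0 1 0 0 (UE1 (1, 1) D11) ⟨0, 1, 1, 3, 4, 4, 0, 1, 2, 0, 1, 1⟩ = true ∧
      (Tree.leaf 112 14 13 5 1).ok 0 1 0 0 (UE1 (1, 1) D11) ⟨0, 1, 1, 3, 4, 4, 1, 2, 2, 0, 1, 1⟩ = true) ∧
    ((Tree.leaf 101 14 13 5 1).ok 0 1 0 0 (UE0 (1, 0) D12) ⟨0, 1, 4, 0, 1, 2, 0, 1, 1, 0, 1, 1⟩ = true ∧
      (Tree.leaf 103 14 13 5 1).ok 0 1 0 0 (UE0 (1, 0) D12) ⟨1, 2, 4, 0, 1, 2, 0, 1, 1, 0, 1, 1⟩ = true ∧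
      (Tree.leaf 103 14 13 5 1).ok 0 1 0 0 (UE0 (1, 0) D12) ⟨0, 1, 4, 1, 2, 2, 0, 1, 1, 0, 1, 1⟩ = true ∧
      (Tree.leaf 107 14 13 5 1).ok 0 1 0 0 (UE0 (1, 0) D12) ⟨1, 2, 4, 1, 2, 2, 0, 1, 1, 0, 1, 1⟩ = true ∧
      (Tree.leaf 85 14 13 5 1).ok 0 1 0 0 (UE0 (1, 0) D12) ⟨1, 2, 2, 0, 1, 1, 0, 1, 1, 0, 1, 1⟩ = true) ∧
    ((Tree.leaf 101 14 13 5 1).ok 0 1 0 0 (UE1 (1, 1) D12) ⟨0, 1, 2, 0, 1, 2, 0, 1, 1, 0, 1, 1⟩ = true ∧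
      (Tree.leaf 103 14 13 5 1).ok 0 1 0 0 (UE1 (1, 1) D12) ⟨1, 2, 2, 0, 1, 2, 0, 1, 1, 0, 1, 1⟩ = true ∧
      (Tree.leaf 107 14 13 5 1).ok 0 1 0 0 (UE1 (1, 1) D12) ⟨0, 1, 1, 2, 3, 4, 0, 1, 2, 0, 1, 1⟩ = true ∧
      (Tree.leaf 108 14 13 5 1).ok 0 1 0 0 (UE1 (1, 1) D12) ⟨0, 1, 1, 2, 3, 4, 1, 2, 2, 0, 1, 1⟩ = true ∧
      (Tree.leaf 117 14 13 5 1).ok 0 1 0 0 (UE1 (1, 1) D12) ⟨0, 1, 1, 6, 7, 8, 0, 1, 1, 0, 1, 1⟩ = true ∧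
      (Tree.leaf 118 14 13 5 1).ok 0 1 0 0 (UE1 (1, 1) D12) ⟨0, 1, 1, 7, 8, 8, 0, 1, 1, 0, 1, 1⟩ = true) ∧
    ((Tree.leaf 101 14 13 5 1).ok 0 1 0 0 (UE0 (1, 0) D13) ⟨0, 1, 4, 0, 1, 2, 0, 1, 1, 0, 1, 1⟩ = true ∧
      (Tree.leaf 104 14 13 5 1).ok 0 1 0 0 (UE0 (1, 0) D13) ⟨1, 2, 4, 0, 1, 2, 0, 1, 1, 0, 1, 1⟩ = true ∧
      (Tree.leaf 104 14 13 5 1).ok 0 1 0 0 (UE0 (1, 0) D13) ⟨0, 1, 4, 1, 2, 2, 0, 1, 1, 0, 1, 1⟩ = true ∧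
      (Tree.leaf 109 14 13 5 1).ok 0 1 0 0 (UE0 (1, 0) D13) ⟨1, 2, 4, 1, 2, 2, 0, 1, 1, 0, 1, 1⟩ = true ∧
      (Tree.leaf 87 14 13 5 1).ok 0 1 0 0 (UE0 (1, 0) D13) ⟨1, 2, 2, 0, 1, 1, 0, 1, 1, 0, 1, 1⟩ = true) ∧
    ((Tree.leaf 114 14 13 5 1).ok 0 1 0 0 (UE1 (1, 1) D13) ⟨0, 1, 4, 0, 1, 2, 0, 1, 1, 0, 1, 1⟩ = true ∧
      (Tree.leaf 115 14 13 5 1).ok 0 1 0 0 (UE1 (1, 1) D13) ⟨1, 2, 4, 0, 1, 2, 0, 1, 1, 0, 1, 1⟩ = true ∧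
      (Tree.leaf 104 14 13 5 1).ok 0 1 0 0 (UE1 (1, 1) D13) ⟨1, 2, 2, 0, 1, 2, 0, 1, 1, 0, 1, 1⟩ = true ∧
      (Tree.leaf 104 14 13 5 1).ok 0 1 0 0 (UE1 (1, 1) D13) ⟨0, 1, 1, 2, 3, 4, 0, 1, 1, 0, 1, 1⟩ = true ∧
      (Tree.leaf 118 14 13 5 1).ok 0 1 0 0 (UE1 (1, 1) D13) ⟨0, 1, 1, 6, 7, 8, 0, 1, 1, 0, 1, 1⟩ = true ∧
      (Tree.leaf 119 14 13 5 1).ok 0 1 0 0 (UE1 (1, 1) D13) ⟨0, 1, 1, 7, 8, 8, 0, 1, 1, 0, 1, 1⟩ = true) ∧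
    ((Tree.leaf 134 14 14 6 6).ok 0 1 0 0 (GM 1 0 (D 1) (1, 3) (-1, 7) (0, 0) (1, 4) (.q 144 624) p10 k00 k10) ⟨0, 1, 2, 0, 1, 2, 0, 1, 1, 0, 1, 1⟩ = true ∧
      (Tree.leaf 135 14 14 6 6).ok 0 1 0 0 (GM 1 0 (D 1) (1, 3) (-1, 7) (0, 0) (1, 4) (.q 144 624) p10 k00 k10) ⟨0, 1, 2, 1, 2, 2, 0, 1, 1, 0, 1, 1⟩ = true ∧
      (Tree.leaf 131 14 14 6 6).ok 0 1 0 0 (GM 1 0 (D 1) (1, 3) (-1, 7) (0, 0) (1, 4) (.q 144 624) p10 k00 k10) ⟨1, 2, 2, 0, 1, 1, 0, 1, 2, 0, 1, 1⟩ = true ∧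
      (Tree.leaf 133 14 14 6 6).ok 0 1 0 0 (GM 1 0 (D 1) (1, 3) (-1, 7) (0, 0) (1, 4) (.q 144 624) p10 k00 k10) ⟨1, 2, 2, 0, 1, 1, 1, 2, 2, 0, 1, 1⟩ = true) ∧
    ((Tree.leaf 125 14 14 6 6).ok 0 1 0 0 (GM 1 0 (D 1) (1, 3) (-1, 7) (0, 0) (1, 4) (tau1 (1, 3)) p10 k00 k10) ⟨0, 1, 2, 0, 1, 2, 0, 1, 1, 0, 1, 1⟩ = true ∧
      (Tree.leaf 126 14 14 6 6).ok 0 1 0 0 (GM 1 0 (D 1) (1, 3) (-1, 7) (0, 0) (1, 4) (tau1 (1, 3)) p10 k00 k10) ⟨0, 1, 2, 1, 2, 2, 0, 1, 1, 0, 1, 1⟩ = true ∧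
      (Tree.leaf 122 14 14 6 6).ok 0 1 0 0 (GM 1 0 (D 1) (1, 3) (-1, 7) (0, 0) (1, 4) (tau1 (1, 3)) p10 k00 k10) ⟨1, 2, 2, 0, 1, 1, 0, 1, 2, 0, 1, 1⟩ = true ∧
      (Tree.leaf 123 14 14 6 6).ok 0 1 0 0 (GM 1 0 (D 1) (1, 3) (-1, 7) (0, 0) (1, 4) (tau1 (1, 3)) p10 k00 k10) ⟨1, 2, 2, 0, 1, 1, 1, 2, 2, 0, 1, 1⟩ = true) ∧
    ((Tree.leaf 134 14 14 6 6).ok 0 1 0 0 (GM 1 1 (D 1) (1, 3) (-1, 7) (0, 0) (1, 4) (.q 144 624) p11 k01 k11) ⟨0, 1, 2, 0, 1, 2, 0, 1, 1, 0, 1, 1⟩ = true ∧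
      (Tree.leaf 137 14 14 6 6).ok 0 1 0 0 (GM 1 1 (D 1) (1, 3) (-1, 7) (0, 0) (1, 4) (.q 144 624) p11 k01 k11) ⟨1, 2, 2, 0, 1, 2, 0, 1, 1, 0, 1, 1⟩ = true ∧
      (Tree.leaf 130 14 14 6 6).ok 0 1 0 0 (GM 1 1 (D 1) (1, 3) (-1, 7) (0, 0) (1, 4) (.q 144 624) p11 k01 k11) ⟨0, 1, 1, 1, 2, 2, 0, 1, 1, 0, 1, 2⟩ = true ∧
      (Tree.leaf 130 14 14 6 6).ok 0 1 0 0 (GM 1 1 (D 1) (1, 3) (-1, 7) (0, 0) (1, 4) (.q 144 624) p11 k01 k11) ⟨0, 1, 1, 1, 2, 2, 0, 1, 1, 1, 2, 2⟩ = true) ∧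
    ((Tree.leaf 125 14 14 6 6).ok 0 1 0 0 (GM 1 1 (D 1) (1, 3) (-1, 7) (0, 0) (1, 4) (tau1 (1, 3)) p11 k01 k11) ⟨0, 1, 2, 0, 1, 2, 0, 1, 1, 0, 1, 1⟩ = true ∧
      (Tree.leaf 128 14 14 6 6).ok 0 1 0 0 (GM 1 1 (D 1) (1, 3) (-1, 7) (0, 0) (1, 4) (tau1 (1, 3)) p11 k01 k11) ⟨1, 2, 2, 0, 1, 2, 0, 1, 1, 0, 1, 1⟩ = true ∧
      (Tree.leaf 120 14 14 6 6).ok 0 1 0 0 (GM 1 1 (D 1) (1, 3) (-1, 7) (0, 0) (1, 4) (tau1 (1, 3)) p11 k01 k11) ⟨0, 1, 1, 1, 2, 2, 0, 1, 1, 0, 1, 2⟩ = true ∧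
      (Tree.leaf 121 14 14 6 6).ok 0 1 0 0 (GM 1 1 (D 1) (1, 3) (-1, 7) (0, 0) (1, 4) (tau1 (1, 3)) p11 k01 k11) ⟨0, 1, 1, 1, 2, 2, 0, 1, 1, 1, 2, 2⟩ = true) ∧
    ((Tree.leaf 121 14 14 6 6).ok 0 1 0 0 (GM 1 2 (D 1) (1, 3) (-1, 7) (0, 0) (1, 4) (.q 144 624) p12 k02 k12) ⟨0, 1, 2, 0, 1, 1, 0, 1, 1, 0, 1, 1⟩ = true ∧
      (Tree.leaf 130 14 14 6 6).ok 0 1 0 0 (GM 1 2 (D 1) (1, 3) (-1, 7) (0, 0) (1, 4) (.q 144 624) p12 k02 k12) ⟨1, 2, 2, 0, 1, 1, 0, 1, 2, 0, 1, 1⟩ = true ∧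
      (Tree.leaf 131 14 14 6 6).ok 0 1 0 0 (GM 1 2 (D 1) (1, 3) (-1, 7) (0, 0) (1, 4) (.q 144 624) p12 k02 k12) ⟨1, 2, 2, 0, 1, 1, 1, 2, 2, 0, 1, 1⟩ = true) ∧
    ((Tree.leaf 112 14 14 6 6).ok 0 1 0 0 (GM 1 2 (D 1) (1, 3) (-1, 7) (0, 0) (1, 4) (tau1 (1, 3)) p12 k02 k12) ⟨0, 1, 2, 0, 1, 1, 0, 1, 1, 0, 1, 1⟩ = true ∧
      (Tree.leaf 120 14 14 6 6).ok 0 1 0 0 (GM 1 2 (D 1) (1, 3) (-1, 7) (0, 0) (1, 4) (tau1 (1, 3)) p12 k02 k12) ⟨1, 2, 2, 0, 1, 1, 0, 1, 2, 0, 1, 1⟩ = true ∧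
      (Tree.leaf 121 14 14 6 6).ok 0 1 0 0 (GM 1 2 (D 1) (1, 3) (-1, 7) (0, 0) (1, 4) (tau1 (1, 3)) p12 k02 k12) ⟨1, 2, 2, 0, 1, 1, 1, 2, 2, 0, 1, 1⟩ = true) ∧
    ((Tree.leaf 127 14 14 6 6).ok 0 1 0 0 (GM 1 3 (D 1) (1, 3) (-1, 7) (0, 0) (1, 4) (.q 144 624) p13 k03 k13) ⟨0, 1, 2, 0, 1, 1, 0, 1, 1, 0, 1, 2⟩ = true ∧
      (Tree.leaf 131 14 14 6 6).ok 0 1 0 0 (GM 1 3 (D 1) (1, 3) (-1, 7) (0, 0) (1, 4) (.q 144 624) p13 k03 k13) ⟨1, 2, 2, 0, 1, 1, 0, 1, 1, 0, 1, 2⟩ = true ∧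
      (Tree.leaf 127 14 14 6 6).ok 0 1 0 0 (GM 1 3 (D 1) (1, 3) (-1, 7) (0, 0) (1, 4) (.q 144 624) p13 k03 k13) ⟨0, 1, 1, 0, 1, 2, 0, 1, 1, 1, 2, 2⟩ = true ∧
      (Tree.leaf 131 14 14 6 6).ok 0 1 0 0 (GM 1 3 (D 1) (1, 3) (-1, 7) (0, 0) (1, 4) (.q 144 624) p13 k03 k13) ⟨0, 1, 1, 1, 2, 2, 0, 1, 1, 1, 2, 2⟩ = true) ∧
    ((Tree.leaf 117 14 14 6 6).ok 0 1 0 0 (GM 1 3 (D 1) (1, 3) (-1, 7) (0, 0) (1, 4) (tau1 (1, 3)) p13 k03 k13) ⟨0, 1, 2, 0, 1, 1, 0, 1, 1, 0, 1, 2⟩ = true ∧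
      (Tree.leaf 122 14 14 6 6).ok 0 1 0 0 (GM 1 3 (D 1) (1, 3) (-1, 7) (0, 0) (1, 4) (tau1 (1, 3)) p13 k03 k13) ⟨1, 2, 2, 0, 1, 1, 0, 1, 1, 0, 1, 2⟩ = true ∧
      (Tree.leaf 118 14 14 6 6).ok 0 1 0 0 (GM 1 3 (D 1) (1, 3) (-1, 7) (0, 0) (1, 4) (tau1 (1, 3)) p13 k03 k13) ⟨0, 1, 1, 0, 1, 2, 0, 1, 1, 1, 2, 2⟩ = true ∧
      (Tree.leaf 122 14 14 6 6).ok 0 1 0 0 (GM 1 3 (D 1) (1, 3) (-1, 7) (0, 0) (1, 4) (tau1 (1, 3)) p13 k03 k13) ⟨0, 1, 1, 1, 2, 2, 0, 1, 1, 1, 2, 2⟩ = true) ∧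
    ((Tree.leaf 92 9 10 5 1).ok 0 1 0 0 (SEG D23 (-13912, 8191) (sP (24, 24) (1, 24)) p20 p21 p22 p23) ⟨0, 1, 1, 0, 1, 1, 0, 1, 2, 0, 1, 1⟩ = true ∧
      (Tree.leaf 93 9 10 5 1).ok 0 1 0 0 (SEG D23 (-13912, 8191) (sP (24, 24) (1, 24)) p20 p21 p22 p23) ⟨0, 1, 1, 0, 1, 1, 1, 2, 2, 0, 1, 1⟩ = true) ∧
    ((Tree.leaf 41 10 1 4 1).ok 0 1 0 0 (RE D23 (-13912, 8191)) ⟨0, 1, 1, 0, 1, 1, 0, 1, 1, 0, 1, 1⟩ = true) ∧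
    ((Tree.leaf 92 14 10 4 1).ok 0 1 0 0 (UE0 (1, 0) D20) ⟨0, 1, 4, 0, 1, 2, 0, 1, 1, 0, 1, 1⟩ = true ∧
      (Tree.leaf 95 14 10 4 1).ok 0 1 0 0 (UE0 (1, 0) D20) ⟨1, 2, 4, 0, 1, 2, 0, 1, 1, 0, 1, 1⟩ = true ∧
      (Tree.leaf 84 14 10 4 1).ok 0 1 0 0 (UE0 (1, 0) D20) ⟨0, 1, 2, 1, 2, 2, 0, 1, 1, 0, 1, 1⟩ = true ∧
      (Tree.leaf 80 14 10 4 1).ok 0 1 0 0 (UE0 (1, 0) D20) ⟨1, 2, 2, 0, 1, 1, 0, 1, 1, 0, 1, 1⟩ = true) ∧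
    ((Tree.leaf 80 14 10 4 1).ok 0 1 0 0 (UE1 (1, 1) D20) ⟨0, 1, 1, 0, 1, 2, 0, 1, 1, 0, 1, 1⟩ = true ∧
      (Tree.leaf 94 14 10 4 1).ok 0 1 0 0 (UE1 (1, 1) D20) ⟨0, 1, 1, 2, 3, 4, 0, 1, 2, 0, 1, 1⟩ = true ∧
      (Tree.leaf 96 14 10 4 1).ok 0 1 0 0 (UE1 (1, 1) D20) ⟨0, 1, 1, 3, 4, 4, 0, 1, 2, 0, 1, 1⟩ = true ∧
      (Tree.leaf 95 14 10 4 1).ok 0 1 0 0 (UE1 (1, 1) D20) ⟨0, 1, 1, 2, 3, 4, 1, 2, 2, 0, 1, 1⟩ = true ∧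
      (Tree.leaf 97 14 10 4 1).ok 0 1 0 0 (UE1 (1, 1) D20) ⟨0, 1, 1, 3, 4, 4, 1, 2, 2, 0, 1, 1⟩ = true) ∧
    ((Tree.leaf 92 14 10 4 1).ok 0 1 0 0 (UE0 (1, 0) D21) ⟨0, 1, 4, 0, 1, 2, 0, 1, 1, 0, 1, 1⟩ = true ∧
      (Tree.leaf 94 14 10 4 1).ok 0 1 0 0 (UE0 (1, 0) D21) ⟨1, 2, 4, 0, 1, 2, 0, 1, 1, 0, 1, 1⟩ = true ∧
      (Tree.leaf 83 14 10 4 1).ok 0 1 0 0 (UE0 (1, 0) D21) ⟨0, 1, 2, 1, 2, 2, 0, 1, 1, 0, 1, 1⟩ = true ∧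
      (Tree.leaf 80 14 10 4 1).ok 0 1 0 0 (UE0 (1, 0) D21) ⟨1, 2, 2, 0, 1, 1, 0, 1, 1, 0, 1, 1⟩ = true) ∧
    ((Tree.leaf 80 14 10 4 1).ok 0 1 0 0 (UE1 (1, 1) D21) ⟨0, 1, 1, 0, 1, 2, 0, 1, 1, 0, 1, 1⟩ = true ∧
      (Tree.leaf 94 14 10 4 1).ok 0 1 0 0 (UE1 (1, 1) D21) ⟨0, 1, 1, 2, 3, 4, 0, 1, 2, 0, 1, 1⟩ = true ∧
      (Tree.leaf 95 14 10 4 1).ok 0 1 0 0 (UE1 (1, 1) D21) ⟨0, 1, 1, 2, 3, 4, 1, 2, 2, 0, 1, 1⟩ = true ∧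
      (Tree.leaf 93 14 10 4 1).ok 0 1 0 0 (UE1 (1, 1) D21) ⟨0, 1, 1, 3, 4, 4, 0, 1, 1, 0, 1, 1⟩ = true) ∧
    ((Tree.leaf 91 14 10 4 1).ok 0 1 0 0 (UE0 (1, 0) D22) ⟨0, 1, 4, 0, 1, 2, 0, 1, 1, 0, 1, 1⟩ = true ∧
      (Tree.leaf 94 14 10 4 1).ok 0 1 0 0 (UE0 (1, 0) D22) ⟨1, 2, 4, 0, 1, 2, 0, 1, 1, 0, 1, 1⟩ = true ∧
      (Tree.leaf 94 14 10 4 1).ok 0 1 0 0 (UE0 (1, 0) D22) ⟨0, 1, 4, 1, 2, 2, 0, 1, 1, 0, 1, 1⟩ = true ∧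
      (Tree.leaf 99 14 10 4 1).ok 0 1 0 0 (UE0 (1, 0) D22) ⟨1, 2, 4, 1, 2, 2, 0, 1, 1, 0, 1, 1⟩ = true ∧
      (Tree.leaf 80 14 10 4 1).ok 0 1 0 0 (UE0 (1, 0) D22) ⟨1, 2, 2, 0, 1, 1, 0, 1, 1, 0, 1, 1⟩ = true) ∧
    ((Tree.leaf 91 14 10 4 1).ok 0 1 0 0 (UE1 (1, 1) D22) ⟨0, 1, 2, 0, 1, 2, 0, 1, 1, 0, 1, 1⟩ = true ∧
      (Tree.leaf 94 14 10 4 1).ok 0 1 0 0 (UE1 (1, 1) D22) ⟨1, 2, 2, 0, 1, 2, 0, 1, 1, 0, 1, 1⟩ = true ∧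
      (Tree.leaf 97 14 10 4 1).ok 0 1 0 0 (UE1 (1, 1) D22) ⟨0, 1, 2, 1, 2, 2, 0, 1, 2, 0, 1, 1⟩ = true ∧
      (Tree.leaf 101 14 10 4 1).ok 0 1 0 0 (UE1 (1, 1) D22) ⟨1, 2, 2, 1, 2, 2, 0, 1, 2, 0, 1, 1⟩ = true ∧
      (Tree.leaf 94 14 10 4 1).ok 0 1 0 0 (UE1 (1, 1) D22) ⟨0, 1, 1, 2, 3, 4, 1, 2, 2, 0, 1, 1⟩ = true ∧
      (Tree.leaf 97 14 10 4 1).ok 0 1 0 0 (UE1 (1, 1) D22) ⟨0, 1, 1, 3, 4, 4, 1, 2, 2, 0, 1, 1⟩ = true) ∧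
    ((Tree.leaf 92 14 10 4 1).ok 0 1 0 0 (UE0 (1, 0) D23) ⟨0, 1, 4, 0, 1, 2, 0, 1, 1, 0, 1, 1⟩ = true ∧
      (Tree.leaf 94 14 10 4 1).ok 0 1 0 0 (UE0 (1, 0) D23) ⟨1, 2, 4, 0, 1, 2, 0, 1, 1, 0, 1, 1⟩ = true ∧
      (Tree.leaf 86 14 10 4 1).ok 0 1 0 0 (UE0 (1, 0) D23) ⟨1, 2, 2, 0, 1, 2, 0, 1, 1, 0, 1, 1⟩ = true ∧
      (Tree.leaf 94 14 10 4 1).ok 0 1 0 0 (UE0 (1, 0) D23) ⟨0, 1, 4, 1, 2, 2, 0, 1, 1, 0, 1, 1⟩ = true ∧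
      (Tree.leaf 98 14 10 4 1).ok 0 1 0 0 (UE0 (1, 0) D23) ⟨1, 2, 4, 1, 2, 2, 0, 1, 1, 0, 1, 1⟩ = true ∧
      (Tree.leaf 91 14 10 4 1).ok 0 1 0 0 (UE0 (1, 0) D23) ⟨1, 2, 2, 1, 2, 2, 0, 1, 1, 0, 1, 1⟩ = true) ∧
    ((Tree.leaf 80 14 10 4 1).ok 0 1 0 0 (UE1 (1, 1) D23) ⟨0, 1, 1, 0, 1, 2, 0, 1, 1, 0, 1, 1⟩ = true ∧
      (Tree.leaf 94 14 10 4 1).ok 0 1 0 0 (UE1 (1, 1) D23) ⟨0, 1, 1, 2, 3, 4, 0, 1, 2, 0, 1, 1⟩ = true ∧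
      (Tree.leaf 94 14 10 4 1).ok 0 1 0 0 (UE1 (1, 1) D23) ⟨0, 1, 1, 2, 3, 4, 1, 2, 2, 0, 1, 1⟩ = true ∧
      (Tree.leaf 104 14 10 4 1).ok 0 1 0 0 (UE1 (1, 1) D23) ⟨0, 1, 2, 3, 4, 4, 0, 1, 1, 0, 1, 1⟩ = true ∧
      (Tree.leaf 108 14 10 4 1).ok 0 1 0 0 (UE1 (1, 1) D23) ⟨1, 2, 2, 3, 4, 4, 0, 1, 1, 0, 1, 1⟩ = true) ∧
    ((Tree.leaf 123 14 14 6 6).ok 0 1 0 0 (GM 2 0 (D 2) (1, 3) (-1, 7) (0, 0) (1, 4) (.q 144 624) p20 k00 k10) ⟨0, 1, 1, 0, 1, 2, 0, 1, 1, 0, 1, 1⟩ = true ∧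
      (Tree.leaf 130 14 14 6 6).ok 0 1 0 0 (GM 2 0 (D 2) (1, 3) (-1, 7) (0, 0) (1, 4) (.q 144 624) p20 k00 k10) ⟨0, 1, 1, 1, 2, 2, 0, 1, 1, 0, 1, 2⟩ = true ∧
      (Tree.leaf 131 14 14 6 6).ok 0 1 0 0 (GM 2 0 (D 2) (1, 3) (-1, 7) (0, 0) (1, 4) (.q 144 624) p20 k00 k10) ⟨0, 1, 1, 1, 2, 2, 0, 1, 1, 1, 2, 2⟩ = true) ∧
    ((Tree.leaf 114 14 14 6 6).ok 0 1 0 0 (GM 2 0 (D 2) (1, 3) (-1, 7) (0, 0) (1, 4) (tau1 (1, 3)) p20 k00 k10) ⟨0, 1, 1, 0, 1, 2, 0, 1, 1, 0, 1, 1⟩ = true ∧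
      (Tree.leaf 121 14 14 6 6).ok 0 1 0 0 (GM 2 0 (D 2) (1, 3) (-1, 7) (0, 0) (1, 4) (tau1 (1, 3)) p20 k00 k10) ⟨0, 1, 1, 1, 2, 2, 0, 1, 1, 0, 1, 2⟩ = true ∧
      (Tree.leaf 122 14 14 6 6).ok 0 1 0 0 (GM 2 0 (D 2) (1, 3) (-1, 7) (0, 0) (1, 4) (tau1 (1, 3)) p20 k00 k10) ⟨0, 1, 1, 1, 2, 2, 0, 1, 1, 1, 2, 2⟩ = true) ∧
    ((Tree.leaf 135 14 14 6 6).ok 0 1 0 0 (GM 2 1 (D 2) (1, 3) (-1, 7) (0, 0) (1, 4) (.q 144 624) p21 k01 k11) ⟨0, 1, 2, 0, 1, 2, 0, 1, 1, 0, 1, 1⟩ = true ∧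
      (Tree.leaf 135 14 14 6 6).ok 0 1 0 0 (GM 2 1 (D 2) (1, 3) (-1, 7) (0, 0) (1, 4) (.q 144 624) p21 k01 k11) ⟨0, 1, 2, 1, 2, 2, 0, 1, 1, 0, 1, 1⟩ = true ∧
      (Tree.leaf 137 14 14 6 6).ok 0 1 0 0 (GM 2 1 (D 2) (1, 3) (-1, 7) (0, 0) (1, 4) (.q 144 624) p21 k01 k11) ⟨1, 2, 2, 0, 1, 2, 0, 1, 1, 0, 1, 1⟩ = true ∧
      (Tree.leaf 143 14 14 6 6).ok 0 1 0 0 (GM 2 1 (D 2) (1, 3) (-1, 7) (0, 0) (1, 4) (.q 144 624) p21 k01 k11) ⟨1, 2, 2, 1, 2, 2, 0, 1, 1, 0, 1, 1⟩ = true) ∧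
    ((Tree.leaf 125 14 14 6 6).ok 0 1 0 0 (GM 2 1 (D 2) (1, 3) (-1, 7) (0, 0) (1, 4) (tau1 (1, 3)) p21 k01 k11) ⟨0, 1, 2, 0, 1, 2, 0, 1, 1, 0, 1, 1⟩ = true ∧
      (Tree.leaf 126 14 14 6 6).ok 0 1 0 0 (GM 2 1 (D 2) (1, 3) (-1, 7) (0, 0) (1, 4) (tau1 (1, 3)) p21 k01 k11) ⟨0, 1, 2, 1, 2, 2, 0, 1, 1, 0, 1, 1⟩ = true ∧
      (Tree.leaf 128 14 14 6 6).ok 0 1 0 0 (GM 2 1 (D 2) (1, 3) (-1, 7) (0, 0) (1, 4) (tau1 (1, 3)) p21 k01 k11) ⟨1, 2, 2, 0, 1, 2, 0, 1, 1, 0, 1, 1⟩ = true ∧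
      (Tree.leaf 133 14 14 6 6).ok 0 1 0 0 (GM 2 1 (D 2) (1, 3) (-1, 7) (0, 0) (1, 4) (tau1 (1, 3)) p21 k01 k11) ⟨1, 2, 2, 1, 2, 2, 0, 1, 1, 0, 1, 1⟩ = true) ∧
    ((Tree.leaf 135 14 14 6 6).ok 0 1 0 0 (GM 2 2 (D 2) (1, 3) (-1, 7) (0, 0) (1, 4) (.q 144 624) p22 k02 k12) ⟨0, 1, 2, 0, 1, 2, 0, 1, 1, 0, 1, 1⟩ = true ∧
      (Tree.leaf 135 14 14 6 6).ok 0 1 0 0 (GM 2 2 (D 2) (1, 3) (-1, 7) (0, 0) (1, 4) (.q 144 624) p22 k02 k12) ⟨0, 1, 2, 1, 2, 2, 0, 1, 1, 0, 1, 1⟩ = true ∧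
      (Tree.leaf 131 14 14 6 6).ok 0 1 0 0 (GM 2 2 (D 2) (1, 3) (-1, 7) (0, 0) (1, 4) (.q 144 624) p22 k02 k12) ⟨1, 2, 2, 0, 1, 1, 0, 1, 2, 0, 1, 1⟩ = true ∧
      (Tree.leaf 132 14 14 6 6).ok 0 1 0 0 (GM 2 2 (D 2) (1, 3) (-1, 7) (0, 0) (1, 4) (.q 144 624) p22 k02 k12) ⟨1, 2, 2, 0, 1, 1, 1, 2, 2, 0, 1, 1⟩ = true) ∧
    ((Tree.leaf 125 14 14 6 6).ok 0 1 0 0 (GM 2 2 (D 2) (1, 3) (-1, 7) (0, 0) (1, 4) (tau1 (1, 3)) p22 k02 k12) ⟨0, 1, 4, 0, 1, 1, 0, 1, 1, 0, 1, 1⟩ = true ∧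
      (Tree.leaf 126 14 14 6 6).ok 0 1 0 0 (GM 2 2 (D 2) (1, 3) (-1, 7) (0, 0) (1, 4) (tau1 (1, 3)) p22 k02 k12) ⟨1, 2, 4, 0, 1, 1, 0, 1, 1, 0, 1, 1⟩ = true ∧
      (Tree.leaf 121 14 14 6 6).ok 0 1 0 0 (GM 2 2 (D 2) (1, 3) (-1, 7) (0, 0) (1, 4) (tau1 (1, 3)) p22 k02 k12) ⟨1, 2, 2, 0, 1, 1, 0, 1, 2, 0, 1, 1⟩ = true ∧
      (Tree.leaf 123 14 14 6 6).ok 0 1 0 0 (GM 2 2 (D 2) (1, 3) (-1, 7) (0, 0) (1, 4) (tau1 (1, 3)) p22 k02 k12) ⟨1, 2, 2, 0, 1, 1, 1, 2, 2, 0, 1, 1⟩ = true) ∧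
    ((Tree.leaf 135 14 14 6 6).ok 0 1 0 0 (GM 2 3 (D 2) (1, 3) (-1, 7) (0, 0) (1, 4) (.q 144 624) p23 k03 k13) ⟨0, 1, 2, 0, 1, 2, 0, 1, 1, 0, 1, 1⟩ = true ∧
      (Tree.leaf 135 14 14 6 6).ok 0 1 0 0 (GM 2 3 (D 2) (1, 3) (-1, 7) (0, 0) (1, 4) (.q 144 624) p23 k03 k13) ⟨0, 1, 2, 1, 2, 2, 0, 1, 1, 0, 1, 1⟩ = true ∧
      (Tree.leaf 137 14 14 6 6).ok 0 1 0 0 (GM 2 3 (D 2) (1, 3) (-1, 7) (0, 0) (1, 4) (.q 144 624) p23 k03 k13) ⟨1, 2, 2, 0, 1, 2, 0, 1, 1, 0, 1, 1⟩ = true ∧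
      (Tree.leaf 142 14 14 6 6).ok 0 1 0 0 (GM 2 3 (D 2) (1, 3) (-1, 7) (0, 0) (1, 4) (.q 144 624) p23 k03 k13) ⟨1, 2, 2, 1, 2, 2, 0, 1, 1, 0, 1, 1⟩ = true) ∧
    ((Tree.leaf 126 14 14 6 6).ok 0 1 0 0 (GM 2 3 (D 2) (1, 3) (-1, 7) (0, 0) (1, 4) (tau1 (1, 3)) p23 k03 k13) ⟨0, 1, 2, 0, 1, 2, 0, 1, 1, 0, 1, 1⟩ = true ∧
      (Tree.leaf 126 14 14 6 6).ok 0 1 0 0 (GM 2 3 (D 2) (1, 3) (-1, 7) (0, 0) (1, 4) (tau1 (1, 3)) p23 k03 k13) ⟨0, 1, 2, 1, 2, 2, 0, 1, 1, 0, 1, 1⟩ = true ∧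
      (Tree.leaf 128 14 14 6 6).ok 0 1 0 0 (GM 2 3 (D 2) (1, 3) (-1, 7) (0, 0) (1, 4) (tau1 (1, 3)) p23 k03 k13) ⟨1, 2, 2, 0, 1, 2, 0, 1, 1, 0, 1, 1⟩ = true ∧
      (Tree.leaf 132 14 14 6 6).ok 0 1 0 0 (GM 2 3 (D 2) (1, 3) (-1, 7) (0, 0) (1, 4) (tau1 (1, 3)) p23 k03 k13) ⟨1, 2, 2, 1, 2, 2, 0, 1, 1, 0, 1, 1⟩ = true) :=
  ⟨⟨by decide +kernel, by decide +kernel, by decide +kernel, by decide +kernel⟩,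
   by decide +kernel,
   ⟨by decide +kernel, by decide +kernel, by decide +kernel, by decide +kernel⟩,
   ⟨by decide +kernel, by decide +kernel, by decide +kernel, by decide +kernel⟩,
   ⟨by decide +kernel, by decide +kernel, by decide +kernel⟩,
   ⟨by decide +kernel, by decide +kernel, by decide +kernel, by decide +kernel⟩,
   ⟨by decide +kernel, by decide +kernel, by decide +kernel, by decide +kernel⟩,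
   ⟨by decide +kernel, by decide +kernel, by decide +kernel, by decide +kernel, by decide +kernel, by decide +kernel, by decide +kernel⟩,
   ⟨by decide +kernel, by decide +kernel, by decide +kernel, by decide +kernel⟩,
   ⟨by decide +kernel, by decide +kernel, by decide +kernel, by decide +kernel, by decide +kernel, by decide +kernel⟩,
   ⟨by decide +kernel, by decide +kernel, by decide +kernel, by decide +kernel⟩,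
   ⟨by decide +kernel, by decide +kernel, by decide +kernel, by decide +kernel⟩,
   ⟨by decide +kernel, by decide +kernel, by decide +kernel, by decide +kernel⟩,
   ⟨by decide +kernel, by decide +kernel, by decide +kernel, by decide +kernel⟩,
   ⟨by decide +kernel, by decide +kernel, by decide +kernel, by decide +kernel⟩,
   ⟨by decide +kernel, by decide +kernel, by decide +kernel, by decide +kernel⟩,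
   ⟨by decide +kernel, by decide +kernel, by decide +kernel, by decide +kernel⟩,
   ⟨by decide +kernel, by decide +kernel, by decide +kernel, by decide +kernel⟩,
   ⟨by decide +kernel, by decide +kernel, by decide +kernel, by decide +kernel⟩,
   by decide +kernel,
   ⟨by decide +kernel, by decide +kernel, by decide +kernel, by decide +kernel, by decide +kernel⟩,
   ⟨by decide +kernel, by decide +kernel, by decide +kernel, by decide +kernel, by decide +kernel, by decide +kernel⟩,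
   ⟨by decide +kernel, by decide +kernel, by decide +kernel, by decide +kernel, by decide +kernel⟩,
   ⟨by decide +kernel, by decide +kernel, by decide +kernel, by decide +kernel, by decide +kernel⟩,
   ⟨by decide +kernel, by decide +kernel, by decide +kernel, by decide +kernel, by decide +kernel⟩,
   ⟨by decide +kernel, by decide +kernel, by decide +kernel, by decide +kernel, by decide +kernel, by decide +kernel⟩,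
   ⟨by decide +kernel, by decide +kernel, by decide +kernel, by decide +kernel, by decide +kernel⟩,
   ⟨by decide +kernel, by decide +kernel, by decide +kernel, by decide +kernel, by decide +kernel, by decide +kernel⟩,
   ⟨by decide +kernel, by decide +kernel, by decide +kernel, by decide +kernel⟩,
   ⟨by decide +kernel, by decide +kernel, by decide +kernel, by decide +kernel⟩,
   ⟨by decide +kernel, by decide +kernel, by decide +kernel, by decide +kernel⟩,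
   ⟨by decide +kernel, by decide +kernel, by decide +kernel, by decide +kernel⟩,
   ⟨by decide +kernel, by decide +kernel, by decide +kernel⟩,
   ⟨by decide +kernel, by decide +kernel, by decide +kernel⟩,
   ⟨by decide +kernel, by decide +kernel, by decide +kernel, by decide +kernel⟩,
   ⟨by decide +kernel, by decide +kernel, by decide +kernel, by decide +kernel⟩,
   ⟨by decide +kernel, by decide +kernel⟩,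
   by decide +kernel,
   ⟨by decide +kernel, by decide +kernel, by decide +kernel, by decide +kernel⟩,
   ⟨by decide +kernel, by decide +kernel, by decide +kernel, by decide +kernel, by decide +kernel⟩,
   ⟨by decide +kernel, by decide +kernel, by decide +kernel, by decide +kernel⟩,
   ⟨by decide +kernel, by decide +kernel, by decide +kernel, by decide +kernel⟩,
   ⟨by decide +kernel, by decide +kernel, by decide +kernel, by decide +kernel, by decide +kernel⟩,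
   ⟨by decide +kernel, by decide +kernel, by decide +kernel, by decide +kernel, by decide +kernel, by decide +kernel⟩,
   ⟨by decide +kernel, by decide +kernel, by decide +kernel, by decide +kernel, by decide +kernel, by decide +kernel⟩,
   ⟨by decide +kernel, by decide +kernel, by decide +kernel, by decide +kernel, by decide +kernel⟩,
   ⟨by decide +kernel, by decide +kernel, by decide +kernel⟩,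
   ⟨by decide +kernel, by decide +kernel, by decide +kernel⟩,
   ⟨by decide +kernel, by decide +kernel, by decide +kernel, by decide +kernel⟩,
   ⟨by decide +kernel, by decide +kernel, by decide +kernel, by decide +kernel⟩,
   ⟨by decide +kernel, by decide +kernel, by decide +kernel, by decide +kernel⟩,
   ⟨by decide +kernel, by decide +kernel, by decide +kernel, by decide +kernel⟩,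
   ⟨by decide +kernel, by decide +kernel, by decide +kernel, by decide +kernel⟩,
   ⟨by decide +kernel, by decide +kernel, by decide +kernel, by decide +kernel⟩⟩

def t_s0 : Tree := (.s2 (.s1 (.leaf 118 9 16 6 1) (.leaf 122 9 16 6 1)) (.s2 (.leaf 110 9 16 6 1) (.leaf 110 9 16 6 1)))
theorem s0 : t_s0.ok 0 1 0 0 (SEG D03 (0, 0) (sP (24, 24) (1, 24)) p00 p01 p02 p03) unitBx = true :=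
  (Tree.ok_s2 (Tree.ok_s1 lv.1.1 lv.1.2.1) (Tree.ok_s2 lv.1.2.2.1 lv.1.2.2.2))

def t_r0 : Tree := (.leaf 54 16 1 6 1)
theorem r0 : t_r0.ok 0 1 0 0 (RE D03 (0, 0)) unitBx = true :=
  lv.2.1

def t_u00 : Tree := (.s0 (.s1 (.leaf 107 17 16 6 1) (.s0 (.leaf 127 17 16 6 1) (.leaf 132 17 16 6 1))) (.leaf 102 17 16 6 1))
theorem u00 : t_u00.ok 0 1 0 0 (UE0 (1, 0) D00) unitBx = true :=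
  (Tree.ok_s0 (Tree.ok_s1 lv.2.2.1.1 (Tree.ok_s0 lv.2.2.1.2.1 lv.2.2.1.2.2.1)) lv.2.2.1.2.2.2)

def t_v00 : Tree := (.s1 (.leaf 107 17 16 6 1) (.s1 (.leaf 126 17 16 6 1) (.s0 (.leaf 144 17 16 6 1) (.leaf 148 17 16 6 1))))
theorem v00 : t_v00.ok 0 1 0 0 (UE1 (1, 1) D00) unitBx = true :=
  (Tree.ok_s1 lv.2.2.2.1.1 (Tree.ok_s1 lv.2.2.2.1.2.1 (Tree.ok_s0 lv.2.2.2.1.2.2.1 lv.2.2.2.1.2.2.2)))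

def t_u01 : Tree := (.s0 (.s0 (.leaf 108 17 16 6 1) (.leaf 113 17 16 6 1)) (.leaf 102 17 16 6 1))
theorem u01 : t_u01.ok 0 1 0 0 (UE0 (1, 0) D01) unitBx = true :=
  (Tree.ok_s0 (Tree.ok_s0 lv.2.2.2.2.1.1 lv.2.2.2.2.1.2.1) lv.2.2.2.2.1.2.2)

def t_v01 : Tree := (.s1 (.leaf 107 17 16 6 1) (.s1 (.leaf 126 17 16 6 1) (.s0 (.leaf 143 17 16 6 1) (.leaf 149 17 16 6 1))))
theorem v01 : t_v01.ok 0 1 0 0 (UE1 (1, 1) D01) unitBx = true :=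
  (Tree.ok_s1 lv.2.2.2.2.2.1.1 (Tree.ok_s1 lv.2.2.2.2.2.1.2.1 (Tree.ok_s0 lv.2.2.2.2.2.1.2.2.1 lv.2.2.2.2.2.1.2.2.2)))

def t_u02 : Tree := (.s0 (.s1 (.s0 (.leaf 121 17 16 6 1) (.leaf 125 17 16 6 1)) (.leaf 114 17 16 6 1)) (.leaf 103 17 16 6 1))
theorem u02 : t_u02.ok 0 1 0 0 (UE0 (1, 0) D02) unitBx = true :=
  (Tree.ok_s0 (Tree.ok_s1 (Tree.ok_s0 lv.2.2.2.2.2.2.1.1 lv.2.2.2.2.2.2.1.2.1) lv.2.2.2.2.2.2.1.2.2.1) lv.2.2.2.2.2.2.1.2.2.2)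

def t_v02 : Tree := (.s1 (.s0 (.s1 (.leaf 136 17 16 6 1) (.leaf 137 17 16 6 1)) (.leaf 125 17 16 6 1)) (.s1 (.s0 (.leaf 141 17 16 6 1) (.leaf 145 17 16 6 1)) (.s1 (.leaf 145 17 16 6 1) (.leaf 147 17 16 6 1))))
theorem v02 : t_v02.ok 0 1 0 0 (UE1 (1, 1) D02) unitBx = true :=
  (Tree.ok_s1 (Tree.ok_s0 (Tree.ok_s1 lv.2.2.2.2.2.2.2.1.1 lv.2.2.2.2.2.2.2.1.2.1) lv.2.2.2.2.2.2.2.1.2.2.1) (Tree.ok_s1 (Tree.ok_s0 lv.2.2.2.2.2.2.2.1.2.2.2.1 lv.2.2.2.2.2.2.2.1.2.2.2.2.1) (Tree.ok_s1 lv.2.2.2.2.2.2.2.1.2.2.2.2.2.1 lv.2.2.2.2.2.2.2.1.2.2.2.2.2.2)))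

def t_u03 : Tree := (.s0 (.s0 (.s1 (.leaf 120 17 16 6 1) (.leaf 123 17 16 6 1)) (.leaf 110 17 16 6 1)) (.leaf 99 17 16 6 1))
theorem u03 : t_u03.ok 0 1 0 0 (UE0 (1, 0) D03) unitBx = true :=
  (Tree.ok_s0 (Tree.ok_s0 (Tree.ok_s1 lv.2.2.2.2.2.2.2.2.1.1 lv.2.2.2.2.2.2.2.2.1.2.1) lv.2.2.2.2.2.2.2.2.1.2.2.1) lv.2.2.2.2.2.2.2.2.1.2.2.2)

def t_v03 : Tree := (.s2 (.s1 (.leaf 110 17 16 6 1) (.leaf 114 17 16 6 1)) (.s2 (.s1 (.leaf 115 17 16 6 1) (.leaf 120 17 16 6 1)) (.s1 (.leaf 115 17 16 6 1) (.leaf 120 17 16 6 1))))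
theorem v03 : t_v03.ok 0 1 0 0 (UE1 (1, 1) D03) unitBx = true :=
  (Tree.ok_s2 (Tree.ok_s1 lv.2.2.2.2.2.2.2.2.2.1.1 lv.2.2.2.2.2.2.2.2.2.1.2.1) (Tree.ok_s2 (Tree.ok_s1 lv.2.2.2.2.2.2.2.2.2.1.2.2.1 lv.2.2.2.2.2.2.2.2.2.1.2.2.2.1) (Tree.ok_s1 lv.2.2.2.2.2.2.2.2.2.1.2.2.2.2.1 lv.2.2.2.2.2.2.2.2.2.1.2.2.2.2.2)))

def t_h000 : Tree := (.s0 (.s1 (.leaf 147 16 16 6 6) (.leaf 148 16 16 6 6)) (.s2 (.leaf 142 16 16 6 6) (.leaf 143 16 16 6 6)))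
theorem h000 : t_h000.ok 0 1 0 0 (GM 0 0 (D 0) (1, 3) (-1, 7) (0, 0) (1, 4) (.q 144 624) p00 k00 k10) unitBx = true :=
  (Tree.ok_s0 (Tree.ok_s1 lv.2.2.2.2.2.2.2.2.2.2.1.1 lv.2.2.2.2.2.2.2.2.2.2.1.2.1) (Tree.ok_s2 lv.2.2.2.2.2.2.2.2.2.2.1.2.2.1 lv.2.2.2.2.2.2.2.2.2.2.1.2.2.2))

def t_h001 : Tree := (.s0 (.s1 (.leaf 137 16 16 6 6) (.leaf 138 16 16 6 6)) (.s2 (.leaf 133 16 16 6 6) (.leaf 134 16 16 6 6)))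
theorem h001 : t_h001.ok 0 1 0 0 (GM 0 0 (D 0) (1, 3) (-1, 7) (0, 0) (1, 4) (tau1 (1, 3)) p00 k00 k10) unitBx = true :=
  (Tree.ok_s0 (Tree.ok_s1 lv.2.2.2.2.2.2.2.2.2.2.2.1.1 lv.2.2.2.2.2.2.2.2.2.2.2.1.2.1) (Tree.ok_s2 lv.2.2.2.2.2.2.2.2.2.2.2.1.2.2.1 lv.2.2.2.2.2.2.2.2.2.2.2.1.2.2.2))

def t_h010 : Tree := (.s0 (.s3 (.leaf 137 16 16 6 6) (.leaf 137 16 16 6 6)) (.s0 (.leaf 151 16 16 6 6) (.leaf 154 16 16 6 6)))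
theorem h010 : t_h010.ok 0 1 0 0 (GM 0 1 (D 0) (1, 3) (-1, 7) (0, 0) (1, 4) (.q 144 624) p01 k01 k11) unitBx = true :=
  (Tree.ok_s0 (Tree.ok_s3 lv.2.2.2.2.2.2.2.2.2.2.2.2.1.1 lv.2.2.2.2.2.2.2.2.2.2.2.2.1.2.1) (Tree.ok_s0 lv.2.2.2.2.2.2.2.2.2.2.2.2.1.2.2.1 lv.2.2.2.2.2.2.2.2.2.2.2.2.1.2.2.2))

def t_h011 : Tree := (.s0 (.s3 (.leaf 127 16 16 6 6) (.leaf 128 16 16 6 6)) (.s0 (.leaf 141 16 16 6 6) (.leaf 145 16 16 6 6)))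
theorem h011 : t_h011.ok 0 1 0 0 (GM 0 1 (D 0) (1, 3) (-1, 7) (0, 0) (1, 4) (tau1 (1, 3)) p01 k01 k11) unitBx = true :=
  (Tree.ok_s0 (Tree.ok_s3 lv.2.2.2.2.2.2.2.2.2.2.2.2.2.1.1 lv.2.2.2.2.2.2.2.2.2.2.2.2.2.1.2.1) (Tree.ok_s0 lv.2.2.2.2.2.2.2.2.2.2.2.2.2.1.2.2.1 lv.2.2.2.2.2.2.2.2.2.2.2.2.2.1.2.2.2))

def t_h020 : Tree := (.s0 (.s1 (.leaf 147 16 16 6 6) (.leaf 148 16 16 6 6)) (.s0 (.leaf 151 16 16 6 6) (.leaf 155 16 16 6 6)))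
theorem h020 : t_h020.ok 0 1 0 0 (GM 0 2 (D 0) (1, 3) (-1, 7) (0, 0) (1, 4) (.q 144 624) p02 k02 k12) unitBx = true :=
  (Tree.ok_s0 (Tree.ok_s1 lv.2.2.2.2.2.2.2.2.2.2.2.2.2.2.1.1 lv.2.2.2.2.2.2.2.2.2.2.2.2.2.2.1.2.1) (Tree.ok_s0 lv.2.2.2.2.2.2.2.2.2.2.2.2.2.2.1.2.2.1 lv.2.2.2.2.2.2.2.2.2.2.2.2.2.2.1.2.2.2))

def t_h021 : Tree := (.s0 (.s1 (.leaf 137 16 16 6 6) (.leaf 139 16 16 6 6)) (.s0 (.leaf 142 16 16 6 6) (.leaf 145 16 16 6 6)))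
theorem h021 : t_h021.ok 0 1 0 0 (GM 0 2 (D 0) (1, 3) (-1, 7) (0, 0) (1, 4) (tau1 (1, 3)) p02 k02 k12) unitBx = true :=
  (Tree.ok_s0 (Tree.ok_s1 lv.2.2.2.2.2.2.2.2.2.2.2.2.2.2.2.1.1 lv.2.2.2.2.2.2.2.2.2.2.2.2.2.2.2.1.2.1) (Tree.ok_s0 lv.2.2.2.2.2.2.2.2.2.2.2.2.2.2.2.1.2.2.1 lv.2.2.2.2.2.2.2.2.2.2.2.2.2.2.2.1.2.2.2))

def t_h030 : Tree := (.s3 (.s1 (.leaf 138 16 16 6 6) (.leaf 139 16 16 6 6)) (.s0 (.leaf 136 16 16 6 6) (.leaf 141 16 16 6 6)))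
theorem h030 : t_h030.ok 0 1 0 0 (GM 0 3 (D 0) (1, 3) (-1, 7) (0, 0) (1, 4) (.q 144 624) p03 k03 k13) unitBx = true :=
  (Tree.ok_s3 (Tree.ok_s1 lv.2.2.2.2.2.2.2.2.2.2.2.2.2.2.2.2.1.1 lv.2.2.2.2.2.2.2.2.2.2.2.2.2.2.2.2.1.2.1) (Tree.ok_s0 lv.2.2.2.2.2.2.2.2.2.2.2.2.2.2.2.2.1.2.2.1 lv.2.2.2.2.2.2.2.2.2.2.2.2.2.2.2.2.1.2.2.2))

def t_h031 : Tree := (.s3 (.s1 (.leaf 128 16 16 6 6) (.leaf 130 16 16 6 6)) (.s0 (.leaf 127 16 16 6 6) (.leaf 132 16 16 6 6)))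
theorem h031 : t_h031.ok 0 1 0 0 (GM 0 3 (D 0) (1, 3) (-1, 7) (0, 0) (1, 4) (tau1 (1, 3)) p03 k03 k13) unitBx = true :=
  (Tree.ok_s3 (Tree.ok_s1 lv.2.2.2.2.2.2.2.2.2.2.2.2.2.2.2.2.2.1.1 lv.2.2.2.2.2.2.2.2.2.2.2.2.2.2.2.2.2.1.2.1) (Tree.ok_s0 lv.2.2.2.2.2.2.2.2.2.2.2.2.2.2.2.2.2.1.2.2.1 lv.2.2.2.2.2.2.2.2.2.2.2.2.2.2.2.2.2.1.2.2.2))

def t_s1 : Tree := (.s2 (.s1 (.leaf 107 9 13 5 1) (.leaf 111 9 13 5 1)) (.s2 (.leaf 101 9 13 5 1) (.leaf 102 9 13 5 1)))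
theorem s1 : t_s1.ok 0 1 0 0 (SEG D13 (0, 0) (sP (24, 24) (1, 24)) p10 p11 p12 p13) unitBx = true :=
  (Tree.ok_s2 (Tree.ok_s1 lv.2.2.2.2.2.2.2.2.2.2.2.2.2.2.2.2.2.2.1.1 lv.2.2.2.2.2.2.2.2.2.2.2.2.2.2.2.2.2.2.1.2.1) (Tree.ok_s2 lv.2.2.2.2.2.2.2.2.2.2.2.2.2.2.2.2.2.2.1.2.2.1 lv.2.2.2.2.2.2.2.2.2.2.2.2.2.2.2.2.2.2.1.2.2.2))

def t_r1 : Tree := (.leaf 48 13 1 5 1)
theorem r1 : t_r1.ok 0 1 0 0 (RE D13 (0, 0)) unitBx = true :=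
  lv.2.2.2.2.2.2.2.2.2.2.2.2.2.2.2.2.2.2.2.1

def t_u10 : Tree := (.s0 (.s1 (.s0 (.leaf 101 14 13 5 1) (.leaf 105 14 13 5 1)) (.s0 (.leaf 106 14 13 5 1) (.leaf 110 14 13 5 1))) (.leaf 87 14 13 5 1))
theorem u10 : t_u10.ok 0 1 0 0 (UE0 (1, 0) D10) unitBx = true :=
  (Tree.ok_s0 (Tree.ok_s1 (Tree.ok_s0 lv.2.2.2.2.2.2.2.2.2.2.2.2.2.2.2.2.2.2.2.2.1.1 lv.2.2.2.2.2.2.2.2.2.2.2.2.2.2.2.2.2.2.2.2.1.2.1) (Tree.ok_s0 lv.2.2.2.2.2.2.2.2.2.2.2.2.2.2.2.2.2.2.2.2.1.2.2.1 lv.2.2.2.2.2.2.2.2.2.2.2.2.2.2.2.2.2.2.2.2.1.2.2.2.1)) lv.2.2.2.2.2.2.2.2.2.2.2.2.2.2.2.2.2.2.2.2.1.2.2.2.2)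

def t_v10 : Tree := (.s1 (.s0 (.s0 (.leaf 114 14 13 5 1) (.leaf 115 14 13 5 1)) (.leaf 105 14 13 5 1)) (.s2 (.leaf 98 14 13 5 1) (.s0 (.leaf 110 14 13 5 1) (.leaf 115 14 13 5 1))))
theorem v10 : t_v10.ok 0 1 0 0 (UE1 (1, 1) D10) unitBx = true :=
  (Tree.ok_s1 (Tree.ok_s0 (Tree.ok_s0 lv.2.2.2.2.2.2.2.2.2.2.2.2.2.2.2.2.2.2.2.2.2.1.1 lv.2.2.2.2.2.2.2.2.2.2.2.2.2.2.2.2.2.2.2.2.2.1.2.1) lv.2.2.2.2.2.2.2.2.2.2.2.2.2.2.2.2.2.2.2.2.2.1.2.2.1) (Tree.ok_s2 lv.2.2.2.2.2.2.2.2.2.2.2.2.2.2.2.2.2.2.2.2.2.1.2.2.2.1 (Tree.ok_s0 lv.2.2.2.2.2.2.2.2.2.2.2.2.2.2.2.2.2.2.2.2.2.1.2.2.2.2.1 lv.2.2.2.2.2.2.2.2.2.2.2.2.2.2.2.2.2.2.2.2.2.1.2.2.2.2.2)))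

def t_u11 : Tree := (.s0 (.s1 (.s0 (.leaf 101 14 13 5 1) (.leaf 104 14 13 5 1)) (.s1 (.leaf 105 14 13 5 1) (.leaf 108 14 13 5 1))) (.leaf 87 14 13 5 1))
theorem u11 : t_u11.ok 0 1 0 0 (UE0 (1, 0) D11) unitBx = true :=
  (Tree.ok_s0 (Tree.ok_s1 (Tree.ok_s0 lv.2.2.2.2.2.2.2.2.2.2.2.2.2.2.2.2.2.2.2.2.2.2.1.1 lv.2.2.2.2.2.2.2.2.2.2.2.2.2.2.2.2.2.2.2.2.2.2.1.2.1) (Tree.ok_s1 lv.2.2.2.2.2.2.2.2.2.2.2.2.2.2.2.2.2.2.2.2.2.2.1.2.2.1 lv.2.2.2.2.2.2.2.2.2.2.2.2.2.2.2.2.2.2.2.2.2.2.1.2.2.2.1)) lv.2.2.2.2.2.2.2.2.2.2.2.2.2.2.2.2.2.2.2.2.2.2.1.2.2.2.2)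

def t_v11 : Tree := (.s1 (.leaf 89 14 13 5 1) (.s1 (.s0 (.leaf 116 14 13 5 1) (.leaf 120 14 13 5 1)) (.s2 (.leaf 111 14 13 5 1) (.leaf 112 14 13 5 1))))
theorem v11 : t_v11.ok 0 1 0 0 (UE1 (1, 1) D11) unitBx = true :=
  (Tree.ok_s1 lv.2.2.2.2.2.2.2.2.2.2.2.2.2.2.2.2.2.2.2.2.2.2.2.1.1 (Tree.ok_s1 (Tree.ok_s0 lv.2.2.2.2.2.2.2.2.2.2.2.2.2.2.2.2.2.2.2.2.2.2.2.1.2.1 lv.2.2.2.2.2.2.2.2.2.2.2.2.2.2.2.2.2.2.2.2.2.2.2.1.2.2.1) (Tree.ok_s2 lv.2.2.2.2.2.2.2.2.2.2.2.2.2.2.2.2.2.2.2.2.2.2.2.1.2.2.2.1 lv.2.2.2.2.2.2.2.2.2.2.2.2.2.2.2.2.2.2.2.2.2.2.2.1.2.2.2.2)))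

def t_u12 : Tree := (.s0 (.s1 (.s0 (.leaf 101 14 13 5 1) (.leaf 103 14 13 5 1)) (.s0 (.leaf 103 14 13 5 1) (.leaf 107 14 13 5 1))) (.leaf 85 14 13 5 1))
theorem u12 : t_u12.ok 0 1 0 0 (UE0 (1, 0) D12) unitBx = true :=
  (Tree.ok_s0 (Tree.ok_s1 (Tree.ok_s0 lv.2.2.2.2.2.2.2.2.2.2.2.2.2.2.2.2.2.2.2.2.2.2.2.2.1.1 lv.2.2.2.2.2.2.2.2.2.2.2.2.2.2.2.2.2.2.2.2.2.2.2.2.1.2.1) (Tree.ok_s0 lv.2.2.2.2.2.2.2.2.2.2.2.2.2.2.2.2.2.2.2.2.2.2.2.2.1.2.2.1 lv.2.2.2.2.2.2.2.2.2.2.2.2.2.2.2.2.2.2.2.2.2.2.2.2.1.2.2.2.1)) lv.2.2.2.2.2.2.2.2.2.2.2.2.2.2.2.2.2.2.2.2.2.2.2.2.1.2.2.2.2)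

def t_v12 : Tree := (.s1 (.s0 (.leaf 101 14 13 5 1) (.leaf 103 14 13 5 1)) (.s1 (.s2 (.leaf 107 14 13 5 1) (.leaf 108 14 13 5 1)) (.s1 (.leaf 117 14 13 5 1) (.leaf 118 14 13 5 1))))
theorem v12 : t_v12.ok 0 1 0 0 (UE1 (1, 1) D12) unitBx = true :=
  (Tree.ok_s1 (Tree.ok_s0 lv.2.2.2.2.2.2.2.2.2.2.2.2.2.2.2.2.2.2.2.2.2.2.2.2.2.1.1 lv.2.2.2.2.2.2.2.2.2.2.2.2.2.2.2.2.2.2.2.2.2.2.2.2.2.1.2.1) (Tree.ok_s1 (Tree.ok_s2 lv.2.2.2.2.2.2.2.2.2.2.2.2.2.2.2.2.2.2.2.2.2.2.2.2.2.1.2.2.1 lv.2.2.2.2.2.2.2.2.2.2.2.2.2.2.2.2.2.2.2.2.2.2.2.2.2.1.2.2.2.1) (Tree.ok_s1 lv.2.2.2.2.2.2.2.2.2.2.2.2.2.2.2.2.2.2.2.2.2.2.2.2.2.1.2.2.2.2.1 lv.2.2.2.2.2.2.2.2.2.2.2.2.2.2.2.2.2.2.2.2.2.2.2.2.2.1.2.2.2.2.2)))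

def t_u13 : Tree := (.s0 (.s1 (.s0 (.leaf 101 14 13 5 1) (.leaf 104 14 13 5 1)) (.s0 (.leaf 104 14 13 5 1) (.leaf 109 14 13 5 1))) (.leaf 87 14 13 5 1))
theorem u13 : t_u13.ok 0 1 0 0 (UE0 (1, 0) D13) unitBx = true :=
  (Tree.ok_s0 (Tree.ok_s1 (Tree.ok_s0 lv.2.2.2.2.2.2.2.2.2.2.2.2.2.2.2.2.2.2.2.2.2.2.2.2.2.2.1.1 lv.2.2.2.2.2.2.2.2.2.2.2.2.2.2.2.2.2.2.2.2.2.2.2.2.2.2.1.2.1) (Tree.ok_s0 lv.2.2.2.2.2.2.2.2.2.2.2.2.2.2.2.2.2.2.2.2.2.2.2.2.2.2.1.2.2.1 lv.2.2.2.2.2.2.2.2.2.2.2.2.2.2.2.2.2.2.2.2.2.2.2.2.2.2.1.2.2.2.1)) lv.2.2.2.2.2.2.2.2.2.2.2.2.2.2.2.2.2.2.2.2.2.2.2.2.2.2.1.2.2.2.2)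

def t_v13 : Tree := (.s1 (.s0 (.s0 (.leaf 114 14 13 5 1) (.leaf 115 14 13 5 1)) (.leaf 104 14 13 5 1)) (.s1 (.leaf 104 14 13 5 1) (.s1 (.leaf 118 14 13 5 1) (.leaf 119 14 13 5 1))))
theorem v13 : t_v13.ok 0 1 0 0 (UE1 (1, 1) D13) unitBx = true :=
  (Tree.ok_s1 (Tree.ok_s0 (Tree.ok_s0 lv.2.2.2.2.2.2.2.2.2.2.2.2.2.2.2.2.2.2.2.2.2.2.2.2.2.2.2.1.1 lv.2.2.2.2.2.2.2.2.2.2.2.2.2.2.2.2.2.2.2.2.2.2.2.2.2.2.2.1.2.1) lv.2.2.2.2.2.2.2.2.2.2.2.2.2.2.2.2.2.2.2.2.2.2.2.2.2.2.2.1.2.2.1) (Tree.ok_s1 lv.2.2.2.2.2.2.2.2.2.2.2.2.2.2.2.2.2.2.2.2.2.2.2.2.2.2.2.1.2.2.2.1 (Tree.ok_s1 lv.2.2.2.2.2.2.2.2.2.2.2.2.2.2.2.2.2.2.2.2.2.2.2.2.2.2.2.1.2.2.2.2.1 lv.2.2.2.2.2.2.2.2.2.2.2.2.2.2.2.2.2.2.2.2.2.2.2.2.2.2.2.1.2.2.2.2.2)))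

def t_h100 : Tree := (.s0 (.s1 (.leaf 134 14 14 6 6) (.leaf 135 14 14 6 6)) (.s2 (.leaf 131 14 14 6 6) (.leaf 133 14 14 6 6)))
theorem h100 : t_h100.ok 0 1 0 0 (GM 1 0 (D 1) (1, 3) (-1, 7) (0, 0) (1, 4) (.q 144 624) p10 k00 k10) unitBx = true :=
  (Tree.ok_s0 (Tree.ok_s1 lv.2.2.2.2.2.2.2.2.2.2.2.2.2.2.2.2.2.2.2.2.2.2.2.2.2.2.2.2.1.1 lv.2.2.2.2.2.2.2.2.2.2.2.2.2.2.2.2.2.2.2.2.2.2.2.2.2.2.2.2.1.2.1) (Tree.ok_s2 lv.2.2.2.2.2.2.2.2.2.2.2.2.2.2.2.2.2.2.2.2.2.2.2.2.2.2.2.2.1.2.2.1 lv.2.2.2.2.2.2.2.2.2.2.2.2.2.2.2.2.2.2.2.2.2.2.2.2.2.2.2.2.1.2.2.2))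

def t_h101 : Tree := (.s0 (.s1 (.leaf 125 14 14 6 6) (.leaf 126 14 14 6 6)) (.s2 (.leaf 122 14 14 6 6) (.leaf 123 14 14 6 6)))
theorem h101 : t_h101.ok 0 1 0 0 (GM 1 0 (D 1) (1, 3) (-1, 7) (0, 0) (1, 4) (tau1 (1, 3)) p10 k00 k10) unitBx = true :=
  (Tree.ok_s0 (Tree.ok_s1 lv.2.2.2.2.2.2.2.2.2.2.2.2.2.2.2.2.2.2.2.2.2.2.2.2.2.2.2.2.2.1.1 lv.2.2.2.2.2.2.2.2.2.2.2.2.2.2.2.2.2.2.2.2.2.2.2.2.2.2.2.2.2.1.2.1) (Tree.ok_s2 lv.2.2.2.2.2.2.2.2.2.2.2.2.2.2.2.2.2.2.2.2.2.2.2.2.2.2.2.2.2.1.2.2.1 lv.2.2.2.2.2.2.2.2.2.2.2.2.2.2.2.2.2.2.2.2.2.2.2.2.2.2.2.2.2.1.2.2.2))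

def t_h110 : Tree := (.s1 (.s0 (.leaf 134 14 14 6 6) (.leaf 137 14 14 6 6)) (.s3 (.leaf 130 14 14 6 6) (.leaf 130 14 14 6 6)))
theorem h110 : t_h110.ok 0 1 0 0 (GM 1 1 (D 1) (1, 3) (-1, 7) (0, 0) (1, 4) (.q 144 624) p11 k01 k11) unitBx = true :=
  (Tree.ok_s1 (Tree.ok_s0 lv.2.2.2.2.2.2.2.2.2.2.2.2.2.2.2.2.2.2.2.2.2.2.2.2.2.2.2.2.2.2.1.1 lv.2.2.2.2.2.2.2.2.2.2.2.2.2.2.2.2.2.2.2.2.2.2.2.2.2.2.2.2.2.2.1.2.1) (Tree.ok_s3 lv.2.2.2.2.2.2.2.2.2.2.2.2.2.2.2.2.2.2.2.2.2.2.2.2.2.2.2.2.2.2.1.2.2.1 lv.2.2.2.2.2.2.2.2.2.2.2.2.2.2.2.2.2.2.2.2.2.2.2.2.2.2.2.2.2.2.1.2.2.2))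

def t_h111 : Tree := (.s1 (.s0 (.leaf 125 14 14 6 6) (.leaf 128 14 14 6 6)) (.s3 (.leaf 120 14 14 6 6) (.leaf 121 14 14 6 6)))
theorem h111 : t_h111.ok 0 1 0 0 (GM 1 1 (D 1) (1, 3) (-1, 7) (0, 0) (1, 4) (tau1 (1, 3)) p11 k01 k11) unitBx = true :=
  (Tree.ok_s1 (Tree.ok_s0 lv.2.2.2.2.2.2.2.2.2.2.2.2.2.2.2.2.2.2.2.2.2.2.2.2.2.2.2.2.2.2.2.1.1 lv.2.2.2.2.2.2.2.2.2.2.2.2.2.2.2.2.2.2.2.2.2.2.2.2.2.2.2.2.2.2.2.1.2.1) (Tree.ok_s3 lv.2.2.2.2.2.2.2.2.2.2.2.2.2.2.2.2.2.2.2.2.2.2.2.2.2.2.2.2.2.2.2.1.2.2.1 lv.2.2.2.2.2.2.2.2.2.2.2.2.2.2.2.2.2.2.2.2.2.2.2.2.2.2.2.2.2.2.2.1.2.2.2))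

def t_h120 : Tree := (.s0 (.leaf 121 14 14 6 6) (.s2 (.leaf 130 14 14 6 6) (.leaf 131 14 14 6 6)))
theorem h120 : t_h120.ok 0 1 0 0 (GM 1 2 (D 1) (1, 3) (-1, 7) (0, 0) (1, 4) (.q 144 624) p12 k02 k12) unitBx = true :=
  (Tree.ok_s0 lv.2.2.2.2.2.2.2.2.2.2.2.2.2.2.2.2.2.2.2.2.2.2.2.2.2.2.2.2.2.2.2.2.1.1 (Tree.ok_s2 lv.2.2.2.2.2.2.2.2.2.2.2.2.2.2.2.2.2.2.2.2.2.2.2.2.2.2.2.2.2.2.2.2.1.2.1 lv.2.2.2.2.2.2.2.2.2.2.2.2.2.2.2.2.2.2.2.2.2.2.2.2.2.2.2.2.2.2.2.2.1.2.2))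

def t_h121 : Tree := (.s0 (.leaf 112 14 14 6 6) (.s2 (.leaf 120 14 14 6 6) (.leaf 121 14 14 6 6)))
theorem h121 : t_h121.ok 0 1 0 0 (GM 1 2 (D 1) (1, 3) (-1, 7) (0, 0) (1, 4) (tau1 (1, 3)) p12 k02 k12) unitBx = true :=
  (Tree.ok_s0 lv.2.2.2.2.2.2.2.2.2.2.2.2.2.2.2.2.2.2.2.2.2.2.2.2.2.2.2.2.2.2.2.2.2.1.1 (Tree.ok_s2 lv.2.2.2.2.2.2.2.2.2.2.2.2.2.2.2.2.2.2.2.2.2.2.2.2.2.2.2.2.2.2.2.2.2.1.2.1 lv.2.2.2.2.2.2.2.2.2.2.2.2.2.2.2.2.2.2.2.2.2.2.2.2.2.2.2.2.2.2.2.2.2.1.2.2))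

def t_h130 : Tree := (.s3 (.s0 (.leaf 127 14 14 6 6) (.leaf 131 14 14 6 6)) (.s1 (.leaf 127 14 14 6 6) (.leaf 131 14 14 6 6)))
theorem h130 : t_h130.ok 0 1 0 0 (GM 1 3 (D 1) (1, 3) (-1, 7) (0, 0) (1, 4) (.q 144 624) p13 k03 k13) unitBx = true :=
  (Tree.ok_s3 (Tree.ok_s0 lv.2.2.2.2.2.2.2.2.2.2.2.2.2.2.2.2.2.2.2.2.2.2.2.2.2.2.2.2.2.2.2.2.2.2.1.1 lv.2.2.2.2.2.2.2.2.2.2.2.2.2.2.2.2.2.2.2.2.2.2.2.2.2.2.2.2.2.2.2.2.2.2.1.2.1) (Tree.ok_s1 lv.2.2.2.2.2.2.2.2.2.2.2.2.2.2.2.2.2.2.2.2.2.2.2.2.2.2.2.2.2.2.2.2.2.2.1.2.2.1 lv.2.2.2.2.2.2.2.2.2.2.2.2.2.2.2.2.2.2.2.2.2.2.2.2.2.2.2.2.2.2.2.2.2.2.1.2.2.2))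

def t_h131 : Tree := (.s3 (.s0 (.leaf 117 14 14 6 6) (.leaf 122 14 14 6 6)) (.s1 (.leaf 118 14 14 6 6) (.leaf 122 14 14 6 6)))
theorem h131 : t_h131.ok 0 1 0 0 (GM 1 3 (D 1) (1, 3) (-1, 7) (0, 0) (1, 4) (tau1 (1, 3)) p13 k03 k13) unitBx = true :=
  (Tree.ok_s3 (Tree.ok_s0 lv.2.2.2.2.2.2.2.2.2.2.2.2.2.2.2.2.2.2.2.2.2.2.2.2.2.2.2.2.2.2.2.2.2.2.2.1.1 lv.2.2.2.2.2.2.2.2.2.2.2.2.2.2.2.2.2.2.2.2.2.2.2.2.2.2.2.2.2.2.2.2.2.2.2.1.2.1) (Tree.ok_s1 lv.2.2.2.2.2.2.2.2.2.2.2.2.2.2.2.2.2.2.2.2.2.2.2.2.2.2.2.2.2.2.2.2.2.2.2.1.2.2.1 lv.2.2.2.2.2.2.2.2.2.2.2.2.2.2.2.2.2.2.2.2.2.2.2.2.2.2.2.2.2.2.2.2.2.2.2.1.2.2.2))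

def t_s2 : Tree := (.s2 (.leaf 92 9 10 5 1) (.leaf 93 9 10 5 1))
theorem s2 : t_s2.ok 0 1 0 0 (SEG D23 (-13912, 8191) (sP (24, 24) (1, 24)) p20 p21 p22 p23) unitBx = true :=
  (Tree.ok_s2 lv.2.2.2.2.2.2.2.2.2.2.2.2.2.2.2.2.2.2.2.2.2.2.2.2.2.2.2.2.2.2.2.2.2.2.2.2.1.1 lv.2.2.2.2.2.2.2.2.2.2.2.2.2.2.2.2.2.2.2.2.2.2.2.2.2.2.2.2.2.2.2.2.2.2.2.2.1.2)

def t_r2 : Tree := (.leaf 41 10 1 4 1)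
theorem r2 : t_r2.ok 0 1 0 0 (RE D23 (-13912, 8191)) unitBx = true :=
  lv.2.2.2.2.2.2.2.2.2.2.2.2.2.2.2.2.2.2.2.2.2.2.2.2.2.2.2.2.2.2.2.2.2.2.2.2.2.1

def t_u20 : Tree := (.s0 (.s1 (.s0 (.leaf 92 14 10 4 1) (.leaf 95 14 10 4 1)) (.leaf 84 14 10 4 1)) (.leaf 80 14 10 4 1))
theorem u20 : t_u20.ok 0 1 0 0 (UE0 (1, 0) D20) unitBx = true :=
  (Tree.ok_s0 (Tree.ok_s1 (Tree.ok_s0 lv.2.2.2.2.2.2.2.2.2.2.2.2.2.2.2.2.2.2.2.2.2.2.2.2.2.2.2.2.2.2.2.2.2.2.2.2.2.2.1.1 lv.2.2.2.2.2.2.2.2.2.2.2.2.2.2.2.2.2.2.2.2.2.2.2.2.2.2.2.2.2.2.2.2.2.2.2.2.2.2.1.2.1) lv.2.2.2.2.2.2.2.2.2.2.2.2.2.2.2.2.2.2.2.2.2.2.2.2.2.2.2.2.2.2.2.2.2.2.2.2.2.2.1.2.2.1) lv.2.2.2.2.2.2.2.2.2.2.2.2.2.2.2.2.2.2.2.2.2.2.2.2.2.2.2.2.2.2.2.2.2.2.2.2.2.2.1.2.2.2)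

def t_v20 : Tree := (.s1 (.leaf 80 14 10 4 1) (.s2 (.s1 (.leaf 94 14 10 4 1) (.leaf 96 14 10 4 1)) (.s1 (.leaf 95 14 10 4 1) (.leaf 97 14 10 4 1))))
theorem v20 : t_v20.ok 0 1 0 0 (UE1 (1, 1) D20) unitBx = true :=
  (Tree.ok_s1 lv.2.2.2.2.2.2.2.2.2.2.2.2.2.2.2.2.2.2.2.2.2.2.2.2.2.2.2.2.2.2.2.2.2.2.2.2.2.2.2.1.1 (Tree.ok_s2 (Tree.ok_s1 lv.2.2.2.2.2.2.2.2.2.2.2.2.2.2.2.2.2.2.2.2.2.2.2.2.2.2.2.2.2.2.2.2.2.2.2.2.2.2.2.1.2.1 lv.2.2.2.2.2.2.2.2.2.2.2.2.2.2.2.2.2.2.2.2.2.2.2.2.2.2.2.2.2.2.2.2.2.2.2.2.2.2.2.1.2.2.1) (Tree.ok_s1 lv.2.2.2.2.2.2.2.2.2.2.2.2.2.2.2.2.2.2.2.2.2.2.2.2.2.2.2.2.2.2.2.2.2.2.2.2.2.2.2.1.2.2.2.1 lv.2.2.2.2.2.2.2.2.2.2.2.2.2.2.2.2.2.2.2.2.2.2.2.2.2.2.2.2.2.2.2.2.2.2.2.2.2.2.2.1.2.2.2.2)))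

def t_u21 : Tree := (.s0 (.s1 (.s0 (.leaf 92 14 10 4 1) (.leaf 94 14 10 4 1)) (.leaf 83 14 10 4 1)) (.leaf 80 14 10 4 1))
theorem u21 : t_u21.ok 0 1 0 0 (UE0 (1, 0) D21) unitBx = true :=
  (Tree.ok_s0 (Tree.ok_s1 (Tree.ok_s0 lv.2.2.2.2.2.2.2.2.2.2.2.2.2.2.2.2.2.2.2.2.2.2.2.2.2.2.2.2.2.2.2.2.2.2.2.2.2.2.2.2.1.1 lv.2.2.2.2.2.2.2.2.2.2.2.2.2.2.2.2.2.2.2.2.2.2.2.2.2.2.2.2.2.2.2.2.2.2.2.2.2.2.2.2.1.2.1) lv.2.2.2.2.2.2.2.2.2.2.2.2.2.2.2.2.2.2.2.2.2.2.2.2.2.2.2.2.2.2.2.2.2.2.2.2.2.2.2.2.1.2.2.1) lv.2.2.2.2.2.2.2.2.2.2.2.2.2.2.2.2.2.2.2.2.2.2.2.2.2.2.2.2.2.2.2.2.2.2.2.2.2.2.2.2.1.2.2.2)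

def t_v21 : Tree := (.s1 (.leaf 80 14 10 4 1) (.s1 (.s2 (.leaf 94 14 10 4 1) (.leaf 95 14 10 4 1)) (.leaf 93 14 10 4 1)))
theorem v21 : t_v21.ok 0 1 0 0 (UE1 (1, 1) D21) unitBx = true :=
  (Tree.ok_s1 lv.2.2.2.2.2.2.2.2.2.2.2.2.2.2.2.2.2.2.2.2.2.2.2.2.2.2.2.2.2.2.2.2.2.2.2.2.2.2.2.2.2.1.1 (Tree.ok_s1 (Tree.ok_s2 lv.2.2.2.2.2.2.2.2.2.2.2.2.2.2.2.2.2.2.2.2.2.2.2.2.2.2.2.2.2.2.2.2.2.2.2.2.2.2.2.2.2.1.2.1 lv.2.2.2.2.2.2.2.2.2.2.2.2.2.2.2.2.2.2.2.2.2.2.2.2.2.2.2.2.2.2.2.2.2.2.2.2.2.2.2.2.2.1.2.2.1) lv.2.2.2.2.2.2.2.2.2.2.2.2.2.2.2.2.2.2.2.2.2.2.2.2.2.2.2.2.2.2.2.2.2.2.2.2.2.2.2.2.2.1.2.2.2))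

def t_u22 : Tree := (.s0 (.s1 (.s0 (.leaf 91 14 10 4 1) (.leaf 94 14 10 4 1)) (.s0 (.leaf 94 14 10 4 1) (.leaf 99 14 10 4 1))) (.leaf 80 14 10 4 1))
theorem u22 : t_u22.ok 0 1 0 0 (UE0 (1, 0) D22) unitBx = true :=
  (Tree.ok_s0 (Tree.ok_s1 (Tree.ok_s0 lv.2.2.2.2.2.2.2.2.2.2.2.2.2.2.2.2.2.2.2.2.2.2.2.2.2.2.2.2.2.2.2.2.2.2.2.2.2.2.2.2.2.2.1.1 lv.2.2.2.2.2.2.2.2.2.2.2.2.2.2.2.2.2.2.2.2.2.2.2.2.2.2.2.2.2.2.2.2.2.2.2.2.2.2.2.2.2.2.1.2.1) (Tree.ok_s0 lv.2.2.2.2.2.2.2.2.2.2.2.2.2.2.2.2.2.2.2.2.2.2.2.2.2.2.2.2.2.2.2.2.2.2.2.2.2.2.2.2.2.2.1.2.2.1 lv.2.2.2.2.2.2.2.2.2.2.2.2.2.2.2.2.2.2.2.2.2.2.2.2.2.2.2.2.2.2.2.2.2.2.2.2.2.2.2.2.2.2.1.2.2.2.1)) lv.2.2.2.2.2.2.2.2.2.2.2.2.2.2.2.2.2.2.2.2.2.2.2.2.2.2.2.2.2.2.2.2.2.2.2.2.2.2.2.2.2.2.1.2.2.2.2)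

def t_v22 : Tree := (.s1 (.s0 (.leaf 91 14 10 4 1) (.leaf 94 14 10 4 1)) (.s2 (.s0 (.leaf 97 14 10 4 1) (.leaf 101 14 10 4 1)) (.s1 (.leaf 94 14 10 4 1) (.leaf 97 14 10 4 1))))
theorem v22 : t_v22.ok 0 1 0 0 (UE1 (1, 1) D22) unitBx = true :=
  (Tree.ok_s1 (Tree.ok_s0 lv.2.2.2.2.2.2.2.2.2.2.2.2.2.2.2.2.2.2.2.2.2.2.2.2.2.2.2.2.2.2.2.2.2.2.2.2.2.2.2.2.2.2.2.1.1 lv.2.2.2.2.2.2.2.2.2.2.2.2.2.2.2.2.2.2.2.2.2.2.2.2.2.2.2.2.2.2.2.2.2.2.2.2.2.2.2.2.2.2.2.1.2.1) (Tree.ok_s2 (Tree.ok_s0 lv.2.2.2.2.2.2.2.2.2.2.2.2.2.2.2.2.2.2.2.2.2.2.2.2.2.2.2.2.2.2.2.2.2.2.2.2.2.2.2.2.2.2.2.1.2.2.1 lv.2.2.2.2.2.2.2.2.2.2.2.2.2.2.2.2.2.2.2.2.2.2.2.2.2.2.2.2.2.2.2.2.2.2.2.2.2.2.2.2.2.2.2.1.2.2.2.1) (Tree.ok_s1 lv.2.2.2.2.2.2.2.2.2.2.2.2.2.2.2.2.2.2.2.2.2.2.2.2.2.2.2.2.2.2.2.2.2.2.2.2.2.2.2.2.2.2.2.1.2.2.2.2.1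 lv.2.2.2.2.2.2.2.2.2.2.2.2.2.2.2.2.2.2.2.2.2.2.2.2.2.2.2.2.2.2.2.2.2.2.2.2.2.2.2.2.2.2.2.1.2.2.2.2.2)))

def t_u23 : Tree := (.s1 (.s0 (.s0 (.leaf 92 14 10 4 1) (.leaf 94 14 10 4 1)) (.leaf 86 14 10 4 1)) (.s0 (.s0 (.leaf 94 14 10 4 1) (.leaf 98 14 10 4 1)) (.leaf 91 14 10 4 1)))
theorem u23 : t_u23.ok 0 1 0 0 (UE0 (1, 0) D23) unitBx = true :=
  (Tree.ok_s1 (Tree.ok_s0 (Tree.ok_s0 lv.2.2.2.2.2.2.2.2.2.2.2.2.2.2.2.2.2.2.2.2.2.2.2.2.2.2.2.2.2.2.2.2.2.2.2.2.2.2.2.2.2.2.2.2.1.1 lv.2.2.2.2.2.2.2.2.2.2.2.2.2.2.2.2.2.2.2.2.2.2.2.2.2.2.2.2.2.2.2.2.2.2.2.2.2.2.2.2.2.2.2.2.1.2.1) lv.2.2.2.2.2.2.2.2.2.2.2.2.2.2.2.2.2.2.2.2.2.2.2.2.2.2.2.2.2.2.2.2.2.2.2.2.2.2.2.2.2.2.2.2.1.2.2.1) (Tree.ok_s0 (Tree.ok_s0 lv.2.2.2.2.2.2.2.2.2.2.2.2.2.2.2.2.2.2.2.2.2.2.2.2.2.2.2.2.2.2.2.2.2.2.2.2.2.2.2.2.2.2.2.2.1.2.2.2.1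 lv.2.2.2.2.2.2.2.2.2.2.2.2.2.2.2.2.2.2.2.2.2.2.2.2.2.2.2.2.2.2.2.2.2.2.2.2.2.2.2.2.2.2.2.2.1.2.2.2.2.1) lv.2.2.2.2.2.2.2.2.2.2.2.2.2.2.2.2.2.2.2.2.2.2.2.2.2.2.2.2.2.2.2.2.2.2.2.2.2.2.2.2.2.2.2.2.1.2.2.2.2.2))

def t_v23 : Tree := (.s1 (.leaf 80 14 10 4 1) (.s1 (.s2 (.leaf 94 14 10 4 1) (.leaf 94 14 10 4 1)) (.s0 (.leaf 104 14 10 4 1) (.leaf 108 14 10 4 1))))
theorem v23 : t_v23.ok 0 1 0 0 (UE1 (1, 1) D23) unitBx = true :=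
  (Tree.ok_s1 lv.2.2.2.2.2.2.2.2.2.2.2.2.2.2.2.2.2.2.2.2.2.2.2.2.2.2.2.2.2.2.2.2.2.2.2.2.2.2.2.2.2.2.2.2.2.1.1 (Tree.ok_s1 (Tree.ok_s2 lv.2.2.2.2.2.2.2.2.2.2.2.2.2.2.2.2.2.2.2.2.2.2.2.2.2.2.2.2.2.2.2.2.2.2.2.2.2.2.2.2.2.2.2.2.2.1.2.1 lv.2.2.2.2.2.2.2.2.2.2.2.2.2.2.2.2.2.2.2.2.2.2.2.2.2.2.2.2.2.2.2.2.2.2.2.2.2.2.2.2.2.2.2.2.2.1.2.2.1) (Tree.ok_s0 lv.2.2.2.2.2.2.2.2.2.2.2.2.2.2.2.2.2.2.2.2.2.2.2.2.2.2.2.2.2.2.2.2.2.2.2.2.2.2.2.2.2.2.2.2.2.1.2.2.2.1 lv.2.2.2.2.2.2.2.2.2.2.2.2.2.2.2.2.2.2.2.2.2.2.2.2.2.2.2.2.2.2.2.2.2.2.2.2.2.2.2.2.2.2.2.2.2.1.2.2.2.2)))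

def t_h200 : Tree := (.s1 (.leaf 123 14 14 6 6) (.s3 (.leaf 130 14 14 6 6) (.leaf 131 14 14 6 6)))
theorem h200 : t_h200.ok 0 1 0 0 (GM 2 0 (D 2) (1, 3) (-1, 7) (0, 0) (1, 4) (.q 144 624) p20 k00 k10) unitBx = true :=
  (Tree.ok_s1 lv.2.2.2.2.2.2.2.2.2.2.2.2.2.2.2.2.2.2.2.2.2.2.2.2.2.2.2.2.2.2.2.2.2.2.2.2.2.2.2.2.2.2.2.2.2.2.1.1 (Tree.ok_s3 lv.2.2.2.2.2.2.2.2.2.2.2.2.2.2.2.2.2.2.2.2.2.2.2.2.2.2.2.2.2.2.2.2.2.2.2.2.2.2.2.2.2.2.2.2.2.2.1.2.1 lv.2.2.2.2.2.2.2.2.2.2.2.2.2.2.2.2.2.2.2.2.2.2.2.2.2.2.2.2.2.2.2.2.2.2.2.2.2.2.2.2.2.2.2.2.2.2.1.2.2))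

def t_h201 : Tree := (.s1 (.leaf 114 14 14 6 6) (.s3 (.leaf 121 14 14 6 6) (.leaf 122 14 14 6 6)))
theorem h201 : t_h201.ok 0 1 0 0 (GM 2 0 (D 2) (1, 3) (-1, 7) (0, 0) (1, 4) (tau1 (1, 3)) p20 k00 k10) unitBx = true :=
  (Tree.ok_s1 lv.2.2.2.2.2.2.2.2.2.2.2.2.2.2.2.2.2.2.2.2.2.2.2.2.2.2.2.2.2.2.2.2.2.2.2.2.2.2.2.2.2.2.2.2.2.2.2.1.1 (Tree.ok_s3 lv.2.2.2.2.2.2.2.2.2.2.2.2.2.2.2.2.2.2.2.2.2.2.2.2.2.2.2.2.2.2.2.2.2.2.2.2.2.2.2.2.2.2.2.2.2.2.2.1.2.1 lv.2.2.2.2.2.2.2.2.2.2.2.2.2.2.2.2.2.2.2.2.2.2.2.2.2.2.2.2.2.2.2.2.2.2.2.2.2.2.2.2.2.2.2.2.2.2.2.1.2.2))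

def t_h210 : Tree := (.s0 (.s1 (.leaf 135 14 14 6 6) (.leaf 135 14 14 6 6)) (.s1 (.leaf 137 14 14 6 6) (.leaf 143 14 14 6 6)))
theorem h210 : t_h210.ok 0 1 0 0 (GM 2 1 (D 2) (1, 3) (-1, 7) (0, 0) (1, 4) (.q 144 624) p21 k01 k11) unitBx = true :=
  (Tree.ok_s0 (Tree.ok_s1 lv.2.2.2.2.2.2.2.2.2.2.2.2.2.2.2.2.2.2.2.2.2.2.2.2.2.2.2.2.2.2.2.2.2.2.2.2.2.2.2.2.2.2.2.2.2.2.2.2.1.1 lv.2.2.2.2.2.2.2.2.2.2.2.2.2.2.2.2.2.2.2.2.2.2.2.2.2.2.2.2.2.2.2.2.2.2.2.2.2.2.2.2.2.2.2.2.2.2.2.2.1.2.1) (Tree.ok_s1 lv.2.2.2.2.2.2.2.2.2.2.2.2.2.2.2.2.2.2.2.2.2.2.2.2.2.2.2.2.2.2.2.2.2.2.2.2.2.2.2.2.2.2.2.2.2.2.2.2.1.2.2.1 lv.2.2.2.2.2.2.2.2.2.2.2.2.2.2.2.2.2.2.2.2.2.2.2.2.2.2.2.2.2.2.2.2.2.2.2.2.2.2.2.2.2.2.2.2.2.2.2.2.1.2.2.2))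

def t_h211 : Tree := (.s0 (.s1 (.leaf 125 14 14 6 6) (.leaf 126 14 14 6 6)) (.s1 (.leaf 128 14 14 6 6) (.leaf 133 14 14 6 6)))
theorem h211 : t_h211.ok 0 1 0 0 (GM 2 1 (D 2) (1, 3) (-1, 7) (0, 0) (1, 4) (tau1 (1, 3)) p21 k01 k11) unitBx = true :=
  (Tree.ok_s0 (Tree.ok_s1 lv.2.2.2.2.2.2.2.2.2.2.2.2.2.2.2.2.2.2.2.2.2.2.2.2.2.2.2.2.2.2.2.2.2.2.2.2.2.2.2.2.2.2.2.2.2.2.2.2.2.1.1 lv.2.2.2.2.2.2.2.2.2.2.2.2.2.2.2.2.2.2.2.2.2.2.2.2.2.2.2.2.2.2.2.2.2.2.2.2.2.2.2.2.2.2.2.2.2.2.2.2.2.1.2.1) (Tree.ok_s1 lv.2.2.2.2.2.2.2.2.2.2.2.2.2.2.2.2.2.2.2.2.2.2.2.2.2.2.2.2.2.2.2.2.2.2.2.2.2.2.2.2.2.2.2.2.2.2.2.2.2.1.2.2.1 lv.2.2.2.2.2.2.2.2.2.2.2.2.2.2.2.2.2.2.2.2.2.2.2.2.2.2.2.2.2.2.2.2.2.2.2.2.2.2.2.2.2.2.2.2.2.2.2.2.2.1.2.2.2))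

def t_h220 : Tree := (.s0 (.s1 (.leaf 135 14 14 6 6) (.leaf 135 14 14 6 6)) (.s2 (.leaf 131 14 14 6 6) (.leaf 132 14 14 6 6)))
theorem h220 : t_h220.ok 0 1 0 0 (GM 2 2 (D 2) (1, 3) (-1, 7) (0, 0) (1, 4) (.q 144 624) p22 k02 k12) unitBx = true :=
  (Tree.ok_s0 (Tree.ok_s1 lv.2.2.2.2.2.2.2.2.2.2.2.2.2.2.2.2.2.2.2.2.2.2.2.2.2.2.2.2.2.2.2.2.2.2.2.2.2.2.2.2.2.2.2.2.2.2.2.2.2.2.1.1 lv.2.2.2.2.2.2.2.2.2.2.2.2.2.2.2.2.2.2.2.2.2.2.2.2.2.2.2.2.2.2.2.2.2.2.2.2.2.2.2.2.2.2.2.2.2.2.2.2.2.2.1.2.1) (Tree.ok_s2 lv.2.2.2.2.2.2.2.2.2.2.2.2.2.2.2.2.2.2.2.2.2.2.2.2.2.2.2.2.2.2.2.2.2.2.2.2.2.2.2.2.2.2.2.2.2.2.2.2.2.2.1.2.2.1 lv.2.2.2.2.2.2.2.2.2.2.2.2.2.2.2.2.2.2.2.2.2.2.2.2.2.2.2.2.2.2.2.2.2.2.2.2.2.2.2.2.2.2.2.2.2.2.2.2.2.2.1.2.2.2))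

def t_h221 : Tree := (.s0 (.s0 (.leaf 125 14 14 6 6) (.leaf 126 14 14 6 6)) (.s2 (.leaf 121 14 14 6 6) (.leaf 123 14 14 6 6)))
theorem h221 : t_h221.ok 0 1 0 0 (GM 2 2 (D 2) (1, 3) (-1, 7) (0, 0) (1, 4) (tau1 (1, 3)) p22 k02 k12) unitBx = true :=
  (Tree.ok_s0 (Tree.ok_s0 lv.2.2.2.2.2.2.2.2.2.2.2.2.2.2.2.2.2.2.2.2.2.2.2.2.2.2.2.2.2.2.2.2.2.2.2.2.2.2.2.2.2.2.2.2.2.2.2.2.2.2.2.1.1 lv.2.2.2.2.2.2.2.2.2.2.2.2.2.2.2.2.2.2.2.2.2.2.2.2.2.2.2.2.2.2.2.2.2.2.2.2.2.2.2.2.2.2.2.2.2.2.2.2.2.2.2.1.2.1) (Tree.ok_s2 lv.2.2.2.2.2.2.2.2.2.2.2.2.2.2.2.2.2.2.2.2.2.2.2.2.2.2.2.2.2.2.2.2.2.2.2.2.2.2.2.2.2.2.2.2.2.2.2.2.2.2.2.1.2.2.1 lv.2.2.2.2.2.2.2.2.2.2.2.2.2.2.2.2.2.2.2.2.2.2.2.2.2.2.2.2.2.2.2.2.2.2.2.2.2.2.2.2.2.2.2.2.2.2.2.2.2.2.2.1.2.2.2))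

def t_h230 : Tree := (.s0 (.s1 (.leaf 135 14 14 6 6) (.leaf 135 14 14 6 6)) (.s1 (.leaf 137 14 14 6 6) (.leaf 142 14 14 6 6)))
theorem h230 : t_h230.ok 0 1 0 0 (GM 2 3 (D 2) (1, 3) (-1, 7) (0, 0) (1, 4) (.q 144 624) p23 k03 k13) unitBx = true :=
  (Tree.ok_s0 (Tree.ok_s1 lv.2.2.2.2.2.2.2.2.2.2.2.2.2.2.2.2.2.2.2.2.2.2.2.2.2.2.2.2.2.2.2.2.2.2.2.2.2.2.2.2.2.2.2.2.2.2.2.2.2.2.2.2.1.1 lv.2.2.2.2.2.2.2.2.2.2.2.2.2.2.2.2.2.2.2.2.2.2.2.2.2.2.2.2.2.2.2.2.2.2.2.2.2.2.2.2.2.2.2.2.2.2.2.2.2.2.2.2.1.2.1) (Tree.ok_s1 lv.2.2.2.2.2.2.2.2.2.2.2.2.2.2.2.2.2.2.2.2.2.2.2.2.2.2.2.2.2.2.2.2.2.2.2.2.2.2.2.2.2.2.2.2.2.2.2.2.2.2.2.2.1.2.2.1 lv.2.2.2.2.2.2.2.2.2.2.2.2.2.2.2.2.2.2.2.2.2.2.2.2.2.2.2.2.2.2.2.2.2.2.2.2.2.2.2.2.2.2.2.2.2.2.2.2.2.2.2.2.1.2.2.2))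

def t_h231 : Tree := (.s0 (.s1 (.leaf 126 14 14 6 6) (.leaf 126 14 14 6 6)) (.s1 (.leaf 128 14 14 6 6) (.leaf 132 14 14 6 6)))
theorem h231 : t_h231.ok 0 1 0 0 (GM 2 3 (D 2) (1, 3) (-1, 7) (0, 0) (1, 4) (tau1 (1, 3)) p23 k03 k13) unitBx = true :=
  (Tree.ok_s0 (Tree.ok_s1 lv.2.2.2.2.2.2.2.2.2.2.2.2.2.2.2.2.2.2.2.2.2.2.2.2.2.2.2.2.2.2.2.2.2.2.2.2.2.2.2.2.2.2.2.2.2.2.2.2.2.2.2.2.2.1 lv.2.2.2.2.2.2.2.2.2.2.2.2.2.2.2.2.2.2.2.2.2.2.2.2.2.2.2.2.2.2.2.2.2.2.2.2.2.2.2.2.2.2.2.2.2.2.2.2.2.2.2.2.2.2.1) (Tree.ok_s1 lv.2.2.2.2.2.2.2.2.2.2.2.2.2.2.2.2.2.2.2.2.2.2.2.2.2.2.2.2.2.2.2.2.2.2.2.2.2.2.2.2.2.2.2.2.2.2.2.2.2.2.2.2.2.2.2.1 lv.2.2.2.2.2.2.2.2.2.2.2.2.2.2.2.2.2.2.2.2.2.2.2.2.2.2.2.2.2.2.2.2.2.2.2.2.2.2.2.2.2.2.2.2.2.2.2.2.2.2.2.2.2.2.2.2))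

/-! The certified family. -/

theorem cert : PhiCert (-1 / 2) D psi hh (1, 3) (-1, 7) (1, 0) (1, 1) (0, 0) (1, 4) (24, 24) (1, 24)
    (.q 144 624) w2 dl where
  hl0 := by norm_num
  hl1 := by norm_num
  hne := by norm_num
  e2 := by norm_num [cv]
  e3 := by norm_num [cv]
  hmab := by norm_num [cv]
  hta := by norm_num [cv]
  htb := by norm_num [cv]
  htb0 := by norm_num [cv]
  r1 := by norm_num [cv]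
  r2 := by norm_num [cv]
  r3 := by norm_num [cv]
  r4 := by norm_num [cv]
  hc := by norm_num [cv]
  hc' := by norm_num [cv]
  hδ0 := by
    intro j hj
    interval_cases j <;> norm_num [cv, dl]
  hδ2 := by norm_num [cv, dl]
  htau := by
    intro s ρ a b e h0 h1 h2 h3 h4
    simp only [PE.real_q, cv] at h0 ⊢
    push_cast at h0 ⊢
    nlinarith [mul_self_le_mul_self (by norm_num) h0]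
  hU0 := by
    intro j k hj hk
    interval_cases j <;> interval_cases k
    exacts [box_zero _ _ u00, box_zero _ _ u01, box_zero _ _ u02, box_zero _ _ u03, box_zero _ _ u10, box_zero _ _ u11, box_zero _ _ u12, box_zero _ _ u13, box_zero _ _ u20, box_zero _ _ u21, box_zero _ _ u22, box_zero _ _ u23]
  hU1 := by
    intro j k hj hk
    interval_cases j <;> interval_cases k
    exacts [box_zero _ _ v00, box_zero _ _ v01, box_zero _ _ v02, box_zero _ _ v03, box_zero _ _ v10, box_zero _ _ v11, box_zero _ _ v12, box_zero _ _ v13, box_zero _ _ v20, box_zero _ _ v21, box_zero _ _ v22, box_zero _ _ v23]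
  hH0 := by
    intro j k hj hk
    interval_cases j <;> interval_cases k
    exacts [box_zero _ _ h000, box_zero _ _ h010, box_zero _ _ h020, box_zero _ _ h030, box_zero _ _ h100, box_zero _ _ h110, box_zero _ _ h120, box_zero _ _ h130, box_zero _ _ h200, box_zero _ _ h210, box_zero _ _ h220, box_zero _ _ h230]
  hH1 := by
    intro j k hj hk
    interval_cases j <;> interval_cases k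
    exacts [box_zero _ _ h001, box_zero _ _ h011, box_zero _ _ h021, box_zero _ _ h031, box_zero _ _ h101, box_zero _ _ h111, box_zero _ _ h121, box_zero _ _ h131, box_zero _ _ h201, box_zero _ _ h211, box_zero _ _ h221, box_zero _ _ h231]
  hS := by
    intro j hj
    interval_cases j
    exacts [box_zero _ _ s0, box_zero _ _ s1, box_zero _ _ s2]
  hR := by
    intro j hj
    interval_cases j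
    exacts [box_zero _ _ r0, box_zero _ _ r1, box_zero _ _ r2]
  hw2 := by
    intro j hj
    interval_cases j <;> norm_num [gR, wR, hr, cv, D, D00, D10, D20, w2, dl]
  hψ0 := by
    intro j k hj hk
    interval_cases j <;> interval_cases k <;> simp [h2R, hr, psi, cv, p00, p01, p02, p03, p10, p11, p12, p13, p20, p21, p22, p23]

end Vale.Agent.P154.M1
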