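import Vale.Agent.P154.Phi

/-! Data of a family of potentials for the Poisson tree. -/

namespace Vale.Agent.P154.M2

def D00 : NP where
  A := [(12800, 8191), (-35227, 8191), (11649, 8191), (-1339, 8191)]
  B := [(101443, 8191), (-3779, 8191), (5871, 8191)]
  E := [(37964, 8191)]
  a0 := [(152207, 8191), (-39006, 8191), (17520, 8191), (-1339, 8191)]
  a1 := [(152207, 8191), (78012, 8191), (-87600, 8191), (10712, 8191)]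
  a2 := [(9, 8191), (-230181, 8191), (435217, 8191), (56776, 8191)]
  a3 := [(0, 8191), (243627, 8191), (-64212, 8191), (281313, 8191)]
  a4 := [(0, 8191), (818655, 8191), (-438568, 8191), (-618545, 8191)]
  b0 := [(-177371, 8191), (3779, 8191), (-5871, 8191)]
  b1 := [(177371, 8191), (-15116, 8191), (41097, 8191)]
  b2 := [(-97228, 8191), (70704, 8191), (-548119, 8191)]
  b3 := [(53187, 8191), (-819199, 8191), (287556, 8191)]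
  b4 := [(-190450, 8191), (-54531, 8191), (571838, 8191)]
  g0 := [(37964, 8191)]
  g1 := [(-113892, 8191)]
  g2 := [(120921, 8191), (214857, 8191)]

def D01 : NP where
  A := [(6778, 8191), (-27718, 8191), (12026, 8191), (-2802, 8191)]
  B := [(119571, 8191), (-2826, 8191), (1335, 8191)]
  E := [(39889, 8191)]
  a0 := [(166238, 8191), (-30544, 8191), (13361, 8191), (-2802, 8191)]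
  a1 := [(166238, 8191), (61088, 8191), (-66805, 8191), (22416, 8191)]
  a2 := [(9, 8191), (-192711, 8191), (282873, 8191), (-45967, 8191)]
  a3 := [(0, 8191), (324356, 8191), (-221909, 8191), (480877, 8191)]
  a4 := [(0, 8191), (758805, 8191), (-549617, 8191), (-819197, 8191)]
  b0 := [(-199349, 8191), (2826, 8191), (-1335, 8191)]
  b1 := [(199349, 8191), (-11304, 8191), (9345, 8191)]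
  b2 := [(-115052, 8191), (95742, 8191), (-246054, 8191)]
  b3 := [(66342, 8191), (-819199, 8191), (41217, 8191)]
  b4 := [(-204075, 8191), (297267, 8191), (676790, 8191)]
  g0 := [(39889, 8191)]
  g1 := [(-119667, 8191)]
  g2 := [(127055, 8191), (134574, 8191)]

def D02 : NP where
  A := [(-1780, 8191), (-16494, 8191), (7483, 8191), (-1288, 8191)]
  B := [(136732, 8191), (-2863, 8191), (3831, 8191)]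
  E := [(45115, 8191)]
  a0 := [(180067, 8191), (-19357, 8191), (11314, 8191), (-1288, 8191)]
  a1 := [(180067, 8191), (38714, 8191), (-56570, 8191), (10304, 8191)]
  a2 := [(9, 8191), (-188568, 8191), (254883, 8191), (24062, 8191)]
  a3 := [(0, 8191), (202746, 8191), (-38778, 8191), (410436, 8191)]
  a4 := [(0, 8191), (484194, 8191), (-41138, 8191), (-579860, 8191)]
  b0 := [(-226962, 8191), (2863, 8191), (-3831, 8191)]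
  b1 := [(226962, 8191), (-11452, 8191), (26817, 8191)]
  b2 := [(-131240, 8191), (145027, 8191), (-341130, 8191)]
  b3 := [(88539, 8191), (-819200, 8191), (84015, 8191)]
  b4 := [(-257352, 8191), (464979, 8191), (95482, 8191)]
  g0 := [(45115, 8191)]
  g1 := [(-135345, 8191)]
  g2 := [(143700, 8191), (127967, 8191)]

def D03 : NP where
  A := [(-17769, 8191), (2461, 8191), (4954, 8191), (-1731, 8191)]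
  B := [(157986, 8191), (14134, 8191), (-7766, 8191)]
  E := [(52385, 8191)]
  a0 := [(192602, 8191), (16595, 8191), (-2812, 8191), (-1731, 8191)]
  a1 := [(192602, 8191), (-33190, 8191), (14060, 8191), (13848, 8191)]
  a2 := [(9, 8191), (-139800, 8191), (29683, 8191), (66765, 8191)]
  a3 := [(0, 8191), (252511, 8191), (-4448, 8191), (663400, 8191)]
  a4 := [(0, 8191), (366557, 8191), (441216, 8191), (-819198, 8191)]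
  b0 := [(-262756, 8191), (-14134, 8191), (7766, 8191)]
  b1 := [(262756, 8191), (56536, 8191), (-54362, 8191)]
  b2 := [(-151840, 8191), (92502, 8191), (-55337, 8191)]
  b3 := [(97756, 8191), (-819200, 8191), (-397573, 8191)]
  b4 := [(-288836, 8191), (766894, 8191), (-718, 8191)]
  g0 := [(52385, 8191)]
  g1 := [(-157155, 8191)]
  g2 := [(166857, 8191), (90231, 8191)]

def D10 : NP where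
  A := [(13524, 8191), (-37922, 8191), (7478, 8191), (324, 8191)]
  B := [(91812, 8191), (-22181, 8191), (16151, 8191)]
  E := [(33328, 8191)]
  a0 := [(138664, 8191), (-60103, 8191), (23629, 8191), (324, 8191)]
  a1 := [(138664, 8191), (120206, 8191), (-118145, 8191), (-2592, 8191)]
  a2 := [(9, 8191), (-223719, 8191), (455357, 8191), (55799, 8191)]
  a3 := [(0, 8191), (205077, 8191), (-105196, 8191), (303654, 8191)]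
  a4 := [(0, 8191), (695419, 8191), (-819197, 8191), (-789856, 8191)]
  b0 := [(-158468, 8191), (22181, 8191), (-16151, 8191)]
  b1 := [(158468, 8191), (-88724, 8191), (113057, 8191)]
  b2 := [(-88102, 8191), (164932, 8191), (-656765, 8191)]
  b3 := [(48885, 8191), (-819200, 8191), (502611, 8191)]
  b4 := [(-167942, 8191), (123872, 8191), (647177, 8191)]
  g0 := [(33328, 8191)]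
  g1 := [(-99984, 8191)]
  g2 := [(106155, 8191), (185110, 8191)]

def D11 : NP where
  A := [(10541, 8191), (-37728, 8191), (13783, 8191), (-3425, 8191)]
  B := [(107546, 8191), (-8000, 8191), (2207, 8191)]
  E := [(39747, 8191)]
  a0 := [(157834, 8191), (-45728, 8191), (15990, 8191), (-3425, 8191)]
  a1 := [(157834, 8191), (91456, 8191), (-79950, 8191), (27400, 8191)]
  a2 := [(9, 8191), (-290248, 8191), (284594, 8191), (-97512, 8191)]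
  a3 := [(0, 8191), (279304, 8191), (-362737, 8191), (424919, 8191)]
  a4 := [(0, 8191), (805985, 8191), (-819197, 8191), (-819200, 8191)]
  b0 := [(-187040, 8191), (8000, 8191), (-2207, 8191)]
  b1 := [(187040, 8191), (-32000, 8191), (15449, 8191)]
  b2 := [(-103083, 8191), (293768, 8191), (-184920, 8191)]
  b3 := [(54046, 8191), (-819200, 8191), (295111, 8191)]
  b4 := [(-194570, 8191), (297375, 8191), (686178, 8191)]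
  g0 := [(39747, 8191)]
  g1 := [(-119241, 8191)]
  g2 := [(126607, 8191), (20028, 8191)]

def D12 : NP where
  A := [(241, 8191), (-27100, 8191), (10115, 8191), (-1697, 8191)]
  B := [(131932, 8191), (-5469, 8191), (5219, 8191)]
  E := [(48255, 8191)]
  a0 := [(180428, 8191), (-32569, 8191), (15334, 8191), (-1697, 8191)]
  a1 := [(180428, 8191), (65138, 8191), (-76670, 8191), (13576, 8191)]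
  a2 := [(9, 8191), (-246718, 8191), (351724, 8191), (9238, 8191)]
  a3 := [(0, 8191), (182159, 8191), (-54049, 8191), (514693, 8191)]
  a4 := [(0, 8191), (558343, 8191), (-755038, 8191), (267236, 8191)]
  b0 := [(-228442, 8191), (5469, 8191), (-5219, 8191)]
  b1 := [(228442, 8191), (-21876, 8191), (36533, 8191)]
  b2 := [(-126472, 8191), (181365, 8191), (-425501, 8191)]
  b3 := [(74047, 8191), (-819200, 8191), (42917, 8191)]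
  b4 := [(-251386, 8191), (819200, 8191), (-369763, 8191)]
  g0 := [(48255, 8191)]
  g1 := [(-144765, 8191)]
  g2 := [(153700, 8191), (145668, 8191)]

def D13 : NP where
  A := [(-24317, 8191), (3935, 8191), (3691, 8191), (125, 8191)]
  B := [(162563, 8191), (17064, 8191), (-4667, 8191)]
  E := [(61095, 8191)]
  a0 := [(199341, 8191), (20999, 8191), (-976, 8191), (125, 8191)]
  a1 := [(199341, 8191), (-41998, 8191), (4880, 8191), (-1000, 8191)]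
  a2 := [(9, 8191), (-132481, 8191), (-7102, 8191), (87412, 8191)]
  a3 := [(0, 8191), (261244, 8191), (50844, 8191), (819200, 8191)]
  a4 := [(0, 8191), (466983, 8191), (699904, 8191), (-819200, 8191)]
  b0 := [(-284753, 8191), (-17064, 8191), (4667, 8191)]
  b1 := [(284753, 8191), (68256, 8191), (-32669, 8191)]
  b2 := [(-155783, 8191), (76606, 8191), (-10654, 8191)]
  b3 := [(84523, 8191), (-819200, 8191), (-634624, 8191)]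
  b4 := [(-305253, 8191), (637042, 8191), (143034, 8191)]
  g0 := [(61095, 8191)]
  g1 := [(-183285, 8191)]
  g2 := [(194598, 8191), (77570, 8191)]

def D20 : NP where
  A := [(11362, 8191), (-40464, 8191), (3878, 8191), (2499, 8191)]
  B := [(79445, 8191), (-30032, 8191), (22091, 8191)]
  E := [(33813, 8191)]
  a0 := [(124620, 8191), (-70496, 8191), (25969, 8191), (2499, 8191)]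
  a1 := [(124620, 8191), (140992, 8191), (-129845, 8191), (-19992, 8191)]
  a2 := [(1983, 8191), (-357602, 8191), (378157, 8191), (207590, 8191)]
  a3 := [(8772, 8191), (52689, 8191), (-706948, 8191), (497072, 8191)]
  a4 := [(9747, 8191), (622886, 8191), (-819197, 8191), (-819197, 8191)]
  b0 := [(-147071, 8191), (30032, 8191), (-22091, 8191)]
  b1 := [(147071, 8191), (-120128, 8191), (154637, 8191)]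
  b2 := [(-80647, 8191), (559988, 8191), (-819200, 8191)]
  b3 := [(25278, 8191), (-472039, 8191), (815143, 8191)]
  b4 := [(-161897, 8191), (32471, 8191), (587379, 8191)]
  g0 := [(33813, 8191)]
  g1 := [(-101439, 8191)]
  g2 := [(110796, 8191), (10494, 8191)]

def D21 : NP where
  A := [(12306, 8191), (-43245, 8191), (8859, 8191), (279, 8191)]
  B := [(100635, 8191), (-26515, 8191), (17918, 8191)]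
  E := [(35230, 8191)]
  a0 := [(148171, 8191), (-69760, 8191), (26777, 8191), (279, 8191)]
  a1 := [(148171, 8191), (139520, 8191), (-133885, 8191), (-2232, 8191)]
  a2 := [(9, 8191), (-248196, 8191), (476938, 8191), (35481, 8191)]
  a3 := [(0, 8191), (151634, 8191), (-65260, 8191), (365615, 8191)]
  a4 := [(0, 8191), (607610, 8191), (-819199, 8191), (-819097, 8191)]
  b0 := [(-171095, 8191), (26515, 8191), (-17918, 8191)]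
  b1 := [(171095, 8191), (-106060, 8191), (125426, 8191)]
  b2 := [(-96692, 8191), (206885, 8191), (-659753, 8191)]
  b3 := [(56397, 8191), (-792129, 8191), (376335, 8191)]
  b4 := [(-182283, 8191), (282185, 8191), (734923, 8191)]
  g0 := [(35230, 8191)]
  g1 := [(-105690, 8191)]
  g2 := [(112216, 8191), (179549, 8191)]

def D22 : NP where
  A := [(5897, 8191), (-33293, 8191), (-2224, 8191), (6018, 8191)]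
  B := [(131597, 8191), (-45324, 8191), (34525, 8191)]
  E := [(45730, 8191)]
  a0 := [(183224, 8191), (-78617, 8191), (32301, 8191), (6018, 8191)]
  a1 := [(183224, 8191), (157234, 8191), (-161505, 8191), (-48144, 8191)]
  a2 := [(2438, 8191), (-269565, 8191), (411720, 8191), (143757, 8191)]
  a3 := [(10632, 8191), (-19868, 8191), (267937, 8191), (166072, 8191)]
  a4 := [(11715, 8191), (642453, 8191), (-819200, 8191), (-713877, 8191)]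
  b0 := [(-223057, 8191), (45324, 8191), (-34525, 8191)]
  b1 := [(223057, 8191), (-181296, 8191), (241675, 8191)]
  b2 := [(-149908, 8191), (454463, 8191), (-819200, 8191)]
  b3 := [(35532, 8191), (-819200, 8191), (477793, 8191)]
  b4 := [(-166657, 8191), (135792, 8191), (811009, 8191)]
  g0 := [(45730, 8191)]
  g1 := [(-137190, 8191)]
  g2 := [(176415, 8191), (56430, 8191)]

def D23 : NP where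
  A := [(-29315, 8191), (3956, 8191), (2079, 8191), (586, 8191)]
  B := [(163483, 8191), (18874, 8191), (1347, 8191)]
  E := [(74559, 8191)]
  a0 := [(208727, 8191), (22830, 8191), (3426, 8191), (586, 8191)]
  a1 := [(208727, 8191), (-45660, 8191), (-17130, 8191), (-4688, 8191)]
  a2 := [(9, 8191), (-174677, 8191), (15174, 8191), (184635, 8191)]
  a3 := [(0, 8191), (94114, 8191), (484838, 8191), (819200, 8191)]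
  a4 := [(0, 8191), (672430, 8191), (-355794, 8191), (-819199, 8191)]
  b0 := [(-312601, 8191), (-18874, 8191), (-1347, 8191)]
  b1 := [(312601, 8191), (75496, 8191), (9429, 8191)]
  b2 := [(-152134, 8191), (123945, 8191), (-178393, 8191)]
  b3 := [(93291, 8191), (-819200, 8191), (-788078, 8191)]
  b4 := [(-411650, 8191), (781142, 8191), (651337, 8191)]
  g0 := [(74559, 8191)]
  g1 := [(-223677, 8191)]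
  g2 := [(237485, 8191), (74881, 8191)]

def p00 : List CL := [[(0, 8191), (155247, 8191), (15242, 8191), (15243, 8191), (151, 8191)], [(20794, 8191), (5429, 8191), (-835, 8191)], [(5616, 8191), (89, 8191)]]
def p01 : List CL := [[(0, 8191), (143982, 8191), (57803, 8191), (-31361, 8191), (-1103, 8191)], [(24572, 8191), (-33700, 8191), (63280, 8191)], [(8202, 8191), (-20068, 8191)]]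
def p02 : List CL := [[(0, 8191), (141111, 8191), (63531, 8191), (-39274, 8191), (5221, 8191)], [(10476, 8191), (17061, 8191), (-8816, 8191)], [(-7465, 8191), (20092, 8191)]]
def p03 : List CL := [[(0, 8191), (128132, 8191), (104464, 8191), (-88982, 8191), (12783, 8191)], [(2943, 8191), (-16392, 8191), (35990, 8191)], [(12269, 8191), (-2976, 8191)]]
def p10 : List CL := [[(0, 8191), (136328, 8191), (67201, 8191), (-29283, 8191), (-2920, 8191)], [(39105, 8191), (-56949, 8191), (84187, 8191)], [(19611, 8191), (-32346, 8191)]]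
def p11 : List CL := [[(0, 8191), (137392, 8191), (62018, 8191), (2376, 8191), (2190, 8191)], [(34038, 8191), (-13764, 8191), (-20583, 8191)], [(5064, 8191), (19072, 8191)]]
def p12 : List CL := [[(0, 8191), (143109, 8191), (84723, 8191), (-31511, 8191), (-40906, 8191)], [(29540, 8191), (-74059, 8191), (130854, 8191)], [(13347, 8191), (-34400, 8191)]]
def p13 : List CL := [[(0, 8191), (142552, 8191), (85536, 8191), (-127049, 8191), (43663, 8191)], [(-9380, 8191), (12655, 8191), (56133, 8191)], [(25530, 8191), (-39447, 8191)]]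
def p20 : List CL := [[(0, 8191), (150919, 8191), (21092, 8191), (14674, 8191), (-4694, 8191)], [(29751, 8191), (7505, 8191), (14539, 8191)], [(5892, 8191), (-8367, 8191)]]
def p21 : List CL := [[(0, 8191), (151338, 8191), (33069, 8191), (54402, 8191), (-45574, 8191)], [(35776, 8191), (646, 8191), (-39950, 8191)], [(7066, 8191), (47791, 8191)]]
def p22 : List CL := [[(0, 8191), (174171, 8191), (36381, 8191), (7453, 8191), (-10340, 8191)], [(27310, 8191), (-26750, 8191), (57364, 8191)], [(13857, 8191), (-23937, 8191)]]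
def p23 : List CL := [[(0, 8191), (139390, 8191), (88365, 8191), (-86055, 8191), (48699, 8191)], [(-11893, 8191), (1200, 8191), (26208, 8191)], [(24869, 8191), (-36485, 8191)]]
def k00 : List CL := [[(-6379, 8191), (-34465, 8191), (15282, 8191), (14883, 8191)], [(-151452, 8191), (11594, 8191)], [(-62097, 8191)]]
def k01 : List CL := [[(-10227, 8191), (54195, 8191), (96237, 8191), (6547, 8191)], [(-239033, 8191), (-108893, 8191)], [(-7434, 8191)]]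
def k02 : List CL := [[(-16366, 8191), (144822, 8191), (263504, 8191), (6848, 8191)], [(-332185, 8191), (-323102, 8191)], [(55362, 8191)]]
def k03 : List CL := [[(-35776, 8191), (221863, 8191), (684525, 8191), (502, 8191)], [(-460891, 8191), (-743076, 8191)], [(144677, 8191)]]
def k10 : List CL := [[(-7047, 8191), (-142699, 8191), (-20940, 8191), (-129526, 8191)], [(-29031, 8191), (155629, 8191)], [(-74040, 8191)]]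
def k11 : List CL := [[(-1811, 8191), (-76475, 8191), (-167017, 8191), (-5303, 8191)], [(-75170, 8191), (111594, 8191)], [(-20046, 8191)]]
def k12 : List CL := [[(4835, 8191), (-7908, 8191), (209980, 8191), (-28874, 8191)], [(-203860, 8191), (-273383, 8191)], [(60115, 8191)]]
def k13 : List CL := [[(-41393, 8191), (320354, 8191), (819200, 8191), (-22269, 8191)], [(-587144, 8191), (-819200, 8191)], [(139099, 8191)]]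

def D : ℕ → ℕ → NP
  | 0, 0 => D00
  | 0, 1 => D01
  | 0, 2 => D02
  | 0, 3 => D03
  | 1, 0 => D10
  | 1, 1 => D11
  | 1, 2 => D12
  | 1, 3 => D13
  | 2, 0 => D20
  | 2, 1 => D21
  | 2, 2 => D22
  | 2, 3 => D23
  | _, _ => D03

def psi : ℕ → ℕ → List CL
  | 0, 0 => p00
  | 0, 1 => p01
  | 0, 2 => p02
  | 0, 3 => p03
  | 1, 0 => p10
  | 1, 1 => p11
  | 1, 2 => p12
  | 1, 3 => p13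
  | 2, 0 => p20
  | 2, 1 => p21
  | 2, 2 => p22
  | 2, 3 => p23
  | _, _ => []

def hh : ℕ → ℕ → List CL
  | 0, 0 => k00
  | 0, 1 => k01
  | 0, 2 => k02
  | 0, 3 => k03
  | 1, 0 => k10
  | 1, 1 => k11
  | 1, 2 => k12
  | 1, 3 => k13
  | _, _ => []

def w2 : ℕ → ℤ × ℕ
  | 0 => (-12109, 8191)
  | 1 => (-16588, 8191)
  | 2 => (-22717, 8191)
  | _ => (0, 0)

def dl : ℕ → ℤ × ℕ
  | 0 => (8, 8191)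
  | 1 => (8, 8191)
  | 2 => (8, 8191)
  | _ => (0, 0)

/-! Certificates. -/

/-- the leaves of all trees -/
theorem lv :
    ((Tree.leaf 95 9 10 5 1).ok 0 1 0 0 (SEG D03 (-12109, 8191) (sP (24, 24) (1, 24)) p00 p01 p02 p03) ⟨0, 1, 1, 0, 1, 2, 0, 1, 1, 0, 1, 1⟩ = true ∧
      (Tree.leaf 102 9 10 5 1).ok 0 1 0 0 (SEG D03 (-12109, 8191) (sP (24, 24) (1, 24)) p00 p01 p02 p03) ⟨0, 1, 1, 1, 2, 2, 0, 1, 2, 0, 1, 1⟩ = true ∧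
      (Tree.leaf 103 9 10 5 1).ok 0 1 0 0 (SEG D03 (-12109, 8191) (sP (24, 24) (1, 24)) p00 p01 p02 p03) ⟨0, 1, 1, 1, 2, 2, 1, 2, 2, 0, 1, 1⟩ = true) ∧
    ((Tree.leaf 41 10 1 4 1).ok 0 1 0 0 (RE D03 (-12109, 8191)) ⟨0, 1, 1, 0, 1, 1, 0, 1, 1, 0, 1, 1⟩ = true) ∧
    ((Tree.leaf 91 14 10 4 1).ok 0 1 0 0 (UE0 (1, 0) D00) ⟨0, 1, 4, 0, 1, 2, 0, 1, 1, 0, 1, 1⟩ = true ∧
      (Tree.leaf 95 14 10 4 1).ok 0 1 0 0 (UE0 (1, 0) D00) ⟨1, 2, 4, 0, 1, 2, 0, 1, 1, 0, 1, 1⟩ = true ∧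
      (Tree.leaf 87 14 10 4 1).ok 0 1 0 0 (UE0 (1, 0) D00) ⟨1, 2, 2, 0, 1, 2, 0, 1, 1, 0, 1, 1⟩ = true ∧
      (Tree.leaf 94 14 10 4 1).ok 0 1 0 0 (UE0 (1, 0) D00) ⟨0, 1, 4, 1, 2, 2, 0, 1, 1, 0, 1, 1⟩ = true ∧
      (Tree.leaf 99 14 10 4 1).ok 0 1 0 0 (UE0 (1, 0) D00) ⟨1, 2, 4, 1, 2, 2, 0, 1, 1, 0, 1, 1⟩ = true ∧
      (Tree.leaf 91 14 10 4 1).ok 0 1 0 0 (UE0 (1, 0) D00) ⟨1, 2, 2, 1, 2, 2, 0, 1, 1, 0, 1, 1⟩ = true) ∧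
    ((Tree.leaf 80 14 10 4 1).ok 0 1 0 0 (UE1 (1, 1) D00) ⟨0, 1, 1, 0, 1, 2, 0, 1, 1, 0, 1, 1⟩ = true ∧
      (Tree.leaf 94 14 10 4 1).ok 0 1 0 0 (UE1 (1, 1) D00) ⟨0, 1, 1, 2, 3, 4, 0, 1, 2, 0, 1, 1⟩ = true ∧
      (Tree.leaf 96 14 10 4 1).ok 0 1 0 0 (UE1 (1, 1) D00) ⟨0, 1, 1, 3, 4, 4, 0, 1, 2, 0, 1, 1⟩ = true ∧
      (Tree.leaf 95 14 10 4 1).ok 0 1 0 0 (UE1 (1, 1) D00) ⟨0, 1, 1, 2, 3, 4, 1, 2, 2, 0, 1, 1⟩ = true ∧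
      (Tree.leaf 97 14 10 4 1).ok 0 1 0 0 (UE1 (1, 1) D00) ⟨0, 1, 1, 3, 4, 4, 1, 2, 2, 0, 1, 1⟩ = true) ∧
    ((Tree.leaf 91 14 10 4 1).ok 0 1 0 0 (UE0 (1, 0) D01) ⟨0, 1, 4, 0, 1, 2, 0, 1, 1, 0, 1, 1⟩ = true ∧
      (Tree.leaf 94 14 10 4 1).ok 0 1 0 0 (UE0 (1, 0) D01) ⟨1, 2, 4, 0, 1, 2, 0, 1, 1, 0, 1, 1⟩ = true ∧
      (Tree.leaf 83 14 10 4 1).ok 0 1 0 0 (UE0 (1, 0) D01) ⟨0, 1, 2, 1, 2, 2, 0, 1, 1, 0, 1, 1⟩ = true ∧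
      (Tree.leaf 80 14 10 4 1).ok 0 1 0 0 (UE0 (1, 0) D01) ⟨1, 2, 2, 0, 1, 1, 0, 1, 1, 0, 1, 1⟩ = true) ∧
    ((Tree.leaf 80 14 10 4 1).ok 0 1 0 0 (UE1 (1, 1) D01) ⟨0, 1, 1, 0, 1, 2, 0, 1, 1, 0, 1, 1⟩ = true ∧
      (Tree.leaf 102 14 10 4 1).ok 0 1 0 0 (UE1 (1, 1) D01) ⟨0, 1, 2, 2, 3, 4, 0, 1, 1, 0, 1, 1⟩ = true ∧
      (Tree.leaf 106 14 10 4 1).ok 0 1 0 0 (UE1 (1, 1) D01) ⟨1, 2, 2, 2, 3, 4, 0, 1, 1, 0, 1, 1⟩ = true ∧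
      (Tree.leaf 102 14 10 4 1).ok 0 1 0 0 (UE1 (1, 1) D01) ⟨0, 1, 1, 6, 7, 8, 0, 1, 1, 0, 1, 1⟩ = true ∧
      (Tree.leaf 103 14 10 4 1).ok 0 1 0 0 (UE1 (1, 1) D01) ⟨0, 1, 1, 7, 8, 8, 0, 1, 1, 0, 1, 1⟩ = true) ∧
    ((Tree.leaf 91 14 10 4 1).ok 0 1 0 0 (UE0 (1, 0) D02) ⟨0, 1, 4, 0, 1, 2, 0, 1, 1, 0, 1, 1⟩ = true ∧
      (Tree.leaf 94 14 10 4 1).ok 0 1 0 0 (UE0 (1, 0) D02) ⟨1, 2, 4, 0, 1, 2, 0, 1, 1, 0, 1, 1⟩ = true ∧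
      (Tree.leaf 94 14 10 4 1).ok 0 1 0 0 (UE0 (1, 0) D02) ⟨0, 1, 4, 1, 2, 2, 0, 1, 1, 0, 1, 1⟩ = true ∧
      (Tree.leaf 98 14 10 4 1).ok 0 1 0 0 (UE0 (1, 0) D02) ⟨1, 2, 4, 1, 2, 2, 0, 1, 1, 0, 1, 1⟩ = true ∧
      (Tree.leaf 80 14 10 4 1).ok 0 1 0 0 (UE0 (1, 0) D02) ⟨1, 2, 2, 0, 1, 1, 0, 1, 1, 0, 1, 1⟩ = true) ∧
    ((Tree.leaf 80 14 10 4 1).ok 0 1 0 0 (UE1 (1, 1) D02) ⟨0, 1, 1, 0, 1, 2, 0, 1, 1, 0, 1, 1⟩ = true ∧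
      (Tree.leaf 94 14 10 4 1).ok 0 1 0 0 (UE1 (1, 1) D02) ⟨0, 1, 1, 2, 3, 4, 0, 1, 2, 0, 1, 1⟩ = true ∧
      (Tree.leaf 94 14 10 4 1).ok 0 1 0 0 (UE1 (1, 1) D02) ⟨0, 1, 1, 2, 3, 4, 1, 2, 2, 0, 1, 1⟩ = true ∧
      (Tree.leaf 96 14 10 4 1).ok 0 1 0 0 (UE1 (1, 1) D02) ⟨0, 1, 1, 3, 4, 4, 0, 1, 2, 0, 1, 1⟩ = true ∧
      (Tree.leaf 97 14 10 4 1).ok 0 1 0 0 (UE1 (1, 1) D02) ⟨0, 1, 1, 3, 4, 4, 1, 2, 2, 0, 1, 1⟩ = true) ∧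
    ((Tree.leaf 92 14 10 4 1).ok 0 1 0 0 (UE0 (1, 0) D03) ⟨0, 1, 4, 0, 1, 2, 0, 1, 1, 0, 1, 1⟩ = true ∧
      (Tree.leaf 94 14 10 4 1).ok 0 1 0 0 (UE0 (1, 0) D03) ⟨1, 2, 4, 0, 1, 2, 0, 1, 1, 0, 1, 1⟩ = true ∧
      (Tree.leaf 91 14 10 4 1).ok 0 1 0 0 (UE0 (1, 0) D03) ⟨0, 1, 2, 2, 3, 4, 0, 1, 1, 0, 1, 1⟩ = true ∧
      (Tree.leaf 93 14 10 4 1).ok 0 1 0 0 (UE0 (1, 0) D03) ⟨0, 1, 2, 3, 4, 4, 0, 1, 1, 0, 1, 1⟩ = true ∧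
      (Tree.leaf 80 14 10 4 1).ok 0 1 0 0 (UE0 (1, 0) D03) ⟨1, 2, 2, 0, 1, 1, 0, 1, 1, 0, 1, 1⟩ = true) ∧
    ((Tree.leaf 80 14 10 4 1).ok 0 1 0 0 (UE1 (1, 1) D03) ⟨0, 1, 1, 0, 1, 2, 0, 1, 1, 0, 1, 1⟩ = true ∧
      (Tree.leaf 94 14 10 4 1).ok 0 1 0 0 (UE1 (1, 1) D03) ⟨0, 1, 1, 2, 3, 4, 0, 1, 2, 0, 1, 1⟩ = true ∧
      (Tree.leaf 95 14 10 4 1).ok 0 1 0 0 (UE1 (1, 1) D03) ⟨0, 1, 1, 2, 3, 4, 1, 2, 2, 0, 1, 1⟩ = true ∧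
      (Tree.leaf 102 14 10 4 1).ok 0 1 0 0 (UE1 (1, 1) D03) ⟨0, 1, 1, 6, 7, 8, 0, 1, 1, 0, 1, 1⟩ = true ∧
      (Tree.leaf 103 14 10 4 1).ok 0 1 0 0 (UE1 (1, 1) D03) ⟨0, 1, 1, 7, 8, 8, 0, 1, 1, 0, 1, 1⟩ = true) ∧
    ((Tree.leaf 135 14 14 6 6).ok 0 1 0 0 (GM 0 0 (D 0) (1, 3) (-1, 7) (1, 4) (2, 4) (.q 144 624) p00 k00 k10) ⟨0, 1, 2, 0, 1, 2, 0, 1, 1, 0, 1, 1⟩ = true ∧
      (Tree.leaf 136 14 14 6 6).ok 0 1 0 0 (GM 0 0 (D 0) (1, 3) (-1, 7) (1, 4) (2, 4) (.q 144 624) p00 k00 k10) ⟨0, 1, 2, 1, 2, 2, 0, 1, 1, 0, 1, 1⟩ = true ∧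
      (Tree.leaf 131 14 14 6 6).ok 0 1 0 0 (GM 0 0 (D 0) (1, 3) (-1, 7) (1, 4) (2, 4) (.q 144 624) p00 k00 k10) ⟨1, 2, 2, 0, 1, 1, 0, 1, 2, 0, 1, 1⟩ = true ∧
      (Tree.leaf 132 14 14 6 6).ok 0 1 0 0 (GM 0 0 (D 0) (1, 3) (-1, 7) (1, 4) (2, 4) (.q 144 624) p00 k00 k10) ⟨1, 2, 2, 0, 1, 1, 1, 2, 2, 0, 1, 1⟩ = true) ∧
    ((Tree.leaf 125 14 14 6 6).ok 0 1 0 0 (GM 0 0 (D 0) (1, 3) (-1, 7) (1, 4) (2, 4) (tau1 (1, 3)) p00 k00 k10) ⟨0, 1, 2, 0, 1, 2, 0, 1, 1, 0, 1, 1⟩ = true ∧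
      (Tree.leaf 126 14 14 6 6).ok 0 1 0 0 (GM 0 0 (D 0) (1, 3) (-1, 7) (1, 4) (2, 4) (tau1 (1, 3)) p00 k00 k10) ⟨0, 1, 2, 1, 2, 2, 0, 1, 1, 0, 1, 1⟩ = true ∧
      (Tree.leaf 122 14 14 6 6).ok 0 1 0 0 (GM 0 0 (D 0) (1, 3) (-1, 7) (1, 4) (2, 4) (tau1 (1, 3)) p00 k00 k10) ⟨1, 2, 2, 0, 1, 1, 0, 1, 2, 0, 1, 1⟩ = true ∧
      (Tree.leaf 123 14 14 6 6).ok 0 1 0 0 (GM 0 0 (D 0) (1, 3) (-1, 7) (1, 4) (2, 4) (tau1 (1, 3)) p00 k00 k10) ⟨1, 2, 2, 0, 1, 1, 1, 2, 2, 0, 1, 1⟩ = true) ∧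
    ((Tree.leaf 134 14 14 6 6).ok 0 1 0 0 (GM 0 1 (D 0) (1, 3) (-1, 7) (1, 4) (2, 4) (.q 144 624) p01 k01 k11) ⟨0, 1, 2, 0, 1, 2, 0, 1, 1, 0, 1, 1⟩ = true ∧
      (Tree.leaf 135 14 14 6 6).ok 0 1 0 0 (GM 0 1 (D 0) (1, 3) (-1, 7) (1, 4) (2, 4) (.q 144 624) p01 k01 k11) ⟨0, 1, 2, 1, 2, 2, 0, 1, 1, 0, 1, 1⟩ = true ∧
      (Tree.leaf 137 14 14 6 6).ok 0 1 0 0 (GM 0 1 (D 0) (1, 3) (-1, 7) (1, 4) (2, 4) (.q 144 624) p01 k01 k11) ⟨1, 2, 2, 0, 1, 2, 0, 1, 1, 0, 1, 1⟩ = true ∧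
      (Tree.leaf 142 14 14 6 6).ok 0 1 0 0 (GM 0 1 (D 0) (1, 3) (-1, 7) (1, 4) (2, 4) (.q 144 624) p01 k01 k11) ⟨1, 2, 2, 1, 2, 2, 0, 1, 1, 0, 1, 1⟩ = true) ∧
    ((Tree.leaf 125 14 14 6 6).ok 0 1 0 0 (GM 0 1 (D 0) (1, 3) (-1, 7) (1, 4) (2, 4) (tau1 (1, 3)) p01 k01 k11) ⟨0, 1, 4, 0, 1, 1, 0, 1, 1, 0, 1, 1⟩ = true ∧
      (Tree.leaf 126 14 14 6 6).ok 0 1 0 0 (GM 0 1 (D 0) (1, 3) (-1, 7) (1, 4) (2, 4) (tau1 (1, 3)) p01 k01 k11) ⟨1, 2, 4, 0, 1, 1, 0, 1, 1, 0, 1, 1⟩ = true ∧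
      (Tree.leaf 128 14 14 6 6).ok 0 1 0 0 (GM 0 1 (D 0) (1, 3) (-1, 7) (1, 4) (2, 4) (tau1 (1, 3)) p01 k01 k11) ⟨1, 2, 2, 0, 1, 2, 0, 1, 1, 0, 1, 1⟩ = true ∧
      (Tree.leaf 133 14 14 6 6).ok 0 1 0 0 (GM 0 1 (D 0) (1, 3) (-1, 7) (1, 4) (2, 4) (tau1 (1, 3)) p01 k01 k11) ⟨1, 2, 2, 1, 2, 2, 0, 1, 1, 0, 1, 1⟩ = true) ∧
    ((Tree.leaf 134 14 14 6 6).ok 0 1 0 0 (GM 0 2 (D 0) (1, 3) (-1, 7) (1, 4) (2, 4) (.q 144 624) p02 k02 k12) ⟨0, 1, 2, 0, 1, 2, 0, 1, 1, 0, 1, 1⟩ = true ∧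
      (Tree.leaf 137 14 14 6 6).ok 0 1 0 0 (GM 0 2 (D 0) (1, 3) (-1, 7) (1, 4) (2, 4) (.q 144 624) p02 k02 k12) ⟨1, 2, 2, 0, 1, 2, 0, 1, 1, 0, 1, 1⟩ = true ∧
      (Tree.leaf 135 14 14 6 6).ok 0 1 0 0 (GM 0 2 (D 0) (1, 3) (-1, 7) (1, 4) (2, 4) (.q 144 624) p02 k02 k12) ⟨0, 1, 2, 1, 2, 2, 0, 1, 1, 0, 1, 1⟩ = true ∧
      (Tree.leaf 142 14 14 6 6).ok 0 1 0 0 (GM 0 2 (D 0) (1, 3) (-1, 7) (1, 4) (2, 4) (.q 144 624) p02 k02 k12) ⟨1, 2, 2, 1, 2, 2, 0, 1, 1, 0, 1, 1⟩ = true) ∧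
    ((Tree.leaf 125 14 14 6 6).ok 0 1 0 0 (GM 0 2 (D 0) (1, 3) (-1, 7) (1, 4) (2, 4) (tau1 (1, 3)) p02 k02 k12) ⟨0, 1, 2, 0, 1, 2, 0, 1, 1, 0, 1, 1⟩ = true ∧
      (Tree.leaf 126 14 14 6 6).ok 0 1 0 0 (GM 0 2 (D 0) (1, 3) (-1, 7) (1, 4) (2, 4) (tau1 (1, 3)) p02 k02 k12) ⟨0, 1, 2, 1, 2, 2, 0, 1, 1, 0, 1, 1⟩ = true ∧
      (Tree.leaf 128 14 14 6 6).ok 0 1 0 0 (GM 0 2 (D 0) (1, 3) (-1, 7) (1, 4) (2, 4) (tau1 (1, 3)) p02 k02 k12) ⟨1, 2, 2, 0, 1, 2, 0, 1, 1, 0, 1, 1⟩ = true ∧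
      (Tree.leaf 133 14 14 6 6).ok 0 1 0 0 (GM 0 2 (D 0) (1, 3) (-1, 7) (1, 4) (2, 4) (tau1 (1, 3)) p02 k02 k12) ⟨1, 2, 2, 1, 2, 2, 0, 1, 1, 0, 1, 1⟩ = true) ∧
    ((Tree.leaf 135 14 14 6 6).ok 0 1 0 0 (GM 0 3 (D 0) (1, 3) (-1, 7) (1, 4) (2, 4) (.q 144 624) p03 k03 k13) ⟨0, 1, 2, 0, 1, 2, 0, 1, 1, 0, 1, 1⟩ = true ∧
      (Tree.leaf 137 14 14 6 6).ok 0 1 0 0 (GM 0 3 (D 0) (1, 3) (-1, 7) (1, 4) (2, 4) (.q 144 624) p03 k03 k13) ⟨1, 2, 2, 0, 1, 2, 0, 1, 1, 0, 1, 1⟩ = true ∧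
      (Tree.leaf 135 14 14 6 6).ok 0 1 0 0 (GM 0 3 (D 0) (1, 3) (-1, 7) (1, 4) (2, 4) (.q 144 624) p03 k03 k13) ⟨0, 1, 2, 1, 2, 2, 0, 1, 1, 0, 1, 1⟩ = true ∧
      (Tree.leaf 142 14 14 6 6).ok 0 1 0 0 (GM 0 3 (D 0) (1, 3) (-1, 7) (1, 4) (2, 4) (.q 144 624) p03 k03 k13) ⟨1, 2, 2, 1, 2, 2, 0, 1, 1, 0, 1, 1⟩ = true) ∧
    ((Tree.leaf 125 14 14 6 6).ok 0 1 0 0 (GM 0 3 (D 0) (1, 3) (-1, 7) (1, 4) (2, 4) (tau1 (1, 3)) p03 k03 k13) ⟨0, 1, 2, 0, 1, 2, 0, 1, 1, 0, 1, 1⟩ = true ∧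
      (Tree.leaf 126 14 14 6 6).ok 0 1 0 0 (GM 0 3 (D 0) (1, 3) (-1, 7) (1, 4) (2, 4) (tau1 (1, 3)) p03 k03 k13) ⟨0, 1, 2, 1, 2, 2, 0, 1, 1, 0, 1, 1⟩ = true ∧
      (Tree.leaf 128 14 14 6 6).ok 0 1 0 0 (GM 0 3 (D 0) (1, 3) (-1, 7) (1, 4) (2, 4) (tau1 (1, 3)) p03 k03 k13) ⟨1, 2, 2, 0, 1, 2, 0, 1, 1, 0, 1, 1⟩ = true ∧
      (Tree.leaf 133 14 14 6 6).ok 0 1 0 0 (GM 0 3 (D 0) (1, 3) (-1, 7) (1, 4) (2, 4) (tau1 (1, 3)) p03 k03 k13) ⟨1, 2, 2, 1, 2, 2, 0, 1, 1, 0, 1, 1⟩ = true) ∧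
    ((Tree.leaf 88 9 10 5 1).ok 0 1 0 0 (SEG D13 (-16588, 8191) (sP (24, 24) (1, 24)) p10 p11 p12 p13) ⟨0, 1, 1, 0, 1, 1, 0, 1, 1, 0, 1, 1⟩ = true) ∧
    ((Tree.leaf 41 10 1 4 1).ok 0 1 0 0 (RE D13 (-16588, 8191)) ⟨0, 1, 1, 0, 1, 1, 0, 1, 1, 0, 1, 1⟩ = true) ∧
    ((Tree.leaf 92 14 10 4 1).ok 0 1 0 0 (UE0 (1, 0) D10) ⟨0, 1, 4, 0, 1, 2, 0, 1, 1, 0, 1, 1⟩ = true ∧
      (Tree.leaf 95 14 10 4 1).ok 0 1 0 0 (UE0 (1, 0) D10) ⟨1, 2, 4, 0, 1, 2, 0, 1, 1, 0, 1, 1⟩ = true ∧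
      (Tree.leaf 95 14 10 4 1).ok 0 1 0 0 (UE0 (1, 0) D10) ⟨0, 1, 4, 1, 2, 2, 0, 1, 1, 0, 1, 1⟩ = true ∧
      (Tree.leaf 99 14 10 4 1).ok 0 1 0 0 (UE0 (1, 0) D10) ⟨1, 2, 4, 1, 2, 2, 0, 1, 1, 0, 1, 1⟩ = true ∧
      (Tree.leaf 80 14 10 4 1).ok 0 1 0 0 (UE0 (1, 0) D10) ⟨1, 2, 2, 0, 1, 1, 0, 1, 1, 0, 1, 1⟩ = true) ∧
    ((Tree.leaf 80 14 10 4 1).ok 0 1 0 0 (UE1 (1, 1) D10) ⟨0, 1, 1, 0, 1, 2, 0, 1, 1, 0, 1, 1⟩ = true ∧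
      (Tree.leaf 94 14 10 4 1).ok 0 1 0 0 (UE1 (1, 1) D10) ⟨0, 1, 1, 2, 3, 4, 0, 1, 2, 0, 1, 1⟩ = true ∧
      (Tree.leaf 96 14 10 4 1).ok 0 1 0 0 (UE1 (1, 1) D10) ⟨0, 1, 1, 3, 4, 4, 0, 1, 2, 0, 1, 1⟩ = true ∧
      (Tree.leaf 95 14 10 4 1).ok 0 1 0 0 (UE1 (1, 1) D10) ⟨0, 1, 1, 2, 3, 4, 1, 2, 2, 0, 1, 1⟩ = true ∧
      (Tree.leaf 97 14 10 4 1).ok 0 1 0 0 (UE1 (1, 1) D10) ⟨0, 1, 1, 3, 4, 4, 1, 2, 2, 0, 1, 1⟩ = true) ∧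
    ((Tree.leaf 92 14 10 4 1).ok 0 1 0 0 (UE0 (1, 0) D11) ⟨0, 1, 4, 0, 1, 2, 0, 1, 1, 0, 1, 1⟩ = true ∧
      (Tree.leaf 94 14 10 4 1).ok 0 1 0 0 (UE0 (1, 0) D11) ⟨1, 2, 4, 0, 1, 2, 0, 1, 1, 0, 1, 1⟩ = true ∧
      (Tree.leaf 84 14 10 4 1).ok 0 1 0 0 (UE0 (1, 0) D11) ⟨0, 1, 2, 1, 2, 2, 0, 1, 1, 0, 1, 1⟩ = true ∧
      (Tree.leaf 80 14 10 4 1).ok 0 1 0 0 (UE0 (1, 0) D11) ⟨1, 2, 2, 0, 1, 1, 0, 1, 1, 0, 1, 1⟩ = true) ∧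
    ((Tree.leaf 80 14 10 4 1).ok 0 1 0 0 (UE1 (1, 1) D11) ⟨0, 1, 1, 0, 1, 2, 0, 1, 1, 0, 1, 1⟩ = true ∧
      (Tree.leaf 94 14 10 4 1).ok 0 1 0 0 (UE1 (1, 1) D11) ⟨0, 1, 1, 2, 3, 4, 0, 1, 2, 0, 1, 1⟩ = true ∧
      (Tree.leaf 95 14 10 4 1).ok 0 1 0 0 (UE1 (1, 1) D11) ⟨0, 1, 1, 2, 3, 4, 1, 2, 2, 0, 1, 1⟩ = true ∧
      (Tree.leaf 104 14 10 4 1).ok 0 1 0 0 (UE1 (1, 1) D11) ⟨0, 1, 2, 3, 4, 4, 0, 1, 1, 0, 1, 1⟩ = true ∧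
      (Tree.leaf 109 14 10 4 1).ok 0 1 0 0 (UE1 (1, 1) D11) ⟨1, 2, 2, 3, 4, 4, 0, 1, 1, 0, 1, 1⟩ = true) ∧
    ((Tree.leaf 92 14 10 4 1).ok 0 1 0 0 (UE0 (1, 0) D12) ⟨0, 1, 4, 0, 1, 2, 0, 1, 1, 0, 1, 1⟩ = true ∧
      (Tree.leaf 94 14 10 4 1).ok 0 1 0 0 (UE0 (1, 0) D12) ⟨1, 2, 4, 0, 1, 2, 0, 1, 1, 0, 1, 1⟩ = true ∧
      (Tree.leaf 94 14 10 4 1).ok 0 1 0 0 (UE0 (1, 0) D12) ⟨0, 1, 4, 1, 2, 2, 0, 1, 1, 0, 1, 1⟩ = true ∧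
      (Tree.leaf 99 14 10 4 1).ok 0 1 0 0 (UE0 (1, 0) D12) ⟨1, 2, 4, 1, 2, 2, 0, 1, 1, 0, 1, 1⟩ = true ∧
      (Tree.leaf 80 14 10 4 1).ok 0 1 0 0 (UE0 (1, 0) D12) ⟨1, 2, 2, 0, 1, 1, 0, 1, 1, 0, 1, 1⟩ = true) ∧
    ((Tree.leaf 80 14 10 4 1).ok 0 1 0 0 (UE1 (1, 1) D12) ⟨0, 1, 1, 0, 1, 2, 0, 1, 1, 0, 1, 1⟩ = true ∧
      (Tree.leaf 94 14 10 4 1).ok 0 1 0 0 (UE1 (1, 1) D12) ⟨0, 1, 1, 2, 3, 4, 0, 1, 2, 0, 1, 1⟩ = true ∧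
      (Tree.leaf 95 14 10 4 1).ok 0 1 0 0 (UE1 (1, 1) D12) ⟨0, 1, 1, 2, 3, 4, 1, 2, 2, 0, 1, 1⟩ = true ∧
      (Tree.leaf 102 14 10 4 1).ok 0 1 0 0 (UE1 (1, 1) D12) ⟨0, 1, 1, 6, 7, 8, 0, 1, 1, 0, 1, 1⟩ = true ∧
      (Tree.leaf 103 14 10 4 1).ok 0 1 0 0 (UE1 (1, 1) D12) ⟨0, 1, 1, 7, 8, 8, 0, 1, 1, 0, 1, 1⟩ = true) ∧
    ((Tree.leaf 92 14 10 4 1).ok 0 1 0 0 (UE0 (1, 0) D13) ⟨0, 1, 4, 0, 1, 2, 0, 1, 1, 0, 1, 1⟩ = true ∧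
      (Tree.leaf 94 14 10 4 1).ok 0 1 0 0 (UE0 (1, 0) D13) ⟨1, 2, 4, 0, 1, 2, 0, 1, 1, 0, 1, 1⟩ = true ∧
      (Tree.leaf 91 14 10 4 1).ok 0 1 0 0 (UE0 (1, 0) D13) ⟨0, 1, 2, 2, 3, 4, 0, 1, 1, 0, 1, 1⟩ = true ∧
      (Tree.leaf 93 14 10 4 1).ok 0 1 0 0 (UE0 (1, 0) D13) ⟨0, 1, 2, 3, 4, 4, 0, 1, 1, 0, 1, 1⟩ = true ∧
      (Tree.leaf 80 14 10 4 1).ok 0 1 0 0 (UE0 (1, 0) D13) ⟨1, 2, 2, 0, 1, 1, 0, 1, 1, 0, 1, 1⟩ = true) ∧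
    ((Tree.leaf 80 14 10 4 1).ok 0 1 0 0 (UE1 (1, 1) D13) ⟨0, 1, 1, 0, 1, 2, 0, 1, 1, 0, 1, 1⟩ = true ∧
      (Tree.leaf 94 14 10 4 1).ok 0 1 0 0 (UE1 (1, 1) D13) ⟨0, 1, 1, 2, 3, 4, 0, 1, 2, 0, 1, 1⟩ = true ∧
      (Tree.leaf 94 14 10 4 1).ok 0 1 0 0 (UE1 (1, 1) D13) ⟨0, 1, 1, 2, 3, 4, 1, 2, 2, 0, 1, 1⟩ = true ∧
      (Tree.leaf 102 14 10 4 1).ok 0 1 0 0 (UE1 (1, 1) D13) ⟨0, 1, 1, 6, 7, 8, 0, 1, 1, 0, 1, 1⟩ = true ∧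
      (Tree.leaf 103 14 10 4 1).ok 0 1 0 0 (UE1 (1, 1) D13) ⟨0, 1, 1, 7, 8, 8, 0, 1, 1, 0, 1, 1⟩ = true) ∧
    ((Tree.leaf 135 14 14 6 6).ok 0 1 0 0 (GM 1 0 (D 1) (1, 3) (-1, 7) (1, 4) (2, 4) (.q 144 624) p10 k00 k10) ⟨0, 1, 2, 0, 1, 2, 0, 1, 1, 0, 1, 1⟩ = true ∧
      (Tree.leaf 136 14 14 6 6).ok 0 1 0 0 (GM 1 0 (D 1) (1, 3) (-1, 7) (1, 4) (2, 4) (.q 144 624) p10 k00 k10) ⟨0, 1, 2, 1, 2, 2, 0, 1, 1, 0, 1, 1⟩ = true ∧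
      (Tree.leaf 138 14 14 6 6).ok 0 1 0 0 (GM 1 0 (D 1) (1, 3) (-1, 7) (1, 4) (2, 4) (.q 144 624) p10 k00 k10) ⟨1, 2, 2, 0, 1, 2, 0, 1, 1, 0, 1, 1⟩ = true ∧
      (Tree.leaf 143 14 14 6 6).ok 0 1 0 0 (GM 1 0 (D 1) (1, 3) (-1, 7) (1, 4) (2, 4) (.q 144 624) p10 k00 k10) ⟨1, 2, 2, 1, 2, 2, 0, 1, 1, 0, 1, 1⟩ = true) ∧
    ((Tree.leaf 113 14 14 6 6).ok 0 1 0 0 (GM 1 0 (D 1) (1, 3) (-1, 7) (1, 4) (2, 4) (tau1 (1, 3)) p10 k00 k10) ⟨0, 1, 2, 0, 1, 1, 0, 1, 1, 0, 1, 1⟩ = true ∧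
      (Tree.leaf 129 14 14 6 6).ok 0 1 0 0 (GM 1 0 (D 1) (1, 3) (-1, 7) (1, 4) (2, 4) (tau1 (1, 3)) p10 k00 k10) ⟨2, 3, 4, 0, 1, 1, 0, 1, 1, 0, 1, 1⟩ = true ∧
      (Tree.leaf 132 14 14 6 6).ok 0 1 0 0 (GM 1 0 (D 1) (1, 3) (-1, 7) (1, 4) (2, 4) (tau1 (1, 3)) p10 k00 k10) ⟨3, 4, 4, 0, 1, 1, 0, 1, 1, 0, 1, 1⟩ = true) ∧
    ((Tree.leaf 135 14 14 6 6).ok 0 1 0 0 (GM 1 1 (D 1) (1, 3) (-1, 7) (1, 4) (2, 4) (.q 144 624) p11 k01 k11) ⟨0, 1, 2, 0, 1, 2, 0, 1, 1, 0, 1, 1⟩ = true ∧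
      (Tree.leaf 135 14 14 6 6).ok 0 1 0 0 (GM 1 1 (D 1) (1, 3) (-1, 7) (1, 4) (2, 4) (.q 144 624) p11 k01 k11) ⟨0, 1, 2, 1, 2, 2, 0, 1, 1, 0, 1, 1⟩ = true ∧
      (Tree.leaf 138 14 14 6 6).ok 0 1 0 0 (GM 1 1 (D 1) (1, 3) (-1, 7) (1, 4) (2, 4) (.q 144 624) p11 k01 k11) ⟨1, 2, 2, 0, 1, 2, 0, 1, 1, 0, 1, 1⟩ = true ∧
      (Tree.leaf 143 14 14 6 6).ok 0 1 0 0 (GM 1 1 (D 1) (1, 3) (-1, 7) (1, 4) (2, 4) (.q 144 624) p11 k01 k11) ⟨1, 2, 2, 1, 2, 2, 0, 1, 1, 0, 1, 1⟩ = true) ∧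
    ((Tree.leaf 125 14 14 6 6).ok 0 1 0 0 (GM 1 1 (D 1) (1, 3) (-1, 7) (1, 4) (2, 4) (tau1 (1, 3)) p11 k01 k11) ⟨0, 1, 2, 0, 1, 2, 0, 1, 1, 0, 1, 1⟩ = true ∧
      (Tree.leaf 126 14 14 6 6).ok 0 1 0 0 (GM 1 1 (D 1) (1, 3) (-1, 7) (1, 4) (2, 4) (tau1 (1, 3)) p11 k01 k11) ⟨0, 1, 2, 1, 2, 2, 0, 1, 1, 0, 1, 1⟩ = true ∧
      (Tree.leaf 128 14 14 6 6).ok 0 1 0 0 (GM 1 1 (D 1) (1, 3) (-1, 7) (1, 4) (2, 4) (tau1 (1, 3)) p11 k01 k11) ⟨1, 2, 2, 0, 1, 2, 0, 1, 1, 0, 1, 1⟩ = true ∧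
      (Tree.leaf 133 14 14 6 6).ok 0 1 0 0 (GM 1 1 (D 1) (1, 3) (-1, 7) (1, 4) (2, 4) (tau1 (1, 3)) p11 k01 k11) ⟨1, 2, 2, 1, 2, 2, 0, 1, 1, 0, 1, 1⟩ = true) ∧
    ((Tree.leaf 135 14 14 6 6).ok 0 1 0 0 (GM 1 2 (D 1) (1, 3) (-1, 7) (1, 4) (2, 4) (.q 144 624) p12 k02 k12) ⟨0, 1, 2, 0, 1, 2, 0, 1, 1, 0, 1, 1⟩ = true ∧
      (Tree.leaf 136 14 14 6 6).ok 0 1 0 0 (GM 1 2 (D 1) (1, 3) (-1, 7) (1, 4) (2, 4) (.q 144 624) p12 k02 k12) ⟨0, 1, 2, 1, 2, 2, 0, 1, 1, 0, 1, 1⟩ = true ∧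
      (Tree.leaf 137 14 14 6 6).ok 0 1 0 0 (GM 1 2 (D 1) (1, 3) (-1, 7) (1, 4) (2, 4) (.q 144 624) p12 k02 k12) ⟨1, 2, 2, 0, 1, 2, 0, 1, 1, 0, 1, 1⟩ = true ∧
      (Tree.leaf 142 14 14 6 6).ok 0 1 0 0 (GM 1 2 (D 1) (1, 3) (-1, 7) (1, 4) (2, 4) (.q 144 624) p12 k02 k12) ⟨1, 2, 2, 1, 2, 2, 0, 1, 1, 0, 1, 1⟩ = true) ∧
    ((Tree.leaf 125 14 14 6 6).ok 0 1 0 0 (GM 1 2 (D 1) (1, 3) (-1, 7) (1, 4) (2, 4) (tau1 (1, 3)) p12 k02 k12) ⟨0, 1, 2, 0, 1, 2, 0, 1, 1, 0, 1, 1⟩ = true ∧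
      (Tree.leaf 126 14 14 6 6).ok 0 1 0 0 (GM 1 2 (D 1) (1, 3) (-1, 7) (1, 4) (2, 4) (tau1 (1, 3)) p12 k02 k12) ⟨0, 1, 2, 1, 2, 2, 0, 1, 1, 0, 1, 1⟩ = true ∧
      (Tree.leaf 128 14 14 6 6).ok 0 1 0 0 (GM 1 2 (D 1) (1, 3) (-1, 7) (1, 4) (2, 4) (tau1 (1, 3)) p12 k02 k12) ⟨1, 2, 2, 0, 1, 2, 0, 1, 1, 0, 1, 1⟩ = true ∧
      (Tree.leaf 133 14 14 6 6).ok 0 1 0 0 (GM 1 2 (D 1) (1, 3) (-1, 7) (1, 4) (2, 4) (tau1 (1, 3)) p12 k02 k12) ⟨1, 2, 2, 1, 2, 2, 0, 1, 1, 0, 1, 1⟩ = true) ∧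
    ((Tree.leaf 127 14 14 6 6).ok 0 1 0 0 (GM 1 3 (D 1) (1, 3) (-1, 7) (1, 4) (2, 4) (.q 144 624) p13 k03 k13) ⟨0, 1, 2, 0, 1, 1, 0, 1, 1, 0, 1, 2⟩ = true ∧
      (Tree.leaf 131 14 14 6 6).ok 0 1 0 0 (GM 1 3 (D 1) (1, 3) (-1, 7) (1, 4) (2, 4) (.q 144 624) p13 k03 k13) ⟨1, 2, 2, 0, 1, 1, 0, 1, 1, 0, 1, 2⟩ = true ∧
      (Tree.leaf 127 14 14 6 6).ok 0 1 0 0 (GM 1 3 (D 1) (1, 3) (-1, 7) (1, 4) (2, 4) (.q 144 624) p13 k03 k13) ⟨0, 1, 2, 0, 1, 1, 0, 1, 1, 1, 2, 2⟩ = true ∧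
      (Tree.leaf 132 14 14 6 6).ok 0 1 0 0 (GM 1 3 (D 1) (1, 3) (-1, 7) (1, 4) (2, 4) (.q 144 624) p13 k03 k13) ⟨1, 2, 2, 0, 1, 1, 0, 1, 1, 1, 2, 2⟩ = true) ∧
    ((Tree.leaf 118 14 14 6 6).ok 0 1 0 0 (GM 1 3 (D 1) (1, 3) (-1, 7) (1, 4) (2, 4) (tau1 (1, 3)) p13 k03 k13) ⟨0, 1, 2, 0, 1, 1, 0, 1, 1, 0, 1, 2⟩ = true ∧
      (Tree.leaf 122 14 14 6 6).ok 0 1 0 0 (GM 1 3 (D 1) (1, 3) (-1, 7) (1, 4) (2, 4) (tau1 (1, 3)) p13 k03 k13) ⟨1, 2, 2, 0, 1, 1, 0, 1, 1, 0, 1, 2⟩ = true ∧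
      (Tree.leaf 118 14 14 6 6).ok 0 1 0 0 (GM 1 3 (D 1) (1, 3) (-1, 7) (1, 4) (2, 4) (tau1 (1, 3)) p13 k03 k13) ⟨0, 1, 2, 0, 1, 1, 0, 1, 1, 1, 2, 2⟩ = true ∧
      (Tree.leaf 123 14 14 6 6).ok 0 1 0 0 (GM 1 3 (D 1) (1, 3) (-1, 7) (1, 4) (2, 4) (tau1 (1, 3)) p13 k03 k13) ⟨1, 2, 2, 0, 1, 1, 0, 1, 1, 1, 2, 2⟩ = true) ∧
    ((Tree.leaf 99 9 10 5 1).ok 0 1 0 0 (SEG D23 (-22717, 8191) (sP (24, 24) (1, 24)) p20 p21 p22 p23) ⟨0, 1, 1, 0, 1, 2, 0, 1, 2, 0, 1, 1⟩ = true ∧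
      (Tree.leaf 102 9 10 5 1).ok 0 1 0 0 (SEG D23 (-22717, 8191) (sP (24, 24) (1, 24)) p20 p21 p22 p23) ⟨0, 1, 1, 1, 2, 2, 0, 1, 2, 0, 1, 1⟩ = true ∧
      (Tree.leaf 93 9 10 5 1).ok 0 1 0 0 (SEG D23 (-22717, 8191) (sP (24, 24) (1, 24)) p20 p21 p22 p23) ⟨0, 1, 1, 0, 1, 1, 1, 2, 2, 0, 1, 1⟩ = true) ∧
    ((Tree.leaf 41 10 1 4 1).ok 0 1 0 0 (RE D23 (-22717, 8191)) ⟨0, 1, 1, 0, 1, 1, 0, 1, 1, 0, 1, 1⟩ = true) ∧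
    ((Tree.leaf 92 14 10 4 1).ok 0 1 0 0 (UE0 (1, 0) D20) ⟨0, 1, 4, 0, 1, 2, 0, 1, 1, 0, 1, 1⟩ = true ∧
      (Tree.leaf 95 14 10 4 1).ok 0 1 0 0 (UE0 (1, 0) D20) ⟨1, 2, 4, 0, 1, 2, 0, 1, 1, 0, 1, 1⟩ = true ∧
      (Tree.leaf 95 14 10 4 1).ok 0 1 0 0 (UE0 (1, 0) D20) ⟨0, 1, 4, 1, 2, 2, 0, 1, 1, 0, 1, 1⟩ = true ∧
      (Tree.leaf 100 14 10 4 1).ok 0 1 0 0 (UE0 (1, 0) D20) ⟨1, 2, 4, 1, 2, 2, 0, 1, 1, 0, 1, 1⟩ = true ∧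
      (Tree.leaf 81 14 10 4 1).ok 0 1 0 0 (UE0 (1, 0) D20) ⟨1, 2, 2, 0, 1, 1, 0, 1, 1, 0, 1, 1⟩ = true) ∧
    ((Tree.leaf 80 14 10 4 1).ok 0 1 0 0 (UE1 (1, 1) D20) ⟨0, 1, 1, 0, 1, 2, 0, 1, 1, 0, 1, 1⟩ = true ∧
      (Tree.leaf 103 14 10 4 1).ok 0 1 0 0 (UE1 (1, 1) D20) ⟨0, 1, 2, 2, 3, 4, 0, 1, 1, 0, 1, 1⟩ = true ∧
      (Tree.leaf 107 14 10 4 1).ok 0 1 0 0 (UE1 (1, 1) D20) ⟨1, 2, 2, 2, 3, 4, 0, 1, 1, 0, 1, 1⟩ = true ∧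
      (Tree.leaf 97 14 10 4 1).ok 0 1 0 0 (UE1 (1, 1) D20) ⟨0, 1, 1, 3, 4, 4, 0, 1, 2, 0, 1, 1⟩ = true ∧
      (Tree.leaf 98 14 10 4 1).ok 0 1 0 0 (UE1 (1, 1) D20) ⟨0, 1, 1, 3, 4, 4, 1, 2, 2, 0, 1, 1⟩ = true) ∧
    ((Tree.leaf 92 14 10 4 1).ok 0 1 0 0 (UE0 (1, 0) D21) ⟨0, 1, 4, 0, 1, 2, 0, 1, 1, 0, 1, 1⟩ = true ∧
      (Tree.leaf 95 14 10 4 1).ok 0 1 0 0 (UE0 (1, 0) D21) ⟨1, 2, 4, 0, 1, 2, 0, 1, 1, 0, 1, 1⟩ = true ∧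
      (Tree.leaf 84 14 10 4 1).ok 0 1 0 0 (UE0 (1, 0) D21) ⟨0, 1, 2, 1, 2, 2, 0, 1, 1, 0, 1, 1⟩ = true ∧
      (Tree.leaf 80 14 10 4 1).ok 0 1 0 0 (UE0 (1, 0) D21) ⟨1, 2, 2, 0, 1, 1, 0, 1, 1, 0, 1, 1⟩ = true) ∧
    ((Tree.leaf 80 14 10 4 1).ok 0 1 0 0 (UE1 (1, 1) D21) ⟨0, 1, 1, 0, 1, 2, 0, 1, 1, 0, 1, 1⟩ = true ∧
      (Tree.leaf 89 14 10 4 1).ok 0 1 0 0 (UE1 (1, 1) D21) ⟨0, 1, 1, 1, 2, 2, 0, 1, 4, 0, 1, 1⟩ = true ∧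
      (Tree.leaf 90 14 10 4 1).ok 0 1 0 0 (UE1 (1, 1) D21) ⟨0, 1, 1, 1, 2, 2, 1, 2, 4, 0, 1, 1⟩ = true ∧
      (Tree.leaf 98 14 10 4 1).ok 0 1 0 0 (UE1 (1, 1) D21) ⟨0, 1, 2, 1, 2, 2, 1, 2, 2, 0, 1, 1⟩ = true ∧
      (Tree.leaf 103 14 10 4 1).ok 0 1 0 0 (UE1 (1, 1) D21) ⟨1, 2, 2, 1, 2, 2, 1, 2, 2, 0, 1, 1⟩ = true) ∧
    ((Tree.leaf 92 14 10 4 1).ok 0 1 0 0 (UE0 (1, 0) D22) ⟨0, 1, 4, 0, 1, 2, 0, 1, 1, 0, 1, 1⟩ = true ∧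
      (Tree.leaf 95 14 10 4 1).ok 0 1 0 0 (UE0 (1, 0) D22) ⟨1, 2, 4, 0, 1, 2, 0, 1, 1, 0, 1, 1⟩ = true ∧
      (Tree.leaf 87 14 10 4 1).ok 0 1 0 0 (UE0 (1, 0) D22) ⟨1, 2, 2, 0, 1, 2, 0, 1, 1, 0, 1, 1⟩ = true ∧
      (Tree.leaf 93 14 10 4 1).ok 0 1 0 0 (UE0 (1, 0) D22) ⟨0, 1, 2, 2, 3, 4, 0, 1, 1, 0, 1, 1⟩ = true ∧
      (Tree.leaf 95 14 10 4 1).ok 0 1 0 0 (UE0 (1, 0) D22) ⟨0, 1, 2, 3, 4, 4, 0, 1, 1, 0, 1, 1⟩ = true ∧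
      (Tree.leaf 92 14 10 4 1).ok 0 1 0 0 (UE0 (1, 0) D22) ⟨1, 2, 2, 1, 2, 2, 0, 1, 1, 0, 1, 1⟩ = true) ∧
    ((Tree.leaf 81 14 10 4 1).ok 0 1 0 0 (UE1 (1, 1) D22) ⟨0, 1, 1, 0, 1, 2, 0, 1, 1, 0, 1, 1⟩ = true ∧
      (Tree.leaf 95 14 10 4 1).ok 0 1 0 0 (UE1 (1, 1) D22) ⟨0, 1, 1, 2, 3, 4, 0, 1, 2, 0, 1, 1⟩ = true ∧
      (Tree.leaf 96 14 10 4 1).ok 0 1 0 0 (UE1 (1, 1) D22) ⟨0, 1, 1, 2, 3, 4, 1, 2, 2, 0, 1, 1⟩ = true ∧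
      (Tree.leaf 97 14 10 4 1).ok 0 1 0 0 (UE1 (1, 1) D22) ⟨0, 1, 1, 3, 4, 4, 0, 1, 2, 0, 1, 1⟩ = true ∧
      (Tree.leaf 98 14 10 4 1).ok 0 1 0 0 (UE1 (1, 1) D22) ⟨0, 1, 1, 3, 4, 4, 1, 2, 2, 0, 1, 1⟩ = true) ∧
    ((Tree.leaf 92 14 10 4 1).ok 0 1 0 0 (UE0 (1, 0) D23) ⟨0, 1, 4, 0, 1, 2, 0, 1, 1, 0, 1, 1⟩ = true ∧
      (Tree.leaf 95 14 10 4 1).ok 0 1 0 0 (UE0 (1, 0) D23) ⟨1, 2, 4, 0, 1, 2, 0, 1, 1, 0, 1, 1⟩ = true ∧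
      (Tree.leaf 91 14 10 4 1).ok 0 1 0 0 (UE0 (1, 0) D23) ⟨0, 1, 2, 2, 3, 4, 0, 1, 1, 0, 1, 1⟩ = true ∧
      (Tree.leaf 94 14 10 4 1).ok 0 1 0 0 (UE0 (1, 0) D23) ⟨0, 1, 2, 3, 4, 4, 0, 1, 1, 0, 1, 1⟩ = true ∧
      (Tree.leaf 80 14 10 4 1).ok 0 1 0 0 (UE0 (1, 0) D23) ⟨1, 2, 2, 0, 1, 1, 0, 1, 1, 0, 1, 1⟩ = true) ∧
    ((Tree.leaf 80 14 10 4 1).ok 0 1 0 0 (UE1 (1, 1) D23) ⟨0, 1, 1, 0, 1, 2, 0, 1, 1, 0, 1, 1⟩ = true ∧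
      (Tree.leaf 94 14 10 4 1).ok 0 1 0 0 (UE1 (1, 1) D23) ⟨0, 1, 1, 2, 3, 4, 0, 1, 2, 0, 1, 1⟩ = true ∧
      (Tree.leaf 95 14 10 4 1).ok 0 1 0 0 (UE1 (1, 1) D23) ⟨0, 1, 1, 2, 3, 4, 1, 2, 2, 0, 1, 1⟩ = true ∧
      (Tree.leaf 102 14 10 4 1).ok 0 1 0 0 (UE1 (1, 1) D23) ⟨0, 1, 1, 6, 7, 8, 0, 1, 1, 0, 1, 1⟩ = true ∧
      (Tree.leaf 103 14 10 4 1).ok 0 1 0 0 (UE1 (1, 1) D23) ⟨0, 1, 1, 7, 8, 8, 0, 1, 1, 0, 1, 1⟩ = true) ∧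
    ((Tree.leaf 135 14 14 6 6).ok 0 1 0 0 (GM 2 0 (D 2) (1, 3) (-1, 7) (1, 4) (2, 4) (.q 144 624) p20 k00 k10) ⟨0, 1, 2, 0, 1, 2, 0, 1, 1, 0, 1, 1⟩ = true ∧
      (Tree.leaf 136 14 14 6 6).ok 0 1 0 0 (GM 2 0 (D 2) (1, 3) (-1, 7) (1, 4) (2, 4) (.q 144 624) p20 k00 k10) ⟨0, 1, 2, 1, 2, 2, 0, 1, 1, 0, 1, 1⟩ = true ∧
      (Tree.leaf 132 14 14 6 6).ok 0 1 0 0 (GM 2 0 (D 2) (1, 3) (-1, 7) (1, 4) (2, 4) (.q 144 624) p20 k00 k10) ⟨1, 2, 2, 0, 1, 1, 0, 1, 2, 0, 1, 1⟩ = true ∧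
      (Tree.leaf 133 14 14 6 6).ok 0 1 0 0 (GM 2 0 (D 2) (1, 3) (-1, 7) (1, 4) (2, 4) (.q 144 624) p20 k00 k10) ⟨1, 2, 2, 0, 1, 1, 1, 2, 2, 0, 1, 1⟩ = true) ∧
    ((Tree.leaf 126 14 14 6 6).ok 0 1 0 0 (GM 2 0 (D 2) (1, 3) (-1, 7) (1, 4) (2, 4) (tau1 (1, 3)) p20 k00 k10) ⟨0, 1, 2, 0, 1, 2, 0, 1, 1, 0, 1, 1⟩ = true ∧
      (Tree.leaf 127 14 14 6 6).ok 0 1 0 0 (GM 2 0 (D 2) (1, 3) (-1, 7) (1, 4) (2, 4) (tau1 (1, 3)) p20 k00 k10) ⟨0, 1, 2, 1, 2, 2, 0, 1, 1, 0, 1, 1⟩ = true ∧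
      (Tree.leaf 123 14 14 6 6).ok 0 1 0 0 (GM 2 0 (D 2) (1, 3) (-1, 7) (1, 4) (2, 4) (tau1 (1, 3)) p20 k00 k10) ⟨1, 2, 2, 0, 1, 1, 0, 1, 2, 0, 1, 1⟩ = true ∧
      (Tree.leaf 124 14 14 6 6).ok 0 1 0 0 (GM 2 0 (D 2) (1, 3) (-1, 7) (1, 4) (2, 4) (tau1 (1, 3)) p20 k00 k10) ⟨1, 2, 2, 0, 1, 1, 1, 2, 2, 0, 1, 1⟩ = true) ∧
    ((Tree.leaf 135 14 14 6 6).ok 0 1 0 0 (GM 2 1 (D 2) (1, 3) (-1, 7) (1, 4) (2, 4) (.q 144 624) p21 k01 k11) ⟨0, 1, 2, 0, 1, 2, 0, 1, 1, 0, 1, 1⟩ = true ∧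
      (Tree.leaf 136 14 14 6 6).ok 0 1 0 0 (GM 2 1 (D 2) (1, 3) (-1, 7) (1, 4) (2, 4) (.q 144 624) p21 k01 k11) ⟨0, 1, 2, 1, 2, 2, 0, 1, 1, 0, 1, 1⟩ = true ∧
      (Tree.leaf 138 14 14 6 6).ok 0 1 0 0 (GM 2 1 (D 2) (1, 3) (-1, 7) (1, 4) (2, 4) (.q 144 624) p21 k01 k11) ⟨1, 2, 2, 0, 1, 2, 0, 1, 1, 0, 1, 1⟩ = true ∧
      (Tree.leaf 143 14 14 6 6).ok 0 1 0 0 (GM 2 1 (D 2) (1, 3) (-1, 7) (1, 4) (2, 4) (.q 144 624) p21 k01 k11) ⟨1, 2, 2, 1, 2, 2, 0, 1, 1, 0, 1, 1⟩ = true) ∧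
    ((Tree.leaf 113 14 14 6 6).ok 0 1 0 0 (GM 2 1 (D 2) (1, 3) (-1, 7) (1, 4) (2, 4) (tau1 (1, 3)) p21 k01 k11) ⟨0, 1, 2, 0, 1, 1, 0, 1, 1, 0, 1, 1⟩ = true ∧
      (Tree.leaf 118 14 14 6 6).ok 0 1 0 0 (GM 2 1 (D 2) (1, 3) (-1, 7) (1, 4) (2, 4) (tau1 (1, 3)) p21 k01 k11) ⟨1, 2, 2, 0, 1, 1, 0, 1, 1, 0, 1, 1⟩ = true) ∧
    ((Tree.leaf 135 14 14 6 6).ok 0 1 0 0 (GM 2 2 (D 2) (1, 3) (-1, 7) (1, 4) (2, 4) (.q 144 624) p22 k02 k12) ⟨0, 1, 2, 0, 1, 2, 0, 1, 1, 0, 1, 1⟩ = true ∧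
      (Tree.leaf 136 14 14 6 6).ok 0 1 0 0 (GM 2 2 (D 2) (1, 3) (-1, 7) (1, 4) (2, 4) (.q 144 624) p22 k02 k12) ⟨0, 1, 2, 1, 2, 2, 0, 1, 1, 0, 1, 1⟩ = true ∧
      (Tree.leaf 138 14 14 6 6).ok 0 1 0 0 (GM 2 2 (D 2) (1, 3) (-1, 7) (1, 4) (2, 4) (.q 144 624) p22 k02 k12) ⟨1, 2, 2, 0, 1, 2, 0, 1, 1, 0, 1, 1⟩ = true ∧
      (Tree.leaf 143 14 14 6 6).ok 0 1 0 0 (GM 2 2 (D 2) (1, 3) (-1, 7) (1, 4) (2, 4) (.q 144 624) p22 k02 k12) ⟨1, 2, 2, 1, 2, 2, 0, 1, 1, 0, 1, 1⟩ = true) ∧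
    ((Tree.leaf 126 14 14 6 6).ok 0 1 0 0 (GM 2 2 (D 2) (1, 3) (-1, 7) (1, 4) (2, 4) (tau1 (1, 3)) p22 k02 k12) ⟨0, 1, 2, 0, 1, 2, 0, 1, 1, 0, 1, 1⟩ = true ∧
      (Tree.leaf 127 14 14 6 6).ok 0 1 0 0 (GM 2 2 (D 2) (1, 3) (-1, 7) (1, 4) (2, 4) (tau1 (1, 3)) p22 k02 k12) ⟨0, 1, 2, 1, 2, 2, 0, 1, 1, 0, 1, 1⟩ = true ∧
      (Tree.leaf 129 14 14 6 6).ok 0 1 0 0 (GM 2 2 (D 2) (1, 3) (-1, 7) (1, 4) (2, 4) (tau1 (1, 3)) p22 k02 k12) ⟨1, 2, 2, 0, 1, 2, 0, 1, 1, 0, 1, 1⟩ = true ∧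
      (Tree.leaf 134 14 14 6 6).ok 0 1 0 0 (GM 2 2 (D 2) (1, 3) (-1, 7) (1, 4) (2, 4) (tau1 (1, 3)) p22 k02 k12) ⟨1, 2, 2, 1, 2, 2, 0, 1, 1, 0, 1, 1⟩ = true) ∧
    ((Tree.leaf 135 14 14 6 6).ok 0 1 0 0 (GM 2 3 (D 2) (1, 3) (-1, 7) (1, 4) (2, 4) (.q 144 624) p23 k03 k13) ⟨0, 1, 2, 0, 1, 2, 0, 1, 1, 0, 1, 1⟩ = true ∧
      (Tree.leaf 136 14 14 6 6).ok 0 1 0 0 (GM 2 3 (D 2) (1, 3) (-1, 7) (1, 4) (2, 4) (.q 144 624) p23 k03 k13) ⟨0, 1, 2, 1, 2, 2, 0, 1, 1, 0, 1, 1⟩ = true ∧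
      (Tree.leaf 131 14 14 6 6).ok 0 1 0 0 (GM 2 3 (D 2) (1, 3) (-1, 7) (1, 4) (2, 4) (.q 144 624) p23 k03 k13) ⟨1, 2, 2, 0, 1, 1, 0, 1, 2, 0, 1, 1⟩ = true ∧
      (Tree.leaf 133 14 14 6 6).ok 0 1 0 0 (GM 2 3 (D 2) (1, 3) (-1, 7) (1, 4) (2, 4) (.q 144 624) p23 k03 k13) ⟨1, 2, 2, 0, 1, 1, 1, 2, 2, 0, 1, 1⟩ = true) ∧
    ((Tree.leaf 113 14 14 6 6).ok 0 1 0 0 (GM 2 3 (D 2) (1, 3) (-1, 7) (1, 4) (2, 4) (tau1 (1, 3)) p23 k03 k13) ⟨0, 1, 2, 0, 1, 1, 0, 1, 1, 0, 1, 1⟩ = true ∧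
      (Tree.leaf 129 14 14 6 6).ok 0 1 0 0 (GM 2 3 (D 2) (1, 3) (-1, 7) (1, 4) (2, 4) (tau1 (1, 3)) p23 k03 k13) ⟨2, 3, 4, 0, 1, 1, 0, 1, 1, 0, 1, 1⟩ = true ∧
      (Tree.leaf 133 14 14 6 6).ok 0 1 0 0 (GM 2 3 (D 2) (1, 3) (-1, 7) (1, 4) (2, 4) (tau1 (1, 3)) p23 k03 k13) ⟨3, 4, 4, 0, 1, 1, 0, 1, 1, 0, 1, 1⟩ = true) :=
  ⟨⟨by decide +kernel, by decide +kernel, by decide +kernel⟩,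
   by decide +kernel,
   ⟨by decide +kernel, by decide +kernel, by decide +kernel, by decide +kernel, by decide +kernel, by decide +kernel⟩,
   ⟨by decide +kernel, by decide +kernel, by decide +kernel, by decide +kernel, by decide +kernel⟩,
   ⟨by decide +kernel, by decide +kernel, by decide +kernel, by decide +kernel⟩,
   ⟨by decide +kernel, by decide +kernel, by decide +kernel, by decide +kernel, by decide +kernel⟩,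
   ⟨by decide +kernel, by decide +kernel, by decide +kernel, by decide +kernel, by decide +kernel⟩,
   ⟨by decide +kernel, by decide +kernel, by decide +kernel, by decide +kernel, by decide +kernel⟩,
   ⟨by decide +kernel, by decide +kernel, by decide +kernel, by decide +kernel, by decide +kernel⟩,
   ⟨by decide +kernel, by decide +kernel, by decide +kernel, by decide +kernel, by decide +kernel⟩,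
   ⟨by decide +kernel, by decide +kernel, by decide +kernel, by decide +kernel⟩,
   ⟨by decide +kernel, by decide +kernel, by decide +kernel, by decide +kernel⟩,
   ⟨by decide +kernel, by decide +kernel, by decide +kernel, by decide +kernel⟩,
   ⟨by decide +kernel, by decide +kernel, by decide +kernel, by decide +kernel⟩,
   ⟨by decide +kernel, by decide +kernel, by decide +kernel, by decide +kernel⟩,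
   ⟨by decide +kernel, by decide +kernel, by decide +kernel, by decide +kernel⟩,
   ⟨by decide +kernel, by decide +kernel, by decide +kernel, by decide +kernel⟩,
   ⟨by decide +kernel, by decide +kernel, by decide +kernel, by decide +kernel⟩,
   by decide +kernel,
   by decide +kernel,
   ⟨by decide +kernel, by decide +kernel, by decide +kernel, by decide +kernel, by decide +kernel⟩,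
   ⟨by decide +kernel, by decide +kernel, by decide +kernel, by decide +kernel, by decide +kernel⟩,
   ⟨by decide +kernel, by decide +kernel, by decide +kernel, by decide +kernel⟩,
   ⟨by decide +kernel, by decide +kernel, by decide +kernel, by decide +kernel, by decide +kernel⟩,
   ⟨by decide +kernel, by decide +kernel, by decide +kernel, by decide +kernel, by decide +kernel⟩,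
   ⟨by decide +kernel, by decide +kernel, by decide +kernel, by decide +kernel, by decide +kernel⟩,
   ⟨by decide +kernel, by decide +kernel, by decide +kernel, by decide +kernel, by decide +kernel⟩,
   ⟨by decide +kernel, by decide +kernel, by decide +kernel, by decide +kernel, by decide +kernel⟩,
   ⟨by decide +kernel, by decide +kernel, by decide +kernel, by decide +kernel⟩,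
   ⟨by decide +kernel, by decide +kernel, by decide +kernel⟩,
   ⟨by decide +kernel, by decide +kernel, by decide +kernel, by decide +kernel⟩,
   ⟨by decide +kernel, by decide +kernel, by decide +kernel, by decide +kernel⟩,
   ⟨by decide +kernel, by decide +kernel, by decide +kernel, by decide +kernel⟩,
   ⟨by decide +kernel, by decide +kernel, by decide +kernel, by decide +kernel⟩,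
   ⟨by decide +kernel, by decide +kernel, by decide +kernel, by decide +kernel⟩,
   ⟨by decide +kernel, by decide +kernel, by decide +kernel, by decide +kernel⟩,
   ⟨by decide +kernel, by decide +kernel, by decide +kernel⟩,
   by decide +kernel,
   ⟨by decide +kernel, by decide +kernel, by decide +kernel, by decide +kernel, by decide +kernel⟩,
   ⟨by decide +kernel, by decide +kernel, by decide +kernel, by decide +kernel, by decide +kernel⟩,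
   ⟨by decide +kernel, by decide +kernel, by decide +kernel, by decide +kernel⟩,
   ⟨by decide +kernel, by decide +kernel, by decide +kernel, by decide +kernel, by decide +kernel⟩,
   ⟨by decide +kernel, by decide +kernel, by decide +kernel, by decide +kernel, by decide +kernel, by decide +kernel⟩,
   ⟨by decide +kernel, by decide +kernel, by decide +kernel, by decide +kernel, by decide +kernel⟩,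
   ⟨by decide +kernel, by decide +kernel, by decide +kernel, by decide +kernel, by decide +kernel⟩,
   ⟨by decide +kernel, by decide +kernel, by decide +kernel, by decide +kernel, by decide +kernel⟩,
   ⟨by decide +kernel, by decide +kernel, by decide +kernel, by decide +kernel⟩,
   ⟨by decide +kernel, by decide +kernel, by decide +kernel, by decide +kernel⟩,
   ⟨by decide +kernel, by decide +kernel, by decide +kernel, by decide +kernel⟩,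
   ⟨by decide +kernel, by decide +kernel⟩,
   ⟨by decide +kernel, by decide +kernel, by decide +kernel, by decide +kernel⟩,
   ⟨by decide +kernel, by decide +kernel, by decide +kernel, by decide +kernel⟩,
   ⟨by decide +kernel, by decide +kernel, by decide +kernel, by decide +kernel⟩,
   ⟨by decide +kernel, by decide +kernel, by decide +kernel⟩⟩

def t_s0 : Tree := (.s1 (.leaf 95 9 10 5 1) (.s2 (.leaf 102 9 10 5 1) (.leaf 103 9 10 5 1)))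
theorem s0 : t_s0.ok 0 1 0 0 (SEG D03 (-12109, 8191) (sP (24, 24) (1, 24)) p00 p01 p02 p03) unitBx = true :=
  (Tree.ok_s1 lv.1.1 (Tree.ok_s2 lv.1.2.1 lv.1.2.2))

def t_r0 : Tree := (.leaf 41 10 1 4 1)
theorem r0 : t_r0.ok 0 1 0 0 (RE D03 (-12109, 8191)) unitBx = true :=
  lv.2.1

def t_u00 : Tree := (.s1 (.s0 (.s0 (.leaf 91 14 10 4 1) (.leaf 95 14 10 4 1)) (.leaf 87 14 10 4 1)) (.s0 (.s0 (.leaf 94 14 10 4 1) (.leaf 99 14 10 4 1)) (.leaf 91 14 10 4 1)))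
theorem u00 : t_u00.ok 0 1 0 0 (UE0 (1, 0) D00) unitBx = true :=
  (Tree.ok_s1 (Tree.ok_s0 (Tree.ok_s0 lv.2.2.1.1 lv.2.2.1.2.1) lv.2.2.1.2.2.1) (Tree.ok_s0 (Tree.ok_s0 lv.2.2.1.2.2.2.1 lv.2.2.1.2.2.2.2.1) lv.2.2.1.2.2.2.2.2))

def t_v00 : Tree := (.s1 (.leaf 80 14 10 4 1) (.s2 (.s1 (.leaf 94 14 10 4 1) (.leaf 96 14 10 4 1)) (.s1 (.leaf 95 14 10 4 1) (.leaf 97 14 10 4 1))))
theorem v00 : t_v00.ok 0 1 0 0 (UE1 (1, 1) D00) unitBx = true :=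
  (Tree.ok_s1 lv.2.2.2.1.1 (Tree.ok_s2 (Tree.ok_s1 lv.2.2.2.1.2.1 lv.2.2.2.1.2.2.1) (Tree.ok_s1 lv.2.2.2.1.2.2.2.1 lv.2.2.2.1.2.2.2.2)))

def t_u01 : Tree := (.s0 (.s1 (.s0 (.leaf 91 14 10 4 1) (.leaf 94 14 10 4 1)) (.leaf 83 14 10 4 1)) (.leaf 80 14 10 4 1))
theorem u01 : t_u01.ok 0 1 0 0 (UE0 (1, 0) D01) unitBx = true :=
  (Tree.ok_s0 (Tree.ok_s1 (Tree.ok_s0 lv.2.2.2.2.1.1 lv.2.2.2.2.1.2.1) lv.2.2.2.2.1.2.2.1) lv.2.2.2.2.1.2.2.2)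

def t_v01 : Tree := (.s1 (.leaf 80 14 10 4 1) (.s1 (.s0 (.leaf 102 14 10 4 1) (.leaf 106 14 10 4 1)) (.s1 (.leaf 102 14 10 4 1) (.leaf 103 14 10 4 1))))
theorem v01 : t_v01.ok 0 1 0 0 (UE1 (1, 1) D01) unitBx = true :=
  (Tree.ok_s1 lv.2.2.2.2.2.1.1 (Tree.ok_s1 (Tree.ok_s0 lv.2.2.2.2.2.1.2.1 lv.2.2.2.2.2.1.2.2.1) (Tree.ok_s1 lv.2.2.2.2.2.1.2.2.2.1 lv.2.2.2.2.2.1.2.2.2.2)))

def t_u02 : Tree := (.s0 (.s1 (.s0 (.leaf 91 14 10 4 1) (.leaf 94 14 10 4 1)) (.s0 (.leaf 94 14 10 4 1) (.leaf 98 14 10 4 1))) (.leaf 80 14 10 4 1))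
theorem u02 : t_u02.ok 0 1 0 0 (UE0 (1, 0) D02) unitBx = true :=
  (Tree.ok_s0 (Tree.ok_s1 (Tree.ok_s0 lv.2.2.2.2.2.2.1.1 lv.2.2.2.2.2.2.1.2.1) (Tree.ok_s0 lv.2.2.2.2.2.2.1.2.2.1 lv.2.2.2.2.2.2.1.2.2.2.1)) lv.2.2.2.2.2.2.1.2.2.2.2)

def t_v02 : Tree := (.s1 (.leaf 80 14 10 4 1) (.s1 (.s2 (.leaf 94 14 10 4 1) (.leaf 94 14 10 4 1)) (.s2 (.leaf 96 14 10 4 1) (.leaf 97 14 10 4 1))))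
theorem v02 : t_v02.ok 0 1 0 0 (UE1 (1, 1) D02) unitBx = true :=
  (Tree.ok_s1 lv.2.2.2.2.2.2.2.1.1 (Tree.ok_s1 (Tree.ok_s2 lv.2.2.2.2.2.2.2.1.2.1 lv.2.2.2.2.2.2.2.1.2.2.1) (Tree.ok_s2 lv.2.2.2.2.2.2.2.1.2.2.2.1 lv.2.2.2.2.2.2.2.1.2.2.2.2)))

def t_u03 : Tree := (.s0 (.s1 (.s0 (.leaf 92 14 10 4 1) (.leaf 94 14 10 4 1)) (.s1 (.leaf 91 14 10 4 1) (.leaf 93 14 10 4 1))) (.leaf 80 14 10 4 1))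
theorem u03 : t_u03.ok 0 1 0 0 (UE0 (1, 0) D03) unitBx = true :=
  (Tree.ok_s0 (Tree.ok_s1 (Tree.ok_s0 lv.2.2.2.2.2.2.2.2.1.1 lv.2.2.2.2.2.2.2.2.1.2.1) (Tree.ok_s1 lv.2.2.2.2.2.2.2.2.1.2.2.1 lv.2.2.2.2.2.2.2.2.1.2.2.2.1)) lv.2.2.2.2.2.2.2.2.1.2.2.2.2)

def t_v03 : Tree := (.s1 (.leaf 80 14 10 4 1) (.s1 (.s2 (.leaf 94 14 10 4 1) (.leaf 95 14 10 4 1)) (.s1 (.leaf 102 14 10 4 1) (.leaf 103 14 10 4 1))))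
theorem v03 : t_v03.ok 0 1 0 0 (UE1 (1, 1) D03) unitBx = true :=
  (Tree.ok_s1 lv.2.2.2.2.2.2.2.2.2.1.1 (Tree.ok_s1 (Tree.ok_s2 lv.2.2.2.2.2.2.2.2.2.1.2.1 lv.2.2.2.2.2.2.2.2.2.1.2.2.1) (Tree.ok_s1 lv.2.2.2.2.2.2.2.2.2.1.2.2.2.1 lv.2.2.2.2.2.2.2.2.2.1.2.2.2.2)))

def t_h000 : Tree := (.s0 (.s1 (.leaf 135 14 14 6 6) (.leaf 136 14 14 6 6)) (.s2 (.leaf 131 14 14 6 6) (.leaf 132 14 14 6 6)))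
theorem h000 : t_h000.ok 0 1 0 0 (GM 0 0 (D 0) (1, 3) (-1, 7) (1, 4) (2, 4) (.q 144 624) p00 k00 k10) unitBx = true :=
  (Tree.ok_s0 (Tree.ok_s1 lv.2.2.2.2.2.2.2.2.2.2.1.1 lv.2.2.2.2.2.2.2.2.2.2.1.2.1) (Tree.ok_s2 lv.2.2.2.2.2.2.2.2.2.2.1.2.2.1 lv.2.2.2.2.2.2.2.2.2.2.1.2.2.2))

def t_h001 : Tree := (.s0 (.s1 (.leaf 125 14 14 6 6) (.leaf 126 14 14 6 6)) (.s2 (.leaf 122 14 14 6 6) (.leaf 123 14 14 6 6)))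
theorem h001 : t_h001.ok 0 1 0 0 (GM 0 0 (D 0) (1, 3) (-1, 7) (1, 4) (2, 4) (tau1 (1, 3)) p00 k00 k10) unitBx = true :=
  (Tree.ok_s0 (Tree.ok_s1 lv.2.2.2.2.2.2.2.2.2.2.2.1.1 lv.2.2.2.2.2.2.2.2.2.2.2.1.2.1) (Tree.ok_s2 lv.2.2.2.2.2.2.2.2.2.2.2.1.2.2.1 lv.2.2.2.2.2.2.2.2.2.2.2.1.2.2.2))

def t_h010 : Tree := (.s0 (.s1 (.leaf 134 14 14 6 6) (.leaf 135 14 14 6 6)) (.s1 (.leaf 137 14 14 6 6) (.leaf 142 14 14 6 6)))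
theorem h010 : t_h010.ok 0 1 0 0 (GM 0 1 (D 0) (1, 3) (-1, 7) (1, 4) (2, 4) (.q 144 624) p01 k01 k11) unitBx = true :=
  (Tree.ok_s0 (Tree.ok_s1 lv.2.2.2.2.2.2.2.2.2.2.2.2.1.1 lv.2.2.2.2.2.2.2.2.2.2.2.2.1.2.1) (Tree.ok_s1 lv.2.2.2.2.2.2.2.2.2.2.2.2.1.2.2.1 lv.2.2.2.2.2.2.2.2.2.2.2.2.1.2.2.2))

def t_h011 : Tree := (.s0 (.s0 (.leaf 125 14 14 6 6) (.leaf 126 14 14 6 6)) (.s1 (.leaf 128 14 14 6 6) (.leaf 133 14 14 6 6)))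
theorem h011 : t_h011.ok 0 1 0 0 (GM 0 1 (D 0) (1, 3) (-1, 7) (1, 4) (2, 4) (tau1 (1, 3)) p01 k01 k11) unitBx = true :=
  (Tree.ok_s0 (Tree.ok_s0 lv.2.2.2.2.2.2.2.2.2.2.2.2.2.1.1 lv.2.2.2.2.2.2.2.2.2.2.2.2.2.1.2.1) (Tree.ok_s1 lv.2.2.2.2.2.2.2.2.2.2.2.2.2.1.2.2.1 lv.2.2.2.2.2.2.2.2.2.2.2.2.2.1.2.2.2))

def t_h020 : Tree := (.s1 (.s0 (.leaf 134 14 14 6 6) (.leaf 137 14 14 6 6)) (.s0 (.leaf 135 14 14 6 6) (.leaf 142 14 14 6 6)))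
theorem h020 : t_h020.ok 0 1 0 0 (GM 0 2 (D 0) (1, 3) (-1, 7) (1, 4) (2, 4) (.q 144 624) p02 k02 k12) unitBx = true :=
  (Tree.ok_s1 (Tree.ok_s0 lv.2.2.2.2.2.2.2.2.2.2.2.2.2.2.1.1 lv.2.2.2.2.2.2.2.2.2.2.2.2.2.2.1.2.1) (Tree.ok_s0 lv.2.2.2.2.2.2.2.2.2.2.2.2.2.2.1.2.2.1 lv.2.2.2.2.2.2.2.2.2.2.2.2.2.2.1.2.2.2))

def t_h021 : Tree := (.s0 (.s1 (.leaf 125 14 14 6 6) (.leaf 126 14 14 6 6)) (.s1 (.leaf 128 14 14 6 6) (.leaf 133 14 14 6 6)))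
theorem h021 : t_h021.ok 0 1 0 0 (GM 0 2 (D 0) (1, 3) (-1, 7) (1, 4) (2, 4) (tau1 (1, 3)) p02 k02 k12) unitBx = true :=
  (Tree.ok_s0 (Tree.ok_s1 lv.2.2.2.2.2.2.2.2.2.2.2.2.2.2.2.1.1 lv.2.2.2.2.2.2.2.2.2.2.2.2.2.2.2.1.2.1) (Tree.ok_s1 lv.2.2.2.2.2.2.2.2.2.2.2.2.2.2.2.1.2.2.1 lv.2.2.2.2.2.2.2.2.2.2.2.2.2.2.2.1.2.2.2))

def t_h030 : Tree := (.s1 (.s0 (.leaf 135 14 14 6 6) (.leaf 137 14 14 6 6)) (.s0 (.leaf 135 14 14 6 6) (.leaf 142 14 14 6 6)))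
theorem h030 : t_h030.ok 0 1 0 0 (GM 0 3 (D 0) (1, 3) (-1, 7) (1, 4) (2, 4) (.q 144 624) p03 k03 k13) unitBx = true :=
  (Tree.ok_s1 (Tree.ok_s0 lv.2.2.2.2.2.2.2.2.2.2.2.2.2.2.2.2.1.1 lv.2.2.2.2.2.2.2.2.2.2.2.2.2.2.2.2.1.2.1) (Tree.ok_s0 lv.2.2.2.2.2.2.2.2.2.2.2.2.2.2.2.2.1.2.2.1 lv.2.2.2.2.2.2.2.2.2.2.2.2.2.2.2.2.1.2.2.2))

def t_h031 : Tree := (.s0 (.s1 (.leaf 125 14 14 6 6) (.leaf 126 14 14 6 6)) (.s1 (.leaf 128 14 14 6 6) (.leaf 133 14 14 6 6)))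
theorem h031 : t_h031.ok 0 1 0 0 (GM 0 3 (D 0) (1, 3) (-1, 7) (1, 4) (2, 4) (tau1 (1, 3)) p03 k03 k13) unitBx = true :=
  (Tree.ok_s0 (Tree.ok_s1 lv.2.2.2.2.2.2.2.2.2.2.2.2.2.2.2.2.2.1.1 lv.2.2.2.2.2.2.2.2.2.2.2.2.2.2.2.2.2.1.2.1) (Tree.ok_s1 lv.2.2.2.2.2.2.2.2.2.2.2.2.2.2.2.2.2.1.2.2.1 lv.2.2.2.2.2.2.2.2.2.2.2.2.2.2.2.2.2.1.2.2.2))

def t_s1 : Tree := (.leaf 88 9 10 5 1)
theorem s1 : t_s1.ok 0 1 0 0 (SEG D13 (-16588, 8191) (sP (24, 24) (1, 24)) p10 p11 p12 p13) unitBx = true :=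
  lv.2.2.2.2.2.2.2.2.2.2.2.2.2.2.2.2.2.2.1

def t_r1 : Tree := (.leaf 41 10 1 4 1)
theorem r1 : t_r1.ok 0 1 0 0 (RE D13 (-16588, 8191)) unitBx = true :=
  lv.2.2.2.2.2.2.2.2.2.2.2.2.2.2.2.2.2.2.2.1

def t_u10 : Tree := (.s0 (.s1 (.s0 (.leaf 92 14 10 4 1) (.leaf 95 14 10 4 1)) (.s0 (.leaf 95 14 10 4 1) (.leaf 99 14 10 4 1))) (.leaf 80 14 10 4 1))
theorem u10 : t_u10.ok 0 1 0 0 (UE0 (1, 0) D10) unitBx = true :=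
  (Tree.ok_s0 (Tree.ok_s1 (Tree.ok_s0 lv.2.2.2.2.2.2.2.2.2.2.2.2.2.2.2.2.2.2.2.2.1.1 lv.2.2.2.2.2.2.2.2.2.2.2.2.2.2.2.2.2.2.2.2.1.2.1) (Tree.ok_s0 lv.2.2.2.2.2.2.2.2.2.2.2.2.2.2.2.2.2.2.2.2.1.2.2.1 lv.2.2.2.2.2.2.2.2.2.2.2.2.2.2.2.2.2.2.2.2.1.2.2.2.1)) lv.2.2.2.2.2.2.2.2.2.2.2.2.2.2.2.2.2.2.2.2.1.2.2.2.2)

def t_v10 : Tree := (.s1 (.leaf 80 14 10 4 1) (.s2 (.s1 (.leaf 94 14 10 4 1) (.leaf 96 14 10 4 1)) (.s1 (.leaf 95 14 10 4 1) (.leaf 97 14 10 4 1))))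
theorem v10 : t_v10.ok 0 1 0 0 (UE1 (1, 1) D10) unitBx = true :=
  (Tree.ok_s1 lv.2.2.2.2.2.2.2.2.2.2.2.2.2.2.2.2.2.2.2.2.2.1.1 (Tree.ok_s2 (Tree.ok_s1 lv.2.2.2.2.2.2.2.2.2.2.2.2.2.2.2.2.2.2.2.2.2.1.2.1 lv.2.2.2.2.2.2.2.2.2.2.2.2.2.2.2.2.2.2.2.2.2.1.2.2.1) (Tree.ok_s1 lv.2.2.2.2.2.2.2.2.2.2.2.2.2.2.2.2.2.2.2.2.2.1.2.2.2.1 lv.2.2.2.2.2.2.2.2.2.2.2.2.2.2.2.2.2.2.2.2.2.1.2.2.2.2)))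

def t_u11 : Tree := (.s0 (.s1 (.s0 (.leaf 92 14 10 4 1) (.leaf 94 14 10 4 1)) (.leaf 84 14 10 4 1)) (.leaf 80 14 10 4 1))
theorem u11 : t_u11.ok 0 1 0 0 (UE0 (1, 0) D11) unitBx = true :=
  (Tree.ok_s0 (Tree.ok_s1 (Tree.ok_s0 lv.2.2.2.2.2.2.2.2.2.2.2.2.2.2.2.2.2.2.2.2.2.2.1.1 lv.2.2.2.2.2.2.2.2.2.2.2.2.2.2.2.2.2.2.2.2.2.2.1.2.1) lv.2.2.2.2.2.2.2.2.2.2.2.2.2.2.2.2.2.2.2.2.2.2.1.2.2.1) lv.2.2.2.2.2.2.2.2.2.2.2.2.2.2.2.2.2.2.2.2.2.2.1.2.2.2)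

def t_v11 : Tree := (.s1 (.leaf 80 14 10 4 1) (.s1 (.s2 (.leaf 94 14 10 4 1) (.leaf 95 14 10 4 1)) (.s0 (.leaf 104 14 10 4 1) (.leaf 109 14 10 4 1))))
theorem v11 : t_v11.ok 0 1 0 0 (UE1 (1, 1) D11) unitBx = true :=
  (Tree.ok_s1 lv.2.2.2.2.2.2.2.2.2.2.2.2.2.2.2.2.2.2.2.2.2.2.2.1.1 (Tree.ok_s1 (Tree.ok_s2 lv.2.2.2.2.2.2.2.2.2.2.2.2.2.2.2.2.2.2.2.2.2.2.2.1.2.1 lv.2.2.2.2.2.2.2.2.2.2.2.2.2.2.2.2.2.2.2.2.2.2.2.1.2.2.1) (Tree.ok_s0 lv.2.2.2.2.2.2.2.2.2.2.2.2.2.2.2.2.2.2.2.2.2.2.2.1.2.2.2.1 lv.2.2.2.2.2.2.2.2.2.2.2.2.2.2.2.2.2.2.2.2.2.2.2.1.2.2.2.2)))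

def t_u12 : Tree := (.s0 (.s1 (.s0 (.leaf 92 14 10 4 1) (.leaf 94 14 10 4 1)) (.s0 (.leaf 94 14 10 4 1) (.leaf 99 14 10 4 1))) (.leaf 80 14 10 4 1))
theorem u12 : t_u12.ok 0 1 0 0 (UE0 (1, 0) D12) unitBx = true :=
  (Tree.ok_s0 (Tree.ok_s1 (Tree.ok_s0 lv.2.2.2.2.2.2.2.2.2.2.2.2.2.2.2.2.2.2.2.2.2.2.2.2.1.1 lv.2.2.2.2.2.2.2.2.2.2.2.2.2.2.2.2.2.2.2.2.2.2.2.2.1.2.1) (Tree.ok_s0 lv.2.2.2.2.2.2.2.2.2.2.2.2.2.2.2.2.2.2.2.2.2.2.2.2.1.2.2.1 lv.2.2.2.2.2.2.2.2.2.2.2.2.2.2.2.2.2.2.2.2.2.2.2.2.1.2.2.2.1)) lv.2.2.2.2.2.2.2.2.2.2.2.2.2.2.2.2.2.2.2.2.2.2.2.2.1.2.2.2.2)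

def t_v12 : Tree := (.s1 (.leaf 80 14 10 4 1) (.s1 (.s2 (.leaf 94 14 10 4 1) (.leaf 95 14 10 4 1)) (.s1 (.leaf 102 14 10 4 1) (.leaf 103 14 10 4 1))))
theorem v12 : t_v12.ok 0 1 0 0 (UE1 (1, 1) D12) unitBx = true :=
  (Tree.ok_s1 lv.2.2.2.2.2.2.2.2.2.2.2.2.2.2.2.2.2.2.2.2.2.2.2.2.2.1.1 (Tree.ok_s1 (Tree.ok_s2 lv.2.2.2.2.2.2.2.2.2.2.2.2.2.2.2.2.2.2.2.2.2.2.2.2.2.1.2.1 lv.2.2.2.2.2.2.2.2.2.2.2.2.2.2.2.2.2.2.2.2.2.2.2.2.2.1.2.2.1) (Tree.ok_s1 lv.2.2.2.2.2.2.2.2.2.2.2.2.2.2.2.2.2.2.2.2.2.2.2.2.2.1.2.2.2.1 lv.2.2.2.2.2.2.2.2.2.2.2.2.2.2.2.2.2.2.2.2.2.2.2.2.2.1.2.2.2.2)))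

def t_u13 : Tree := (.s0 (.s1 (.s0 (.leaf 92 14 10 4 1) (.leaf 94 14 10 4 1)) (.s1 (.leaf 91 14 10 4 1) (.leaf 93 14 10 4 1))) (.leaf 80 14 10 4 1))
theorem u13 : t_u13.ok 0 1 0 0 (UE0 (1, 0) D13) unitBx = true :=
  (Tree.ok_s0 (Tree.ok_s1 (Tree.ok_s0 lv.2.2.2.2.2.2.2.2.2.2.2.2.2.2.2.2.2.2.2.2.2.2.2.2.2.2.1.1 lv.2.2.2.2.2.2.2.2.2.2.2.2.2.2.2.2.2.2.2.2.2.2.2.2.2.2.1.2.1) (Tree.ok_s1 lv.2.2.2.2.2.2.2.2.2.2.2.2.2.2.2.2.2.2.2.2.2.2.2.2.2.2.1.2.2.1 lv.2.2.2.2.2.2.2.2.2.2.2.2.2.2.2.2.2.2.2.2.2.2.2.2.2.2.1.2.2.2.1)) lv.2.2.2.2.2.2.2.2.2.2.2.2.2.2.2.2.2.2.2.2.2.2.2.2.2.2.1.2.2.2.2)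

def t_v13 : Tree := (.s1 (.leaf 80 14 10 4 1) (.s1 (.s2 (.leaf 94 14 10 4 1) (.leaf 94 14 10 4 1)) (.s1 (.leaf 102 14 10 4 1) (.leaf 103 14 10 4 1))))
theorem v13 : t_v13.ok 0 1 0 0 (UE1 (1, 1) D13) unitBx = true :=
  (Tree.ok_s1 lv.2.2.2.2.2.2.2.2.2.2.2.2.2.2.2.2.2.2.2.2.2.2.2.2.2.2.2.1.1 (Tree.ok_s1 (Tree.ok_s2 lv.2.2.2.2.2.2.2.2.2.2.2.2.2.2.2.2.2.2.2.2.2.2.2.2.2.2.2.1.2.1 lv.2.2.2.2.2.2.2.2.2.2.2.2.2.2.2.2.2.2.2.2.2.2.2.2.2.2.2.1.2.2.1) (Tree.ok_s1 lv.2.2.2.2.2.2.2.2.2.2.2.2.2.2.2.2.2.2.2.2.2.2.2.2.2.2.2.1.2.2.2.1 lv.2.2.2.2.2.2.2.2.2.2.2.2.2.2.2.2.2.2.2.2.2.2.2.2.2.2.2.1.2.2.2.2)))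

def t_h100 : Tree := (.s0 (.s1 (.leaf 135 14 14 6 6) (.leaf 136 14 14 6 6)) (.s1 (.leaf 138 14 14 6 6) (.leaf 143 14 14 6 6)))
theorem h100 : t_h100.ok 0 1 0 0 (GM 1 0 (D 1) (1, 3) (-1, 7) (1, 4) (2, 4) (.q 144 624) p10 k00 k10) unitBx = true :=
  (Tree.ok_s0 (Tree.ok_s1 lv.2.2.2.2.2.2.2.2.2.2.2.2.2.2.2.2.2.2.2.2.2.2.2.2.2.2.2.2.1.1 lv.2.2.2.2.2.2.2.2.2.2.2.2.2.2.2.2.2.2.2.2.2.2.2.2.2.2.2.2.1.2.1) (Tree.ok_s1 lv.2.2.2.2.2.2.2.2.2.2.2.2.2.2.2.2.2.2.2.2.2.2.2.2.2.2.2.2.1.2.2.1 lv.2.2.2.2.2.2.2.2.2.2.2.2.2.2.2.2.2.2.2.2.2.2.2.2.2.2.2.2.1.2.2.2))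

def t_h101 : Tree := (.s0 (.leaf 113 14 14 6 6) (.s0 (.leaf 129 14 14 6 6) (.leaf 132 14 14 6 6)))
theorem h101 : t_h101.ok 0 1 0 0 (GM 1 0 (D 1) (1, 3) (-1, 7) (1, 4) (2, 4) (tau1 (1, 3)) p10 k00 k10) unitBx = true :=
  (Tree.ok_s0 lv.2.2.2.2.2.2.2.2.2.2.2.2.2.2.2.2.2.2.2.2.2.2.2.2.2.2.2.2.2.1.1 (Tree.ok_s0 lv.2.2.2.2.2.2.2.2.2.2.2.2.2.2.2.2.2.2.2.2.2.2.2.2.2.2.2.2.2.1.2.1 lv.2.2.2.2.2.2.2.2.2.2.2.2.2.2.2.2.2.2.2.2.2.2.2.2.2.2.2.2.2.1.2.2))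

def t_h110 : Tree := (.s0 (.s1 (.leaf 135 14 14 6 6) (.leaf 135 14 14 6 6)) (.s1 (.leaf 138 14 14 6 6) (.leaf 143 14 14 6 6)))
theorem h110 : t_h110.ok 0 1 0 0 (GM 1 1 (D 1) (1, 3) (-1, 7) (1, 4) (2, 4) (.q 144 624) p11 k01 k11) unitBx = true :=
  (Tree.ok_s0 (Tree.ok_s1 lv.2.2.2.2.2.2.2.2.2.2.2.2.2.2.2.2.2.2.2.2.2.2.2.2.2.2.2.2.2.2.1.1 lv.2.2.2.2.2.2.2.2.2.2.2.2.2.2.2.2.2.2.2.2.2.2.2.2.2.2.2.2.2.2.1.2.1) (Tree.ok_s1 lv.2.2.2.2.2.2.2.2.2.2.2.2.2.2.2.2.2.2.2.2.2.2.2.2.2.2.2.2.2.2.1.2.2.1 lv.2.2.2.2.2.2.2.2.2.2.2.2.2.2.2.2.2.2.2.2.2.2.2.2.2.2.2.2.2.2.1.2.2.2))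

def t_h111 : Tree := (.s0 (.s1 (.leaf 125 14 14 6 6) (.leaf 126 14 14 6 6)) (.s1 (.leaf 128 14 14 6 6) (.leaf 133 14 14 6 6)))
theorem h111 : t_h111.ok 0 1 0 0 (GM 1 1 (D 1) (1, 3) (-1, 7) (1, 4) (2, 4) (tau1 (1, 3)) p11 k01 k11) unitBx = true :=
  (Tree.ok_s0 (Tree.ok_s1 lv.2.2.2.2.2.2.2.2.2.2.2.2.2.2.2.2.2.2.2.2.2.2.2.2.2.2.2.2.2.2.2.1.1 lv.2.2.2.2.2.2.2.2.2.2.2.2.2.2.2.2.2.2.2.2.2.2.2.2.2.2.2.2.2.2.2.1.2.1) (Tree.ok_s1 lv.2.2.2.2.2.2.2.2.2.2.2.2.2.2.2.2.2.2.2.2.2.2.2.2.2.2.2.2.2.2.2.1.2.2.1 lv.2.2.2.2.2.2.2.2.2.2.2.2.2.2.2.2.2.2.2.2.2.2.2.2.2.2.2.2.2.2.2.1.2.2.2))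

def t_h120 : Tree := (.s0 (.s1 (.leaf 135 14 14 6 6) (.leaf 136 14 14 6 6)) (.s1 (.leaf 137 14 14 6 6) (.leaf 142 14 14 6 6)))
theorem h120 : t_h120.ok 0 1 0 0 (GM 1 2 (D 1) (1, 3) (-1, 7) (1, 4) (2, 4) (.q 144 624) p12 k02 k12) unitBx = true :=
  (Tree.ok_s0 (Tree.ok_s1 lv.2.2.2.2.2.2.2.2.2.2.2.2.2.2.2.2.2.2.2.2.2.2.2.2.2.2.2.2.2.2.2.2.1.1 lv.2.2.2.2.2.2.2.2.2.2.2.2.2.2.2.2.2.2.2.2.2.2.2.2.2.2.2.2.2.2.2.2.1.2.1) (Tree.ok_s1 lv.2.2.2.2.2.2.2.2.2.2.2.2.2.2.2.2.2.2.2.2.2.2.2.2.2.2.2.2.2.2.2.2.1.2.2.1 lv.2.2.2.2.2.2.2.2.2.2.2.2.2.2.2.2.2.2.2.2.2.2.2.2.2.2.2.2.2.2.2.2.1.2.2.2))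

def t_h121 : Tree := (.s0 (.s1 (.leaf 125 14 14 6 6) (.leaf 126 14 14 6 6)) (.s1 (.leaf 128 14 14 6 6) (.leaf 133 14 14 6 6)))
theorem h121 : t_h121.ok 0 1 0 0 (GM 1 2 (D 1) (1, 3) (-1, 7) (1, 4) (2, 4) (tau1 (1, 3)) p12 k02 k12) unitBx = true :=
  (Tree.ok_s0 (Tree.ok_s1 lv.2.2.2.2.2.2.2.2.2.2.2.2.2.2.2.2.2.2.2.2.2.2.2.2.2.2.2.2.2.2.2.2.2.1.1 lv.2.2.2.2.2.2.2.2.2.2.2.2.2.2.2.2.2.2.2.2.2.2.2.2.2.2.2.2.2.2.2.2.2.1.2.1) (Tree.ok_s1 lv.2.2.2.2.2.2.2.2.2.2.2.2.2.2.2.2.2.2.2.2.2.2.2.2.2.2.2.2.2.2.2.2.2.1.2.2.1 lv.2.2.2.2.2.2.2.2.2.2.2.2.2.2.2.2.2.2.2.2.2.2.2.2.2.2.2.2.2.2.2.2.2.1.2.2.2))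

def t_h130 : Tree := (.s3 (.s0 (.leaf 127 14 14 6 6) (.leaf 131 14 14 6 6)) (.s0 (.leaf 127 14 14 6 6) (.leaf 132 14 14 6 6)))
theorem h130 : t_h130.ok 0 1 0 0 (GM 1 3 (D 1) (1, 3) (-1, 7) (1, 4) (2, 4) (.q 144 624) p13 k03 k13) unitBx = true :=
  (Tree.ok_s3 (Tree.ok_s0 lv.2.2.2.2.2.2.2.2.2.2.2.2.2.2.2.2.2.2.2.2.2.2.2.2.2.2.2.2.2.2.2.2.2.2.1.1 lv.2.2.2.2.2.2.2.2.2.2.2.2.2.2.2.2.2.2.2.2.2.2.2.2.2.2.2.2.2.2.2.2.2.2.1.2.1) (Tree.ok_s0 lv.2.2.2.2.2.2.2.2.2.2.2.2.2.2.2.2.2.2.2.2.2.2.2.2.2.2.2.2.2.2.2.2.2.2.1.2.2.1 lv.2.2.2.2.2.2.2.2.2.2.2.2.2.2.2.2.2.2.2.2.2.2.2.2.2.2.2.2.2.2.2.2.2.2.1.2.2.2))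

def t_h131 : Tree := (.s3 (.s0 (.leaf 118 14 14 6 6) (.leaf 122 14 14 6 6)) (.s0 (.leaf 118 14 14 6 6) (.leaf 123 14 14 6 6)))
theorem h131 : t_h131.ok 0 1 0 0 (GM 1 3 (D 1) (1, 3) (-1, 7) (1, 4) (2, 4) (tau1 (1, 3)) p13 k03 k13) unitBx = true :=
  (Tree.ok_s3 (Tree.ok_s0 lv.2.2.2.2.2.2.2.2.2.2.2.2.2.2.2.2.2.2.2.2.2.2.2.2.2.2.2.2.2.2.2.2.2.2.2.1.1 lv.2.2.2.2.2.2.2.2.2.2.2.2.2.2.2.2.2.2.2.2.2.2.2.2.2.2.2.2.2.2.2.2.2.2.2.1.2.1) (Tree.ok_s0 lv.2.2.2.2.2.2.2.2.2.2.2.2.2.2.2.2.2.2.2.2.2.2.2.2.2.2.2.2.2.2.2.2.2.2.2.1.2.2.1 lv.2.2.2.2.2.2.2.2.2.2.2.2.2.2.2.2.2.2.2.2.2.2.2.2.2.2.2.2.2.2.2.2.2.2.2.1.2.2.2))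

def t_s2 : Tree := (.s2 (.s1 (.leaf 99 9 10 5 1) (.leaf 102 9 10 5 1)) (.leaf 93 9 10 5 1))
theorem s2 : t_s2.ok 0 1 0 0 (SEG D23 (-22717, 8191) (sP (24, 24) (1, 24)) p20 p21 p22 p23) unitBx = true :=
  (Tree.ok_s2 (Tree.ok_s1 lv.2.2.2.2.2.2.2.2.2.2.2.2.2.2.2.2.2.2.2.2.2.2.2.2.2.2.2.2.2.2.2.2.2.2.2.2.1.1 lv.2.2.2.2.2.2.2.2.2.2.2.2.2.2.2.2.2.2.2.2.2.2.2.2.2.2.2.2.2.2.2.2.2.2.2.2.1.2.1) lv.2.2.2.2.2.2.2.2.2.2.2.2.2.2.2.2.2.2.2.2.2.2.2.2.2.2.2.2.2.2.2.2.2.2.2.2.1.2.2)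

def t_r2 : Tree := (.leaf 41 10 1 4 1)
theorem r2 : t_r2.ok 0 1 0 0 (RE D23 (-22717, 8191)) unitBx = true :=
  lv.2.2.2.2.2.2.2.2.2.2.2.2.2.2.2.2.2.2.2.2.2.2.2.2.2.2.2.2.2.2.2.2.2.2.2.2.2.1

def t_u20 : Tree := (.s0 (.s1 (.s0 (.leaf 92 14 10 4 1) (.leaf 95 14 10 4 1)) (.s0 (.leaf 95 14 10 4 1) (.leaf 100 14 10 4 1))) (.leaf 81 14 10 4 1))
theorem u20 : t_u20.ok 0 1 0 0 (UE0 (1, 0) D20) unitBx = true :=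
  (Tree.ok_s0 (Tree.ok_s1 (Tree.ok_s0 lv.2.2.2.2.2.2.2.2.2.2.2.2.2.2.2.2.2.2.2.2.2.2.2.2.2.2.2.2.2.2.2.2.2.2.2.2.2.2.1.1 lv.2.2.2.2.2.2.2.2.2.2.2.2.2.2.2.2.2.2.2.2.2.2.2.2.2.2.2.2.2.2.2.2.2.2.2.2.2.2.1.2.1) (Tree.ok_s0 lv.2.2.2.2.2.2.2.2.2.2.2.2.2.2.2.2.2.2.2.2.2.2.2.2.2.2.2.2.2.2.2.2.2.2.2.2.2.2.1.2.2.1 lv.2.2.2.2.2.2.2.2.2.2.2.2.2.2.2.2.2.2.2.2.2.2.2.2.2.2.2.2.2.2.2.2.2.2.2.2.2.2.1.2.2.2.1)) lv.2.2.2.2.2.2.2.2.2.2.2.2.2.2.2.2.2.2.2.2.2.2.2.2.2.2.2.2.2.2.2.2.2.2.2.2.2.2.1.2.2.2.2)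

def t_v20 : Tree := (.s1 (.leaf 80 14 10 4 1) (.s1 (.s0 (.leaf 103 14 10 4 1) (.leaf 107 14 10 4 1)) (.s2 (.leaf 97 14 10 4 1) (.leaf 98 14 10 4 1))))
theorem v20 : t_v20.ok 0 1 0 0 (UE1 (1, 1) D20) unitBx = true :=
  (Tree.ok_s1 lv.2.2.2.2.2.2.2.2.2.2.2.2.2.2.2.2.2.2.2.2.2.2.2.2.2.2.2.2.2.2.2.2.2.2.2.2.2.2.2.1.1 (Tree.ok_s1 (Tree.ok_s0 lv.2.2.2.2.2.2.2.2.2.2.2.2.2.2.2.2.2.2.2.2.2.2.2.2.2.2.2.2.2.2.2.2.2.2.2.2.2.2.2.1.2.1 lv.2.2.2.2.2.2.2.2.2.2.2.2.2.2.2.2.2.2.2.2.2.2.2.2.2.2.2.2.2.2.2.2.2.2.2.2.2.2.2.1.2.2.1) (Tree.ok_s2 lv.2.2.2.2.2.2.2.2.2.2.2.2.2.2.2.2.2.2.2.2.2.2.2.2.2.2.2.2.2.2.2.2.2.2.2.2.2.2.2.1.2.2.2.1 lv.2.2.2.2.2.2.2.2.2.2.2.2.2.2.2.2.2.2.2.2.2.2.2.2.2.2.2.2.2.2.2.2.2.2.2.2.2.2.2.1.2.2.2.2)))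

def t_u21 : Tree := (.s0 (.s1 (.s0 (.leaf 92 14 10 4 1) (.leaf 95 14 10 4 1)) (.leaf 84 14 10 4 1)) (.leaf 80 14 10 4 1))
theorem u21 : t_u21.ok 0 1 0 0 (UE0 (1, 0) D21) unitBx = true :=
  (Tree.ok_s0 (Tree.ok_s1 (Tree.ok_s0 lv.2.2.2.2.2.2.2.2.2.2.2.2.2.2.2.2.2.2.2.2.2.2.2.2.2.2.2.2.2.2.2.2.2.2.2.2.2.2.2.2.1.1 lv.2.2.2.2.2.2.2.2.2.2.2.2.2.2.2.2.2.2.2.2.2.2.2.2.2.2.2.2.2.2.2.2.2.2.2.2.2.2.2.2.1.2.1) lv.2.2.2.2.2.2.2.2.2.2.2.2.2.2.2.2.2.2.2.2.2.2.2.2.2.2.2.2.2.2.2.2.2.2.2.2.2.2.2.2.1.2.2.1) lv.2.2.2.2.2.2.2.2.2.2.2.2.2.2.2.2.2.2.2.2.2.2.2.2.2.2.2.2.2.2.2.2.2.2.2.2.2.2.2.2.1.2.2.2)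

def t_v21 : Tree := (.s1 (.leaf 80 14 10 4 1) (.s2 (.s2 (.leaf 89 14 10 4 1) (.leaf 90 14 10 4 1)) (.s0 (.leaf 98 14 10 4 1) (.leaf 103 14 10 4 1))))
theorem v21 : t_v21.ok 0 1 0 0 (UE1 (1, 1) D21) unitBx = true :=
  (Tree.ok_s1 lv.2.2.2.2.2.2.2.2.2.2.2.2.2.2.2.2.2.2.2.2.2.2.2.2.2.2.2.2.2.2.2.2.2.2.2.2.2.2.2.2.2.1.1 (Tree.ok_s2 (Tree.ok_s2 lv.2.2.2.2.2.2.2.2.2.2.2.2.2.2.2.2.2.2.2.2.2.2.2.2.2.2.2.2.2.2.2.2.2.2.2.2.2.2.2.2.2.1.2.1 lv.2.2.2.2.2.2.2.2.2.2.2.2.2.2.2.2.2.2.2.2.2.2.2.2.2.2.2.2.2.2.2.2.2.2.2.2.2.2.2.2.2.1.2.2.1) (Tree.ok_s0 lv.2.2.2.2.2.2.2.2.2.2.2.2.2.2.2.2.2.2.2.2.2.2.2.2.2.2.2.2.2.2.2.2.2.2.2.2.2.2.2.2.2.1.2.2.2.1 lv.2.2.2.2.2.2.2.2.2.2.2.2.2.2.2.2.2.2.2.2.2.2.2.2.2.2.2.2.2.2.2.2.2.2.2.2.2.2.2.2.2.1.2.2.2.2)))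

def t_u22 : Tree := (.s1 (.s0 (.s0 (.leaf 92 14 10 4 1) (.leaf 95 14 10 4 1)) (.leaf 87 14 10 4 1)) (.s0 (.s1 (.leaf 93 14 10 4 1) (.leaf 95 14 10 4 1)) (.leaf 92 14 10 4 1)))
theorem u22 : t_u22.ok 0 1 0 0 (UE0 (1, 0) D22) unitBx = true :=
  (Tree.ok_s1 (Tree.ok_s0 (Tree.ok_s0 lv.2.2.2.2.2.2.2.2.2.2.2.2.2.2.2.2.2.2.2.2.2.2.2.2.2.2.2.2.2.2.2.2.2.2.2.2.2.2.2.2.2.2.1.1 lv.2.2.2.2.2.2.2.2.2.2.2.2.2.2.2.2.2.2.2.2.2.2.2.2.2.2.2.2.2.2.2.2.2.2.2.2.2.2.2.2.2.2.1.2.1) lv.2.2.2.2.2.2.2.2.2.2.2.2.2.2.2.2.2.2.2.2.2.2.2.2.2.2.2.2.2.2.2.2.2.2.2.2.2.2.2.2.2.2.1.2.2.1) (Tree.ok_s0 (Tree.ok_s1 lv.2.2.2.2.2.2.2.2.2.2.2.2.2.2.2.2.2.2.2.2.2.2.2.2.2.2.2.2.2.2.2.2.2.2.2.2.2.2.2.2.2.2.1.2.2.2.1 lv.2.2.2.2.2.2.2.2.2.2.2.2.2.2.2.2.2.2.2.2.2.2.2.2.2.2.2.2.2.2.2.2.2.2.2.2.2.2.2.2.2.2.1.2.2.2.2.1)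 lv.2.2.2.2.2.2.2.2.2.2.2.2.2.2.2.2.2.2.2.2.2.2.2.2.2.2.2.2.2.2.2.2.2.2.2.2.2.2.2.2.2.2.1.2.2.2.2.2))

def t_v22 : Tree := (.s1 (.leaf 81 14 10 4 1) (.s1 (.s2 (.leaf 95 14 10 4 1) (.leaf 96 14 10 4 1)) (.s2 (.leaf 97 14 10 4 1) (.leaf 98 14 10 4 1))))
theorem v22 : t_v22.ok 0 1 0 0 (UE1 (1, 1) D22) unitBx = true :=
  (Tree.ok_s1 lv.2.2.2.2.2.2.2.2.2.2.2.2.2.2.2.2.2.2.2.2.2.2.2.2.2.2.2.2.2.2.2.2.2.2.2.2.2.2.2.2.2.2.2.1.1 (Tree.ok_s1 (Tree.ok_s2 lv.2.2.2.2.2.2.2.2.2.2.2.2.2.2.2.2.2.2.2.2.2.2.2.2.2.2.2.2.2.2.2.2.2.2.2.2.2.2.2.2.2.2.2.1.2.1 lv.2.2.2.2.2.2.2.2.2.2.2.2.2.2.2.2.2.2.2.2.2.2.2.2.2.2.2.2.2.2.2.2.2.2.2.2.2.2.2.2.2.2.2.1.2.2.1) (Tree.ok_s2 lv.2.2.2.2.2.2.2.2.2.2.2.2.2.2.2.2.2.2.2.2.2.2.2.2.2.2.2.2.2.2.2.2.2.2.2.2.2.2.2.2.2.2.2.1.2.2.2.1 lv.2.2.2.2.2.2.2.2.2.2.2.2.2.2.2.2.2.2.2.2.2.2.2.2.2.2.2.2.2.2.2.2.2.2.2.2.2.2.2.2.2.2.2.1.2.2.2.2)))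

def t_u23 : Tree := (.s0 (.s1 (.s0 (.leaf 92 14 10 4 1) (.leaf 95 14 10 4 1)) (.s1 (.leaf 91 14 10 4 1) (.leaf 94 14 10 4 1))) (.leaf 80 14 10 4 1))
theorem u23 : t_u23.ok 0 1 0 0 (UE0 (1, 0) D23) unitBx = true :=
  (Tree.ok_s0 (Tree.ok_s1 (Tree.ok_s0 lv.2.2.2.2.2.2.2.2.2.2.2.2.2.2.2.2.2.2.2.2.2.2.2.2.2.2.2.2.2.2.2.2.2.2.2.2.2.2.2.2.2.2.2.2.1.1 lv.2.2.2.2.2.2.2.2.2.2.2.2.2.2.2.2.2.2.2.2.2.2.2.2.2.2.2.2.2.2.2.2.2.2.2.2.2.2.2.2.2.2.2.2.1.2.1) (Tree.ok_s1 lv.2.2.2.2.2.2.2.2.2.2.2.2.2.2.2.2.2.2.2.2.2.2.2.2.2.2.2.2.2.2.2.2.2.2.2.2.2.2.2.2.2.2.2.2.1.2.2.1 lv.2.2.2.2.2.2.2.2.2.2.2.2.2.2.2.2.2.2.2.2.2.2.2.2.2.2.2.2.2.2.2.2.2.2.2.2.2.2.2.2.2.2.2.2.1.2.2.2.1)) lv.2.2.2.2.2.2.2.2.2.2.2.2.2.2.2.2.2.2.2.2.2.2.2.2.2.2.2.2.2.2.2.2.2.2.2.2.2.2.2.2.2.2.2.2.1.2.2.2.2)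

def t_v23 : Tree := (.s1 (.leaf 80 14 10 4 1) (.s1 (.s2 (.leaf 94 14 10 4 1) (.leaf 95 14 10 4 1)) (.s1 (.leaf 102 14 10 4 1) (.leaf 103 14 10 4 1))))
theorem v23 : t_v23.ok 0 1 0 0 (UE1 (1, 1) D23) unitBx = true :=
  (Tree.ok_s1 lv.2.2.2.2.2.2.2.2.2.2.2.2.2.2.2.2.2.2.2.2.2.2.2.2.2.2.2.2.2.2.2.2.2.2.2.2.2.2.2.2.2.2.2.2.2.1.1 (Tree.ok_s1 (Tree.ok_s2 lv.2.2.2.2.2.2.2.2.2.2.2.2.2.2.2.2.2.2.2.2.2.2.2.2.2.2.2.2.2.2.2.2.2.2.2.2.2.2.2.2.2.2.2.2.2.1.2.1 lv.2.2.2.2.2.2.2.2.2.2.2.2.2.2.2.2.2.2.2.2.2.2.2.2.2.2.2.2.2.2.2.2.2.2.2.2.2.2.2.2.2.2.2.2.2.1.2.2.1) (Tree.ok_s1 lv.2.2.2.2.2.2.2.2.2.2.2.2.2.2.2.2.2.2.2.2.2.2.2.2.2.2.2.2.2.2.2.2.2.2.2.2.2.2.2.2.2.2.2.2.2.1.2.2.2.1 lv.2.2.2.2.2.2.2.2.2.2.2.2.2.2.2.2.2.2.2.2.2.2.2.2.2.2.2.2.2.2.2.2.2.2.2.2.2.2.2.2.2.2.2.2.2.1.2.2.2.2)))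

def t_h200 : Tree := (.s0 (.s1 (.leaf 135 14 14 6 6) (.leaf 136 14 14 6 6)) (.s2 (.leaf 132 14 14 6 6) (.leaf 133 14 14 6 6)))
theorem h200 : t_h200.ok 0 1 0 0 (GM 2 0 (D 2) (1, 3) (-1, 7) (1, 4) (2, 4) (.q 144 624) p20 k00 k10) unitBx = true :=
  (Tree.ok_s0 (Tree.ok_s1 lv.2.2.2.2.2.2.2.2.2.2.2.2.2.2.2.2.2.2.2.2.2.2.2.2.2.2.2.2.2.2.2.2.2.2.2.2.2.2.2.2.2.2.2.2.2.2.1.1 lv.2.2.2.2.2.2.2.2.2.2.2.2.2.2.2.2.2.2.2.2.2.2.2.2.2.2.2.2.2.2.2.2.2.2.2.2.2.2.2.2.2.2.2.2.2.2.1.2.1) (Tree.ok_s2 lv.2.2.2.2.2.2.2.2.2.2.2.2.2.2.2.2.2.2.2.2.2.2.2.2.2.2.2.2.2.2.2.2.2.2.2.2.2.2.2.2.2.2.2.2.2.2.1.2.2.1 lv.2.2.2.2.2.2.2.2.2.2.2.2.2.2.2.2.2.2.2.2.2.2.2.2.2.2.2.2.2.2.2.2.2.2.2.2.2.2.2.2.2.2.2.2.2.2.1.2.2.2))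

def t_h201 : Tree := (.s0 (.s1 (.leaf 126 14 14 6 6) (.leaf 127 14 14 6 6)) (.s2 (.leaf 123 14 14 6 6) (.leaf 124 14 14 6 6)))
theorem h201 : t_h201.ok 0 1 0 0 (GM 2 0 (D 2) (1, 3) (-1, 7) (1, 4) (2, 4) (tau1 (1, 3)) p20 k00 k10) unitBx = true :=
  (Tree.ok_s0 (Tree.ok_s1 lv.2.2.2.2.2.2.2.2.2.2.2.2.2.2.2.2.2.2.2.2.2.2.2.2.2.2.2.2.2.2.2.2.2.2.2.2.2.2.2.2.2.2.2.2.2.2.2.1.1 lv.2.2.2.2.2.2.2.2.2.2.2.2.2.2.2.2.2.2.2.2.2.2.2.2.2.2.2.2.2.2.2.2.2.2.2.2.2.2.2.2.2.2.2.2.2.2.2.1.2.1) (Tree.ok_s2 lv.2.2.2.2.2.2.2.2.2.2.2.2.2.2.2.2.2.2.2.2.2.2.2.2.2.2.2.2.2.2.2.2.2.2.2.2.2.2.2.2.2.2.2.2.2.2.2.1.2.2.1 lv.2.2.2.2.2.2.2.2.2.2.2.2.2.2.2.2.2.2.2.2.2.2.2.2.2.2.2.2.2.2.2.2.2.2.2.2.2.2.2.2.2.2.2.2.2.2.2.1.2.2.2))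

def t_h210 : Tree := (.s0 (.s1 (.leaf 135 14 14 6 6) (.leaf 136 14 14 6 6)) (.s1 (.leaf 138 14 14 6 6) (.leaf 143 14 14 6 6)))
theorem h210 : t_h210.ok 0 1 0 0 (GM 2 1 (D 2) (1, 3) (-1, 7) (1, 4) (2, 4) (.q 144 624) p21 k01 k11) unitBx = true :=
  (Tree.ok_s0 (Tree.ok_s1 lv.2.2.2.2.2.2.2.2.2.2.2.2.2.2.2.2.2.2.2.2.2.2.2.2.2.2.2.2.2.2.2.2.2.2.2.2.2.2.2.2.2.2.2.2.2.2.2.2.1.1 lv.2.2.2.2.2.2.2.2.2.2.2.2.2.2.2.2.2.2.2.2.2.2.2.2.2.2.2.2.2.2.2.2.2.2.2.2.2.2.2.2.2.2.2.2.2.2.2.2.1.2.1) (Tree.ok_s1 lv.2.2.2.2.2.2.2.2.2.2.2.2.2.2.2.2.2.2.2.2.2.2.2.2.2.2.2.2.2.2.2.2.2.2.2.2.2.2.2.2.2.2.2.2.2.2.2.2.1.2.2.1 lv.2.2.2.2.2.2.2.2.2.2.2.2.2.2.2.2.2.2.2.2.2.2.2.2.2.2.2.2.2.2.2.2.2.2.2.2.2.2.2.2.2.2.2.2.2.2.2.2.1.2.2.2))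

def t_h211 : Tree := (.s0 (.leaf 113 14 14 6 6) (.leaf 118 14 14 6 6))
theorem h211 : t_h211.ok 0 1 0 0 (GM 2 1 (D 2) (1, 3) (-1, 7) (1, 4) (2, 4) (tau1 (1, 3)) p21 k01 k11) unitBx = true :=
  (Tree.ok_s0 lv.2.2.2.2.2.2.2.2.2.2.2.2.2.2.2.2.2.2.2.2.2.2.2.2.2.2.2.2.2.2.2.2.2.2.2.2.2.2.2.2.2.2.2.2.2.2.2.2.2.1.1 lv.2.2.2.2.2.2.2.2.2.2.2.2.2.2.2.2.2.2.2.2.2.2.2.2.2.2.2.2.2.2.2.2.2.2.2.2.2.2.2.2.2.2.2.2.2.2.2.2.2.1.2)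

def t_h220 : Tree := (.s0 (.s1 (.leaf 135 14 14 6 6) (.leaf 136 14 14 6 6)) (.s1 (.leaf 138 14 14 6 6) (.leaf 143 14 14 6 6)))
theorem h220 : t_h220.ok 0 1 0 0 (GM 2 2 (D 2) (1, 3) (-1, 7) (1, 4) (2, 4) (.q 144 624) p22 k02 k12) unitBx = true :=
  (Tree.ok_s0 (Tree.ok_s1 lv.2.2.2.2.2.2.2.2.2.2.2.2.2.2.2.2.2.2.2.2.2.2.2.2.2.2.2.2.2.2.2.2.2.2.2.2.2.2.2.2.2.2.2.2.2.2.2.2.2.2.1.1 lv.2.2.2.2.2.2.2.2.2.2.2.2.2.2.2.2.2.2.2.2.2.2.2.2.2.2.2.2.2.2.2.2.2.2.2.2.2.2.2.2.2.2.2.2.2.2.2.2.2.2.1.2.1) (Tree.ok_s1 lv.2.2.2.2.2.2.2.2.2.2.2.2.2.2.2.2.2.2.2.2.2.2.2.2.2.2.2.2.2.2.2.2.2.2.2.2.2.2.2.2.2.2.2.2.2.2.2.2.2.2.1.2.2.1 lv.2.2.2.2.2.2.2.2.2.2.2.2.2.2.2.2.2.2.2.2.2.2.2.2.2.2.2.2.2.2.2.2.2.2.2.2.2.2.2.2.2.2.2.2.2.2.2.2.2.2.1.2.2.2))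

def t_h221 : Tree := (.s0 (.s1 (.leaf 126 14 14 6 6) (.leaf 127 14 14 6 6)) (.s1 (.leaf 129 14 14 6 6) (.leaf 134 14 14 6 6)))
theorem h221 : t_h221.ok 0 1 0 0 (GM 2 2 (D 2) (1, 3) (-1, 7) (1, 4) (2, 4) (tau1 (1, 3)) p22 k02 k12) unitBx = true :=
  (Tree.ok_s0 (Tree.ok_s1 lv.2.2.2.2.2.2.2.2.2.2.2.2.2.2.2.2.2.2.2.2.2.2.2.2.2.2.2.2.2.2.2.2.2.2.2.2.2.2.2.2.2.2.2.2.2.2.2.2.2.2.2.1.1 lv.2.2.2.2.2.2.2.2.2.2.2.2.2.2.2.2.2.2.2.2.2.2.2.2.2.2.2.2.2.2.2.2.2.2.2.2.2.2.2.2.2.2.2.2.2.2.2.2.2.2.2.1.2.1) (Tree.ok_s1 lv.2.2.2.2.2.2.2.2.2.2.2.2.2.2.2.2.2.2.2.2.2.2.2.2.2.2.2.2.2.2.2.2.2.2.2.2.2.2.2.2.2.2.2.2.2.2.2.2.2.2.2.1.2.2.1 lv.2.2.2.2.2.2.2.2.2.2.2.2.2.2.2.2.2.2.2.2.2.2.2.2.2.2.2.2.2.2.2.2.2.2.2.2.2.2.2.2.2.2.2.2.2.2.2.2.2.2.2.1.2.2.2))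

def t_h230 : Tree := (.s0 (.s1 (.leaf 135 14 14 6 6) (.leaf 136 14 14 6 6)) (.s2 (.leaf 131 14 14 6 6) (.leaf 133 14 14 6 6)))
theorem h230 : t_h230.ok 0 1 0 0 (GM 2 3 (D 2) (1, 3) (-1, 7) (1, 4) (2, 4) (.q 144 624) p23 k03 k13) unitBx = true :=
  (Tree.ok_s0 (Tree.ok_s1 lv.2.2.2.2.2.2.2.2.2.2.2.2.2.2.2.2.2.2.2.2.2.2.2.2.2.2.2.2.2.2.2.2.2.2.2.2.2.2.2.2.2.2.2.2.2.2.2.2.2.2.2.2.1.1 lv.2.2.2.2.2.2.2.2.2.2.2.2.2.2.2.2.2.2.2.2.2.2.2.2.2.2.2.2.2.2.2.2.2.2.2.2.2.2.2.2.2.2.2.2.2.2.2.2.2.2.2.2.1.2.1) (Tree.ok_s2 lv.2.2.2.2.2.2.2.2.2.2.2.2.2.2.2.2.2.2.2.2.2.2.2.2.2.2.2.2.2.2.2.2.2.2.2.2.2.2.2.2.2.2.2.2.2.2.2.2.2.2.2.2.1.2.2.1 lv.2.2.2.2.2.2.2.2.2.2.2.2.2.2.2.2.2.2.2.2.2.2.2.2.2.2.2.2.2.2.2.2.2.2.2.2.2.2.2.2.2.2.2.2.2.2.2.2.2.2.2.2.1.2.2.2))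

def t_h231 : Tree := (.s0 (.leaf 113 14 14 6 6) (.s0 (.leaf 129 14 14 6 6) (.leaf 133 14 14 6 6)))
theorem h231 : t_h231.ok 0 1 0 0 (GM 2 3 (D 2) (1, 3) (-1, 7) (1, 4) (2, 4) (tau1 (1, 3)) p23 k03 k13) unitBx = true :=
  (Tree.ok_s0 lv.2.2.2.2.2.2.2.2.2.2.2.2.2.2.2.2.2.2.2.2.2.2.2.2.2.2.2.2.2.2.2.2.2.2.2.2.2.2.2.2.2.2.2.2.2.2.2.2.2.2.2.2.2.1 (Tree.ok_s0 lv.2.2.2.2.2.2.2.2.2.2.2.2.2.2.2.2.2.2.2.2.2.2.2.2.2.2.2.2.2.2.2.2.2.2.2.2.2.2.2.2.2.2.2.2.2.2.2.2.2.2.2.2.2.2.1 lv.2.2.2.2.2.2.2.2.2.2.2.2.2.2.2.2.2.2.2.2.2.2.2.2.2.2.2.2.2.2.2.2.2.2.2.2.2.2.2.2.2.2.2.2.2.2.2.2.2.2.2.2.2.2.2))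

/-! The certified family. -/

theorem cert : PhiCert (-1 / 2) D psi hh (1, 3) (-1, 7) (1, 0) (1, 1) (1, 4) (2, 4) (24, 24) (1, 24)
    (.q 144 624) w2 dl where
  hl0 := by norm_num
  hl1 := by norm_num
  hne := by norm_num
  e2 := by norm_num [cv]
  e3 := by norm_num [cv]
  hmab := by norm_num [cv]
  hta := by norm_num [cv]
  htb := by norm_num [cv]
  htb0 := by norm_num [cv]
  r1 := by norm_num [cv]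
  r2 := by norm_num [cv]
  r3 := by norm_num [cv]
  r4 := by norm_num [cv]
  hc := by norm_num [cv]
  hc' := by norm_num [cv]
  hδ0 := by
    intro j hj
    interval_cases j <;> norm_num [cv, dl]
  hδ2 := by norm_num [cv, dl]
  htau := by
    intro s ρ a b e h0 h1 h2 h3 h4
    simp only [PE.real_q, cv] at h0 ⊢
    push_cast at h0 ⊢
    nlinarith [mul_self_le_mul_self (by norm_num) h0]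
  hU0 := by
    intro j k hj hk
    interval_cases j <;> interval_cases k
    exacts [box_zero _ _ u00, box_zero _ _ u01, box_zero _ _ u02, box_zero _ _ u03, box_zero _ _ u10, box_zero _ _ u11, box_zero _ _ u12, box_zero _ _ u13, box_zero _ _ u20, box_zero _ _ u21, box_zero _ _ u22, box_zero _ _ u23]
  hU1 := by
    intro j k hj hk
    interval_cases j <;> interval_cases k
    exacts [box_zero _ _ v00, box_zero _ _ v01, box_zero _ _ v02, box_zero _ _ v03, box_zero _ _ v10, box_zero _ _ v11, box_zero _ _ v12, box_zero _ _ v13, box_zero _ _ v20, box_zero _ _ v21, box_zero _ _ v22, box_zero _ _ v23]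
  hH0 := by
    intro j k hj hk
    interval_cases j <;> interval_cases k
    exacts [box_zero _ _ h000, box_zero _ _ h010, box_zero _ _ h020, box_zero _ _ h030, box_zero _ _ h100, box_zero _ _ h110, box_zero _ _ h120, box_zero _ _ h130, box_zero _ _ h200, box_zero _ _ h210, box_zero _ _ h220, box_zero _ _ h230]
  hH1 := by
    intro j k hj hk
    interval_cases j <;> interval_cases k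
    exacts [box_zero _ _ h001, box_zero _ _ h011, box_zero _ _ h021, box_zero _ _ h031, box_zero _ _ h101, box_zero _ _ h111, box_zero _ _ h121, box_zero _ _ h131, box_zero _ _ h201, box_zero _ _ h211, box_zero _ _ h221, box_zero _ _ h231]
  hS := by
    intro j hj
    interval_cases j
    exacts [box_zero _ _ s0, box_zero _ _ s1, box_zero _ _ s2]
  hR := by
    intro j hj
    interval_cases j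
    exacts [box_zero _ _ r0, box_zero _ _ r1, box_zero _ _ r2]
  hw2 := by
    intro j hj
    interval_cases j <;> norm_num [gR, wR, hr, cv, D, D00, D10, D20, w2, dl]
  hψ0 := by
    intro j k hj hk
    interval_cases j <;> interval_cases k <;> simp [h2R, hr, psi, cv, p00, p01, p02, p03, p10, p11, p12, p13, p20, p21, p22, p23]

end Vale.Agent.P154.M2
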