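import Vale.Agent.P154.Phi

/-! Data of a family of potentials for the Poisson tree. -/

namespace Vale.Agent.P154.M3

def D00 : NP where
  A := [(6947, 4095), (-27321, 4095), (7794, 4095), (-1241, 4095)]
  B := [(47984, 4095), (-6621, 4095), (2269, 4095)]
  E := [(21504, 4095)]
  a0 := [(76435, 4095), (-33942, 4095), (10063, 4095), (-1241, 4095)]
  a1 := [(76435, 4095), (67884, 4095), (-50315, 4095), (9928, 4095)]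
  a2 := [(58, 4095), (-158248, 4095), (203057, 4095), (-21160, 4095)]
  a3 := [(0, 4095), (124269, 4095), (-65699, 4095), (250479, 4095)]
  a4 := [(0, 4095), (343005, 4095), (-2780, 4095), (-345143, 4095)]
  b0 := [(-90992, 4095), (6621, 4095), (-2269, 4095)]
  b1 := [(90992, 4095), (-26484, 4095), (15883, 4095)]
  b2 := [(-45611, 4095), (100698, 4095), (-175949, 4095)]
  b3 := [(22410, 4095), (-409600, 4095), (-44256, 4095)]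
  b4 := [(-105022, 4095), (61982, 4095), (321710, 4095)]
  g0 := [(21504, 4095)]
  g1 := [(-64512, 4095)]
  g2 := [(68494, 4095), (74011, 4095)]

def D01 : NP where
  A := [(7769, 4095), (-27862, 4095), (10646, 4095), (-2957, 4095)]
  B := [(62818, 4095), (-5249, 4095), (-1850, 4095)]
  E := [(23399, 4095)]
  a0 := [(93986, 4095), (-33111, 4095), (8796, 4095), (-2957, 4095)]
  a1 := [(93986, 4095), (66222, 4095), (-43980, 4095), (23656, 4095)]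
  a2 := [(58, 4095), (-204707, 4095), (119912, 4095), (-98238, 4095)]
  a3 := [(0, 4095), (130944, 4095), (-232844, 4095), (272442, 4095)]
  a4 := [(0, 4095), (375864, 4095), (-147995, 4095), (-409600, 4095)]
  b0 := [(-109616, 4095), (5249, 4095), (1850, 4095)]
  b1 := [(109616, 4095), (-20996, 4095), (-12950, 4095)]
  b2 := [(-60140, 4095), (242881, 4095), (31534, 4095)]
  b3 := [(29589, 4095), (-409600, 4095), (4531, 4095)]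
  b4 := [(-110928, 4095), (216075, 4095), (305317, 4095)]
  g0 := [(23399, 4095)]
  g1 := [(-70197, 4095)]
  g2 := [(74530, 4095), (-44527, 4095)]

def D02 : NP where
  A := [(3826, 4095), (-21508, 4095), (2402, 4095), (1772, 4095)]
  B := [(81134, 4095), (-21242, 4095), (16236, 4095)]
  E := [(30555, 4095)]
  a0 := [(115515, 4095), (-42750, 4095), (18638, 4095), (1772, 4095)]
  a1 := [(115515, 4095), (85500, 4095), (-93190, 4095), (-14176, 4095)]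
  a2 := [(58, 4095), (-165628, 4095), (192867, 4095), (23167, 4095)]
  a3 := [(0, 4095), (-25111, 4095), (38686, 4095), (186081, 4095)]
  a4 := [(0, 4095), (409600, 4095), (-409600, 4095), (-395467, 4095)]
  b0 := [(-142244, 4095), (21242, 4095), (-16236, 4095)]
  b1 := [(142244, 4095), (-84968, 4095), (113652, 4095)]
  b2 := [(-77190, 4095), (269909, 4095), (-332352, 4095)]
  b3 := [(49744, 4095), (-409600, 4095), (156850, 4095)]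
  b4 := [(-170046, 4095), (138530, 4095), (409600, 4095)]
  g0 := [(30555, 4095)]
  g1 := [(-91665, 4095)]
  g2 := [(97324, 4095), (8447, 4095)]

def D03 : NP where
  A := [(-18782, 4095), (1898, 4095), (5499, 4095), (-2238, 4095)]
  B := [(103859, 4095), (18971, 4095), (-9020, 4095)]
  E := [(46707, 4095)]
  a0 := [(131784, 4095), (20869, 4095), (-3521, 4095), (-2238, 4095)]
  a1 := [(131784, 4095), (-41738, 4095), (17605, 4095), (17904, 4095)]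
  a2 := [(58, 4095), (-88591, 4095), (-72487, 4095), (-50304, 4095)]
  a3 := [(0, 4095), (116945, 4095), (-20479, 4095), (409600, 4095)]
  a4 := [(0, 4095), (262743, 4095), (73760, 4095), (409600, 4095)]
  b0 := [(-197273, 4095), (-18971, 4095), (9020, 4095)]
  b1 := [(197273, 4095), (75884, 4095), (-63140, 4095)]
  b2 := [(-98700, 4095), (39308, 4095), (208586, 4095)]
  b3 := [(45384, 4095), (-409600, 4095), (-409600, 4095)]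
  b4 := [(-222029, 4095), (353441, 4095), (40726, 4095)]
  g0 := [(46707, 4095)]
  g1 := [(-140121, 4095)]
  g2 := [(148771, 4095), (4388, 4095)]

def D10 : NP where
  A := [(4734, 4095), (-30917, 4095), (6553, 4095), (185, 4095)]
  B := [(38199, 4095), (-2336, 4095), (3853, 4095)]
  E := [(17835, 4095)]
  a0 := [(60768, 4095), (-33253, 4095), (10406, 4095), (185, 4095)]
  a1 := [(60768, 4095), (66506, 4095), (-52030, 4095), (-1480, 4095)]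
  a2 := [(1341, 4095), (-32043, 4095), (-40064, 4095), (166796, 4095)]
  a3 := [(4765, 4095), (209457, 4095), (-135085, 4095), (289721, 4095)]
  a4 := [(10170, 4095), (109052, 4095), (247757, 4095), (283655, 4095)]
  b0 := [(-73869, 4095), (2336, 4095), (-3853, 4095)]
  b1 := [(73869, 4095), (-9344, 4095), (26971, 4095)]
  b2 := [(-39346, 4095), (43752, 4095), (-33416, 4095)]
  b3 := [(7285, 4095), (-237260, 4095), (247744, 4095)]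
  b4 := [(-85534, 4095), (303025, 4095), (303847, 4095)]
  g0 := [(17835, 4095)]
  g1 := [(-53505, 4095)]
  g2 := [(59396, 4095), (-47199, 4095)]

def D11 : NP where
  A := [(12986, 4095), (-39593, 4095), (13277, 4095), (-2290, 4095)]
  B := [(55018, 4095), (6121, 4095), (-1915, 4095)]
  E := [(24934, 4095)]
  a0 := [(92938, 4095), (-33472, 4095), (11362, 4095), (-2290, 4095)]
  a1 := [(92938, 4095), (66944, 4095), (-56810, 4095), (18320, 4095)]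
  a2 := [(302, 4095), (9926, 4095), (8110, 4095), (242053, 4095)]
  a3 := [(1263, 4095), (199543, 4095), (-226025, 4095), (264683, 4095)]
  a4 := [(2182, 4095), (166590, 4095), (288044, 4095), (291771, 4095)]
  b0 := [(-104886, 4095), (-6121, 4095), (1915, 4095)]
  b1 := [(104886, 4095), (24484, 4095), (-13405, 4095)]
  b2 := [(-52408, 4095), (-79880, 4095), (-3544, 4095)]
  b3 := [(22976, 4095), (-151326, 4095), (273399, 4095)]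
  b4 := [(-121338, 4095), (331452, 4095), (312958, 4095)]
  g0 := [(24934, 4095)]
  g1 := [(-74802, 4095)]
  g2 := [(79788, 4095), (-33108, 4095)]

def D12 : NP where
  A := [(13029, 4095), (-44486, 4095), (19083, 4095), (-2791, 4095)]
  B := [(86916, 4095), (-4871, 4095), (7657, 4095)]
  E := [(36622, 4095)]
  a0 := [(136567, 4095), (-49357, 4095), (26740, 4095), (-2791, 4095)]
  a1 := [(136567, 4095), (98714, 4095), (-133700, 4095), (22328, 4095)]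
  a2 := [(244, 4095), (-109391, 4095), (-148348, 4095), (42690, 4095)]
  a3 := [(226, 4095), (81407, 4095), (-277542, 4095), (295150, 4095)]
  a4 := [(465, 4095), (279459, 4095), (273472, 4095), (129436, 4095)]
  b0 := [(-160160, 4095), (4871, 4095), (-7657, 4095)]
  b1 := [(160160, 4095), (-19484, 4095), (53599, 4095)]
  b2 := [(-82076, 4095), (176052, 4095), (198837, 4095)]
  b3 := [(48928, 4095), (-337541, 4095), (-64962, 4095)]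
  b4 := [(-195687, 4095), (362546, 4095), (295068, 4095)]
  g0 := [(36622, 4095)]
  g1 := [(-109866, 4095)]
  g2 := [(117039, 4095), (-73822, 4095)]

def D13 : NP where
  A := [(-30784, 4095), (3901, 4095), (12616, 4095), (-4571, 4095)]
  B := [(142995, 4095), (40908, 4095), (-27978, 4095)]
  E := [(63124, 4095)]
  a0 := [(175335, 4095), (44809, 4095), (-15362, 4095), (-4571, 4095)]
  a1 := [(175335, 4095), (-89618, 4095), (76810, 4095), (36568, 4095)]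
  a2 := [(238, 4095), (29100, 4095), (226814, 4095), (379628, 4095)]
  a3 := [(834, 4095), (243423, 4095), (-29588, 4095), (279853, 4095)]
  a4 := [(1266, 4095), (315340, 4095), (117991, 4095), (202676, 4095)]
  b0 := [(-269243, 4095), (-40908, 4095), (27978, 4095)]
  b1 := [(269243, 4095), (163632, 4095), (-195846, 4095)]
  b2 := [(-136154, 4095), (-283196, 4095), (361382, 4095)]
  b3 := [(55862, 4095), (-288057, 4095), (225282, 4095)]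
  b4 := [(-287947, 4095), (207618, 4095), (171732, 4095)]
  g0 := [(63124, 4095)]
  g1 := [(-189372, 4095)]
  g2 := [(201180, 4095), (107486, 4095)]

def D20 : NP where
  A := [(-10211, 4095), (110, 4095), (-1063, 4095), (-13739, 4095)]
  B := [(176563, 4095), (-102336, 4095), (56840, 4095)]
  E := [(-40719, 4095)]
  a0 := [(125633, 4095), (-102226, 4095), (55777, 4095), (-13739, 4095)]
  a1 := [(125633, 4095), (204452, 4095), (-278885, 4095), (109912, 4095)]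
  a2 := [(43810, 4095), (201144, 4095), (218030, 4095), (323796, 4095)]
  a3 := [(-45091, 4095), (19973, 4095), (165747, 4095), (255201, 4095)]
  a4 := [(35344, 4095), (76020, 4095), (98576, 4095), (161715, 4095)]
  b0 := [(-95125, 4095), (102336, 4095), (-56840, 4095)]
  b1 := [(95125, 4095), (-409344, 4095), (397880, 4095)]
  b2 := [(-57589, 4095), (51666, 4095), (299827, 4095)]
  b3 := [(66828, 4095), (74619, 4095), (244861, 4095)]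
  b4 := [(227514, 4095), (83629, 4095), (160004, 4095)]
  g0 := [(-40719, 4095)]
  g1 := [(122157, 4095)]
  g2 := [(-190382, 4095), (105233, 4095)]

def D21 : NP where
  A := [(22400, 4095), (-70087, 4095), (73955, 4095), (-41829, 4095)]
  B := [(84517, 4095), (16039, 4095), (-56566, 4095)]
  E := [(27480, 4095)]
  a0 := [(134397, 4095), (-54048, 4095), (17389, 4095), (-41829, 4095)]
  a1 := [(134397, 4095), (108096, 4095), (-86945, 4095), (334632, 4095)]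
  a2 := [(24425, 4095), (210611, 4095), (291019, 4095), (352944, 4095)]
  a3 := [(-9287, 4095), (185562, 4095), (205880, 4095), (258747, 4095)]
  a4 := [(24564, 4095), (55260, 4095), (96083, 4095), (152470, 4095)]
  b0 := [(-139477, 4095), (-16039, 4095), (56566, 4095)]
  b1 := [(139477, 4095), (64156, 4095), (-395962, 4095)]
  b2 := [(-70317, 4095), (-78703, 4095), (331155, 4095)]
  b3 := [(-30242, 4095), (73521, 4095), (244854, 4095)]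
  b4 := [(-81988, 4095), (54934, 4095), (151716, 4095)]
  g0 := [(27480, 4095)]
  g1 := [(-82440, 4095)]
  g2 := [(87484, 4095), (-177295, 4095)]

def D22 : NP where
  A := [(40339, 4095), (-99753, 4095), (74910, 4095), (-28369, 4095)]
  B := [(154072, 4095), (-18749, 4095), (38587, 4095)]
  E := [(22802, 4095)]
  a0 := [(217213, 4095), (-118502, 4095), (113497, 4095), (-28369, 4095)]
  a1 := [(217213, 4095), (237004, 4095), (-567485, 4095), (226952, 4095)]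
  a2 := [(32318, 4095), (-35163, 4095), (221787, 4095), (337359, 4095)]
  a3 := [(-32004, 4095), (262914, 4095), (191822, 4095), (246018, 4095)]
  a4 := [(-10143, 4095), (50366, 4095), (92399, 4095), (141789, 4095)]
  b0 := [(-199676, 4095), (18749, 4095), (-38587, 4095)]
  b1 := [(199676, 4095), (-74996, 4095), (270109, 4095)]
  b2 := [(-113697, 4095), (4591, 4095), (284891, 4095)]
  b3 := [(32656, 4095), (220089, 4095), (213278, 4095)]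
  b4 := [(-13621, 4095), (162902, 4095), (131819, 4095)]
  g0 := [(22802, 4095)]
  g1 := [(-68406, 4095)]
  g2 := [(65264, 4095), (-214772, 4095)]

def D23 : NP where
  A := [(-52132, 4095), (22838, 4095), (-22540, 4095), (33532, 4095)]
  B := [(285181, 4095), (14859, 4095), (92438, 4095)]
  E := [(69308, 4095)]
  a0 := [(302357, 4095), (37697, 4095), (69898, 4095), (33532, 4095)]
  a1 := [(302357, 4095), (-75394, 4095), (-349490, 4095), (-268256, 4095)]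
  a2 := [(22112, 4095), (-41788, 4095), (149470, 4095), (353579, 4095)]
  a3 := [(38549, 4095), (-156885, 4095), (-16851, 4095), (232093, 4095)]
  a4 := [(80928, 4095), (185176, 4095), (59286, 4095), (128800, 4095)]
  b0 := [(-423797, 4095), (-14859, 4095), (-92438, 4095)]
  b1 := [(423797, 4095), (59436, 4095), (647066, 4095)]
  b2 := [(-207058, 4095), (-250956, 4095), (291055, 4095)]
  b3 := [(39644, 4095), (75230, 4095), (148145, 4095)]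
  b4 := [(-124503, 4095), (188495, 4095), (97898, 4095)]
  g0 := [(69308, 4095)]
  g1 := [(-207924, 4095)]
  g2 := [(161938, 4095), (161934, 4095)]

def p00 : List CL := [[(0, 4095), (92434, 4095), (40158, 4095), (-42363, 4095), (-1042, 4095)], [(25612, 4095), (-29920, 4095), (92685, 4095)], [(7873, 4095), (-37283, 4095)]]
def p01 : List CL := [[(0, 4095), (93305, 4095), (15973, 4095), (11903, 4095), (6124, 4095)], [(26721, 4095), (48733, 4095), (-100442, 4095)], [(-1687, 4095), (55299, 4095)]]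
def p02 : List CL := [[(0, 4095), (108449, 4095), (13949, 4095), (10820, 4095), (-8762, 4095)], [(13617, 4095), (-6875, 4095), (16464, 4095)], [(6287, 4095), (-707, 4095)]]
def p03 : List CL := [[(0, 4095), (88034, 4095), (45598, 4095), (-26001, 4095), (8749, 4095)], [(-15239, 4095), (43388, 4095), (-60239, 4095)], [(6190, 4095), (33845, 4095)]]
def p10 : List CL := [[(0, 4095), (90974, 4095), (63454, 4095), (-66874, 4095), (11316, 4095)], [(44884, 4095), (-65399, 4095), (110576, 4095)], [(29013, 4095), (-55173, 4095)]]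
def p11 : List CL := [[(0, 4095), (118860, 4095), (-33681, 4095), (60664, 4095), (43554, 4095)], [(48536, 4095), (64712, 4095), (-154940, 4095)], [(19401, 4095), (25848, 4095)]]
def p12 : List CL := [[(0, 4095), (118247, 4095), (105946, 4095), (-83630, 4095), (-64504, 4095)], [(25787, 4095), (22170, 4095), (105, 4095)], [(-28294, 4095), (115032, 4095)]]
def p13 : List CL := [[(0, 4095), (136472, 4095), (90481, 4095), (-120317, 4095), (37471, 4095)], [(-8926, 4095), (52646, 4095), (-23124, 4095)], [(21085, 4095), (25948, 4095)]]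
def p20 : List CL := [[(0, 4095), (244788, 4095), (-121344, 4095), (226799, 4095), (-75168, 4095)], [(128419, 4095), (-281268, 4095), (-117153, 4095)], [(230867, 4095), (18534, 4095)]]
def p21 : List CL := [[(0, 4095), (84114, 4095), (135689, 4095), (154387, 4095), (110006, 4095)], [(147490, 4095), (-221969, 4095), (-176554, 4095)], [(144945, 4095), (-99628, 4095)]]
def p22 : List CL := [[(0, 4095), (284720, 4095), (-110293, 4095), (125806, 4095), (107323, 4095)], [(112519, 4095), (-122206, 4095), (-122142, 4095)], [(144502, 4095), (-42543, 4095)]]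
def p23 : List CL := [[(0, 4095), (223968, 4095), (29039, 4095), (184032, 4095), (-79570, 4095)], [(90522, 4095), (-107625, 4095), (-8607, 4095)], [(42195, 4095), (22051, 4095)]]
def k00 : List CL := [[(-11787, 4095), (-89602, 4095), (-4314, 4095), (-87716, 4095)], [(-34272, 4095), (105152, 4095)], [(-32638, 4095)]]
def k01 : List CL := [[(-10983, 4095), (-50478, 4095), (-19609, 4095), (-14358, 4095)], [(-96822, 4095), (110797, 4095)], [(-70661, 4095)]]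
def k02 : List CL := [[(4897, 4095), (-2792, 4095), (115020, 4095), (-12804, 4095)], [(-124756, 4095), (-159202, 4095)], [(30838, 4095)]]
def k03 : List CL := [[(-38736, 4095), (268611, 4095), (409600, 4095), (-5439, 4095)], [(-409600, 4095), (-409600, 4095)], [(62661, 4095)]]
def k10 : List CL := [[(-37931, 4095), (-231297, 4095), (32586, 4095), (-80463, 4095)], [(68036, 4095), (96865, 4095)], [(-14144, 4095)]]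
def k11 : List CL := [[(-38227, 4095), (-345754, 4095), (301001, 4095), (-41, 4095)], [(34280, 4095), (-86912, 4095)], [(-84181, 4095)]]
def k12 : List CL := [[(-14263, 4095), (-126391, 4095), (-68595, 4095), (-47774, 4095)], [(-73900, 4095), (-53822, 4095)], [(124579, 4095)]]
def k13 : List CL := [[(-35465, 4095), (398799, 4095), (-170457, 4095), (141753, 4095)], [(-409080, 4095), (-407663, 4095)], [(205195, 4095)]]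

def D : ℕ → ℕ → NP
  | 0, 0 => D00
  | 0, 1 => D01
  | 0, 2 => D02
  | 0, 3 => D03
  | 1, 0 => D10
  | 1, 1 => D11
  | 1, 2 => D12
  | 1, 3 => D13
  | 2, 0 => D20
  | 2, 1 => D21
  | 2, 2 => D22
  | 2, 3 => D23
  | _, _ => D03

def psi : ℕ → ℕ → List CL
  | 0, 0 => p00
  | 0, 1 => p01
  | 0, 2 => p02
  | 0, 3 => p03
  | 1, 0 => p10
  | 1, 1 => p11
  | 1, 2 => p12
  | 1, 3 => p13
  | 2, 0 => p20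
  | 2, 1 => p21
  | 2, 2 => p22
  | 2, 3 => p23
  | _, _ => []

def hh : ℕ → ℕ → List CL
  | 0, 0 => k00
  | 0, 1 => k01
  | 0, 2 => k02
  | 0, 3 => k03
  | 1, 0 => k10
  | 1, 1 => k11
  | 1, 2 => k12
  | 1, 3 => k13
  | _, _ => []

def w2 : ℕ → ℤ × ℕ
  | 0 => (-13817, 4095)
  | 1 => (-19441, 4095)
  | 2 => (-24899, 4095)
  | _ => (0, 0)

def dl : ℕ → ℤ × ℕ
  | 0 => (4, 4095)
  | 1 => (4, 4095)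
  | 2 => (4, 4095)
  | _ => (0, 0)

/-! Certificates. -/

/-- the leaves of all trees -/
theorem lv :
    ((Tree.leaf 95 9 10 5 1).ok 0 1 0 0 (SEG D03 (-13817, 4095) (sP (24, 24) (1, 24)) p00 p01 p02 p03) ⟨0, 1, 1, 0, 1, 2, 0, 1, 1, 0, 1, 1⟩ = true ∧
      (Tree.leaf 98 9 10 5 1).ok 0 1 0 0 (SEG D03 (-13817, 4095) (sP (24, 24) (1, 24)) p00 p01 p02 p03) ⟨0, 1, 1, 1, 2, 2, 0, 1, 1, 0, 1, 1⟩ = true) ∧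
    ((Tree.leaf 41 10 1 4 1).ok 0 1 0 0 (RE D03 (-13817, 4095)) ⟨0, 1, 1, 0, 1, 1, 0, 1, 1, 0, 1, 1⟩ = true) ∧
    ((Tree.leaf 91 14 10 4 1).ok 0 1 0 0 (UE0 (1, 0) D00) ⟨0, 1, 4, 0, 1, 2, 0, 1, 1, 0, 1, 1⟩ = true ∧
      (Tree.leaf 94 14 10 4 1).ok 0 1 0 0 (UE0 (1, 0) D00) ⟨1, 2, 4, 0, 1, 2, 0, 1, 1, 0, 1, 1⟩ = true ∧
      (Tree.leaf 93 14 10 4 1).ok 0 1 0 0 (UE0 (1, 0) D00) ⟨0, 1, 4, 1, 2, 2, 0, 1, 1, 0, 1, 1⟩ = true ∧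
      (Tree.leaf 98 14 10 4 1).ok 0 1 0 0 (UE0 (1, 0) D00) ⟨1, 2, 4, 1, 2, 2, 0, 1, 1, 0, 1, 1⟩ = true ∧
      (Tree.leaf 79 14 10 4 1).ok 0 1 0 0 (UE0 (1, 0) D00) ⟨1, 2, 2, 0, 1, 1, 0, 1, 1, 0, 1, 1⟩ = true) ∧
    ((Tree.leaf 91 14 10 4 1).ok 0 1 0 0 (UE1 (1, 1) D00) ⟨0, 1, 2, 0, 1, 2, 0, 1, 1, 0, 1, 1⟩ = true ∧
      (Tree.leaf 94 14 10 4 1).ok 0 1 0 0 (UE1 (1, 1) D00) ⟨1, 2, 2, 0, 1, 2, 0, 1, 1, 0, 1, 1⟩ = true ∧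
      (Tree.leaf 93 14 10 4 1).ok 0 1 0 0 (UE1 (1, 1) D00) ⟨0, 1, 1, 2, 3, 4, 0, 1, 2, 0, 1, 1⟩ = true ∧
      (Tree.leaf 95 14 10 4 1).ok 0 1 0 0 (UE1 (1, 1) D00) ⟨0, 1, 1, 3, 4, 4, 0, 1, 2, 0, 1, 1⟩ = true ∧
      (Tree.leaf 94 14 10 4 1).ok 0 1 0 0 (UE1 (1, 1) D00) ⟨0, 1, 1, 2, 3, 4, 1, 2, 2, 0, 1, 1⟩ = true ∧
      (Tree.leaf 96 14 10 4 1).ok 0 1 0 0 (UE1 (1, 1) D00) ⟨0, 1, 1, 3, 4, 4, 1, 2, 2, 0, 1, 1⟩ = true) ∧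
    ((Tree.leaf 91 14 10 4 1).ok 0 1 0 0 (UE0 (1, 0) D01) ⟨0, 1, 4, 0, 1, 2, 0, 1, 1, 0, 1, 1⟩ = true ∧
      (Tree.leaf 94 14 10 4 1).ok 0 1 0 0 (UE0 (1, 0) D01) ⟨0, 1, 4, 1, 2, 2, 0, 1, 1, 0, 1, 1⟩ = true ∧
      (Tree.leaf 87 14 10 4 1).ok 0 1 0 0 (UE0 (1, 0) D01) ⟨1, 2, 4, 0, 1, 1, 0, 1, 1, 0, 1, 1⟩ = true ∧
      (Tree.leaf 79 14 10 4 1).ok 0 1 0 0 (UE0 (1, 0) D01) ⟨1, 2, 2, 0, 1, 1, 0, 1, 1, 0, 1, 1⟩ = true) ∧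
    ((Tree.leaf 91 14 10 4 1).ok 0 1 0 0 (UE1 (1, 1) D01) ⟨0, 1, 2, 0, 1, 2, 0, 1, 1, 0, 1, 1⟩ = true ∧
      (Tree.leaf 94 14 10 4 1).ok 0 1 0 0 (UE1 (1, 1) D01) ⟨1, 2, 2, 0, 1, 2, 0, 1, 1, 0, 1, 1⟩ = true ∧
      (Tree.leaf 86 14 10 4 1).ok 0 1 0 0 (UE1 (1, 1) D01) ⟨0, 1, 1, 1, 2, 2, 0, 1, 2, 0, 1, 1⟩ = true ∧
      (Tree.leaf 94 14 10 4 1).ok 0 1 0 0 (UE1 (1, 1) D01) ⟨0, 1, 1, 2, 3, 4, 1, 2, 2, 0, 1, 1⟩ = true ∧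
      (Tree.leaf 97 14 10 4 1).ok 0 1 0 0 (UE1 (1, 1) D01) ⟨0, 1, 1, 3, 4, 4, 1, 2, 2, 0, 1, 1⟩ = true) ∧
    ((Tree.leaf 91 14 10 4 1).ok 0 1 0 0 (UE0 (1, 0) D02) ⟨0, 1, 4, 0, 1, 2, 0, 1, 1, 0, 1, 1⟩ = true ∧
      (Tree.leaf 94 14 10 4 1).ok 0 1 0 0 (UE0 (1, 0) D02) ⟨1, 2, 4, 0, 1, 2, 0, 1, 1, 0, 1, 1⟩ = true ∧
      (Tree.leaf 86 14 10 4 1).ok 0 1 0 0 (UE0 (1, 0) D02) ⟨1, 2, 2, 0, 1, 2, 0, 1, 1, 0, 1, 1⟩ = true ∧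
      (Tree.leaf 83 14 10 4 1).ok 0 1 0 0 (UE0 (1, 0) D02) ⟨0, 1, 2, 1, 2, 2, 0, 1, 1, 0, 1, 1⟩ = true ∧
      (Tree.leaf 91 14 10 4 1).ok 0 1 0 0 (UE0 (1, 0) D02) ⟨1, 2, 2, 1, 2, 2, 0, 1, 1, 0, 1, 1⟩ = true) ∧
    ((Tree.leaf 91 14 10 4 1).ok 0 1 0 0 (UE1 (1, 1) D02) ⟨0, 1, 2, 0, 1, 2, 0, 1, 1, 0, 1, 1⟩ = true ∧
      (Tree.leaf 94 14 10 4 1).ok 0 1 0 0 (UE1 (1, 1) D02) ⟨1, 2, 2, 0, 1, 2, 0, 1, 1, 0, 1, 1⟩ = true ∧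
      (Tree.leaf 94 14 10 4 1).ok 0 1 0 0 (UE1 (1, 1) D02) ⟨0, 1, 1, 2, 3, 4, 0, 1, 2, 0, 1, 1⟩ = true ∧
      (Tree.leaf 95 14 10 4 1).ok 0 1 0 0 (UE1 (1, 1) D02) ⟨0, 1, 1, 2, 3, 4, 1, 2, 2, 0, 1, 1⟩ = true ∧
      (Tree.leaf 96 14 10 4 1).ok 0 1 0 0 (UE1 (1, 1) D02) ⟨0, 1, 1, 3, 4, 4, 0, 1, 2, 0, 1, 1⟩ = true ∧
      (Tree.leaf 97 14 10 4 1).ok 0 1 0 0 (UE1 (1, 1) D02) ⟨0, 1, 1, 3, 4, 4, 1, 2, 2, 0, 1, 1⟩ = true) ∧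
    ((Tree.leaf 91 14 10 4 1).ok 0 1 0 0 (UE0 (1, 0) D03) ⟨0, 1, 4, 0, 1, 2, 0, 1, 1, 0, 1, 1⟩ = true ∧
      (Tree.leaf 94 14 10 4 1).ok 0 1 0 0 (UE0 (1, 0) D03) ⟨1, 2, 4, 0, 1, 2, 0, 1, 1, 0, 1, 1⟩ = true ∧
      (Tree.leaf 94 14 10 4 1).ok 0 1 0 0 (UE0 (1, 0) D03) ⟨0, 1, 4, 1, 2, 2, 0, 1, 1, 0, 1, 1⟩ = true ∧
      (Tree.leaf 98 14 10 4 1).ok 0 1 0 0 (UE0 (1, 0) D03) ⟨1, 2, 4, 1, 2, 2, 0, 1, 1, 0, 1, 1⟩ = true ∧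
      (Tree.leaf 79 14 10 4 1).ok 0 1 0 0 (UE0 (1, 0) D03) ⟨1, 2, 2, 0, 1, 1, 0, 1, 1, 0, 1, 1⟩ = true) ∧
    ((Tree.leaf 80 14 10 4 1).ok 0 1 0 0 (UE1 (1, 1) D03) ⟨0, 1, 1, 0, 1, 2, 0, 1, 1, 0, 1, 1⟩ = true ∧
      (Tree.leaf 102 14 10 4 1).ok 0 1 0 0 (UE1 (1, 1) D03) ⟨0, 1, 2, 2, 3, 4, 0, 1, 1, 0, 1, 1⟩ = true ∧
      (Tree.leaf 106 14 10 4 1).ok 0 1 0 0 (UE1 (1, 1) D03) ⟨1, 2, 2, 2, 3, 4, 0, 1, 1, 0, 1, 1⟩ = true ∧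
      (Tree.leaf 102 14 10 4 1).ok 0 1 0 0 (UE1 (1, 1) D03) ⟨0, 1, 1, 6, 7, 8, 0, 1, 1, 0, 1, 1⟩ = true ∧
      (Tree.leaf 103 14 10 4 1).ok 0 1 0 0 (UE1 (1, 1) D03) ⟨0, 1, 1, 7, 8, 8, 0, 1, 1, 0, 1, 1⟩ = true) ∧
    ((Tree.leaf 121 14 14 6 6).ok 0 1 0 0 (GM 0 0 (D 0) (1, 3) (-1, 7) (2, 4) (1, 0) (.q 144 624) p00 k00 k10) ⟨0, 1, 2, 0, 1, 1, 0, 1, 1, 0, 1, 1⟩ = true ∧
      (Tree.leaf 130 14 14 6 6).ok 0 1 0 0 (GM 0 0 (D 0) (1, 3) (-1, 7) (2, 4) (1, 0) (.q 144 624) p00 k00 k10) ⟨1, 2, 2, 0, 1, 1, 0, 1, 2, 0, 1, 1⟩ = true ∧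
      (Tree.leaf 131 14 14 6 6).ok 0 1 0 0 (GM 0 0 (D 0) (1, 3) (-1, 7) (2, 4) (1, 0) (.q 144 624) p00 k00 k10) ⟨1, 2, 2, 0, 1, 1, 1, 2, 2, 0, 1, 1⟩ = true) ∧
    ((Tree.leaf 112 14 14 6 6).ok 0 1 0 0 (GM 0 0 (D 0) (1, 3) (-1, 7) (2, 4) (1, 0) (tau1 (1, 3)) p00 k00 k10) ⟨0, 1, 2, 0, 1, 1, 0, 1, 1, 0, 1, 1⟩ = true ∧
      (Tree.leaf 121 14 14 6 6).ok 0 1 0 0 (GM 0 0 (D 0) (1, 3) (-1, 7) (2, 4) (1, 0) (tau1 (1, 3)) p00 k00 k10) ⟨1, 2, 2, 0, 1, 1, 0, 1, 2, 0, 1, 1⟩ = true ∧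
      (Tree.leaf 122 14 14 6 6).ok 0 1 0 0 (GM 0 0 (D 0) (1, 3) (-1, 7) (2, 4) (1, 0) (tau1 (1, 3)) p00 k00 k10) ⟨1, 2, 2, 0, 1, 1, 1, 2, 2, 0, 1, 1⟩ = true) ∧
    ((Tree.leaf 121 14 14 6 6).ok 0 1 0 0 (GM 0 1 (D 0) (1, 3) (-1, 7) (2, 4) (1, 0) (.q 144 624) p01 k01 k11) ⟨0, 1, 2, 0, 1, 1, 0, 1, 1, 0, 1, 1⟩ = true ∧
      (Tree.leaf 130 14 14 6 6).ok 0 1 0 0 (GM 0 1 (D 0) (1, 3) (-1, 7) (2, 4) (1, 0) (.q 144 624) p01 k01 k11) ⟨1, 2, 2, 0, 1, 1, 0, 1, 2, 0, 1, 1⟩ = true ∧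
      (Tree.leaf 132 14 14 6 6).ok 0 1 0 0 (GM 0 1 (D 0) (1, 3) (-1, 7) (2, 4) (1, 0) (.q 144 624) p01 k01 k11) ⟨1, 2, 2, 0, 1, 1, 1, 2, 2, 0, 1, 1⟩ = true) ∧
    ((Tree.leaf 113 14 14 6 6).ok 0 1 0 0 (GM 0 1 (D 0) (1, 3) (-1, 7) (2, 4) (1, 0) (tau1 (1, 3)) p01 k01 k11) ⟨0, 1, 1, 0, 1, 2, 0, 1, 1, 0, 1, 1⟩ = true ∧
      (Tree.leaf 115 14 14 6 6).ok 0 1 0 0 (GM 0 1 (D 0) (1, 3) (-1, 7) (2, 4) (1, 0) (tau1 (1, 3)) p01 k01 k11) ⟨0, 1, 1, 1, 2, 2, 0, 1, 1, 0, 1, 1⟩ = true) ∧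
    ((Tree.leaf 134 14 14 6 6).ok 0 1 0 0 (GM 0 2 (D 0) (1, 3) (-1, 7) (2, 4) (1, 0) (.q 144 624) p02 k02 k12) ⟨0, 1, 4, 0, 1, 1, 0, 1, 1, 0, 1, 1⟩ = true ∧
      (Tree.leaf 135 14 14 6 6).ok 0 1 0 0 (GM 0 2 (D 0) (1, 3) (-1, 7) (2, 4) (1, 0) (.q 144 624) p02 k02 k12) ⟨1, 2, 4, 0, 1, 1, 0, 1, 1, 0, 1, 1⟩ = true ∧
      (Tree.leaf 137 14 14 6 6).ok 0 1 0 0 (GM 0 2 (D 0) (1, 3) (-1, 7) (2, 4) (1, 0) (.q 144 624) p02 k02 k12) ⟨1, 2, 2, 0, 1, 2, 0, 1, 1, 0, 1, 1⟩ = true ∧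
      (Tree.leaf 142 14 14 6 6).ok 0 1 0 0 (GM 0 2 (D 0) (1, 3) (-1, 7) (2, 4) (1, 0) (.q 144 624) p02 k02 k12) ⟨1, 2, 2, 1, 2, 2, 0, 1, 1, 0, 1, 1⟩ = true) ∧
    ((Tree.leaf 125 14 14 6 6).ok 0 1 0 0 (GM 0 2 (D 0) (1, 3) (-1, 7) (2, 4) (1, 0) (tau1 (1, 3)) p02 k02 k12) ⟨0, 1, 4, 0, 1, 1, 0, 1, 1, 0, 1, 1⟩ = true ∧
      (Tree.leaf 126 14 14 6 6).ok 0 1 0 0 (GM 0 2 (D 0) (1, 3) (-1, 7) (2, 4) (1, 0) (tau1 (1, 3)) p02 k02 k12) ⟨1, 2, 4, 0, 1, 1, 0, 1, 1, 0, 1, 1⟩ = true ∧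
      (Tree.leaf 128 14 14 6 6).ok 0 1 0 0 (GM 0 2 (D 0) (1, 3) (-1, 7) (2, 4) (1, 0) (tau1 (1, 3)) p02 k02 k12) ⟨1, 2, 2, 0, 1, 2, 0, 1, 1, 0, 1, 1⟩ = true ∧
      (Tree.leaf 133 14 14 6 6).ok 0 1 0 0 (GM 0 2 (D 0) (1, 3) (-1, 7) (2, 4) (1, 0) (tau1 (1, 3)) p02 k02 k12) ⟨1, 2, 2, 1, 2, 2, 0, 1, 1, 0, 1, 1⟩ = true) ∧
    ((Tree.leaf 122 14 14 6 6).ok 0 1 0 0 (GM 0 3 (D 0) (1, 3) (-1, 7) (2, 4) (1, 0) (.q 144 624) p03 k03 k13) ⟨0, 1, 2, 0, 1, 1, 0, 1, 1, 0, 1, 1⟩ = true ∧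
      (Tree.leaf 131 14 14 6 6).ok 0 1 0 0 (GM 0 3 (D 0) (1, 3) (-1, 7) (2, 4) (1, 0) (.q 144 624) p03 k03 k13) ⟨1, 2, 2, 0, 1, 1, 0, 1, 2, 0, 1, 1⟩ = true ∧
      (Tree.leaf 132 14 14 6 6).ok 0 1 0 0 (GM 0 3 (D 0) (1, 3) (-1, 7) (2, 4) (1, 0) (.q 144 624) p03 k03 k13) ⟨1, 2, 2, 0, 1, 1, 1, 2, 2, 0, 1, 1⟩ = true) ∧
    ((Tree.leaf 112 14 14 6 6).ok 0 1 0 0 (GM 0 3 (D 0) (1, 3) (-1, 7) (2, 4) (1, 0) (tau1 (1, 3)) p03 k03 k13) ⟨0, 1, 2, 0, 1, 1, 0, 1, 1, 0, 1, 1⟩ = true ∧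
      (Tree.leaf 121 14 14 6 6).ok 0 1 0 0 (GM 0 3 (D 0) (1, 3) (-1, 7) (2, 4) (1, 0) (tau1 (1, 3)) p03 k03 k13) ⟨1, 2, 2, 0, 1, 1, 0, 1, 2, 0, 1, 1⟩ = true ∧
      (Tree.leaf 123 14 14 6 6).ok 0 1 0 0 (GM 0 3 (D 0) (1, 3) (-1, 7) (2, 4) (1, 0) (tau1 (1, 3)) p03 k03 k13) ⟨1, 2, 2, 0, 1, 1, 1, 2, 2, 0, 1, 1⟩ = true) ∧
    ((Tree.leaf 95 9 10 5 1).ok 0 1 0 0 (SEG D13 (-19441, 4095) (sP (24, 24) (1, 24)) p10 p11 p12 p13) ⟨0, 1, 1, 0, 1, 2, 0, 1, 1, 0, 1, 1⟩ = true ∧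
      (Tree.leaf 99 9 10 5 1).ok 0 1 0 0 (SEG D13 (-19441, 4095) (sP (24, 24) (1, 24)) p10 p11 p12 p13) ⟨0, 1, 1, 1, 2, 2, 0, 1, 1, 0, 1, 1⟩ = true) ∧
    ((Tree.leaf 42 10 1 4 1).ok 0 1 0 0 (RE D13 (-19441, 4095)) ⟨0, 1, 1, 0, 1, 1, 0, 1, 1, 0, 1, 1⟩ = true) ∧
    ((Tree.leaf 90 14 10 4 1).ok 0 1 0 0 (UE0 (1, 0) D10) ⟨0, 1, 4, 0, 1, 2, 0, 1, 1, 0, 1, 1⟩ = true ∧
      (Tree.leaf 94 14 10 4 1).ok 0 1 0 0 (UE0 (1, 0) D10) ⟨1, 2, 4, 0, 1, 2, 0, 1, 1, 0, 1, 1⟩ = true ∧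
      (Tree.leaf 83 14 10 4 1).ok 0 1 0 0 (UE0 (1, 0) D10) ⟨0, 1, 2, 1, 2, 2, 0, 1, 1, 0, 1, 1⟩ = true ∧
      (Tree.leaf 79 14 10 4 1).ok 0 1 0 0 (UE0 (1, 0) D10) ⟨1, 2, 2, 0, 1, 1, 0, 1, 1, 0, 1, 1⟩ = true) ∧
    ((Tree.leaf 79 14 10 4 1).ok 0 1 0 0 (UE1 (1, 1) D10) ⟨0, 1, 1, 0, 1, 2, 0, 1, 1, 0, 1, 1⟩ = true ∧
      (Tree.leaf 85 14 10 4 1).ok 0 1 0 0 (UE1 (1, 1) D10) ⟨0, 1, 1, 1, 2, 2, 0, 1, 2, 0, 1, 1⟩ = true ∧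
      (Tree.leaf 86 14 10 4 1).ok 0 1 0 0 (UE1 (1, 1) D10) ⟨0, 1, 1, 1, 2, 2, 1, 2, 2, 0, 1, 1⟩ = true) ∧
    ((Tree.leaf 79 14 10 4 1).ok 0 1 0 0 (UE0 (1, 0) D11) ⟨0, 1, 2, 0, 1, 2, 0, 1, 1, 0, 1, 1⟩ = true ∧
      (Tree.leaf 83 14 10 4 1).ok 0 1 0 0 (UE0 (1, 0) D11) ⟨0, 1, 2, 1, 2, 2, 0, 1, 1, 0, 1, 1⟩ = true ∧
      (Tree.leaf 79 14 10 4 1).ok 0 1 0 0 (UE0 (1, 0) D11) ⟨1, 2, 2, 0, 1, 1, 0, 1, 1, 0, 1, 1⟩ = true) ∧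
    ((Tree.leaf 79 14 10 4 1).ok 0 1 0 0 (UE1 (1, 1) D11) ⟨0, 1, 1, 0, 1, 2, 0, 1, 1, 0, 1, 1⟩ = true ∧
      (Tree.leaf 94 14 10 4 1).ok 0 1 0 0 (UE1 (1, 1) D11) ⟨0, 1, 2, 1, 2, 2, 0, 1, 1, 0, 1, 1⟩ = true ∧
      (Tree.leaf 99 14 10 4 1).ok 0 1 0 0 (UE1 (1, 1) D11) ⟨1, 2, 2, 1, 2, 2, 0, 1, 1, 0, 1, 1⟩ = true) ∧
    ((Tree.leaf 92 14 10 4 1).ok 0 1 0 0 (UE0 (1, 0) D12) ⟨0, 1, 4, 0, 1, 2, 0, 1, 1, 0, 1, 1⟩ = true ∧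
      (Tree.leaf 94 14 10 4 1).ok 0 1 0 0 (UE0 (1, 0) D12) ⟨1, 2, 4, 0, 1, 2, 0, 1, 1, 0, 1, 1⟩ = true ∧
      (Tree.leaf 86 14 10 4 1).ok 0 1 0 0 (UE0 (1, 0) D12) ⟨0, 1, 2, 1, 2, 2, 0, 1, 2, 0, 1, 1⟩ = true ∧
      (Tree.leaf 87 14 10 4 1).ok 0 1 0 0 (UE0 (1, 0) D12) ⟨0, 1, 2, 1, 2, 2, 1, 2, 2, 0, 1, 1⟩ = true ∧
      (Tree.leaf 79 14 10 4 1).ok 0 1 0 0 (UE0 (1, 0) D12) ⟨1, 2, 2, 0, 1, 1, 0, 1, 1, 0, 1, 1⟩ = true) ∧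
    ((Tree.leaf 80 14 10 4 1).ok 0 1 0 0 (UE1 (1, 1) D12) ⟨0, 1, 1, 0, 1, 2, 0, 1, 1, 0, 1, 1⟩ = true ∧
      (Tree.leaf 94 14 10 4 1).ok 0 1 0 0 (UE1 (1, 1) D12) ⟨0, 1, 1, 2, 3, 4, 0, 1, 2, 0, 1, 1⟩ = true ∧
      (Tree.leaf 95 14 10 4 1).ok 0 1 0 0 (UE1 (1, 1) D12) ⟨0, 1, 1, 2, 3, 4, 1, 2, 2, 0, 1, 1⟩ = true ∧
      (Tree.leaf 104 14 10 4 1).ok 0 1 0 0 (UE1 (1, 1) D12) ⟨0, 1, 2, 3, 4, 4, 0, 1, 1, 0, 1, 1⟩ = true ∧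
      (Tree.leaf 108 14 10 4 1).ok 0 1 0 0 (UE1 (1, 1) D12) ⟨1, 2, 2, 3, 4, 4, 0, 1, 1, 0, 1, 1⟩ = true) ∧
    ((Tree.leaf 73 14 10 4 1).ok 0 1 0 0 (UE0 (1, 0) D13) ⟨0, 1, 2, 0, 1, 1, 0, 1, 1, 0, 1, 1⟩ = true ∧
      (Tree.leaf 80 14 10 4 1).ok 0 1 0 0 (UE0 (1, 0) D13) ⟨1, 2, 2, 0, 1, 1, 0, 1, 1, 0, 1, 1⟩ = true) ∧
    ((Tree.leaf 76 14 10 4 1).ok 0 1 0 0 (UE1 (1, 1) D13) ⟨0, 1, 1, 0, 1, 1, 0, 1, 2, 0, 1, 1⟩ = true ∧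
      (Tree.leaf 88 14 10 4 1).ok 0 1 0 0 (UE1 (1, 1) D13) ⟨0, 1, 2, 0, 1, 1, 1, 2, 2, 0, 1, 1⟩ = true ∧
      (Tree.leaf 91 14 10 4 1).ok 0 1 0 0 (UE1 (1, 1) D13) ⟨1, 2, 2, 0, 1, 1, 1, 2, 2, 0, 1, 1⟩ = true) ∧
    ((Tree.leaf 126 14 14 6 6).ok 0 1 0 0 (GM 1 0 (D 1) (1, 3) (-1, 7) (2, 4) (1, 0) (.q 144 624) p10 k00 k10) ⟨0, 1, 2, 0, 1, 1, 0, 1, 1, 0, 1, 2⟩ = true ∧
      (Tree.leaf 131 14 14 6 6).ok 0 1 0 0 (GM 1 0 (D 1) (1, 3) (-1, 7) (2, 4) (1, 0) (.q 144 624) p10 k00 k10) ⟨1, 2, 2, 0, 1, 1, 0, 1, 1, 0, 1, 2⟩ = true ∧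
      (Tree.leaf 126 14 14 6 6).ok 0 1 0 0 (GM 1 0 (D 1) (1, 3) (-1, 7) (2, 4) (1, 0) (.q 144 624) p10 k00 k10) ⟨0, 1, 2, 0, 1, 1, 0, 1, 1, 1, 2, 2⟩ = true ∧
      (Tree.leaf 131 14 14 6 6).ok 0 1 0 0 (GM 1 0 (D 1) (1, 3) (-1, 7) (2, 4) (1, 0) (.q 144 624) p10 k00 k10) ⟨1, 2, 2, 0, 1, 1, 0, 1, 1, 1, 2, 2⟩ = true) ∧
    ((Tree.leaf 105 14 14 6 6).ok 0 1 0 0 (GM 1 0 (D 1) (1, 3) (-1, 7) (2, 4) (1, 0) (tau1 (1, 3)) p10 k00 k10) ⟨0, 1, 1, 0, 1, 1, 0, 1, 1, 0, 1, 2⟩ = true ∧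
      (Tree.leaf 106 14 14 6 6).ok 0 1 0 0 (GM 1 0 (D 1) (1, 3) (-1, 7) (2, 4) (1, 0) (tau1 (1, 3)) p10 k00 k10) ⟨0, 1, 1, 0, 1, 1, 0, 1, 1, 1, 2, 2⟩ = true) ∧
    ((Tree.leaf 127 14 14 6 6).ok 0 1 0 0 (GM 1 1 (D 1) (1, 3) (-1, 7) (2, 4) (1, 0) (.q 144 624) p11 k01 k11) ⟨0, 1, 1, 0, 1, 2, 0, 1, 1, 0, 1, 2⟩ = true ∧
      (Tree.leaf 129 14 14 6 6).ok 0 1 0 0 (GM 1 1 (D 1) (1, 3) (-1, 7) (2, 4) (1, 0) (.q 144 624) p11 k01 k11) ⟨0, 1, 1, 1, 2, 2, 0, 1, 1, 0, 1, 2⟩ = true ∧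
      (Tree.leaf 115 14 14 6 6).ok 0 1 0 0 (GM 1 1 (D 1) (1, 3) (-1, 7) (2, 4) (1, 0) (.q 144 624) p11 k01 k11) ⟨0, 1, 1, 0, 1, 1, 0, 1, 1, 1, 2, 2⟩ = true) ∧
    ((Tree.leaf 106 14 14 6 6).ok 0 1 0 0 (GM 1 1 (D 1) (1, 3) (-1, 7) (2, 4) (1, 0) (tau1 (1, 3)) p11 k01 k11) ⟨0, 1, 1, 0, 1, 1, 0, 1, 1, 0, 1, 2⟩ = true ∧
      (Tree.leaf 106 14 14 6 6).ok 0 1 0 0 (GM 1 1 (D 1) (1, 3) (-1, 7) (2, 4) (1, 0) (tau1 (1, 3)) p11 k01 k11) ⟨0, 1, 1, 0, 1, 1, 0, 1, 1, 1, 2, 2⟩ = true) ∧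
    ((Tree.leaf 127 14 14 6 6).ok 0 1 0 0 (GM 1 2 (D 1) (1, 3) (-1, 7) (2, 4) (1, 0) (.q 144 624) p12 k02 k12) ⟨0, 1, 2, 0, 1, 1, 0, 1, 1, 0, 1, 2⟩ = true ∧
      (Tree.leaf 131 14 14 6 6).ok 0 1 0 0 (GM 1 2 (D 1) (1, 3) (-1, 7) (2, 4) (1, 0) (.q 144 624) p12 k02 k12) ⟨1, 2, 2, 0, 1, 1, 0, 1, 1, 0, 1, 2⟩ = true ∧
      (Tree.leaf 127 14 14 6 6).ok 0 1 0 0 (GM 1 2 (D 1) (1, 3) (-1, 7) (2, 4) (1, 0) (.q 144 624) p12 k02 k12) ⟨0, 1, 2, 0, 1, 1, 0, 1, 1, 1, 2, 2⟩ = true ∧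
      (Tree.leaf 131 14 14 6 6).ok 0 1 0 0 (GM 1 2 (D 1) (1, 3) (-1, 7) (2, 4) (1, 0) (.q 144 624) p12 k02 k12) ⟨1, 2, 2, 0, 1, 1, 0, 1, 1, 1, 2, 2⟩ = true) ∧
    ((Tree.leaf 118 14 14 6 6).ok 0 1 0 0 (GM 1 2 (D 1) (1, 3) (-1, 7) (2, 4) (1, 0) (tau1 (1, 3)) p12 k02 k12) ⟨0, 1, 2, 0, 1, 1, 0, 1, 1, 0, 1, 2⟩ = true ∧
      (Tree.leaf 122 14 14 6 6).ok 0 1 0 0 (GM 1 2 (D 1) (1, 3) (-1, 7) (2, 4) (1, 0) (tau1 (1, 3)) p12 k02 k12) ⟨1, 2, 2, 0, 1, 1, 0, 1, 1, 0, 1, 2⟩ = true ∧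
      (Tree.leaf 106 14 14 6 6).ok 0 1 0 0 (GM 1 2 (D 1) (1, 3) (-1, 7) (2, 4) (1, 0) (tau1 (1, 3)) p12 k02 k12) ⟨0, 1, 1, 0, 1, 1, 0, 1, 1, 1, 2, 2⟩ = true) ∧
    ((Tree.leaf 122 14 14 6 6).ok 0 1 0 0 (GM 1 3 (D 1) (1, 3) (-1, 7) (2, 4) (1, 0) (.q 144 624) p13 k03 k13) ⟨0, 1, 2, 0, 1, 1, 0, 1, 1, 0, 1, 1⟩ = true ∧
      (Tree.leaf 132 14 14 6 6).ok 0 1 0 0 (GM 1 3 (D 1) (1, 3) (-1, 7) (2, 4) (1, 0) (.q 144 624) p13 k03 k13) ⟨1, 2, 2, 0, 1, 1, 0, 1, 1, 0, 1, 2⟩ = true ∧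
      (Tree.leaf 132 14 14 6 6).ok 0 1 0 0 (GM 1 3 (D 1) (1, 3) (-1, 7) (2, 4) (1, 0) (.q 144 624) p13 k03 k13) ⟨1, 2, 2, 0, 1, 1, 0, 1, 1, 1, 2, 2⟩ = true) ∧
    ((Tree.leaf 113 14 14 6 6).ok 0 1 0 0 (GM 1 3 (D 1) (1, 3) (-1, 7) (2, 4) (1, 0) (tau1 (1, 3)) p13 k03 k13) ⟨0, 1, 2, 0, 1, 1, 0, 1, 1, 0, 1, 1⟩ = true ∧
      (Tree.leaf 123 14 14 6 6).ok 0 1 0 0 (GM 1 3 (D 1) (1, 3) (-1, 7) (2, 4) (1, 0) (tau1 (1, 3)) p13 k03 k13) ⟨1, 2, 2, 0, 1, 1, 0, 1, 1, 0, 1, 2⟩ = true ∧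
      (Tree.leaf 123 14 14 6 6).ok 0 1 0 0 (GM 1 3 (D 1) (1, 3) (-1, 7) (2, 4) (1, 0) (tau1 (1, 3)) p13 k03 k13) ⟨1, 2, 2, 0, 1, 1, 0, 1, 1, 1, 2, 2⟩ = true) ∧
    ((Tree.leaf 97 9 10 5 1).ok 0 1 0 0 (SEG D23 (-24899, 4095) (sP (24, 24) (1, 24)) p20 p21 p22 p23) ⟨0, 1, 1, 0, 1, 2, 0, 1, 1, 0, 1, 1⟩ = true ∧
      (Tree.leaf 101 9 10 5 1).ok 0 1 0 0 (SEG D23 (-24899, 4095) (sP (24, 24) (1, 24)) p20 p21 p22 p23) ⟨0, 1, 1, 1, 2, 2, 0, 1, 1, 0, 1, 1⟩ = true) ∧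
    ((Tree.leaf 43 10 1 4 1).ok 0 1 0 0 (RE D23 (-24899, 4095)) ⟨0, 1, 1, 0, 1, 1, 0, 1, 1, 0, 1, 1⟩ = true) ∧
    ((Tree.leaf 64 14 10 4 1).ok 0 1 0 0 (UE0 (1, 0) D20) ⟨0, 1, 1, 0, 1, 1, 0, 1, 1, 0, 1, 1⟩ = true) ∧
    ((Tree.leaf 81 14 10 4 1).ok 0 1 0 0 (UE1 (1, 1) D20) ⟨0, 1, 1, 0, 1, 2, 0, 1, 1, 0, 1, 1⟩ = true ∧
      (Tree.leaf 85 14 10 4 1).ok 0 1 0 0 (UE1 (1, 1) D20) ⟨0, 1, 1, 1, 2, 2, 0, 1, 1, 0, 1, 1⟩ = true) ∧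
    ((Tree.leaf 65 14 10 4 1).ok 0 1 0 0 (UE0 (1, 0) D21) ⟨0, 1, 1, 0, 1, 1, 0, 1, 1, 0, 1, 1⟩ = true) ∧
    ((Tree.leaf 81 14 10 4 1).ok 0 1 0 0 (UE1 (1, 1) D21) ⟨0, 1, 1, 0, 1, 2, 0, 1, 1, 0, 1, 1⟩ = true ∧
      (Tree.leaf 94 14 10 4 1).ok 0 1 0 0 (UE1 (1, 1) D21) ⟨0, 1, 1, 2, 3, 4, 0, 1, 1, 0, 1, 1⟩ = true ∧
      (Tree.leaf 96 14 10 4 1).ok 0 1 0 0 (UE1 (1, 1) D21) ⟨0, 1, 1, 3, 4, 4, 0, 1, 1, 0, 1, 1⟩ = true) ∧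
    ((Tree.leaf 81 14 10 4 1).ok 0 1 0 0 (UE0 (1, 0) D22) ⟨0, 1, 2, 0, 1, 2, 0, 1, 1, 0, 1, 1⟩ = true ∧
      (Tree.leaf 87 14 10 4 1).ok 0 1 0 0 (UE0 (1, 0) D22) ⟨1, 2, 2, 0, 1, 2, 0, 1, 1, 0, 1, 1⟩ = true ∧
      (Tree.leaf 76 14 10 4 1).ok 0 1 0 0 (UE0 (1, 0) D22) ⟨0, 1, 1, 1, 2, 2, 0, 1, 1, 0, 1, 1⟩ = true) ∧
    ((Tree.leaf 81 14 10 4 1).ok 0 1 0 0 (UE1 (1, 1) D22) ⟨0, 1, 1, 0, 1, 2, 0, 1, 1, 0, 1, 1⟩ = true ∧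
      (Tree.leaf 93 14 10 4 1).ok 0 1 0 0 (UE1 (1, 1) D22) ⟨0, 1, 1, 2, 3, 4, 0, 1, 1, 0, 1, 1⟩ = true ∧
      (Tree.leaf 96 14 10 4 1).ok 0 1 0 0 (UE1 (1, 1) D22) ⟨0, 1, 1, 3, 4, 4, 0, 1, 1, 0, 1, 1⟩ = true) ∧
    ((Tree.leaf 71 14 10 4 1).ok 0 1 0 0 (UE0 (1, 0) D23) ⟨0, 1, 1, 0, 1, 2, 0, 1, 1, 0, 1, 1⟩ = true ∧
      (Tree.leaf 76 14 10 4 1).ok 0 1 0 0 (UE0 (1, 0) D23) ⟨0, 1, 1, 1, 2, 2, 0, 1, 1, 0, 1, 1⟩ = true) ∧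
    ((Tree.leaf 82 14 10 4 1).ok 0 1 0 0 (UE1 (1, 1) D23) ⟨0, 1, 1, 0, 1, 2, 0, 1, 1, 0, 1, 1⟩ = true ∧
      (Tree.leaf 94 14 10 4 1).ok 0 1 0 0 (UE1 (1, 1) D23) ⟨0, 1, 1, 2, 3, 4, 0, 1, 1, 0, 1, 1⟩ = true ∧
      (Tree.leaf 96 14 10 4 1).ok 0 1 0 0 (UE1 (1, 1) D23) ⟨0, 1, 1, 3, 4, 4, 0, 1, 1, 0, 1, 1⟩ = true) ∧
    ((Tree.leaf 125 14 14 6 6).ok 0 1 0 0 (GM 2 0 (D 2) (1, 3) (-1, 7) (2, 4) (1, 0) (.q 144 624) p20 k00 k10) ⟨0, 1, 2, 0, 1, 1, 0, 1, 1, 0, 1, 2⟩ = true ∧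
      (Tree.leaf 130 14 14 6 6).ok 0 1 0 0 (GM 2 0 (D 2) (1, 3) (-1, 7) (2, 4) (1, 0) (.q 144 624) p20 k00 k10) ⟨1, 2, 2, 0, 1, 1, 0, 1, 1, 0, 1, 2⟩ = true ∧
      (Tree.leaf 120 14 14 6 6).ok 0 1 0 0 (GM 2 0 (D 2) (1, 3) (-1, 7) (2, 4) (1, 0) (.q 144 624) p20 k00 k10) ⟨0, 1, 1, 0, 1, 1, 0, 1, 1, 2, 3, 4⟩ = true ∧
      (Tree.leaf 120 14 14 6 6).ok 0 1 0 0 (GM 2 0 (D 2) (1, 3) (-1, 7) (2, 4) (1, 0) (.q 144 624) p20 k00 k10) ⟨0, 1, 1, 0, 1, 1, 0, 1, 1, 3, 4, 4⟩ = true) ∧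
    ((Tree.leaf 105 14 14 6 6).ok 0 1 0 0 (GM 2 0 (D 2) (1, 3) (-1, 7) (2, 4) (1, 0) (tau1 (1, 3)) p20 k00 k10) ⟨0, 1, 1, 0, 1, 1, 0, 1, 1, 0, 1, 2⟩ = true ∧
      (Tree.leaf 105 14 14 6 6).ok 0 1 0 0 (GM 2 0 (D 2) (1, 3) (-1, 7) (2, 4) (1, 0) (tau1 (1, 3)) p20 k00 k10) ⟨0, 1, 1, 0, 1, 1, 0, 1, 1, 1, 2, 2⟩ = true) ∧
    ((Tree.leaf 110 14 14 6 6).ok 0 1 0 0 (GM 2 1 (D 2) (1, 3) (-1, 7) (2, 4) (1, 0) (.q 144 624) p21 k01 k11) ⟨0, 1, 1, 0, 1, 1, 0, 1, 1, 0, 1, 1⟩ = true) ∧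
    ((Tree.leaf 100 14 14 6 6).ok 0 1 0 0 (GM 2 1 (D 2) (1, 3) (-1, 7) (2, 4) (1, 0) (tau1 (1, 3)) p21 k01 k11) ⟨0, 1, 1, 0, 1, 1, 0, 1, 1, 0, 1, 1⟩ = true) ∧
    ((Tree.leaf 121 14 14 6 6).ok 0 1 0 0 (GM 2 2 (D 2) (1, 3) (-1, 7) (2, 4) (1, 0) (.q 144 624) p22 k02 k12) ⟨0, 1, 2, 0, 1, 1, 0, 1, 1, 0, 1, 1⟩ = true ∧
      (Tree.leaf 125 14 14 6 6).ok 0 1 0 0 (GM 2 2 (D 2) (1, 3) (-1, 7) (2, 4) (1, 0) (.q 144 624) p22 k02 k12) ⟨1, 2, 2, 0, 1, 1, 0, 1, 1, 0, 1, 1⟩ = true) ∧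
    ((Tree.leaf 100 14 14 6 6).ok 0 1 0 0 (GM 2 2 (D 2) (1, 3) (-1, 7) (2, 4) (1, 0) (tau1 (1, 3)) p22 k02 k12) ⟨0, 1, 1, 0, 1, 1, 0, 1, 1, 0, 1, 1⟩ = true) ∧
    ((Tree.leaf 121 14 14 6 6).ok 0 1 0 0 (GM 2 3 (D 2) (1, 3) (-1, 7) (2, 4) (1, 0) (.q 144 624) p23 k03 k13) ⟨0, 1, 2, 0, 1, 1, 0, 1, 1, 0, 1, 1⟩ = true ∧
      (Tree.leaf 126 14 14 6 6).ok 0 1 0 0 (GM 2 3 (D 2) (1, 3) (-1, 7) (2, 4) (1, 0) (.q 144 624) p23 k03 k13) ⟨1, 2, 2, 0, 1, 1, 0, 1, 1, 0, 1, 1⟩ = true) ∧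
    ((Tree.leaf 112 14 14 6 6).ok 0 1 0 0 (GM 2 3 (D 2) (1, 3) (-1, 7) (2, 4) (1, 0) (tau1 (1, 3)) p23 k03 k13) ⟨0, 1, 2, 0, 1, 1, 0, 1, 1, 0, 1, 1⟩ = true ∧
      (Tree.leaf 116 14 14 6 6).ok 0 1 0 0 (GM 2 3 (D 2) (1, 3) (-1, 7) (2, 4) (1, 0) (tau1 (1, 3)) p23 k03 k13) ⟨1, 2, 2, 0, 1, 1, 0, 1, 1, 0, 1, 1⟩ = true) :=
  ⟨⟨by decide +kernel, by decide +kernel⟩,
   by decide +kernel,
   ⟨by decide +kernel, by decide +kernel, by decide +kernel, by decide +kernel, by decide +kernel⟩,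
   ⟨by decide +kernel, by decide +kernel, by decide +kernel, by decide +kernel, by decide +kernel, by decide +kernel⟩,
   ⟨by decide +kernel, by decide +kernel, by decide +kernel, by decide +kernel⟩,
   ⟨by decide +kernel, by decide +kernel, by decide +kernel, by decide +kernel, by decide +kernel⟩,
   ⟨by decide +kernel, by decide +kernel, by decide +kernel, by decide +kernel, by decide +kernel⟩,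
   ⟨by decide +kernel, by decide +kernel, by decide +kernel, by decide +kernel, by decide +kernel, by decide +kernel⟩,
   ⟨by decide +kernel, by decide +kernel, by decide +kernel, by decide +kernel, by decide +kernel⟩,
   ⟨by decide +kernel, by decide +kernel, by decide +kernel, by decide +kernel, by decide +kernel⟩,
   ⟨by decide +kernel, by decide +kernel, by decide +kernel⟩,
   ⟨by decide +kernel, by decide +kernel, by decide +kernel⟩,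
   ⟨by decide +kernel, by decide +kernel, by decide +kernel⟩,
   ⟨by decide +kernel, by decide +kernel⟩,
   ⟨by decide +kernel, by decide +kernel, by decide +kernel, by decide +kernel⟩,
   ⟨by decide +kernel, by decide +kernel, by decide +kernel, by decide +kernel⟩,
   ⟨by decide +kernel, by decide +kernel, by decide +kernel⟩,
   ⟨by decide +kernel, by decide +kernel, by decide +kernel⟩,
   ⟨by decide +kernel, by decide +kernel⟩,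
   by decide +kernel,
   ⟨by decide +kernel, by decide +kernel, by decide +kernel, by decide +kernel⟩,
   ⟨by decide +kernel, by decide +kernel, by decide +kernel⟩,
   ⟨by decide +kernel, by decide +kernel, by decide +kernel⟩,
   ⟨by decide +kernel, by decide +kernel, by decide +kernel⟩,
   ⟨by decide +kernel, by decide +kernel, by decide +kernel, by decide +kernel, by decide +kernel⟩,
   ⟨by decide +kernel, by decide +kernel, by decide +kernel, by decide +kernel, by decide +kernel⟩,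
   ⟨by decide +kernel, by decide +kernel⟩,
   ⟨by decide +kernel, by decide +kernel, by decide +kernel⟩,
   ⟨by decide +kernel, by decide +kernel, by decide +kernel, by decide +kernel⟩,
   ⟨by decide +kernel, by decide +kernel⟩,
   ⟨by decide +kernel, by decide +kernel, by decide +kernel⟩,
   ⟨by decide +kernel, by decide +kernel⟩,
   ⟨by decide +kernel, by decide +kernel, by decide +kernel, by decide +kernel⟩,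
   ⟨by decide +kernel, by decide +kernel, by decide +kernel⟩,
   ⟨by decide +kernel, by decide +kernel, by decide +kernel⟩,
   ⟨by decide +kernel, by decide +kernel, by decide +kernel⟩,
   ⟨by decide +kernel, by decide +kernel⟩,
   by decide +kernel,
   by decide +kernel,
   ⟨by decide +kernel, by decide +kernel⟩,
   by decide +kernel,
   ⟨by decide +kernel, by decide +kernel, by decide +kernel⟩,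
   ⟨by decide +kernel, by decide +kernel, by decide +kernel⟩,
   ⟨by decide +kernel, by decide +kernel, by decide +kernel⟩,
   ⟨by decide +kernel, by decide +kernel⟩,
   ⟨by decide +kernel, by decide +kernel, by decide +kernel⟩,
   ⟨by decide +kernel, by decide +kernel, by decide +kernel, by decide +kernel⟩,
   ⟨by decide +kernel, by decide +kernel⟩,
   by decide +kernel,
   by decide +kernel,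
   ⟨by decide +kernel, by decide +kernel⟩,
   by decide +kernel,
   ⟨by decide +kernel, by decide +kernel⟩,
   ⟨by decide +kernel, by decide +kernel⟩⟩

def t_s0 : Tree := (.s1 (.leaf 95 9 10 5 1) (.leaf 98 9 10 5 1))
theorem s0 : t_s0.ok 0 1 0 0 (SEG D03 (-13817, 4095) (sP (24, 24) (1, 24)) p00 p01 p02 p03) unitBx = true :=
  (Tree.ok_s1 lv.1.1 lv.1.2)

def t_r0 : Tree := (.leaf 41 10 1 4 1)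
theorem r0 : t_r0.ok 0 1 0 0 (RE D03 (-13817, 4095)) unitBx = true :=
  lv.2.1

def t_u00 : Tree := (.s0 (.s1 (.s0 (.leaf 91 14 10 4 1) (.leaf 94 14 10 4 1)) (.s0 (.leaf 93 14 10 4 1) (.leaf 98 14 10 4 1))) (.leaf 79 14 10 4 1))
theorem u00 : t_u00.ok 0 1 0 0 (UE0 (1, 0) D00) unitBx = true :=
  (Tree.ok_s0 (Tree.ok_s1 (Tree.ok_s0 lv.2.2.1.1 lv.2.2.1.2.1) (Tree.ok_s0 lv.2.2.1.2.2.1 lv.2.2.1.2.2.2.1)) lv.2.2.1.2.2.2.2)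

def t_v00 : Tree := (.s1 (.s0 (.leaf 91 14 10 4 1) (.leaf 94 14 10 4 1)) (.s2 (.s1 (.leaf 93 14 10 4 1) (.leaf 95 14 10 4 1)) (.s1 (.leaf 94 14 10 4 1) (.leaf 96 14 10 4 1))))
theorem v00 : t_v00.ok 0 1 0 0 (UE1 (1, 1) D00) unitBx = true :=
  (Tree.ok_s1 (Tree.ok_s0 lv.2.2.2.1.1 lv.2.2.2.1.2.1) (Tree.ok_s2 (Tree.ok_s1 lv.2.2.2.1.2.2.1 lv.2.2.2.1.2.2.2.1) (Tree.ok_s1 lv.2.2.2.1.2.2.2.2.1 lv.2.2.2.1.2.2.2.2.2)))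

def t_u01 : Tree := (.s0 (.s0 (.s1 (.leaf 91 14 10 4 1) (.leaf 94 14 10 4 1)) (.leaf 87 14 10 4 1)) (.leaf 79 14 10 4 1))
theorem u01 : t_u01.ok 0 1 0 0 (UE0 (1, 0) D01) unitBx = true :=
  (Tree.ok_s0 (Tree.ok_s0 (Tree.ok_s1 lv.2.2.2.2.1.1 lv.2.2.2.2.1.2.1) lv.2.2.2.2.1.2.2.1) lv.2.2.2.2.1.2.2.2)

def t_v01 : Tree := (.s1 (.s0 (.leaf 91 14 10 4 1) (.leaf 94 14 10 4 1)) (.s2 (.leaf 86 14 10 4 1) (.s1 (.leaf 94 14 10 4 1) (.leaf 97 14 10 4 1))))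
theorem v01 : t_v01.ok 0 1 0 0 (UE1 (1, 1) D01) unitBx = true :=
  (Tree.ok_s1 (Tree.ok_s0 lv.2.2.2.2.2.1.1 lv.2.2.2.2.2.1.2.1) (Tree.ok_s2 lv.2.2.2.2.2.1.2.2.1 (Tree.ok_s1 lv.2.2.2.2.2.1.2.2.2.1 lv.2.2.2.2.2.1.2.2.2.2)))

def t_u02 : Tree := (.s1 (.s0 (.s0 (.leaf 91 14 10 4 1) (.leaf 94 14 10 4 1)) (.leaf 86 14 10 4 1)) (.s0 (.leaf 83 14 10 4 1) (.leaf 91 14 10 4 1)))
theorem u02 : t_u02.ok 0 1 0 0 (UE0 (1, 0) D02) unitBx = true :=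
  (Tree.ok_s1 (Tree.ok_s0 (Tree.ok_s0 lv.2.2.2.2.2.2.1.1 lv.2.2.2.2.2.2.1.2.1) lv.2.2.2.2.2.2.1.2.2.1) (Tree.ok_s0 lv.2.2.2.2.2.2.1.2.2.2.1 lv.2.2.2.2.2.2.1.2.2.2.2))

def t_v02 : Tree := (.s1 (.s0 (.leaf 91 14 10 4 1) (.leaf 94 14 10 4 1)) (.s1 (.s2 (.leaf 94 14 10 4 1) (.leaf 95 14 10 4 1)) (.s2 (.leaf 96 14 10 4 1) (.leaf 97 14 10 4 1))))
theorem v02 : t_v02.ok 0 1 0 0 (UE1 (1, 1) D02) unitBx = true :=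
  (Tree.ok_s1 (Tree.ok_s0 lv.2.2.2.2.2.2.2.1.1 lv.2.2.2.2.2.2.2.1.2.1) (Tree.ok_s1 (Tree.ok_s2 lv.2.2.2.2.2.2.2.1.2.2.1 lv.2.2.2.2.2.2.2.1.2.2.2.1) (Tree.ok_s2 lv.2.2.2.2.2.2.2.1.2.2.2.2.1 lv.2.2.2.2.2.2.2.1.2.2.2.2.2)))

def t_u03 : Tree := (.s0 (.s1 (.s0 (.leaf 91 14 10 4 1) (.leaf 94 14 10 4 1)) (.s0 (.leaf 94 14 10 4 1) (.leaf 98 14 10 4 1))) (.leaf 79 14 10 4 1))
theorem u03 : t_u03.ok 0 1 0 0 (UE0 (1, 0) D03) unitBx = true :=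
  (Tree.ok_s0 (Tree.ok_s1 (Tree.ok_s0 lv.2.2.2.2.2.2.2.2.1.1 lv.2.2.2.2.2.2.2.2.1.2.1) (Tree.ok_s0 lv.2.2.2.2.2.2.2.2.1.2.2.1 lv.2.2.2.2.2.2.2.2.1.2.2.2.1)) lv.2.2.2.2.2.2.2.2.1.2.2.2.2)

def t_v03 : Tree := (.s1 (.leaf 80 14 10 4 1) (.s1 (.s0 (.leaf 102 14 10 4 1) (.leaf 106 14 10 4 1)) (.s1 (.leaf 102 14 10 4 1) (.leaf 103 14 10 4 1))))
theorem v03 : t_v03.ok 0 1 0 0 (UE1 (1, 1) D03) unitBx = true :=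
  (Tree.ok_s1 lv.2.2.2.2.2.2.2.2.2.1.1 (Tree.ok_s1 (Tree.ok_s0 lv.2.2.2.2.2.2.2.2.2.1.2.1 lv.2.2.2.2.2.2.2.2.2.1.2.2.1) (Tree.ok_s1 lv.2.2.2.2.2.2.2.2.2.1.2.2.2.1 lv.2.2.2.2.2.2.2.2.2.1.2.2.2.2)))

def t_h000 : Tree := (.s0 (.leaf 121 14 14 6 6) (.s2 (.leaf 130 14 14 6 6) (.leaf 131 14 14 6 6)))
theorem h000 : t_h000.ok 0 1 0 0 (GM 0 0 (D 0) (1, 3) (-1, 7) (2, 4) (1, 0) (.q 144 624) p00 k00 k10) unitBx = true :=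
  (Tree.ok_s0 lv.2.2.2.2.2.2.2.2.2.2.1.1 (Tree.ok_s2 lv.2.2.2.2.2.2.2.2.2.2.1.2.1 lv.2.2.2.2.2.2.2.2.2.2.1.2.2))

def t_h001 : Tree := (.s0 (.leaf 112 14 14 6 6) (.s2 (.leaf 121 14 14 6 6) (.leaf 122 14 14 6 6)))
theorem h001 : t_h001.ok 0 1 0 0 (GM 0 0 (D 0) (1, 3) (-1, 7) (2, 4) (1, 0) (tau1 (1, 3)) p00 k00 k10) unitBx = true :=
  (Tree.ok_s0 lv.2.2.2.2.2.2.2.2.2.2.2.1.1 (Tree.ok_s2 lv.2.2.2.2.2.2.2.2.2.2.2.1.2.1 lv.2.2.2.2.2.2.2.2.2.2.2.1.2.2))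

def t_h010 : Tree := (.s0 (.leaf 121 14 14 6 6) (.s2 (.leaf 130 14 14 6 6) (.leaf 132 14 14 6 6)))
theorem h010 : t_h010.ok 0 1 0 0 (GM 0 1 (D 0) (1, 3) (-1, 7) (2, 4) (1, 0) (.q 144 624) p01 k01 k11) unitBx = true :=
  (Tree.ok_s0 lv.2.2.2.2.2.2.2.2.2.2.2.2.1.1 (Tree.ok_s2 lv.2.2.2.2.2.2.2.2.2.2.2.2.1.2.1 lv.2.2.2.2.2.2.2.2.2.2.2.2.1.2.2))

def t_h011 : Tree := (.s1 (.leaf 113 14 14 6 6) (.leaf 115 14 14 6 6))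
theorem h011 : t_h011.ok 0 1 0 0 (GM 0 1 (D 0) (1, 3) (-1, 7) (2, 4) (1, 0) (tau1 (1, 3)) p01 k01 k11) unitBx = true :=
  (Tree.ok_s1 lv.2.2.2.2.2.2.2.2.2.2.2.2.2.1.1 lv.2.2.2.2.2.2.2.2.2.2.2.2.2.1.2)

def t_h020 : Tree := (.s0 (.s0 (.leaf 134 14 14 6 6) (.leaf 135 14 14 6 6)) (.s1 (.leaf 137 14 14 6 6) (.leaf 142 14 14 6 6)))
theorem h020 : t_h020.ok 0 1 0 0 (GM 0 2 (D 0) (1, 3) (-1, 7) (2, 4) (1, 0) (.q 144 624) p02 k02 k12) unitBx = true :=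
  (Tree.ok_s0 (Tree.ok_s0 lv.2.2.2.2.2.2.2.2.2.2.2.2.2.2.1.1 lv.2.2.2.2.2.2.2.2.2.2.2.2.2.2.1.2.1) (Tree.ok_s1 lv.2.2.2.2.2.2.2.2.2.2.2.2.2.2.1.2.2.1 lv.2.2.2.2.2.2.2.2.2.2.2.2.2.2.1.2.2.2))

def t_h021 : Tree := (.s0 (.s0 (.leaf 125 14 14 6 6) (.leaf 126 14 14 6 6)) (.s1 (.leaf 128 14 14 6 6) (.leaf 133 14 14 6 6)))
theorem h021 : t_h021.ok 0 1 0 0 (GM 0 2 (D 0) (1, 3) (-1, 7) (2, 4) (1, 0) (tau1 (1, 3)) p02 k02 k12) unitBx = true :=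
  (Tree.ok_s0 (Tree.ok_s0 lv.2.2.2.2.2.2.2.2.2.2.2.2.2.2.2.1.1 lv.2.2.2.2.2.2.2.2.2.2.2.2.2.2.2.1.2.1) (Tree.ok_s1 lv.2.2.2.2.2.2.2.2.2.2.2.2.2.2.2.1.2.2.1 lv.2.2.2.2.2.2.2.2.2.2.2.2.2.2.2.1.2.2.2))

def t_h030 : Tree := (.s0 (.leaf 122 14 14 6 6) (.s2 (.leaf 131 14 14 6 6) (.leaf 132 14 14 6 6)))
theorem h030 : t_h030.ok 0 1 0 0 (GM 0 3 (D 0) (1, 3) (-1, 7) (2, 4) (1, 0) (.q 144 624) p03 k03 k13) unitBx = true :=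
  (Tree.ok_s0 lv.2.2.2.2.2.2.2.2.2.2.2.2.2.2.2.2.1.1 (Tree.ok_s2 lv.2.2.2.2.2.2.2.2.2.2.2.2.2.2.2.2.1.2.1 lv.2.2.2.2.2.2.2.2.2.2.2.2.2.2.2.2.1.2.2))

def t_h031 : Tree := (.s0 (.leaf 112 14 14 6 6) (.s2 (.leaf 121 14 14 6 6) (.leaf 123 14 14 6 6)))
theorem h031 : t_h031.ok 0 1 0 0 (GM 0 3 (D 0) (1, 3) (-1, 7) (2, 4) (1, 0) (tau1 (1, 3)) p03 k03 k13) unitBx = true :=
  (Tree.ok_s0 lv.2.2.2.2.2.2.2.2.2.2.2.2.2.2.2.2.2.1.1 (Tree.ok_s2 lv.2.2.2.2.2.2.2.2.2.2.2.2.2.2.2.2.2.1.2.1 lv.2.2.2.2.2.2.2.2.2.2.2.2.2.2.2.2.2.1.2.2))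

def t_s1 : Tree := (.s1 (.leaf 95 9 10 5 1) (.leaf 99 9 10 5 1))
theorem s1 : t_s1.ok 0 1 0 0 (SEG D13 (-19441, 4095) (sP (24, 24) (1, 24)) p10 p11 p12 p13) unitBx = true :=
  (Tree.ok_s1 lv.2.2.2.2.2.2.2.2.2.2.2.2.2.2.2.2.2.2.1.1 lv.2.2.2.2.2.2.2.2.2.2.2.2.2.2.2.2.2.2.1.2)

def t_r1 : Tree := (.leaf 42 10 1 4 1)
theorem r1 : t_r1.ok 0 1 0 0 (RE D13 (-19441, 4095)) unitBx = true :=
  lv.2.2.2.2.2.2.2.2.2.2.2.2.2.2.2.2.2.2.2.1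

def t_u10 : Tree := (.s0 (.s1 (.s0 (.leaf 90 14 10 4 1) (.leaf 94 14 10 4 1)) (.leaf 83 14 10 4 1)) (.leaf 79 14 10 4 1))
theorem u10 : t_u10.ok 0 1 0 0 (UE0 (1, 0) D10) unitBx = true :=
  (Tree.ok_s0 (Tree.ok_s1 (Tree.ok_s0 lv.2.2.2.2.2.2.2.2.2.2.2.2.2.2.2.2.2.2.2.2.1.1 lv.2.2.2.2.2.2.2.2.2.2.2.2.2.2.2.2.2.2.2.2.1.2.1) lv.2.2.2.2.2.2.2.2.2.2.2.2.2.2.2.2.2.2.2.2.1.2.2.1) lv.2.2.2.2.2.2.2.2.2.2.2.2.2.2.2.2.2.2.2.2.1.2.2.2)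

def t_v10 : Tree := (.s1 (.leaf 79 14 10 4 1) (.s2 (.leaf 85 14 10 4 1) (.leaf 86 14 10 4 1)))
theorem v10 : t_v10.ok 0 1 0 0 (UE1 (1, 1) D10) unitBx = true :=
  (Tree.ok_s1 lv.2.2.2.2.2.2.2.2.2.2.2.2.2.2.2.2.2.2.2.2.2.1.1 (Tree.ok_s2 lv.2.2.2.2.2.2.2.2.2.2.2.2.2.2.2.2.2.2.2.2.2.1.2.1 lv.2.2.2.2.2.2.2.2.2.2.2.2.2.2.2.2.2.2.2.2.2.1.2.2))

def t_u11 : Tree := (.s0 (.s1 (.leaf 79 14 10 4 1) (.leaf 83 14 10 4 1)) (.leaf 79 14 10 4 1))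
theorem u11 : t_u11.ok 0 1 0 0 (UE0 (1, 0) D11) unitBx = true :=
  (Tree.ok_s0 (Tree.ok_s1 lv.2.2.2.2.2.2.2.2.2.2.2.2.2.2.2.2.2.2.2.2.2.2.1.1 lv.2.2.2.2.2.2.2.2.2.2.2.2.2.2.2.2.2.2.2.2.2.2.1.2.1) lv.2.2.2.2.2.2.2.2.2.2.2.2.2.2.2.2.2.2.2.2.2.2.1.2.2)

def t_v11 : Tree := (.s1 (.leaf 79 14 10 4 1) (.s0 (.leaf 94 14 10 4 1) (.leaf 99 14 10 4 1)))
theorem v11 : t_v11.ok 0 1 0 0 (UE1 (1, 1) D11) unitBx = true :=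
  (Tree.ok_s1 lv.2.2.2.2.2.2.2.2.2.2.2.2.2.2.2.2.2.2.2.2.2.2.2.1.1 (Tree.ok_s0 lv.2.2.2.2.2.2.2.2.2.2.2.2.2.2.2.2.2.2.2.2.2.2.2.1.2.1 lv.2.2.2.2.2.2.2.2.2.2.2.2.2.2.2.2.2.2.2.2.2.2.2.1.2.2))

def t_u12 : Tree := (.s0 (.s1 (.s0 (.leaf 92 14 10 4 1) (.leaf 94 14 10 4 1)) (.s2 (.leaf 86 14 10 4 1) (.leaf 87 14 10 4 1))) (.leaf 79 14 10 4 1))
theorem u12 : t_u12.ok 0 1 0 0 (UE0 (1, 0) D12) unitBx = true :=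
  (Tree.ok_s0 (Tree.ok_s1 (Tree.ok_s0 lv.2.2.2.2.2.2.2.2.2.2.2.2.2.2.2.2.2.2.2.2.2.2.2.2.1.1 lv.2.2.2.2.2.2.2.2.2.2.2.2.2.2.2.2.2.2.2.2.2.2.2.2.1.2.1) (Tree.ok_s2 lv.2.2.2.2.2.2.2.2.2.2.2.2.2.2.2.2.2.2.2.2.2.2.2.2.1.2.2.1 lv.2.2.2.2.2.2.2.2.2.2.2.2.2.2.2.2.2.2.2.2.2.2.2.2.1.2.2.2.1)) lv.2.2.2.2.2.2.2.2.2.2.2.2.2.2.2.2.2.2.2.2.2.2.2.2.1.2.2.2.2)

def t_v12 : Tree := (.s1 (.leaf 80 14 10 4 1) (.s1 (.s2 (.leaf 94 14 10 4 1) (.leaf 95 14 10 4 1)) (.s0 (.leaf 104 14 10 4 1) (.leaf 108 14 10 4 1))))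
theorem v12 : t_v12.ok 0 1 0 0 (UE1 (1, 1) D12) unitBx = true :=
  (Tree.ok_s1 lv.2.2.2.2.2.2.2.2.2.2.2.2.2.2.2.2.2.2.2.2.2.2.2.2.2.1.1 (Tree.ok_s1 (Tree.ok_s2 lv.2.2.2.2.2.2.2.2.2.2.2.2.2.2.2.2.2.2.2.2.2.2.2.2.2.1.2.1 lv.2.2.2.2.2.2.2.2.2.2.2.2.2.2.2.2.2.2.2.2.2.2.2.2.2.1.2.2.1) (Tree.ok_s0 lv.2.2.2.2.2.2.2.2.2.2.2.2.2.2.2.2.2.2.2.2.2.2.2.2.2.1.2.2.2.1 lv.2.2.2.2.2.2.2.2.2.2.2.2.2.2.2.2.2.2.2.2.2.2.2.2.2.1.2.2.2.2)))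

def t_u13 : Tree := (.s0 (.leaf 73 14 10 4 1) (.leaf 80 14 10 4 1))
theorem u13 : t_u13.ok 0 1 0 0 (UE0 (1, 0) D13) unitBx = true :=
  (Tree.ok_s0 lv.2.2.2.2.2.2.2.2.2.2.2.2.2.2.2.2.2.2.2.2.2.2.2.2.2.2.1.1 lv.2.2.2.2.2.2.2.2.2.2.2.2.2.2.2.2.2.2.2.2.2.2.2.2.2.2.1.2)

def t_v13 : Tree := (.s2 (.leaf 76 14 10 4 1) (.s0 (.leaf 88 14 10 4 1) (.leaf 91 14 10 4 1)))
theorem v13 : t_v13.ok 0 1 0 0 (UE1 (1, 1) D13) unitBx = true :=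
  (Tree.ok_s2 lv.2.2.2.2.2.2.2.2.2.2.2.2.2.2.2.2.2.2.2.2.2.2.2.2.2.2.2.1.1 (Tree.ok_s0 lv.2.2.2.2.2.2.2.2.2.2.2.2.2.2.2.2.2.2.2.2.2.2.2.2.2.2.2.1.2.1 lv.2.2.2.2.2.2.2.2.2.2.2.2.2.2.2.2.2.2.2.2.2.2.2.2.2.2.2.1.2.2))

def t_h100 : Tree := (.s3 (.s0 (.leaf 126 14 14 6 6) (.leaf 131 14 14 6 6)) (.s0 (.leaf 126 14 14 6 6) (.leaf 131 14 14 6 6)))
theorem h100 : t_h100.ok 0 1 0 0 (GM 1 0 (D 1) (1, 3) (-1, 7) (2, 4) (1, 0) (.q 144 624) p10 k00 k10) unitBx = true :=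
  (Tree.ok_s3 (Tree.ok_s0 lv.2.2.2.2.2.2.2.2.2.2.2.2.2.2.2.2.2.2.2.2.2.2.2.2.2.2.2.2.1.1 lv.2.2.2.2.2.2.2.2.2.2.2.2.2.2.2.2.2.2.2.2.2.2.2.2.2.2.2.2.1.2.1) (Tree.ok_s0 lv.2.2.2.2.2.2.2.2.2.2.2.2.2.2.2.2.2.2.2.2.2.2.2.2.2.2.2.2.1.2.2.1 lv.2.2.2.2.2.2.2.2.2.2.2.2.2.2.2.2.2.2.2.2.2.2.2.2.2.2.2.2.1.2.2.2))

def t_h101 : Tree := (.s3 (.leaf 105 14 14 6 6) (.leaf 106 14 14 6 6))
theorem h101 : t_h101.ok 0 1 0 0 (GM 1 0 (D 1) (1, 3) (-1, 7) (2, 4) (1, 0) (tau1 (1, 3)) p10 k00 k10) unitBx = true :=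
  (Tree.ok_s3 lv.2.2.2.2.2.2.2.2.2.2.2.2.2.2.2.2.2.2.2.2.2.2.2.2.2.2.2.2.2.1.1 lv.2.2.2.2.2.2.2.2.2.2.2.2.2.2.2.2.2.2.2.2.2.2.2.2.2.2.2.2.2.1.2)

def t_h110 : Tree := (.s3 (.s1 (.leaf 127 14 14 6 6) (.leaf 129 14 14 6 6)) (.leaf 115 14 14 6 6))
theorem h110 : t_h110.ok 0 1 0 0 (GM 1 1 (D 1) (1, 3) (-1, 7) (2, 4) (1, 0) (.q 144 624) p11 k01 k11) unitBx = true :=
  (Tree.ok_s3 (Tree.ok_s1 lv.2.2.2.2.2.2.2.2.2.2.2.2.2.2.2.2.2.2.2.2.2.2.2.2.2.2.2.2.2.2.1.1 lv.2.2.2.2.2.2.2.2.2.2.2.2.2.2.2.2.2.2.2.2.2.2.2.2.2.2.2.2.2.2.1.2.1) lv.2.2.2.2.2.2.2.2.2.2.2.2.2.2.2.2.2.2.2.2.2.2.2.2.2.2.2.2.2.2.1.2.2)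

def t_h111 : Tree := (.s3 (.leaf 106 14 14 6 6) (.leaf 106 14 14 6 6))
theorem h111 : t_h111.ok 0 1 0 0 (GM 1 1 (D 1) (1, 3) (-1, 7) (2, 4) (1, 0) (tau1 (1, 3)) p11 k01 k11) unitBx = true :=
  (Tree.ok_s3 lv.2.2.2.2.2.2.2.2.2.2.2.2.2.2.2.2.2.2.2.2.2.2.2.2.2.2.2.2.2.2.2.1.1 lv.2.2.2.2.2.2.2.2.2.2.2.2.2.2.2.2.2.2.2.2.2.2.2.2.2.2.2.2.2.2.2.1.2)

def t_h120 : Tree := (.s3 (.s0 (.leaf 127 14 14 6 6) (.leaf 131 14 14 6 6)) (.s0 (.leaf 127 14 14 6 6) (.leaf 131 14 14 6 6)))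
theorem h120 : t_h120.ok 0 1 0 0 (GM 1 2 (D 1) (1, 3) (-1, 7) (2, 4) (1, 0) (.q 144 624) p12 k02 k12) unitBx = true :=
  (Tree.ok_s3 (Tree.ok_s0 lv.2.2.2.2.2.2.2.2.2.2.2.2.2.2.2.2.2.2.2.2.2.2.2.2.2.2.2.2.2.2.2.2.1.1 lv.2.2.2.2.2.2.2.2.2.2.2.2.2.2.2.2.2.2.2.2.2.2.2.2.2.2.2.2.2.2.2.2.1.2.1) (Tree.ok_s0 lv.2.2.2.2.2.2.2.2.2.2.2.2.2.2.2.2.2.2.2.2.2.2.2.2.2.2.2.2.2.2.2.2.1.2.2.1 lv.2.2.2.2.2.2.2.2.2.2.2.2.2.2.2.2.2.2.2.2.2.2.2.2.2.2.2.2.2.2.2.2.1.2.2.2))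

def t_h121 : Tree := (.s3 (.s0 (.leaf 118 14 14 6 6) (.leaf 122 14 14 6 6)) (.leaf 106 14 14 6 6))
theorem h121 : t_h121.ok 0 1 0 0 (GM 1 2 (D 1) (1, 3) (-1, 7) (2, 4) (1, 0) (tau1 (1, 3)) p12 k02 k12) unitBx = true :=
  (Tree.ok_s3 (Tree.ok_s0 lv.2.2.2.2.2.2.2.2.2.2.2.2.2.2.2.2.2.2.2.2.2.2.2.2.2.2.2.2.2.2.2.2.2.1.1 lv.2.2.2.2.2.2.2.2.2.2.2.2.2.2.2.2.2.2.2.2.2.2.2.2.2.2.2.2.2.2.2.2.2.1.2.1) lv.2.2.2.2.2.2.2.2.2.2.2.2.2.2.2.2.2.2.2.2.2.2.2.2.2.2.2.2.2.2.2.2.2.1.2.2)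

def t_h130 : Tree := (.s0 (.leaf 122 14 14 6 6) (.s3 (.leaf 132 14 14 6 6) (.leaf 132 14 14 6 6)))
theorem h130 : t_h130.ok 0 1 0 0 (GM 1 3 (D 1) (1, 3) (-1, 7) (2, 4) (1, 0) (.q 144 624) p13 k03 k13) unitBx = true :=
  (Tree.ok_s0 lv.2.2.2.2.2.2.2.2.2.2.2.2.2.2.2.2.2.2.2.2.2.2.2.2.2.2.2.2.2.2.2.2.2.2.1.1 (Tree.ok_s3 lv.2.2.2.2.2.2.2.2.2.2.2.2.2.2.2.2.2.2.2.2.2.2.2.2.2.2.2.2.2.2.2.2.2.2.1.2.1 lv.2.2.2.2.2.2.2.2.2.2.2.2.2.2.2.2.2.2.2.2.2.2.2.2.2.2.2.2.2.2.2.2.2.2.1.2.2))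

def t_h131 : Tree := (.s0 (.leaf 113 14 14 6 6) (.s3 (.leaf 123 14 14 6 6) (.leaf 123 14 14 6 6)))
theorem h131 : t_h131.ok 0 1 0 0 (GM 1 3 (D 1) (1, 3) (-1, 7) (2, 4) (1, 0) (tau1 (1, 3)) p13 k03 k13) unitBx = true :=
  (Tree.ok_s0 lv.2.2.2.2.2.2.2.2.2.2.2.2.2.2.2.2.2.2.2.2.2.2.2.2.2.2.2.2.2.2.2.2.2.2.2.1.1 (Tree.ok_s3 lv.2.2.2.2.2.2.2.2.2.2.2.2.2.2.2.2.2.2.2.2.2.2.2.2.2.2.2.2.2.2.2.2.2.2.2.1.2.1 lv.2.2.2.2.2.2.2.2.2.2.2.2.2.2.2.2.2.2.2.2.2.2.2.2.2.2.2.2.2.2.2.2.2.2.2.1.2.2))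

def t_s2 : Tree := (.s1 (.leaf 97 9 10 5 1) (.leaf 101 9 10 5 1))
theorem s2 : t_s2.ok 0 1 0 0 (SEG D23 (-24899, 4095) (sP (24, 24) (1, 24)) p20 p21 p22 p23) unitBx = true :=
  (Tree.ok_s1 lv.2.2.2.2.2.2.2.2.2.2.2.2.2.2.2.2.2.2.2.2.2.2.2.2.2.2.2.2.2.2.2.2.2.2.2.2.1.1 lv.2.2.2.2.2.2.2.2.2.2.2.2.2.2.2.2.2.2.2.2.2.2.2.2.2.2.2.2.2.2.2.2.2.2.2.2.1.2)

def t_r2 : Tree := (.leaf 43 10 1 4 1)
theorem r2 : t_r2.ok 0 1 0 0 (RE D23 (-24899, 4095)) unitBx = true :=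
  lv.2.2.2.2.2.2.2.2.2.2.2.2.2.2.2.2.2.2.2.2.2.2.2.2.2.2.2.2.2.2.2.2.2.2.2.2.2.1

def t_u20 : Tree := (.leaf 64 14 10 4 1)
theorem u20 : t_u20.ok 0 1 0 0 (UE0 (1, 0) D20) unitBx = true :=
  lv.2.2.2.2.2.2.2.2.2.2.2.2.2.2.2.2.2.2.2.2.2.2.2.2.2.2.2.2.2.2.2.2.2.2.2.2.2.2.1

def t_v20 : Tree := (.s1 (.leaf 81 14 10 4 1) (.leaf 85 14 10 4 1))
theorem v20 : t_v20.ok 0 1 0 0 (UE1 (1, 1) D20) unitBx = true :=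
  (Tree.ok_s1 lv.2.2.2.2.2.2.2.2.2.2.2.2.2.2.2.2.2.2.2.2.2.2.2.2.2.2.2.2.2.2.2.2.2.2.2.2.2.2.2.1.1 lv.2.2.2.2.2.2.2.2.2.2.2.2.2.2.2.2.2.2.2.2.2.2.2.2.2.2.2.2.2.2.2.2.2.2.2.2.2.2.2.1.2)

def t_u21 : Tree := (.leaf 65 14 10 4 1)
theorem u21 : t_u21.ok 0 1 0 0 (UE0 (1, 0) D21) unitBx = true :=
  lv.2.2.2.2.2.2.2.2.2.2.2.2.2.2.2.2.2.2.2.2.2.2.2.2.2.2.2.2.2.2.2.2.2.2.2.2.2.2.2.2.1

def t_v21 : Tree := (.s1 (.leaf 81 14 10 4 1) (.s1 (.leaf 94 14 10 4 1) (.leaf 96 14 10 4 1)))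
theorem v21 : t_v21.ok 0 1 0 0 (UE1 (1, 1) D21) unitBx = true :=
  (Tree.ok_s1 lv.2.2.2.2.2.2.2.2.2.2.2.2.2.2.2.2.2.2.2.2.2.2.2.2.2.2.2.2.2.2.2.2.2.2.2.2.2.2.2.2.2.1.1 (Tree.ok_s1 lv.2.2.2.2.2.2.2.2.2.2.2.2.2.2.2.2.2.2.2.2.2.2.2.2.2.2.2.2.2.2.2.2.2.2.2.2.2.2.2.2.2.1.2.1 lv.2.2.2.2.2.2.2.2.2.2.2.2.2.2.2.2.2.2.2.2.2.2.2.2.2.2.2.2.2.2.2.2.2.2.2.2.2.2.2.2.2.1.2.2))

def t_u22 : Tree := (.s1 (.s0 (.leaf 81 14 10 4 1) (.leaf 87 14 10 4 1)) (.leaf 76 14 10 4 1))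
theorem u22 : t_u22.ok 0 1 0 0 (UE0 (1, 0) D22) unitBx = true :=
  (Tree.ok_s1 (Tree.ok_s0 lv.2.2.2.2.2.2.2.2.2.2.2.2.2.2.2.2.2.2.2.2.2.2.2.2.2.2.2.2.2.2.2.2.2.2.2.2.2.2.2.2.2.2.1.1 lv.2.2.2.2.2.2.2.2.2.2.2.2.2.2.2.2.2.2.2.2.2.2.2.2.2.2.2.2.2.2.2.2.2.2.2.2.2.2.2.2.2.2.1.2.1) lv.2.2.2.2.2.2.2.2.2.2.2.2.2.2.2.2.2.2.2.2.2.2.2.2.2.2.2.2.2.2.2.2.2.2.2.2.2.2.2.2.2.2.1.2.2)

def t_v22 : Tree := (.s1 (.leaf 81 14 10 4 1) (.s1 (.leaf 93 14 10 4 1) (.leaf 96 14 10 4 1)))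
theorem v22 : t_v22.ok 0 1 0 0 (UE1 (1, 1) D22) unitBx = true :=
  (Tree.ok_s1 lv.2.2.2.2.2.2.2.2.2.2.2.2.2.2.2.2.2.2.2.2.2.2.2.2.2.2.2.2.2.2.2.2.2.2.2.2.2.2.2.2.2.2.2.1.1 (Tree.ok_s1 lv.2.2.2.2.2.2.2.2.2.2.2.2.2.2.2.2.2.2.2.2.2.2.2.2.2.2.2.2.2.2.2.2.2.2.2.2.2.2.2.2.2.2.2.1.2.1 lv.2.2.2.2.2.2.2.2.2.2.2.2.2.2.2.2.2.2.2.2.2.2.2.2.2.2.2.2.2.2.2.2.2.2.2.2.2.2.2.2.2.2.2.1.2.2))

def t_u23 : Tree := (.s1 (.leaf 71 14 10 4 1) (.leaf 76 14 10 4 1))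
theorem u23 : t_u23.ok 0 1 0 0 (UE0 (1, 0) D23) unitBx = true :=
  (Tree.ok_s1 lv.2.2.2.2.2.2.2.2.2.2.2.2.2.2.2.2.2.2.2.2.2.2.2.2.2.2.2.2.2.2.2.2.2.2.2.2.2.2.2.2.2.2.2.2.1.1 lv.2.2.2.2.2.2.2.2.2.2.2.2.2.2.2.2.2.2.2.2.2.2.2.2.2.2.2.2.2.2.2.2.2.2.2.2.2.2.2.2.2.2.2.2.1.2)

def t_v23 : Tree := (.s1 (.leaf 82 14 10 4 1) (.s1 (.leaf 94 14 10 4 1) (.leaf 96 14 10 4 1)))
theorem v23 : t_v23.ok 0 1 0 0 (UE1 (1, 1) D23) unitBx = true :=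
  (Tree.ok_s1 lv.2.2.2.2.2.2.2.2.2.2.2.2.2.2.2.2.2.2.2.2.2.2.2.2.2.2.2.2.2.2.2.2.2.2.2.2.2.2.2.2.2.2.2.2.2.1.1 (Tree.ok_s1 lv.2.2.2.2.2.2.2.2.2.2.2.2.2.2.2.2.2.2.2.2.2.2.2.2.2.2.2.2.2.2.2.2.2.2.2.2.2.2.2.2.2.2.2.2.2.1.2.1 lv.2.2.2.2.2.2.2.2.2.2.2.2.2.2.2.2.2.2.2.2.2.2.2.2.2.2.2.2.2.2.2.2.2.2.2.2.2.2.2.2.2.2.2.2.2.1.2.2))

def t_h200 : Tree := (.s3 (.s0 (.leaf 125 14 14 6 6) (.leaf 130 14 14 6 6)) (.s3 (.leaf 120 14 14 6 6) (.leaf 120 14 14 6 6)))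
theorem h200 : t_h200.ok 0 1 0 0 (GM 2 0 (D 2) (1, 3) (-1, 7) (2, 4) (1, 0) (.q 144 624) p20 k00 k10) unitBx = true :=
  (Tree.ok_s3 (Tree.ok_s0 lv.2.2.2.2.2.2.2.2.2.2.2.2.2.2.2.2.2.2.2.2.2.2.2.2.2.2.2.2.2.2.2.2.2.2.2.2.2.2.2.2.2.2.2.2.2.2.1.1 lv.2.2.2.2.2.2.2.2.2.2.2.2.2.2.2.2.2.2.2.2.2.2.2.2.2.2.2.2.2.2.2.2.2.2.2.2.2.2.2.2.2.2.2.2.2.2.1.2.1) (Tree.ok_s3 lv.2.2.2.2.2.2.2.2.2.2.2.2.2.2.2.2.2.2.2.2.2.2.2.2.2.2.2.2.2.2.2.2.2.2.2.2.2.2.2.2.2.2.2.2.2.2.1.2.2.1 lv.2.2.2.2.2.2.2.2.2.2.2.2.2.2.2.2.2.2.2.2.2.2.2.2.2.2.2.2.2.2.2.2.2.2.2.2.2.2.2.2.2.2.2.2.2.2.1.2.2.2))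

def t_h201 : Tree := (.s3 (.leaf 105 14 14 6 6) (.leaf 105 14 14 6 6))
theorem h201 : t_h201.ok 0 1 0 0 (GM 2 0 (D 2) (1, 3) (-1, 7) (2, 4) (1, 0) (tau1 (1, 3)) p20 k00 k10) unitBx = true :=
  (Tree.ok_s3 lv.2.2.2.2.2.2.2.2.2.2.2.2.2.2.2.2.2.2.2.2.2.2.2.2.2.2.2.2.2.2.2.2.2.2.2.2.2.2.2.2.2.2.2.2.2.2.2.1.1 lv.2.2.2.2.2.2.2.2.2.2.2.2.2.2.2.2.2.2.2.2.2.2.2.2.2.2.2.2.2.2.2.2.2.2.2.2.2.2.2.2.2.2.2.2.2.2.2.1.2)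

def t_h210 : Tree := (.leaf 110 14 14 6 6)
theorem h210 : t_h210.ok 0 1 0 0 (GM 2 1 (D 2) (1, 3) (-1, 7) (2, 4) (1, 0) (.q 144 624) p21 k01 k11) unitBx = true :=
  lv.2.2.2.2.2.2.2.2.2.2.2.2.2.2.2.2.2.2.2.2.2.2.2.2.2.2.2.2.2.2.2.2.2.2.2.2.2.2.2.2.2.2.2.2.2.2.2.2.1

def t_h211 : Tree := (.leaf 100 14 14 6 6)
theorem h211 : t_h211.ok 0 1 0 0 (GM 2 1 (D 2) (1, 3) (-1, 7) (2, 4) (1, 0) (tau1 (1, 3)) p21 k01 k11) unitBx = true :=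
  lv.2.2.2.2.2.2.2.2.2.2.2.2.2.2.2.2.2.2.2.2.2.2.2.2.2.2.2.2.2.2.2.2.2.2.2.2.2.2.2.2.2.2.2.2.2.2.2.2.2.1

def t_h220 : Tree := (.s0 (.leaf 121 14 14 6 6) (.leaf 125 14 14 6 6))
theorem h220 : t_h220.ok 0 1 0 0 (GM 2 2 (D 2) (1, 3) (-1, 7) (2, 4) (1, 0) (.q 144 624) p22 k02 k12) unitBx = true :=
  (Tree.ok_s0 lv.2.2.2.2.2.2.2.2.2.2.2.2.2.2.2.2.2.2.2.2.2.2.2.2.2.2.2.2.2.2.2.2.2.2.2.2.2.2.2.2.2.2.2.2.2.2.2.2.2.2.1.1 lv.2.2.2.2.2.2.2.2.2.2.2.2.2.2.2.2.2.2.2.2.2.2.2.2.2.2.2.2.2.2.2.2.2.2.2.2.2.2.2.2.2.2.2.2.2.2.2.2.2.2.1.2)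

def t_h221 : Tree := (.leaf 100 14 14 6 6)
theorem h221 : t_h221.ok 0 1 0 0 (GM 2 2 (D 2) (1, 3) (-1, 7) (2, 4) (1, 0) (tau1 (1, 3)) p22 k02 k12) unitBx = true :=
  lv.2.2.2.2.2.2.2.2.2.2.2.2.2.2.2.2.2.2.2.2.2.2.2.2.2.2.2.2.2.2.2.2.2.2.2.2.2.2.2.2.2.2.2.2.2.2.2.2.2.2.2.1

def t_h230 : Tree := (.s0 (.leaf 121 14 14 6 6) (.leaf 126 14 14 6 6))
theorem h230 : t_h230.ok 0 1 0 0 (GM 2 3 (D 2) (1, 3) (-1, 7) (2, 4) (1, 0) (.q 144 624) p23 k03 k13) unitBx = true :=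
  (Tree.ok_s0 lv.2.2.2.2.2.2.2.2.2.2.2.2.2.2.2.2.2.2.2.2.2.2.2.2.2.2.2.2.2.2.2.2.2.2.2.2.2.2.2.2.2.2.2.2.2.2.2.2.2.2.2.2.1.1 lv.2.2.2.2.2.2.2.2.2.2.2.2.2.2.2.2.2.2.2.2.2.2.2.2.2.2.2.2.2.2.2.2.2.2.2.2.2.2.2.2.2.2.2.2.2.2.2.2.2.2.2.2.1.2)

def t_h231 : Tree := (.s0 (.leaf 112 14 14 6 6) (.leaf 116 14 14 6 6))
theorem h231 : t_h231.ok 0 1 0 0 (GM 2 3 (D 2) (1, 3) (-1, 7) (2, 4) (1, 0) (tau1 (1, 3)) p23 k03 k13) unitBx = true :=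
  (Tree.ok_s0 lv.2.2.2.2.2.2.2.2.2.2.2.2.2.2.2.2.2.2.2.2.2.2.2.2.2.2.2.2.2.2.2.2.2.2.2.2.2.2.2.2.2.2.2.2.2.2.2.2.2.2.2.2.2.1 lv.2.2.2.2.2.2.2.2.2.2.2.2.2.2.2.2.2.2.2.2.2.2.2.2.2.2.2.2.2.2.2.2.2.2.2.2.2.2.2.2.2.2.2.2.2.2.2.2.2.2.2.2.2.2)

/-! The certified family. -/

theorem cert : PhiCert (-1 / 2) D psi hh (1, 3) (-1, 7) (1, 0) (1, 1) (2, 4) (1, 0) (24, 24) (1, 24)
    (.q 144 624) w2 dl where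
  hl0 := by norm_num
  hl1 := by norm_num
  hne := by norm_num
  e2 := by norm_num [cv]
  e3 := by norm_num [cv]
  hmab := by norm_num [cv]
  hta := by norm_num [cv]
  htb := by norm_num [cv]
  htb0 := by norm_num [cv]
  r1 := by norm_num [cv]
  r2 := by norm_num [cv]
  r3 := by norm_num [cv]
  r4 := by norm_num [cv]
  hc := by norm_num [cv]
  hc' := by norm_num [cv]
  hδ0 := by
    intro j hj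
    interval_cases j <;> norm_num [cv, dl]
  hδ2 := by norm_num [cv, dl]
  htau := by
    intro s ρ a b e h0 h1 h2 h3 h4
    simp only [PE.real_q, cv] at h0 ⊢
    push_cast at h0 ⊢
    nlinarith [mul_self_le_mul_self (by norm_num) h0]
  hU0 := by
    intro j k hj hk
    interval_cases j <;> interval_cases k
    exacts [box_zero _ _ u00, box_zero _ _ u01, box_zero _ _ u02, box_zero _ _ u03, box_zero _ _ u10, box_zero _ _ u11, box_zero _ _ u12, box_zero _ _ u13, box_zero _ _ u20, box_zero _ _ u21, box_zero _ _ u22, box_zero _ _ u23]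
  hU1 := by
    intro j k hj hk
    interval_cases j <;> interval_cases k
    exacts [box_zero _ _ v00, box_zero _ _ v01, box_zero _ _ v02, box_zero _ _ v03, box_zero _ _ v10, box_zero _ _ v11, box_zero _ _ v12, box_zero _ _ v13, box_zero _ _ v20, box_zero _ _ v21, box_zero _ _ v22, box_zero _ _ v23]
  hH0 := by
    intro j k hj hk
    interval_cases j <;> interval_cases k
    exacts [box_zero _ _ h000, box_zero _ _ h010, box_zero _ _ h020, box_zero _ _ h030, box_zero _ _ h100, box_zero _ _ h110, box_zero _ _ h120, box_zero _ _ h130, box_zero _ _ h200, box_zero _ _ h210, box_zero _ _ h220, box_zero _ _ h230]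
  hH1 := by
    intro j k hj hk
    interval_cases j <;> interval_cases k
    exacts [box_zero _ _ h001, box_zero _ _ h011, box_zero _ _ h021, box_zero _ _ h031, box_zero _ _ h101, box_zero _ _ h111, box_zero _ _ h121, box_zero _ _ h131, box_zero _ _ h201, box_zero _ _ h211, box_zero _ _ h221, box_zero _ _ h231]
  hS := by
    intro j hj
    interval_cases j
    exacts [box_zero _ _ s0, box_zero _ _ s1, box_zero _ _ s2]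
  hR := by
    intro j hj
    interval_cases j
    exacts [box_zero _ _ r0, box_zero _ _ r1, box_zero _ _ r2]
  hw2 := by
    intro j hj
    interval_cases j <;> norm_num [gR, wR, hr, cv, D, D00, D10, D20, w2, dl]
  hψ0 := by
    intro j k hj hk
    interval_cases j <;> interval_cases k <;> simp [h2R, hr, psi, cv, p00, p01, p02, p03, p10, p11, p12, p13, p20, p21, p22, p23]

end Vale.Agent.P154.M3
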