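import Vale.Agent.P154.Phi

/-! Data of a family of potentials for the Poisson tree. -/

namespace Vale.Agent.P154.M4

def D00 : NP where
  A := [(6861, 4095), (-15596, 4095), (10739, 4095), (-1802, 4095), (-534, 4095), (332, 4095)]
  B := [(47663, 4095), (20109, 4095), (-1456, 4095), (1420, 4095)]
  E := [(26806, 4095)]
  a0 := [(81330, 4095), (4513, 4095), (9283, 4095), (-382, 4095), (-534, 4095), (332, 4095)]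
  a1 := [(81330, 4095), (-9026, 4095), (-46415, 4095), (3056, 4095), (5874, 4095), (-4648, 4095)]
  a2 := [(73, 4095), (-155939, 4095), (174450, 4095), (-3059, 4095)]
  a3 := [(0, 4095), (218514, 4095), (-80783, 4095), (-11915, 4095)]
  a4 := [(0, 4095), (244274, 4095), (-146888, 4095), (49062, 4095)]
  b0 := [(-101275, 4095), (-20109, 4095), (1456, 4095), (-1420, 4095)]
  b1 := [(101275, 4095), (80436, 4095), (-10192, 4095), (14200, 4095)]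
  b2 := [(-45491, 4095), (130042, 4095), (-151280, 4095)]
  b3 := [(3115, 4095), (-409600, 4095), (409600, 4095)]
  b4 := [(-106051, 4095), (409600, 4095), (-181109, 4095)]
  g0 := [(26806, 4095)]
  g1 := [(-80418, 4095)]
  g2 := [(87083, 4095), (-75983, 4095)]

def D01 : NP where
  A := [(929, 4095), (-3093, 4095), (4478, 4095), (-3556, 4095), (1405, 4095), (-163, 4095)]
  B := [(59522, 4095), (13077, 4095), (-8098, 4095), (3235, 4095)]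
  E := [(20876, 4095)]
  a0 := [(81327, 4095), (9984, 4095), (-3620, 4095), (-321, 4095), (1405, 4095), (-163, 4095)]
  a1 := [(81327, 4095), (-19968, 4095), (18100, 4095), (2568, 4095), (-15455, 4095), (2282, 4095)]
  a2 := [(319, 4095), (-140698, 4095), (89884, 4095), (21780, 4095)]
  a3 := [(944, 4095), (128081, 4095), (152692, 4095), (387840, 4095)]
  a4 := [(903, 4095), (292701, 4095), (-154928, 4095), (408615, 4095)]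
  b0 := [(-101274, 4095), (-13077, 4095), (8098, 4095), (-3235, 4095)]
  b1 := [(101274, 4095), (52308, 4095), (-56686, 4095), (32350, 4095)]
  b2 := [(-58484, 4095), (201583, 4095), (-77641, 4095)]
  b3 := [(35718, 4095), (-338451, 4095), (-54269, 4095)]
  b4 := [(-123462, 4095), (409600, 4095), (351711, 4095)]
  g0 := [(20876, 4095)]
  g1 := [(-62628, 4095)]
  g2 := [(68322, 4095), (-108331, 4095)]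

def D02 : NP where
  A := [(926, 4095), (-3063, 4095), (5301, 4095), (-5669, 4095), (3057, 4095), (-552, 4095)]
  B := [(59533, 4095), (12930, 4095), (-9220, 4095), (4493, 4095)]
  E := [(20865, 4095)]
  a0 := [(81324, 4095), (9867, 4095), (-3919, 4095), (-1176, 4095), (3057, 4095), (-552, 4095)]
  a1 := [(81324, 4095), (-19734, 4095), (19595, 4095), (9408, 4095), (-33627, 4095), (7728, 4095)]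
  a2 := [(86, 4095), (-72276, 4095), (41777, 4095), (-24233, 4095)]
  a3 := [(35, 4095), (173536, 4095), (-268077, 4095), (63749, 4095)]
  a4 := [(24, 4095), (24495, 4095), (409600, 4095), (-409600, 4095)]
  b0 := [(-101263, 4095), (-12930, 4095), (9220, 4095), (-4493, 4095)]
  b1 := [(101263, 4095), (51720, 4095), (-64540, 4095), (44930, 4095)]
  b2 := [(-57745, 4095), (37943, 4095), (-11137, 4095)]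
  b3 := [(38540, 4095), (-409600, 4095), (409600, 4095)]
  b4 := [(-127245, 4095), (409600, 4095), (-353587, 4095)]
  g0 := [(20865, 4095)]
  g1 := [(-62595, 4095)]
  g2 := [(67924, 4095), (-506, 4095)]

def D03 : NP where
  A := [(925, 4095), (-3385, 4095), (4857, 4095), (-3412, 4095), (1168, 4095), (-153, 4095)]
  B := [(59531, 4095), (13249, 4095), (-7137, 4095), (2093, 4095)]
  E := [(20865, 4095)]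
  a0 := [(81321, 4095), (9864, 4095), (-2280, 4095), (-1319, 4095), (1168, 4095), (-153, 4095)]
  a1 := [(81321, 4095), (-19728, 4095), (11400, 4095), (10552, 4095), (-12848, 4095), (2142, 4095)]
  a2 := [(73, 4095), (-70286, 4095), (72108, 4095), (-23397, 4095)]
  a3 := [(0, 4095), (169747, 4095), (83483, 4095), (16998, 4095)]
  a4 := [(0, 4095), (164800, 4095), (65319, 4095), (-80703, 4095)]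
  b0 := [(-101261, 4095), (-13249, 4095), (7137, 4095), (-2093, 4095)]
  b1 := [(101261, 4095), (52996, 4095), (-49959, 4095), (20930, 4095)]
  b2 := [(-58106, 4095), (-5906, 4095), (-32535, 4095)]
  b3 := [(34240, 4095), (-409600, 4095), (70576, 4095)]
  b4 := [(-116096, 4095), (305483, 4095), (-133256, 4095)]
  g0 := [(20865, 4095)]
  g1 := [(-62595, 4095)]
  g2 := [(67781, 4095), (35763, 4095)]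

def D10 : NP where
  A := [(12825, 4095), (-14078, 4095), (-1343, 4095), (2970, 4095), (-374, 4095)]
  B := [(46312, 4095), (-14558, 4095), (11294, 4095)]
  E := [(18674, 4095)]
  a0 := [(77811, 4095), (-28636, 4095), (9951, 4095), (2970, 4095), (-374, 4095)]
  a1 := [(77811, 4095), (57272, 4095), (-49755, 4095), (-23760, 4095), (4114, 4095)]
  a2 := [(148, 4095), (-120821, 4095), (158323, 4095), (80558, 4095)]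
  a3 := [(490, 4095), (71090, 4095), (-110500, 4095), (69973, 4095)]
  a4 := [(737, 4095), (133950, 4095), (-200344, 4095), (-409600, 4095)]
  b0 := [(-83660, 4095), (14558, 4095), (-11294, 4095)]
  b1 := [(83660, 4095), (-58232, 4095), (79058, 4095)]
  b2 := [(-44194, 4095), (176727, 4095), (-339776, 4095)]
  b3 := [(29393, 4095), (-409600, 4095), (409600, 4095)]
  b4 := [(-117788, 4095), (387967, 4095), (10792, 4095)]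
  g0 := [(18674, 4095)]
  g1 := [(-56022, 4095)]
  g2 := [(60909, 4095), (35515, 4095)]

def D11 : NP where
  A := [(9923, 4095), (-12970, 4095), (2003, 4095), (1290, 4095), (-246, 4095)]
  B := [(50639, 4095), (-4734, 4095), (6050, 4095)]
  E := [(22859, 4095)]
  a0 := [(83421, 4095), (-17704, 4095), (8053, 4095), (1290, 4095), (-246, 4095)]
  a1 := [(83421, 4095), (35408, 4095), (-40265, 4095), (-10320, 4095), (2706, 4095)]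
  a2 := [(84, 4095), (-136178, 4095), (131929, 4095), (32680, 4095)]
  a3 := [(31, 4095), (142316, 4095), (-289369, 4095), (138516, 4095)]
  a4 := [(21, 4095), (152793, 4095), (318658, 4095), (-409600, 4095)]
  b0 := [(-96357, 4095), (4734, 4095), (-6050, 4095)]
  b1 := [(96357, 4095), (-18936, 4095), (42350, 4095)]
  b2 := [(-49215, 4095), (172132, 4095), (-204972, 4095)]
  b3 := [(16029, 4095), (-409600, 4095), (409600, 4095)]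
  b4 := [(-103126, 4095), (214473, 4095), (-251690, 4095)]
  g0 := [(22859, 4095)]
  g1 := [(-68577, 4095)]
  g2 := [(74353, 4095), (-984, 4095)]

def D12 : NP where
  A := [(3252, 4095), (-4734, 4095), (1461, 4095), (166, 4095), (-145, 4095)]
  B := [(60445, 4095), (393, 4095), (663, 4095)]
  E := [(24111, 4095)]
  a0 := [(87808, 4095), (-4341, 4095), (2124, 4095), (166, 4095), (-145, 4095)]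
  a1 := [(87808, 4095), (8682, 4095), (-10620, 4095), (-1328, 4095), (1595, 4095)]
  a2 := [(74, 4095), (-83508, 4095), (-1724, 4095), (37705, 4095)]
  a3 := [(15, 4095), (104062, 4095), (-43007, 4095), (104810, 4095)]
  a4 := [(22, 4095), (104565, 4095), (335421, 4095), (-409600, 4095)]
  b0 := [(-108667, 4095), (-393, 4095), (-663, 4095)]
  b1 := [(108667, 4095), (1572, 4095), (4641, 4095)]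
  b2 := [(-58513, 4095), (115843, 4095), (-51513, 4095)]
  b3 := [(34127, 4095), (-409600, 4095), (123775, 4095)]
  b4 := [(-135911, 4095), (347861, 4095), (-152848, 4095)]
  g0 := [(24111, 4095)]
  g1 := [(-72333, 4095)]
  g2 := [(78336, 4095), (2886, 4095)]

def D13 : NP where
  A := [(-1253, 4095), (-208, 4095), (1760, 4095), (-404, 4095), (105, 4095)]
  B := [(68940, 4095), (10270, 4095), (-525, 4095)]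
  E := [(26171, 4095)]
  a0 := [(93858, 4095), (10062, 4095), (1235, 4095), (-404, 4095), (105, 4095)]
  a1 := [(93858, 4095), (-20124, 4095), (-6175, 4095), (3232, 4095), (-1155, 4095)]
  a2 := [(142, 4095), (-43299, 4095), (-25552, 4095), (52074, 4095)]
  a3 := [(187, 4095), (105061, 4095), (-128969, 4095), (108372, 4095)]
  a4 := [(121, 4095), (45019, 4095), (409600, 4095), (-409600, 4095)]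
  b0 := [(-121282, 4095), (-10270, 4095), (525, 4095)]
  b1 := [(121282, 4095), (41080, 4095), (-3675, 4095)]
  b2 := [(-64286, 4095), (22480, 4095), (-27710, 4095)]
  b3 := [(50239, 4095), (-345520, 4095), (244655, 4095)]
  b4 := [(-183026, 4095), (409600, 4095), (-311332, 4095)]
  g0 := [(26171, 4095)]
  g1 := [(-78513, 4095)]
  g2 := [(85188, 4095), (-699, 4095)]

def D20 : NP where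
  A := [(6263, 4095), (-26517, 4095), (7560, 4095), (-333, 4095)]
  B := [(36095, 4095), (-7578, 4095), (10724, 4095)]
  E := [(22936, 4095)]
  a0 := [(65294, 4095), (-34095, 4095), (18284, 4095), (-333, 4095)]
  a1 := [(65294, 4095), (68190, 4095), (-91420, 4095), (2664, 4095)]
  a2 := [(73, 4095), (-161624, 4095), (239244, 4095), (-17381, 4095)]
  a3 := [(0, 4095), (73869, 4095), (-171698, 4095), (115406, 4095)]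
  a4 := [(0, 4095), (284760, 4095), (-409600, 4095), (-308666, 4095)]
  b0 := [(-81967, 4095), (7578, 4095), (-10724, 4095)]
  b1 := [(81967, 4095), (-30312, 4095), (75068, 4095)]
  b2 := [(-34611, 4095), (177020, 4095), (-278200, 4095)]
  b3 := [(6153, 4095), (-341232, 4095), (409600, 4095)]
  b4 := [(-102981, 4095), (149904, 4095), (174802, 4095)]
  g0 := [(22936, 4095)]
  g1 := [(-68808, 4095)]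
  g2 := [(74510, 4095), (-7117, 4095)]

def D21 : NP where
  A := [(6641, 4095), (-26212, 4095), (6761, 4095), (292, 4095)]
  B := [(46020, 4095), (-10146, 4095), (14571, 4095)]
  E := [(27972, 4095)]
  a0 := [(80633, 4095), (-36358, 4095), (21332, 4095), (292, 4095)]
  a1 := [(80633, 4095), (72716, 4095), (-106660, 4095), (-2336, 4095)]
  a2 := [(914, 4095), (-147064, 4095), (311720, 4095), (-331, 4095)]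
  a3 := [(4995, 4095), (133091, 4095), (-198118, 4095), (233233, 4095)]
  a4 := [(7368, 4095), (281695, 4095), (-211772, 4095), (-409600, 4095)]
  b0 := [(-101964, 4095), (10146, 4095), (-14571, 4095)]
  b1 := [(101964, 4095), (-40584, 4095), (101997, 4095)]
  b2 := [(-46407, 4095), (124837, 4095), (-409600, 4095)]
  b3 := [(-7167, 4095), (-409600, 4095), (409600, 4095)]
  b4 := [(-109808, 4095), (89352, 4095), (138203, 4095)]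
  g0 := [(27972, 4095)]
  g1 := [(-83916, 4095)]
  g2 := [(92846, 4095), (54093, 4095)]

def D22 : NP where
  A := [(2430, 4095), (-20576, 4095), (3097, 4095), (1616, 4095)]
  B := [(58383, 4095), (-10561, 4095), (14853, 4095)]
  E := [(34726, 4095)]
  a0 := [(95539, 4095), (-31137, 4095), (17950, 4095), (1616, 4095)]
  a1 := [(95539, 4095), (62274, 4095), (-89750, 4095), (-12928, 4095)]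
  a2 := [(5349, 4095), (-158388, 4095), (262137, 4095), (47764, 4095)]
  a3 := [(23440, 4095), (110435, 4095), (-336282, 4095), (354590, 4095)]
  a4 := [(26027, 4095), (79008, 4095), (-409600, 4095), (-409600, 4095)]
  b0 := [(-127835, 4095), (10561, 4095), (-14853, 4095)]
  b1 := [(127835, 4095), (-42244, 4095), (103971, 4095)]
  b2 := [(-92370, 4095), (194812, 4095), (-409600, 4095)]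
  b3 := [(-95222, 4095), (-224135, 4095), (286159, 4095)]
  b4 := [(-27554, 4095), (334385, 4095), (91516, 4095)]
  g0 := [(34726, 4095)]
  g1 := [(-104178, 4095)]
  g2 := [(153687, 4095), (1893, 4095)]

def D23 : NP where
  A := [(-15337, 4095), (-573, 4095), (5989, 4095), (-2862, 4095)]
  B := [(80668, 4095), (14920, 4095), (-3526, 4095)]
  E := [(41615, 4095)]
  a0 := [(106946, 4095), (14347, 4095), (2463, 4095), (-2862, 4095)]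
  a1 := [(106946, 4095), (-28694, 4095), (-12315, 4095), (22896, 4095)]
  a2 := [(1766, 4095), (-78978, 4095), (64320, 4095), (-74002, 4095)]
  a3 := [(11560, 4095), (69325, 4095), (273552, 4095), (314710, 4095)]
  a4 := [(20071, 4095), (254955, 4095), (-311380, 4095), (35947, 4095)]
  b0 := [(-163898, 4095), (-14920, 4095), (3526, 4095)]
  b1 := [(163898, 4095), (59680, 4095), (-24682, 4095)]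
  b2 := [(-83673, 4095), (-3018, 4095), (-6435, 4095)]
  b3 := [(3494, 4095), (-409600, 4095), (-339600, 4095)]
  b4 := [(-188530, 4095), (393289, 4095), (128209, 4095)]
  g0 := [(41615, 4095)]
  g1 := [(-124845, 4095)]
  g2 := [(139736, 4095), (57407, 4095)]

def p00 : List CL := [[(0, 4095), (67736, 4095), (12246, 4095), (-22112, 4095), (16506, 4095)], [(0, 4095), (18392, 4095), (-18322, 4095)], [(2690, 4095), (9095, 4095)]]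
def p01 : List CL := [[(0, 4095), (67736, 4095), (1681, 4095), (-946, 4095), (3010, 4095)], [(0, 4095), (-709, 4095), (417, 4095)], [(-635, 4095), (2601, 4095)]]
def p02 : List CL := [[(0, 4095), (67736, 4095), (1662, 4095), (2000, 4095), (-2107, 4095)], [(0, 4095), (-864, 4095), (6134, 4095)], [(1189, 4095), (-1206, 4095)]]
def p03 : List CL := [[(0, 4095), (67736, 4095), (7876, 4095), (2178, 4095), (-13551, 4095)], [(0, 4095), (23797, 4095), (-27600, 4095)], [(8117, 4095), (22605, 4095)]]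
def p10 : List CL := [[(0, 4095), (72311, 4095), (9754, 4095), (1709, 4095), (3932, 4095)], [(10557, 4095), (3604, 4095), (-860, 4095)], [(5449, 4095), (-4491, 4095)]]
def p11 : List CL := [[(0, 4095), (70166, 4095), (11580, 4095), (-5298, 4095), (5955, 4095)], [(6048, 4095), (8299, 4095), (-10021, 4095)], [(1279, 4095), (6322, 4095)]]
def p12 : List CL := [[(0, 4095), (68131, 4095), (10175, 4095), (555, 4095), (-16059, 4095)], [(4194, 4095), (2202, 4095), (5560, 4095)], [(2626, 4095), (12021, 4095)]]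
def p13 : List CL := [[(0, 4095), (73666, 4095), (2328, 4095), (2263, 4095), (3651, 4095)], [(-85, 4095), (4587, 4095), (2007, 4095)], [(6774, 4095), (-5653, 4095)]]
def p20 : List CL := [[(0, 4095), (82879, 4095), (-24277, 4095), (80511, 4095), (-28673, 4095)], [(6380, 4095), (73397, 4095), (-145888, 4095)], [(-15492, 4095), (90494, 4095)]]
def p21 : List CL := [[(0, 4095), (81539, 4095), (12615, 4095), (21047, 4095), (-21028, 4095)], [(19093, 4095), (-36702, 4095), (63450, 4095)], [(14123, 4095), (-30144, 4095)]]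
def p22 : List CL := [[(0, 4095), (78704, 4095), (51616, 4095), (-43408, 4095), (24012, 4095)], [(21569, 4095), (-60437, 4095), (103364, 4095)], [(29673, 4095), (-77070, 4095)]]
def p23 : List CL := [[(0, 4095), (81547, 4095), (5175, 4095), (18448, 4095), (-208, 4095)], [(-61, 4095), (5762, 4095), (-25051, 4095)], [(1626, 4095), (20339, 4095)]]
def k00 : List CL := [[(0, 4095), (3318, 4095), (118071, 4095), (9481, 4095)], [(-123571, 4095), (-20088, 4095)], [(-71612, 4095)]]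
def k01 : List CL := [[(0, 4095), (9761, 4095), (306057, 4095), (2214, 4095)], [(-144759, 4095), (-279895, 4095)], [(34457, 4095)]]
def k02 : List CL := [[(0, 4095), (-17500, 4095), (409600, 4095), (1284, 4095)], [(-143136, 4095), (-395587, 4095)], [(70973, 4095)]]
def k03 : List CL := [[(0, 4095), (-72106, 4095), (409600, 4095), (1335, 4095)], [(-133710, 4095), (-297855, 4095)], [(1737, 4095)]]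
def k10 : List CL := [[(-4433, 4095), (-71406, 4095), (-34720, 4095), (-30442, 4095)], [(1114, 4095), (-5890, 4095)], [(29859, 4095)]]
def k11 : List CL := [[(345, 4095), (-32779, 4095), (-49057, 4095), (6145, 4095)], [(-35359, 4095), (3026, 4095)], [(-5805, 4095)]]
def k12 : List CL := [[(-2862, 4095), (429, 4095), (197750, 4095), (19636, 4095)], [(-93694, 4095), (-303723, 4095)], [(78807, 4095)]]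
def k13 : List CL := [[(-9944, 4095), (90115, 4095), (409600, 4095), (28439, 4095)], [(-248356, 4095), (-409600, 4095)], [(53576, 4095)]]

def D : ℕ → ℕ → NP
  | 0, 0 => D00
  | 0, 1 => D01
  | 0, 2 => D02
  | 0, 3 => D03
  | 1, 0 => D10
  | 1, 1 => D11
  | 1, 2 => D12
  | 1, 3 => D13
  | 2, 0 => D20
  | 2, 1 => D21
  | 2, 2 => D22
  | 2, 3 => D23
  | _, _ => D03

def psi : ℕ → ℕ → List CL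
  | 0, 0 => p00
  | 0, 1 => p01
  | 0, 2 => p02
  | 0, 3 => p03
  | 1, 0 => p10
  | 1, 1 => p11
  | 1, 2 => p12
  | 1, 3 => p13
  | 2, 0 => p20
  | 2, 1 => p21
  | 2, 2 => p22
  | 2, 3 => p23
  | _, _ => []

def hh : ℕ → ℕ → List CL
  | 0, 0 => k00
  | 0, 1 => k01
  | 0, 2 => k02
  | 0, 3 => k03
  | 1, 0 => k10
  | 1, 1 => k11
  | 1, 2 => k12
  | 1, 3 => k13
  | _, _ => []

def w2 : ℕ → ℤ × ℕ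
  | 0 => (0, 0)
  | 1 => (0, 0)
  | 2 => (-13023, 4095)
  | _ => (0, 0)

def dl : ℕ → ℤ × ℕ
  | 0 => (0, 0)
  | 1 => (0, 0)
  | 2 => (4, 4095)
  | _ => (0, 0)

/-! Certificates. -/

/-- the leaves of all trees -/
theorem lv :
    ((Tree.leaf 90 9 16 6 1).ok 0 1 0 0 (SEG D03 (0, 0) (sP (11, 11) (1, 11)) p00 p01 p02 p03) ⟨0, 1, 1, 0, 1, 1, 0, 1, 2, 0, 1, 1⟩ = true ∧
      (Tree.leaf 97 9 16 6 1).ok 0 1 0 0 (SEG D03 (0, 0) (sP (11, 11) (1, 11)) p00 p01 p02 p03) ⟨0, 1, 1, 0, 1, 2, 1, 2, 2, 0, 1, 1⟩ = true ∧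
      (Tree.leaf 103 9 16 6 1).ok 0 1 0 0 (SEG D03 (0, 0) (sP (11, 11) (1, 11)) p00 p01 p02 p03) ⟨0, 1, 1, 1, 2, 2, 1, 2, 2, 0, 1, 1⟩ = true) ∧
    ((Tree.leaf 55 16 1 6 1).ok 0 1 0 0 (RE D03 (0, 0)) ⟨0, 1, 1, 0, 1, 1, 0, 1, 1, 0, 1, 1⟩ = true) ∧
    ((Tree.leaf 194 17 16 6 1).ok 0 1 0 0 (UE0 (24, 24) D00) ⟨0, 1, 4, 0, 1, 2, 0, 1, 1, 0, 1, 1⟩ = true ∧
      (Tree.leaf 197 17 16 6 1).ok 0 1 0 0 (UE0 (24, 24) D00) ⟨1, 2, 4, 0, 1, 2, 0, 1, 1, 0, 1, 1⟩ = true ∧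
      (Tree.leaf 186 17 16 6 1).ok 0 1 0 0 (UE0 (24, 24) D00) ⟨0, 1, 2, 1, 2, 2, 0, 1, 1, 0, 1, 1⟩ = true ∧
      (Tree.leaf 174 17 16 6 1).ok 0 1 0 0 (UE0 (24, 24) D00) ⟨1, 2, 2, 0, 1, 1, 0, 1, 1, 0, 1, 1⟩ = true) ∧
    ((Tree.leaf 178 17 16 6 1).ok 0 1 0 0 (UE1 (12, 24) D00) ⟨0, 1, 2, 0, 1, 2, 0, 1, 1, 0, 1, 1⟩ = true ∧
      (Tree.leaf 181 17 16 6 1).ok 0 1 0 0 (UE1 (12, 24) D00) ⟨1, 2, 2, 0, 1, 2, 0, 1, 1, 0, 1, 1⟩ = true ∧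
      (Tree.leaf 196 17 16 6 1).ok 0 1 0 0 (UE1 (12, 24) D00) ⟨0, 1, 2, 2, 3, 4, 0, 1, 1, 0, 1, 1⟩ = true ∧
      (Tree.leaf 201 17 16 6 1).ok 0 1 0 0 (UE1 (12, 24) D00) ⟨1, 2, 2, 2, 3, 4, 0, 1, 1, 0, 1, 1⟩ = true ∧
      (Tree.leaf 201 17 16 6 1).ok 0 1 0 0 (UE1 (12, 24) D00) ⟨0, 1, 1, 6, 7, 8, 0, 1, 1, 0, 1, 1⟩ = true ∧
      (Tree.leaf 202 17 16 6 1).ok 0 1 0 0 (UE1 (12, 24) D00) ⟨0, 1, 1, 7, 8, 8, 0, 1, 1, 0, 1, 1⟩ = true) ∧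
    ((Tree.leaf 194 17 16 6 1).ok 0 1 0 0 (UE0 (24, 24) D01) ⟨0, 1, 4, 0, 1, 2, 0, 1, 1, 0, 1, 1⟩ = true ∧
      (Tree.leaf 199 17 16 6 1).ok 0 1 0 0 (UE0 (24, 24) D01) ⟨0, 1, 4, 1, 2, 2, 0, 1, 1, 0, 1, 1⟩ = true ∧
      (Tree.leaf 197 17 16 6 1).ok 0 1 0 0 (UE0 (24, 24) D01) ⟨1, 2, 4, 0, 1, 2, 0, 1, 1, 0, 1, 1⟩ = true ∧
      (Tree.leaf 204 17 16 6 1).ok 0 1 0 0 (UE0 (24, 24) D01) ⟨1, 2, 4, 1, 2, 2, 0, 1, 1, 0, 1, 1⟩ = true ∧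
      (Tree.leaf 174 17 16 6 1).ok 0 1 0 0 (UE0 (24, 24) D01) ⟨1, 2, 2, 0, 1, 1, 0, 1, 1, 0, 1, 1⟩ = true) ∧
    ((Tree.leaf 164 17 16 6 1).ok 0 1 0 0 (UE1 (12, 24) D01) ⟨0, 1, 1, 0, 1, 2, 0, 1, 1, 0, 1, 1⟩ = true ∧
      (Tree.leaf 183 17 16 6 1).ok 0 1 0 0 (UE1 (12, 24) D01) ⟨0, 1, 1, 2, 3, 4, 0, 1, 1, 0, 1, 1⟩ = true ∧
      (Tree.leaf 200 17 16 6 1).ok 0 1 0 0 (UE1 (12, 24) D01) ⟨0, 1, 1, 6, 7, 8, 0, 1, 1, 0, 1, 1⟩ = true ∧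
      (Tree.leaf 202 17 16 6 1).ok 0 1 0 0 (UE1 (12, 24) D01) ⟨0, 1, 1, 7, 8, 8, 0, 1, 1, 0, 1, 1⟩ = true) ∧
    ((Tree.leaf 194 17 16 6 1).ok 0 1 0 0 (UE0 (24, 24) D02) ⟨0, 1, 4, 0, 1, 2, 0, 1, 1, 0, 1, 1⟩ = true ∧
      (Tree.leaf 198 17 16 6 1).ok 0 1 0 0 (UE0 (24, 24) D02) ⟨1, 2, 4, 0, 1, 2, 0, 1, 1, 0, 1, 1⟩ = true ∧
      (Tree.leaf 200 17 16 6 1).ok 0 1 0 0 (UE0 (24, 24) D02) ⟨0, 1, 4, 1, 2, 2, 0, 1, 1, 0, 1, 1⟩ = true ∧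
      (Tree.leaf 205 17 16 6 1).ok 0 1 0 0 (UE0 (24, 24) D02) ⟨1, 2, 4, 1, 2, 2, 0, 1, 1, 0, 1, 1⟩ = true ∧
      (Tree.leaf 190 17 16 6 1).ok 0 1 0 0 (UE0 (24, 24) D02) ⟨2, 3, 4, 0, 1, 1, 0, 1, 1, 0, 1, 1⟩ = true ∧
      (Tree.leaf 193 17 16 6 1).ok 0 1 0 0 (UE0 (24, 24) D02) ⟨3, 4, 4, 0, 1, 1, 0, 1, 1, 0, 1, 1⟩ = true) ∧
    ((Tree.leaf 178 17 16 6 1).ok 0 1 0 0 (UE1 (12, 24) D02) ⟨0, 1, 2, 0, 1, 2, 0, 1, 1, 0, 1, 1⟩ = true ∧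
      (Tree.leaf 182 17 16 6 1).ok 0 1 0 0 (UE1 (12, 24) D02) ⟨1, 2, 2, 0, 1, 2, 0, 1, 1, 0, 1, 1⟩ = true ∧
      (Tree.leaf 197 17 16 6 1).ok 0 1 0 0 (UE1 (12, 24) D02) ⟨0, 1, 2, 2, 3, 4, 0, 1, 1, 0, 1, 1⟩ = true ∧
      (Tree.leaf 202 17 16 6 1).ok 0 1 0 0 (UE1 (12, 24) D02) ⟨1, 2, 2, 2, 3, 4, 0, 1, 1, 0, 1, 1⟩ = true ∧
      (Tree.leaf 202 17 16 6 1).ok 0 1 0 0 (UE1 (12, 24) D02) ⟨0, 1, 1, 6, 7, 8, 0, 1, 1, 0, 1, 1⟩ = true ∧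
      (Tree.leaf 204 17 16 6 1).ok 0 1 0 0 (UE1 (12, 24) D02) ⟨0, 1, 1, 7, 8, 8, 0, 1, 1, 0, 1, 1⟩ = true) ∧
    ((Tree.leaf 194 17 16 6 1).ok 0 1 0 0 (UE0 (24, 24) D03) ⟨0, 1, 4, 0, 1, 2, 0, 1, 1, 0, 1, 1⟩ = true ∧
      (Tree.leaf 197 17 16 6 1).ok 0 1 0 0 (UE0 (24, 24) D03) ⟨1, 2, 4, 0, 1, 2, 0, 1, 1, 0, 1, 1⟩ = true ∧
      (Tree.leaf 199 17 16 6 1).ok 0 1 0 0 (UE0 (24, 24) D03) ⟨0, 1, 4, 1, 2, 2, 0, 1, 1, 0, 1, 1⟩ = true ∧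
      (Tree.leaf 203 17 16 6 1).ok 0 1 0 0 (UE0 (24, 24) D03) ⟨1, 2, 4, 1, 2, 2, 0, 1, 1, 0, 1, 1⟩ = true ∧
      (Tree.leaf 174 17 16 6 1).ok 0 1 0 0 (UE0 (24, 24) D03) ⟨1, 2, 2, 0, 1, 1, 0, 1, 1, 0, 1, 1⟩ = true) ∧
    ((Tree.leaf 178 17 16 6 1).ok 0 1 0 0 (UE1 (12, 24) D03) ⟨0, 1, 1, 0, 1, 4, 0, 1, 1, 0, 1, 1⟩ = true ∧
      (Tree.leaf 184 17 16 6 1).ok 0 1 0 0 (UE1 (12, 24) D03) ⟨0, 1, 1, 1, 2, 4, 0, 1, 2, 0, 1, 1⟩ = true ∧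
      (Tree.leaf 185 17 16 6 1).ok 0 1 0 0 (UE1 (12, 24) D03) ⟨0, 1, 1, 1, 2, 4, 1, 2, 2, 0, 1, 1⟩ = true ∧
      (Tree.leaf 173 17 16 6 1).ok 0 1 0 0 (UE1 (12, 24) D03) ⟨0, 1, 1, 1, 2, 2, 0, 1, 2, 0, 1, 1⟩ = true ∧
      (Tree.leaf 188 17 16 6 1).ok 0 1 0 0 (UE1 (12, 24) D03) ⟨0, 1, 1, 2, 3, 4, 1, 2, 2, 0, 1, 1⟩ = true ∧
      (Tree.leaf 192 17 16 6 1).ok 0 1 0 0 (UE1 (12, 24) D03) ⟨0, 1, 1, 3, 4, 4, 1, 2, 2, 0, 1, 1⟩ = true) ∧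
    ((Tree.leaf 181 16 16 6 6).ok 0 1 0 0 (GM 0 0 (D 0) (144, 624) (-1728, 15624) (0, 0) (2, 4) (.q 121 624) p00 k00 k10) ⟨0, 1, 2, 0, 1, 1, 0, 1, 1, 0, 1, 2⟩ = true ∧
      (Tree.leaf 181 16 16 6 6).ok 0 1 0 0 (GM 0 0 (D 0) (144, 624) (-1728, 15624) (0, 0) (2, 4) (.q 121 624) p00 k00 k10) ⟨0, 1, 2, 0, 1, 1, 0, 1, 1, 1, 2, 2⟩ = true ∧
      (Tree.leaf 186 16 16 6 6).ok 0 1 0 0 (GM 0 0 (D 0) (144, 624) (-1728, 15624) (0, 0) (2, 4) (.q 121 624) p00 k00 k10) ⟨1, 2, 2, 0, 1, 1, 0, 1, 1, 0, 1, 2⟩ = true ∧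
      (Tree.leaf 186 16 16 6 6).ok 0 1 0 0 (GM 0 0 (D 0) (144, 624) (-1728, 15624) (0, 0) (2, 4) (.q 121 624) p00 k00 k10) ⟨1, 2, 2, 0, 1, 1, 0, 1, 1, 1, 2, 2⟩ = true) ∧
    ((Tree.leaf 181 16 16 6 6).ok 0 1 0 0 (GM 0 0 (D 0) (144, 624) (-1728, 15624) (0, 0) (2, 4) (tau1 (144, 624)) p00 k00 k10) ⟨0, 1, 2, 0, 1, 1, 0, 1, 1, 0, 1, 2⟩ = true ∧
      (Tree.leaf 181 16 16 6 6).ok 0 1 0 0 (GM 0 0 (D 0) (144, 624) (-1728, 15624) (0, 0) (2, 4) (tau1 (144, 624)) p00 k00 k10) ⟨0, 1, 2, 0, 1, 1, 0, 1, 1, 1, 2, 2⟩ = true ∧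
      (Tree.leaf 186 16 16 6 6).ok 0 1 0 0 (GM 0 0 (D 0) (144, 624) (-1728, 15624) (0, 0) (2, 4) (tau1 (144, 624)) p00 k00 k10) ⟨1, 2, 2, 0, 1, 1, 0, 1, 1, 0, 1, 2⟩ = true ∧
      (Tree.leaf 186 16 16 6 6).ok 0 1 0 0 (GM 0 0 (D 0) (144, 624) (-1728, 15624) (0, 0) (2, 4) (tau1 (144, 624)) p00 k00 k10) ⟨1, 2, 2, 0, 1, 1, 0, 1, 1, 1, 2, 2⟩ = true) ∧
    ((Tree.leaf 191 16 16 6 6).ok 0 1 0 0 (GM 0 1 (D 0) (144, 624) (-1728, 15624) (0, 0) (2, 4) (.q 121 624) p01 k01 k11) ⟨0, 1, 2, 0, 1, 2, 0, 1, 1, 0, 1, 1⟩ = true ∧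
      (Tree.leaf 192 16 16 6 6).ok 0 1 0 0 (GM 0 1 (D 0) (144, 624) (-1728, 15624) (0, 0) (2, 4) (.q 121 624) p01 k01 k11) ⟨0, 1, 2, 1, 2, 2, 0, 1, 1, 0, 1, 1⟩ = true ∧
      (Tree.leaf 195 16 16 6 6).ok 0 1 0 0 (GM 0 1 (D 0) (144, 624) (-1728, 15624) (0, 0) (2, 4) (.q 121 624) p01 k01 k11) ⟨2, 3, 4, 0, 1, 1, 0, 1, 1, 0, 1, 1⟩ = true ∧
      (Tree.leaf 198 16 16 6 6).ok 0 1 0 0 (GM 0 1 (D 0) (144, 624) (-1728, 15624) (0, 0) (2, 4) (.q 121 624) p01 k01 k11) ⟨3, 4, 4, 0, 1, 1, 0, 1, 1, 0, 1, 1⟩ = true) ∧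
    ((Tree.leaf 191 16 16 6 6).ok 0 1 0 0 (GM 0 1 (D 0) (144, 624) (-1728, 15624) (0, 0) (2, 4) (tau1 (144, 624)) p01 k01 k11) ⟨0, 1, 2, 0, 1, 2, 0, 1, 1, 0, 1, 1⟩ = true ∧
      (Tree.leaf 192 16 16 6 6).ok 0 1 0 0 (GM 0 1 (D 0) (144, 624) (-1728, 15624) (0, 0) (2, 4) (tau1 (144, 624)) p01 k01 k11) ⟨0, 1, 2, 1, 2, 2, 0, 1, 1, 0, 1, 1⟩ = true ∧
      (Tree.leaf 182 16 16 6 6).ok 0 1 0 0 (GM 0 1 (D 0) (144, 624) (-1728, 15624) (0, 0) (2, 4) (tau1 (144, 624)) p01 k01 k11) ⟨1, 2, 2, 0, 1, 1, 0, 1, 1, 0, 1, 1⟩ = true) ∧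
    ((Tree.leaf 191 16 16 6 6).ok 0 1 0 0 (GM 0 2 (D 0) (144, 624) (-1728, 15624) (0, 0) (2, 4) (.q 121 624) p02 k02 k12) ⟨0, 1, 2, 0, 1, 2, 0, 1, 1, 0, 1, 1⟩ = true ∧
      (Tree.leaf 192 16 16 6 6).ok 0 1 0 0 (GM 0 2 (D 0) (144, 624) (-1728, 15624) (0, 0) (2, 4) (.q 121 624) p02 k02 k12) ⟨0, 1, 2, 1, 2, 2, 0, 1, 1, 0, 1, 1⟩ = true ∧
      (Tree.leaf 186 16 16 6 6).ok 0 1 0 0 (GM 0 2 (D 0) (144, 624) (-1728, 15624) (0, 0) (2, 4) (.q 121 624) p02 k02 k12) ⟨1, 2, 2, 0, 1, 1, 0, 1, 2, 0, 1, 1⟩ = true ∧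
      (Tree.leaf 188 16 16 6 6).ok 0 1 0 0 (GM 0 2 (D 0) (144, 624) (-1728, 15624) (0, 0) (2, 4) (.q 121 624) p02 k02 k12) ⟨1, 2, 2, 0, 1, 1, 1, 2, 2, 0, 1, 1⟩ = true) ∧
    ((Tree.leaf 191 16 16 6 6).ok 0 1 0 0 (GM 0 2 (D 0) (144, 624) (-1728, 15624) (0, 0) (2, 4) (tau1 (144, 624)) p02 k02 k12) ⟨0, 1, 2, 0, 1, 2, 0, 1, 1, 0, 1, 1⟩ = true ∧
      (Tree.leaf 192 16 16 6 6).ok 0 1 0 0 (GM 0 2 (D 0) (144, 624) (-1728, 15624) (0, 0) (2, 4) (tau1 (144, 624)) p02 k02 k12) ⟨0, 1, 2, 1, 2, 2, 0, 1, 1, 0, 1, 1⟩ = true ∧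
      (Tree.leaf 186 16 16 6 6).ok 0 1 0 0 (GM 0 2 (D 0) (144, 624) (-1728, 15624) (0, 0) (2, 4) (tau1 (144, 624)) p02 k02 k12) ⟨1, 2, 2, 0, 1, 1, 0, 1, 2, 0, 1, 1⟩ = true ∧
      (Tree.leaf 188 16 16 6 6).ok 0 1 0 0 (GM 0 2 (D 0) (144, 624) (-1728, 15624) (0, 0) (2, 4) (tau1 (144, 624)) p02 k02 k12) ⟨1, 2, 2, 0, 1, 1, 1, 2, 2, 0, 1, 1⟩ = true) ∧
    ((Tree.leaf 182 16 16 6 6).ok 0 1 0 0 (GM 0 3 (D 0) (144, 624) (-1728, 15624) (0, 0) (2, 4) (.q 121 624) p03 k03 k13) ⟨0, 1, 1, 0, 1, 2, 0, 1, 1, 0, 1, 2⟩ = true ∧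
      (Tree.leaf 184 16 16 6 6).ok 0 1 0 0 (GM 0 3 (D 0) (144, 624) (-1728, 15624) (0, 0) (2, 4) (.q 121 624) p03 k03 k13) ⟨0, 1, 1, 1, 2, 2, 0, 1, 1, 0, 1, 2⟩ = true ∧
      (Tree.leaf 181 16 16 6 6).ok 0 1 0 0 (GM 0 3 (D 0) (144, 624) (-1728, 15624) (0, 0) (2, 4) (.q 121 624) p03 k03 k13) ⟨0, 1, 2, 0, 1, 1, 0, 1, 1, 1, 2, 2⟩ = true ∧
      (Tree.leaf 186 16 16 6 6).ok 0 1 0 0 (GM 0 3 (D 0) (144, 624) (-1728, 15624) (0, 0) (2, 4) (.q 121 624) p03 k03 k13) ⟨1, 2, 2, 0, 1, 1, 0, 1, 1, 1, 2, 2⟩ = true) ∧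
    ((Tree.leaf 182 16 16 6 6).ok 0 1 0 0 (GM 0 3 (D 0) (144, 624) (-1728, 15624) (0, 0) (2, 4) (tau1 (144, 624)) p03 k03 k13) ⟨0, 1, 1, 0, 1, 2, 0, 1, 1, 0, 1, 2⟩ = true ∧
      (Tree.leaf 184 16 16 6 6).ok 0 1 0 0 (GM 0 3 (D 0) (144, 624) (-1728, 15624) (0, 0) (2, 4) (tau1 (144, 624)) p03 k03 k13) ⟨0, 1, 1, 1, 2, 2, 0, 1, 1, 0, 1, 2⟩ = true ∧
      (Tree.leaf 181 16 16 6 6).ok 0 1 0 0 (GM 0 3 (D 0) (144, 624) (-1728, 15624) (0, 0) (2, 4) (tau1 (144, 624)) p03 k03 k13) ⟨0, 1, 2, 0, 1, 1, 0, 1, 1, 1, 2, 2⟩ = true ∧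
      (Tree.leaf 186 16 16 6 6).ok 0 1 0 0 (GM 0 3 (D 0) (144, 624) (-1728, 15624) (0, 0) (2, 4) (tau1 (144, 624)) p03 k03 k13) ⟨1, 2, 2, 0, 1, 1, 0, 1, 1, 1, 2, 2⟩ = true) ∧
    ((Tree.leaf 85 9 13 5 1).ok 0 1 0 0 (SEG D13 (0, 0) (sP (11, 11) (1, 11)) p10 p11 p12 p13) ⟨0, 1, 1, 0, 1, 1, 0, 1, 2, 0, 1, 1⟩ = true ∧
      (Tree.leaf 86 9 13 5 1).ok 0 1 0 0 (SEG D13 (0, 0) (sP (11, 11) (1, 11)) p10 p11 p12 p13) ⟨0, 1, 1, 0, 1, 1, 1, 2, 2, 0, 1, 1⟩ = true) ∧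
    ((Tree.leaf 46 13 1 5 1).ok 0 1 0 0 (RE D13 (0, 0)) ⟨0, 1, 1, 0, 1, 1, 0, 1, 1, 0, 1, 1⟩ = true) ∧
    ((Tree.leaf 161 14 13 5 1).ok 0 1 0 0 (UE0 (24, 24) D10) ⟨0, 1, 4, 0, 1, 2, 0, 1, 1, 0, 1, 1⟩ = true ∧
      (Tree.leaf 164 14 13 5 1).ok 0 1 0 0 (UE0 (24, 24) D10) ⟨1, 2, 4, 0, 1, 2, 0, 1, 1, 0, 1, 1⟩ = true ∧
      (Tree.leaf 165 14 13 5 1).ok 0 1 0 0 (UE0 (24, 24) D10) ⟨0, 1, 4, 1, 2, 2, 0, 1, 1, 0, 1, 1⟩ = true ∧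
      (Tree.leaf 169 14 13 5 1).ok 0 1 0 0 (UE0 (24, 24) D10) ⟨1, 2, 4, 1, 2, 2, 0, 1, 1, 0, 1, 1⟩ = true ∧
      (Tree.leaf 146 14 13 5 1).ok 0 1 0 0 (UE0 (24, 24) D10) ⟨1, 2, 2, 0, 1, 1, 0, 1, 1, 0, 1, 1⟩ = true) ∧
    ((Tree.leaf 148 14 13 5 1).ok 0 1 0 0 (UE1 (12, 24) D10) ⟨0, 1, 1, 0, 1, 4, 0, 1, 1, 0, 1, 1⟩ = true ∧
      (Tree.leaf 161 14 13 5 1).ok 0 1 0 0 (UE1 (12, 24) D10) ⟨0, 1, 1, 2, 3, 8, 0, 1, 1, 0, 1, 1⟩ = true ∧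
      (Tree.leaf 162 14 13 5 1).ok 0 1 0 0 (UE1 (12, 24) D10) ⟨0, 1, 1, 3, 4, 8, 0, 1, 1, 0, 1, 1⟩ = true ∧
      (Tree.leaf 155 14 13 5 1).ok 0 1 0 0 (UE1 (12, 24) D10) ⟨0, 1, 1, 2, 3, 4, 0, 1, 2, 0, 1, 1⟩ = true ∧
      (Tree.leaf 156 14 13 5 1).ok 0 1 0 0 (UE1 (12, 24) D10) ⟨0, 1, 1, 2, 3, 4, 1, 2, 2, 0, 1, 1⟩ = true ∧
      (Tree.leaf 158 14 13 5 1).ok 0 1 0 0 (UE1 (12, 24) D10) ⟨0, 1, 1, 3, 4, 4, 0, 1, 2, 0, 1, 1⟩ = true ∧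
      (Tree.leaf 159 14 13 5 1).ok 0 1 0 0 (UE1 (12, 24) D10) ⟨0, 1, 1, 3, 4, 4, 1, 2, 2, 0, 1, 1⟩ = true) ∧
    ((Tree.leaf 161 14 13 5 1).ok 0 1 0 0 (UE0 (24, 24) D11) ⟨0, 1, 4, 0, 1, 2, 0, 1, 1, 0, 1, 1⟩ = true ∧
      (Tree.leaf 164 14 13 5 1).ok 0 1 0 0 (UE0 (24, 24) D11) ⟨0, 1, 4, 1, 2, 2, 0, 1, 1, 0, 1, 1⟩ = true ∧
      (Tree.leaf 154 14 13 5 1).ok 0 1 0 0 (UE0 (24, 24) D11) ⟨1, 2, 4, 0, 1, 1, 0, 1, 1, 0, 1, 1⟩ = true ∧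
      (Tree.leaf 146 14 13 5 1).ok 0 1 0 0 (UE0 (24, 24) D11) ⟨1, 2, 2, 0, 1, 1, 0, 1, 1, 0, 1, 1⟩ = true) ∧
    ((Tree.leaf 136 14 13 5 1).ok 0 1 0 0 (UE1 (12, 24) D11) ⟨0, 1, 1, 0, 1, 2, 0, 1, 1, 0, 1, 1⟩ = true ∧
      (Tree.leaf 162 14 13 5 1).ok 0 1 0 0 (UE1 (12, 24) D11) ⟨0, 1, 2, 2, 3, 4, 0, 1, 1, 0, 1, 1⟩ = true ∧
      (Tree.leaf 166 14 13 5 1).ok 0 1 0 0 (UE1 (12, 24) D11) ⟨1, 2, 2, 2, 3, 4, 0, 1, 1, 0, 1, 1⟩ = true ∧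
      (Tree.leaf 165 14 13 5 1).ok 0 1 0 0 (UE1 (12, 24) D11) ⟨0, 1, 1, 6, 7, 8, 0, 1, 1, 0, 1, 1⟩ = true ∧
      (Tree.leaf 166 14 13 5 1).ok 0 1 0 0 (UE1 (12, 24) D11) ⟨0, 1, 1, 7, 8, 8, 0, 1, 1, 0, 1, 1⟩ = true) ∧
    ((Tree.leaf 160 14 13 5 1).ok 0 1 0 0 (UE0 (24, 24) D12) ⟨0, 1, 4, 0, 1, 2, 0, 1, 1, 0, 1, 1⟩ = true ∧
      (Tree.leaf 163 14 13 5 1).ok 0 1 0 0 (UE0 (24, 24) D12) ⟨1, 2, 4, 0, 1, 2, 0, 1, 1, 0, 1, 1⟩ = true ∧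
      (Tree.leaf 163 14 13 5 1).ok 0 1 0 0 (UE0 (24, 24) D12) ⟨0, 1, 4, 1, 2, 2, 0, 1, 1, 0, 1, 1⟩ = true ∧
      (Tree.leaf 168 14 13 5 1).ok 0 1 0 0 (UE0 (24, 24) D12) ⟨1, 2, 4, 1, 2, 2, 0, 1, 1, 0, 1, 1⟩ = true ∧
      (Tree.leaf 146 14 13 5 1).ok 0 1 0 0 (UE0 (24, 24) D12) ⟨1, 2, 2, 0, 1, 1, 0, 1, 1, 0, 1, 1⟩ = true) ∧
    ((Tree.leaf 135 14 13 5 1).ok 0 1 0 0 (UE1 (12, 24) D12) ⟨0, 1, 1, 0, 1, 2, 0, 1, 1, 0, 1, 1⟩ = true ∧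
      (Tree.leaf 154 14 13 5 1).ok 0 1 0 0 (UE1 (12, 24) D12) ⟨0, 1, 1, 2, 3, 4, 0, 1, 2, 0, 1, 1⟩ = true ∧
      (Tree.leaf 154 14 13 5 1).ok 0 1 0 0 (UE1 (12, 24) D12) ⟨0, 1, 1, 2, 3, 4, 1, 2, 2, 0, 1, 1⟩ = true ∧
      (Tree.leaf 164 14 13 5 1).ok 0 1 0 0 (UE1 (12, 24) D12) ⟨0, 1, 1, 6, 7, 8, 0, 1, 1, 0, 1, 1⟩ = true ∧
      (Tree.leaf 165 14 13 5 1).ok 0 1 0 0 (UE1 (12, 24) D12) ⟨0, 1, 1, 7, 8, 8, 0, 1, 1, 0, 1, 1⟩ = true) ∧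
    ((Tree.leaf 161 14 13 5 1).ok 0 1 0 0 (UE0 (24, 24) D13) ⟨0, 1, 4, 0, 1, 2, 0, 1, 1, 0, 1, 1⟩ = true ∧
      (Tree.leaf 163 14 13 5 1).ok 0 1 0 0 (UE0 (24, 24) D13) ⟨1, 2, 4, 0, 1, 2, 0, 1, 1, 0, 1, 1⟩ = true ∧
      (Tree.leaf 163 14 13 5 1).ok 0 1 0 0 (UE0 (24, 24) D13) ⟨0, 1, 4, 1, 2, 2, 0, 1, 1, 0, 1, 1⟩ = true ∧
      (Tree.leaf 168 14 13 5 1).ok 0 1 0 0 (UE0 (24, 24) D13) ⟨1, 2, 4, 1, 2, 2, 0, 1, 1, 0, 1, 1⟩ = true ∧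
      (Tree.leaf 146 14 13 5 1).ok 0 1 0 0 (UE0 (24, 24) D13) ⟨1, 2, 2, 0, 1, 1, 0, 1, 1, 0, 1, 1⟩ = true) ∧
    ((Tree.leaf 136 14 13 5 1).ok 0 1 0 0 (UE1 (12, 24) D13) ⟨0, 1, 1, 0, 1, 2, 0, 1, 1, 0, 1, 1⟩ = true ∧
      (Tree.leaf 161 14 13 5 1).ok 0 1 0 0 (UE1 (12, 24) D13) ⟨0, 1, 2, 2, 3, 4, 0, 1, 1, 0, 1, 1⟩ = true ∧
      (Tree.leaf 165 14 13 5 1).ok 0 1 0 0 (UE1 (12, 24) D13) ⟨1, 2, 2, 2, 3, 4, 0, 1, 1, 0, 1, 1⟩ = true ∧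
      (Tree.leaf 163 14 13 5 1).ok 0 1 0 0 (UE1 (12, 24) D13) ⟨0, 1, 2, 3, 4, 4, 0, 1, 1, 0, 1, 1⟩ = true ∧
      (Tree.leaf 168 14 13 5 1).ok 0 1 0 0 (UE1 (12, 24) D13) ⟨1, 2, 2, 3, 4, 4, 0, 1, 1, 0, 1, 1⟩ = true) ∧
    ((Tree.leaf 162 14 14 6 6).ok 0 1 0 0 (GM 1 0 (D 1) (144, 624) (-1728, 15624) (0, 0) (2, 4) (.q 121 624) p10 k00 k10) ⟨0, 1, 2, 0, 1, 1, 0, 1, 1, 0, 1, 2⟩ = true ∧
      (Tree.leaf 162 14 14 6 6).ok 0 1 0 0 (GM 1 0 (D 1) (144, 624) (-1728, 15624) (0, 0) (2, 4) (.q 121 624) p10 k00 k10) ⟨0, 1, 2, 0, 1, 1, 0, 1, 1, 1, 2, 2⟩ = true ∧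
      (Tree.leaf 173 14 14 6 6).ok 0 1 0 0 (GM 1 0 (D 1) (144, 624) (-1728, 15624) (0, 0) (2, 4) (.q 121 624) p10 k00 k10) ⟨1, 2, 2, 0, 1, 2, 0, 1, 1, 0, 1, 1⟩ = true ∧
      (Tree.leaf 177 14 14 6 6).ok 0 1 0 0 (GM 1 0 (D 1) (144, 624) (-1728, 15624) (0, 0) (2, 4) (.q 121 624) p10 k00 k10) ⟨1, 2, 2, 1, 2, 2, 0, 1, 1, 0, 1, 1⟩ = true) ∧
    ((Tree.leaf 162 14 14 6 6).ok 0 1 0 0 (GM 1 0 (D 1) (144, 624) (-1728, 15624) (0, 0) (2, 4) (tau1 (144, 624)) p10 k00 k10) ⟨0, 1, 2, 0, 1, 1, 0, 1, 1, 0, 1, 2⟩ = true ∧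
      (Tree.leaf 162 14 14 6 6).ok 0 1 0 0 (GM 1 0 (D 1) (144, 624) (-1728, 15624) (0, 0) (2, 4) (tau1 (144, 624)) p10 k00 k10) ⟨0, 1, 2, 0, 1, 1, 0, 1, 1, 1, 2, 2⟩ = true ∧
      (Tree.leaf 162 14 14 6 6).ok 0 1 0 0 (GM 1 0 (D 1) (144, 624) (-1728, 15624) (0, 0) (2, 4) (tau1 (144, 624)) p10 k00 k10) ⟨1, 2, 2, 0, 1, 1, 0, 1, 1, 0, 1, 1⟩ = true) ∧
    ((Tree.leaf 162 14 14 6 6).ok 0 1 0 0 (GM 1 1 (D 1) (144, 624) (-1728, 15624) (0, 0) (2, 4) (.q 121 624) p11 k01 k11) ⟨0, 1, 2, 0, 1, 1, 0, 1, 1, 0, 1, 2⟩ = true ∧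
      (Tree.leaf 162 14 14 6 6).ok 0 1 0 0 (GM 1 1 (D 1) (144, 624) (-1728, 15624) (0, 0) (2, 4) (.q 121 624) p11 k01 k11) ⟨0, 1, 2, 0, 1, 1, 0, 1, 1, 1, 2, 2⟩ = true ∧
      (Tree.leaf 173 14 14 6 6).ok 0 1 0 0 (GM 1 1 (D 1) (144, 624) (-1728, 15624) (0, 0) (2, 4) (.q 121 624) p11 k01 k11) ⟨2, 3, 4, 0, 1, 1, 0, 1, 1, 0, 1, 1⟩ = true ∧
      (Tree.leaf 176 14 14 6 6).ok 0 1 0 0 (GM 1 1 (D 1) (144, 624) (-1728, 15624) (0, 0) (2, 4) (.q 121 624) p11 k01 k11) ⟨3, 4, 4, 0, 1, 1, 0, 1, 1, 0, 1, 1⟩ = true) ∧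
    ((Tree.leaf 157 14 14 6 6).ok 0 1 0 0 (GM 1 1 (D 1) (144, 624) (-1728, 15624) (0, 0) (2, 4) (tau1 (144, 624)) p11 k01 k11) ⟨0, 1, 2, 0, 1, 1, 0, 1, 1, 0, 1, 1⟩ = true ∧
      (Tree.leaf 173 14 14 6 6).ok 0 1 0 0 (GM 1 1 (D 1) (144, 624) (-1728, 15624) (0, 0) (2, 4) (tau1 (144, 624)) p11 k01 k11) ⟨2, 3, 4, 0, 1, 1, 0, 1, 1, 0, 1, 1⟩ = true ∧
      (Tree.leaf 176 14 14 6 6).ok 0 1 0 0 (GM 1 1 (D 1) (144, 624) (-1728, 15624) (0, 0) (2, 4) (tau1 (144, 624)) p11 k01 k11) ⟨3, 4, 4, 0, 1, 1, 0, 1, 1, 0, 1, 1⟩ = true) ∧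
    ((Tree.leaf 161 14 14 6 6).ok 0 1 0 0 (GM 1 2 (D 1) (144, 624) (-1728, 15624) (0, 0) (2, 4) (.q 121 624) p12 k02 k12) ⟨0, 1, 2, 0, 1, 1, 0, 1, 1, 0, 1, 2⟩ = true ∧
      (Tree.leaf 161 14 14 6 6).ok 0 1 0 0 (GM 1 2 (D 1) (144, 624) (-1728, 15624) (0, 0) (2, 4) (.q 121 624) p12 k02 k12) ⟨0, 1, 2, 0, 1, 1, 0, 1, 1, 1, 2, 2⟩ = true ∧
      (Tree.leaf 165 14 14 6 6).ok 0 1 0 0 (GM 1 2 (D 1) (144, 624) (-1728, 15624) (0, 0) (2, 4) (.q 121 624) p12 k02 k12) ⟨1, 2, 2, 0, 1, 1, 0, 1, 1, 0, 1, 2⟩ = true ∧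
      (Tree.leaf 166 14 14 6 6).ok 0 1 0 0 (GM 1 2 (D 1) (144, 624) (-1728, 15624) (0, 0) (2, 4) (.q 121 624) p12 k02 k12) ⟨1, 2, 2, 0, 1, 1, 0, 1, 1, 1, 2, 2⟩ = true) ∧
    ((Tree.leaf 161 14 14 6 6).ok 0 1 0 0 (GM 1 2 (D 1) (144, 624) (-1728, 15624) (0, 0) (2, 4) (tau1 (144, 624)) p12 k02 k12) ⟨0, 1, 2, 0, 1, 1, 0, 1, 1, 0, 1, 2⟩ = true ∧
      (Tree.leaf 161 14 14 6 6).ok 0 1 0 0 (GM 1 2 (D 1) (144, 624) (-1728, 15624) (0, 0) (2, 4) (tau1 (144, 624)) p12 k02 k12) ⟨0, 1, 2, 0, 1, 1, 0, 1, 1, 1, 2, 2⟩ = true ∧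
      (Tree.leaf 165 14 14 6 6).ok 0 1 0 0 (GM 1 2 (D 1) (144, 624) (-1728, 15624) (0, 0) (2, 4) (tau1 (144, 624)) p12 k02 k12) ⟨1, 2, 2, 0, 1, 1, 0, 1, 2, 0, 1, 1⟩ = true ∧
      (Tree.leaf 166 14 14 6 6).ok 0 1 0 0 (GM 1 2 (D 1) (144, 624) (-1728, 15624) (0, 0) (2, 4) (tau1 (144, 624)) p12 k02 k12) ⟨1, 2, 2, 0, 1, 1, 1, 2, 2, 0, 1, 1⟩ = true) ∧
    ((Tree.leaf 169 14 14 6 6).ok 0 1 0 0 (GM 1 3 (D 1) (144, 624) (-1728, 15624) (0, 0) (2, 4) (.q 121 624) p13 k03 k13) ⟨0, 1, 2, 0, 1, 2, 0, 1, 1, 0, 1, 1⟩ = true ∧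
      (Tree.leaf 172 14 14 6 6).ok 0 1 0 0 (GM 1 3 (D 1) (144, 624) (-1728, 15624) (0, 0) (2, 4) (.q 121 624) p13 k03 k13) ⟨1, 2, 2, 0, 1, 2, 0, 1, 1, 0, 1, 1⟩ = true ∧
      (Tree.leaf 164 14 14 6 6).ok 0 1 0 0 (GM 1 3 (D 1) (144, 624) (-1728, 15624) (0, 0) (2, 4) (.q 121 624) p13 k03 k13) ⟨0, 1, 1, 1, 2, 2, 0, 1, 1, 0, 1, 2⟩ = true ∧
      (Tree.leaf 165 14 14 6 6).ok 0 1 0 0 (GM 1 3 (D 1) (144, 624) (-1728, 15624) (0, 0) (2, 4) (.q 121 624) p13 k03 k13) ⟨0, 1, 1, 1, 2, 2, 0, 1, 1, 1, 2, 2⟩ = true) ∧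
    ((Tree.leaf 169 14 14 6 6).ok 0 1 0 0 (GM 1 3 (D 1) (144, 624) (-1728, 15624) (0, 0) (2, 4) (tau1 (144, 624)) p13 k03 k13) ⟨0, 1, 2, 0, 1, 2, 0, 1, 1, 0, 1, 1⟩ = true ∧
      (Tree.leaf 172 14 14 6 6).ok 0 1 0 0 (GM 1 3 (D 1) (144, 624) (-1728, 15624) (0, 0) (2, 4) (tau1 (144, 624)) p13 k03 k13) ⟨1, 2, 2, 0, 1, 2, 0, 1, 1, 0, 1, 1⟩ = true ∧
      (Tree.leaf 164 14 14 6 6).ok 0 1 0 0 (GM 1 3 (D 1) (144, 624) (-1728, 15624) (0, 0) (2, 4) (tau1 (144, 624)) p13 k03 k13) ⟨0, 1, 1, 1, 2, 2, 0, 1, 1, 0, 1, 2⟩ = true ∧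
      (Tree.leaf 165 14 14 6 6).ok 0 1 0 0 (GM 1 3 (D 1) (144, 624) (-1728, 15624) (0, 0) (2, 4) (tau1 (144, 624)) p13 k03 k13) ⟨0, 1, 1, 1, 2, 2, 0, 1, 1, 1, 2, 2⟩ = true) ∧
    ((Tree.leaf 86 9 10 5 1).ok 0 1 0 0 (SEG D23 (-13023, 4095) (sP (11, 11) (1, 11)) p20 p21 p22 p23) ⟨0, 1, 1, 0, 1, 2, 0, 1, 1, 0, 1, 1⟩ = true ∧
      (Tree.leaf 93 9 10 5 1).ok 0 1 0 0 (SEG D23 (-13023, 4095) (sP (11, 11) (1, 11)) p20 p21 p22 p23) ⟨0, 1, 1, 1, 2, 2, 0, 1, 2, 0, 1, 1⟩ = true ∧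
      (Tree.leaf 94 9 10 5 1).ok 0 1 0 0 (SEG D23 (-13023, 4095) (sP (11, 11) (1, 11)) p20 p21 p22 p23) ⟨0, 1, 1, 1, 2, 2, 1, 2, 2, 0, 1, 1⟩ = true) ∧
    ((Tree.leaf 41 10 1 4 1).ok 0 1 0 0 (RE D23 (-13023, 4095)) ⟨0, 1, 1, 0, 1, 1, 0, 1, 1, 0, 1, 1⟩ = true) ∧
    ((Tree.leaf 151 14 10 4 1).ok 0 1 0 0 (UE0 (24, 24) D20) ⟨0, 1, 4, 0, 1, 2, 0, 1, 1, 0, 1, 1⟩ = true ∧
      (Tree.leaf 154 14 10 4 1).ok 0 1 0 0 (UE0 (24, 24) D20) ⟨1, 2, 4, 0, 1, 2, 0, 1, 1, 0, 1, 1⟩ = true ∧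
      (Tree.leaf 143 14 10 4 1).ok 0 1 0 0 (UE0 (24, 24) D20) ⟨0, 1, 2, 1, 2, 2, 0, 1, 1, 0, 1, 1⟩ = true ∧
      (Tree.leaf 139 14 10 4 1).ok 0 1 0 0 (UE0 (24, 24) D20) ⟨1, 2, 2, 0, 1, 1, 0, 1, 1, 0, 1, 1⟩ = true) ∧
    ((Tree.leaf 151 14 10 4 1).ok 0 1 0 0 (UE1 (12, 24) D20) ⟨0, 1, 4, 0, 1, 2, 0, 1, 1, 0, 1, 1⟩ = true ∧
      (Tree.leaf 152 14 10 4 1).ok 0 1 0 0 (UE1 (12, 24) D20) ⟨1, 2, 4, 0, 1, 2, 0, 1, 1, 0, 1, 1⟩ = true ∧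
      (Tree.leaf 141 14 10 4 1).ok 0 1 0 0 (UE1 (12, 24) D20) ⟨1, 2, 2, 0, 1, 2, 0, 1, 1, 0, 1, 1⟩ = true ∧
      (Tree.leaf 138 14 10 4 1).ok 0 1 0 0 (UE1 (12, 24) D20) ⟨0, 1, 1, 2, 3, 4, 0, 1, 1, 0, 1, 1⟩ = true ∧
      (Tree.leaf 149 14 10 4 1).ok 0 1 0 0 (UE1 (12, 24) D20) ⟨0, 1, 1, 6, 7, 8, 0, 1, 1, 0, 1, 1⟩ = true ∧
      (Tree.leaf 150 14 10 4 1).ok 0 1 0 0 (UE1 (12, 24) D20) ⟨0, 1, 1, 7, 8, 8, 0, 1, 1, 0, 1, 1⟩ = true) ∧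
    ((Tree.leaf 152 14 10 4 1).ok 0 1 0 0 (UE0 (24, 24) D21) ⟨0, 1, 4, 0, 1, 2, 0, 1, 1, 0, 1, 1⟩ = true ∧
      (Tree.leaf 154 14 10 4 1).ok 0 1 0 0 (UE0 (24, 24) D21) ⟨1, 2, 4, 0, 1, 2, 0, 1, 1, 0, 1, 1⟩ = true ∧
      (Tree.leaf 144 14 10 4 1).ok 0 1 0 0 (UE0 (24, 24) D21) ⟨0, 1, 2, 1, 2, 2, 0, 1, 1, 0, 1, 1⟩ = true ∧
      (Tree.leaf 139 14 10 4 1).ok 0 1 0 0 (UE0 (24, 24) D21) ⟨1, 2, 2, 0, 1, 1, 0, 1, 1, 0, 1, 1⟩ = true) ∧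
    ((Tree.leaf 151 14 10 4 1).ok 0 1 0 0 (UE1 (12, 24) D21) ⟨0, 1, 4, 0, 1, 2, 0, 1, 1, 0, 1, 1⟩ = true ∧
      (Tree.leaf 152 14 10 4 1).ok 0 1 0 0 (UE1 (12, 24) D21) ⟨1, 2, 4, 0, 1, 2, 0, 1, 1, 0, 1, 1⟩ = true ∧
      (Tree.leaf 141 14 10 4 1).ok 0 1 0 0 (UE1 (12, 24) D21) ⟨1, 2, 2, 0, 1, 2, 0, 1, 1, 0, 1, 1⟩ = true ∧
      (Tree.leaf 141 14 10 4 1).ok 0 1 0 0 (UE1 (12, 24) D21) ⟨0, 1, 1, 2, 3, 4, 0, 1, 2, 0, 1, 1⟩ = true ∧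
      (Tree.leaf 143 14 10 4 1).ok 0 1 0 0 (UE1 (12, 24) D21) ⟨0, 1, 1, 3, 4, 4, 0, 1, 2, 0, 1, 1⟩ = true ∧
      (Tree.leaf 142 14 10 4 1).ok 0 1 0 0 (UE1 (12, 24) D21) ⟨0, 1, 1, 2, 3, 4, 1, 2, 2, 0, 1, 1⟩ = true ∧
      (Tree.leaf 144 14 10 4 1).ok 0 1 0 0 (UE1 (12, 24) D21) ⟨0, 1, 1, 3, 4, 4, 1, 2, 2, 0, 1, 1⟩ = true) ∧
    ((Tree.leaf 152 14 10 4 1).ok 0 1 0 0 (UE0 (24, 24) D22) ⟨0, 1, 4, 0, 1, 2, 0, 1, 1, 0, 1, 1⟩ = true ∧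
      (Tree.leaf 155 14 10 4 1).ok 0 1 0 0 (UE0 (24, 24) D22) ⟨1, 2, 4, 0, 1, 2, 0, 1, 1, 0, 1, 1⟩ = true ∧
      (Tree.leaf 152 14 10 4 1).ok 0 1 0 0 (UE0 (24, 24) D22) ⟨0, 1, 2, 2, 3, 4, 0, 1, 1, 0, 1, 1⟩ = true ∧
      (Tree.leaf 154 14 10 4 1).ok 0 1 0 0 (UE0 (24, 24) D22) ⟨0, 1, 2, 3, 4, 4, 0, 1, 1, 0, 1, 1⟩ = true ∧
      (Tree.leaf 140 14 10 4 1).ok 0 1 0 0 (UE0 (24, 24) D22) ⟨1, 2, 2, 0, 1, 1, 0, 1, 1, 0, 1, 1⟩ = true) ∧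
    ((Tree.leaf 127 14 10 4 1).ok 0 1 0 0 (UE1 (12, 24) D22) ⟨0, 1, 1, 0, 1, 2, 0, 1, 1, 0, 1, 1⟩ = true ∧
      (Tree.leaf 141 14 10 4 1).ok 0 1 0 0 (UE1 (12, 24) D22) ⟨0, 1, 1, 2, 3, 4, 0, 1, 2, 0, 1, 1⟩ = true ∧
      (Tree.leaf 142 14 10 4 1).ok 0 1 0 0 (UE1 (12, 24) D22) ⟨0, 1, 1, 2, 3, 4, 1, 2, 2, 0, 1, 1⟩ = true ∧
      (Tree.leaf 143 14 10 4 1).ok 0 1 0 0 (UE1 (12, 24) D22) ⟨0, 1, 1, 3, 4, 4, 0, 1, 2, 0, 1, 1⟩ = true ∧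
      (Tree.leaf 144 14 10 4 1).ok 0 1 0 0 (UE1 (12, 24) D22) ⟨0, 1, 1, 3, 4, 4, 1, 2, 2, 0, 1, 1⟩ = true) ∧
    ((Tree.leaf 151 14 10 4 1).ok 0 1 0 0 (UE0 (24, 24) D23) ⟨0, 1, 4, 0, 1, 2, 0, 1, 1, 0, 1, 1⟩ = true ∧
      (Tree.leaf 154 14 10 4 1).ok 0 1 0 0 (UE0 (24, 24) D23) ⟨1, 2, 4, 0, 1, 2, 0, 1, 1, 0, 1, 1⟩ = true ∧
      (Tree.leaf 154 14 10 4 1).ok 0 1 0 0 (UE0 (24, 24) D23) ⟨0, 1, 4, 1, 2, 2, 0, 1, 1, 0, 1, 1⟩ = true ∧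
      (Tree.leaf 158 14 10 4 1).ok 0 1 0 0 (UE0 (24, 24) D23) ⟨1, 2, 4, 1, 2, 2, 0, 1, 1, 0, 1, 1⟩ = true ∧
      (Tree.leaf 139 14 10 4 1).ok 0 1 0 0 (UE0 (24, 24) D23) ⟨1, 2, 2, 0, 1, 1, 0, 1, 1, 0, 1, 1⟩ = true) ∧
    ((Tree.leaf 126 14 10 4 1).ok 0 1 0 0 (UE1 (12, 24) D23) ⟨0, 1, 1, 0, 1, 2, 0, 1, 1, 0, 1, 1⟩ = true ∧
      (Tree.leaf 141 14 10 4 1).ok 0 1 0 0 (UE1 (12, 24) D23) ⟨0, 1, 1, 2, 3, 4, 0, 1, 2, 0, 1, 1⟩ = true ∧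
      (Tree.leaf 141 14 10 4 1).ok 0 1 0 0 (UE1 (12, 24) D23) ⟨0, 1, 1, 2, 3, 4, 1, 2, 2, 0, 1, 1⟩ = true ∧
      (Tree.leaf 143 14 10 4 1).ok 0 1 0 0 (UE1 (12, 24) D23) ⟨0, 1, 1, 3, 4, 4, 0, 1, 2, 0, 1, 1⟩ = true ∧
      (Tree.leaf 144 14 10 4 1).ok 0 1 0 0 (UE1 (12, 24) D23) ⟨0, 1, 1, 3, 4, 4, 1, 2, 2, 0, 1, 1⟩ = true) ∧
    ((Tree.leaf 170 14 14 6 6).ok 0 1 0 0 (GM 2 0 (D 2) (144, 624) (-1728, 15624) (0, 0) (2, 4) (.q 121 624) p20 k00 k10) ⟨0, 1, 2, 0, 1, 2, 0, 1, 1, 0, 1, 1⟩ = true ∧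
      (Tree.leaf 173 14 14 6 6).ok 0 1 0 0 (GM 2 0 (D 2) (144, 624) (-1728, 15624) (0, 0) (2, 4) (.q 121 624) p20 k00 k10) ⟨1, 2, 2, 0, 1, 2, 0, 1, 1, 0, 1, 1⟩ = true ∧
      (Tree.leaf 171 14 14 6 6).ok 0 1 0 0 (GM 2 0 (D 2) (144, 624) (-1728, 15624) (0, 0) (2, 4) (.q 121 624) p20 k00 k10) ⟨0, 1, 2, 1, 2, 2, 0, 1, 1, 0, 1, 1⟩ = true ∧
      (Tree.leaf 177 14 14 6 6).ok 0 1 0 0 (GM 2 0 (D 2) (144, 624) (-1728, 15624) (0, 0) (2, 4) (.q 121 624) p20 k00 k10) ⟨1, 2, 2, 1, 2, 2, 0, 1, 1, 0, 1, 1⟩ = true) ∧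
    ((Tree.leaf 158 14 14 6 6).ok 0 1 0 0 (GM 2 0 (D 2) (144, 624) (-1728, 15624) (0, 0) (2, 4) (tau1 (144, 624)) p20 k00 k10) ⟨0, 1, 1, 0, 1, 2, 0, 1, 1, 0, 1, 1⟩ = true ∧
      (Tree.leaf 171 14 14 6 6).ok 0 1 0 0 (GM 2 0 (D 2) (144, 624) (-1728, 15624) (0, 0) (2, 4) (tau1 (144, 624)) p20 k00 k10) ⟨0, 1, 2, 1, 2, 2, 0, 1, 1, 0, 1, 1⟩ = true ∧
      (Tree.leaf 177 14 14 6 6).ok 0 1 0 0 (GM 2 0 (D 2) (144, 624) (-1728, 15624) (0, 0) (2, 4) (tau1 (144, 624)) p20 k00 k10) ⟨1, 2, 2, 1, 2, 2, 0, 1, 1, 0, 1, 1⟩ = true) ∧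
    ((Tree.leaf 170 14 14 6 6).ok 0 1 0 0 (GM 2 1 (D 2) (144, 624) (-1728, 15624) (0, 0) (2, 4) (.q 121 624) p21 k01 k11) ⟨0, 1, 2, 0, 1, 2, 0, 1, 1, 0, 1, 1⟩ = true ∧
      (Tree.leaf 171 14 14 6 6).ok 0 1 0 0 (GM 2 1 (D 2) (144, 624) (-1728, 15624) (0, 0) (2, 4) (.q 121 624) p21 k01 k11) ⟨0, 1, 2, 1, 2, 2, 0, 1, 1, 0, 1, 1⟩ = true ∧
      (Tree.leaf 173 14 14 6 6).ok 0 1 0 0 (GM 2 1 (D 2) (144, 624) (-1728, 15624) (0, 0) (2, 4) (.q 121 624) p21 k01 k11) ⟨1, 2, 2, 0, 1, 2, 0, 1, 1, 0, 1, 1⟩ = true ∧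
      (Tree.leaf 177 14 14 6 6).ok 0 1 0 0 (GM 2 1 (D 2) (144, 624) (-1728, 15624) (0, 0) (2, 4) (.q 121 624) p21 k01 k11) ⟨1, 2, 2, 1, 2, 2, 0, 1, 1, 0, 1, 1⟩ = true) ∧
    ((Tree.leaf 170 14 14 6 6).ok 0 1 0 0 (GM 2 1 (D 2) (144, 624) (-1728, 15624) (0, 0) (2, 4) (tau1 (144, 624)) p21 k01 k11) ⟨0, 1, 2, 0, 1, 2, 0, 1, 1, 0, 1, 1⟩ = true ∧
      (Tree.leaf 171 14 14 6 6).ok 0 1 0 0 (GM 2 1 (D 2) (144, 624) (-1728, 15624) (0, 0) (2, 4) (tau1 (144, 624)) p21 k01 k11) ⟨0, 1, 2, 1, 2, 2, 0, 1, 1, 0, 1, 1⟩ = true ∧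
      (Tree.leaf 173 14 14 6 6).ok 0 1 0 0 (GM 2 1 (D 2) (144, 624) (-1728, 15624) (0, 0) (2, 4) (tau1 (144, 624)) p21 k01 k11) ⟨1, 2, 2, 0, 1, 2, 0, 1, 1, 0, 1, 1⟩ = true ∧
      (Tree.leaf 177 14 14 6 6).ok 0 1 0 0 (GM 2 1 (D 2) (144, 624) (-1728, 15624) (0, 0) (2, 4) (tau1 (144, 624)) p21 k01 k11) ⟨1, 2, 2, 1, 2, 2, 0, 1, 1, 0, 1, 1⟩ = true) ∧
    ((Tree.leaf 162 14 14 6 6).ok 0 1 0 0 (GM 2 2 (D 2) (144, 624) (-1728, 15624) (0, 0) (2, 4) (.q 121 624) p22 k02 k12) ⟨0, 1, 2, 0, 1, 1, 0, 1, 1, 0, 1, 2⟩ = true ∧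
      (Tree.leaf 162 14 14 6 6).ok 0 1 0 0 (GM 2 2 (D 2) (144, 624) (-1728, 15624) (0, 0) (2, 4) (.q 121 624) p22 k02 k12) ⟨0, 1, 2, 0, 1, 1, 0, 1, 1, 1, 2, 2⟩ = true ∧
      (Tree.leaf 166 14 14 6 6).ok 0 1 0 0 (GM 2 2 (D 2) (144, 624) (-1728, 15624) (0, 0) (2, 4) (.q 121 624) p22 k02 k12) ⟨1, 2, 2, 0, 1, 1, 0, 1, 2, 0, 1, 1⟩ = true ∧
      (Tree.leaf 168 14 14 6 6).ok 0 1 0 0 (GM 2 2 (D 2) (144, 624) (-1728, 15624) (0, 0) (2, 4) (.q 121 624) p22 k02 k12) ⟨1, 2, 2, 0, 1, 1, 1, 2, 2, 0, 1, 1⟩ = true) ∧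
    ((Tree.leaf 157 14 14 6 6).ok 0 1 0 0 (GM 2 2 (D 2) (144, 624) (-1728, 15624) (0, 0) (2, 4) (tau1 (144, 624)) p22 k02 k12) ⟨0, 1, 2, 0, 1, 1, 0, 1, 1, 0, 1, 1⟩ = true ∧
      (Tree.leaf 166 14 14 6 6).ok 0 1 0 0 (GM 2 2 (D 2) (144, 624) (-1728, 15624) (0, 0) (2, 4) (tau1 (144, 624)) p22 k02 k12) ⟨1, 2, 2, 0, 1, 1, 0, 1, 2, 0, 1, 1⟩ = true ∧
      (Tree.leaf 168 14 14 6 6).ok 0 1 0 0 (GM 2 2 (D 2) (144, 624) (-1728, 15624) (0, 0) (2, 4) (tau1 (144, 624)) p22 k02 k12) ⟨1, 2, 2, 0, 1, 1, 1, 2, 2, 0, 1, 1⟩ = true) ∧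
    ((Tree.leaf 162 14 14 6 6).ok 0 1 0 0 (GM 2 3 (D 2) (144, 624) (-1728, 15624) (0, 0) (2, 4) (.q 121 624) p23 k03 k13) ⟨0, 1, 2, 0, 1, 1, 0, 1, 2, 0, 1, 1⟩ = true ∧
      (Tree.leaf 166 14 14 6 6).ok 0 1 0 0 (GM 2 3 (D 2) (144, 624) (-1728, 15624) (0, 0) (2, 4) (.q 121 624) p23 k03 k13) ⟨1, 2, 2, 0, 1, 1, 0, 1, 2, 0, 1, 1⟩ = true ∧
      (Tree.leaf 162 14 14 6 6).ok 0 1 0 0 (GM 2 3 (D 2) (144, 624) (-1728, 15624) (0, 0) (2, 4) (.q 121 624) p23 k03 k13) ⟨0, 1, 2, 0, 1, 1, 1, 2, 2, 0, 1, 1⟩ = true ∧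
      (Tree.leaf 167 14 14 6 6).ok 0 1 0 0 (GM 2 3 (D 2) (144, 624) (-1728, 15624) (0, 0) (2, 4) (.q 121 624) p23 k03 k13) ⟨1, 2, 2, 0, 1, 1, 1, 2, 2, 0, 1, 1⟩ = true) ∧
    ((Tree.leaf 157 14 14 6 6).ok 0 1 0 0 (GM 2 3 (D 2) (144, 624) (-1728, 15624) (0, 0) (2, 4) (tau1 (144, 624)) p23 k03 k13) ⟨0, 1, 2, 0, 1, 1, 0, 1, 1, 0, 1, 1⟩ = true ∧
      (Tree.leaf 166 14 14 6 6).ok 0 1 0 0 (GM 2 3 (D 2) (144, 624) (-1728, 15624) (0, 0) (2, 4) (tau1 (144, 624)) p23 k03 k13) ⟨1, 2, 2, 0, 1, 1, 0, 1, 2, 0, 1, 1⟩ = true ∧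
      (Tree.leaf 167 14 14 6 6).ok 0 1 0 0 (GM 2 3 (D 2) (144, 624) (-1728, 15624) (0, 0) (2, 4) (tau1 (144, 624)) p23 k03 k13) ⟨1, 2, 2, 0, 1, 1, 1, 2, 2, 0, 1, 1⟩ = true) :=
  ⟨⟨by decide +kernel, by decide +kernel, by decide +kernel⟩,
   by decide +kernel,
   ⟨by decide +kernel, by decide +kernel, by decide +kernel, by decide +kernel⟩,
   ⟨by decide +kernel, by decide +kernel, by decide +kernel, by decide +kernel, by decide +kernel, by decide +kernel⟩,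
   ⟨by decide +kernel, by decide +kernel, by decide +kernel, by decide +kernel, by decide +kernel⟩,
   ⟨by decide +kernel, by decide +kernel, by decide +kernel, by decide +kernel⟩,
   ⟨by decide +kernel, by decide +kernel, by decide +kernel, by decide +kernel, by decide +kernel, by decide +kernel⟩,
   ⟨by decide +kernel, by decide +kernel, by decide +kernel, by decide +kernel, by decide +kernel, by decide +kernel⟩,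
   ⟨by decide +kernel, by decide +kernel, by decide +kernel, by decide +kernel, by decide +kernel⟩,
   ⟨by decide +kernel, by decide +kernel, by decide +kernel, by decide +kernel, by decide +kernel, by decide +kernel⟩,
   ⟨by decide +kernel, by decide +kernel, by decide +kernel, by decide +kernel⟩,
   ⟨by decide +kernel, by decide +kernel, by decide +kernel, by decide +kernel⟩,
   ⟨by decide +kernel, by decide +kernel, by decide +kernel, by decide +kernel⟩,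
   ⟨by decide +kernel, by decide +kernel, by decide +kernel⟩,
   ⟨by decide +kernel, by decide +kernel, by decide +kernel, by decide +kernel⟩,
   ⟨by decide +kernel, by decide +kernel, by decide +kernel, by decide +kernel⟩,
   ⟨by decide +kernel, by decide +kernel, by decide +kernel, by decide +kernel⟩,
   ⟨by decide +kernel, by decide +kernel, by decide +kernel, by decide +kernel⟩,
   ⟨by decide +kernel, by decide +kernel⟩,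
   by decide +kernel,
   ⟨by decide +kernel, by decide +kernel, by decide +kernel, by decide +kernel, by decide +kernel⟩,
   ⟨by decide +kernel, by decide +kernel, by decide +kernel, by decide +kernel, by decide +kernel, by decide +kernel, by decide +kernel⟩,
   ⟨by decide +kernel, by decide +kernel, by decide +kernel, by decide +kernel⟩,
   ⟨by decide +kernel, by decide +kernel, by decide +kernel, by decide +kernel, by decide +kernel⟩,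
   ⟨by decide +kernel, by decide +kernel, by decide +kernel, by decide +kernel, by decide +kernel⟩,
   ⟨by decide +kernel, by decide +kernel, by decide +kernel, by decide +kernel, by decide +kernel⟩,
   ⟨by decide +kernel, by decide +kernel, by decide +kernel, by decide +kernel, by decide +kernel⟩,
   ⟨by decide +kernel, by decide +kernel, by decide +kernel, by decide +kernel, by decide +kernel⟩,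
   ⟨by decide +kernel, by decide +kernel, by decide +kernel, by decide +kernel⟩,
   ⟨by decide +kernel, by decide +kernel, by decide +kernel⟩,
   ⟨by decide +kernel, by decide +kernel, by decide +kernel, by decide +kernel⟩,
   ⟨by decide +kernel, by decide +kernel, by decide +kernel⟩,
   ⟨by decide +kernel, by decide +kernel, by decide +kernel, by decide +kernel⟩,
   ⟨by decide +kernel, by decide +kernel, by decide +kernel, by decide +kernel⟩,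
   ⟨by decide +kernel, by decide +kernel, by decide +kernel, by decide +kernel⟩,
   ⟨by decide +kernel, by decide +kernel, by decide +kernel, by decide +kernel⟩,
   ⟨by decide +kernel, by decide +kernel, by decide +kernel⟩,
   by decide +kernel,
   ⟨by decide +kernel, by decide +kernel, by decide +kernel, by decide +kernel⟩,
   ⟨by decide +kernel, by decide +kernel, by decide +kernel, by decide +kernel, by decide +kernel, by decide +kernel⟩,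
   ⟨by decide +kernel, by decide +kernel, by decide +kernel, by decide +kernel⟩,
   ⟨by decide +kernel, by decide +kernel, by decide +kernel, by decide +kernel, by decide +kernel, by decide +kernel, by decide +kernel⟩,
   ⟨by decide +kernel, by decide +kernel, by decide +kernel, by decide +kernel, by decide +kernel⟩,
   ⟨by decide +kernel, by decide +kernel, by decide +kernel, by decide +kernel, by decide +kernel⟩,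
   ⟨by decide +kernel, by decide +kernel, by decide +kernel, by decide +kernel, by decide +kernel⟩,
   ⟨by decide +kernel, by decide +kernel, by decide +kernel, by decide +kernel, by decide +kernel⟩,
   ⟨by decide +kernel, by decide +kernel, by decide +kernel, by decide +kernel⟩,
   ⟨by decide +kernel, by decide +kernel, by decide +kernel⟩,
   ⟨by decide +kernel, by decide +kernel, by decide +kernel, by decide +kernel⟩,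
   ⟨by decide +kernel, by decide +kernel, by decide +kernel, by decide +kernel⟩,
   ⟨by decide +kernel, by decide +kernel, by decide +kernel, by decide +kernel⟩,
   ⟨by decide +kernel, by decide +kernel, by decide +kernel⟩,
   ⟨by decide +kernel, by decide +kernel, by decide +kernel, by decide +kernel⟩,
   ⟨by decide +kernel, by decide +kernel, by decide +kernel⟩⟩

def t_s0 : Tree := (.s2 (.leaf 90 9 16 6 1) (.s1 (.leaf 97 9 16 6 1) (.leaf 103 9 16 6 1)))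
theorem s0 : t_s0.ok 0 1 0 0 (SEG D03 (0, 0) (sP (11, 11) (1, 11)) p00 p01 p02 p03) unitBx = true :=
  (Tree.ok_s2 lv.1.1 (Tree.ok_s1 lv.1.2.1 lv.1.2.2))

def t_r0 : Tree := (.leaf 55 16 1 6 1)
theorem r0 : t_r0.ok 0 1 0 0 (RE D03 (0, 0)) unitBx = true :=
  lv.2.1

def t_u00 : Tree := (.s0 (.s1 (.s0 (.leaf 194 17 16 6 1) (.leaf 197 17 16 6 1)) (.leaf 186 17 16 6 1)) (.leaf 174 17 16 6 1))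
theorem u00 : t_u00.ok 0 1 0 0 (UE0 (24, 24) D00) unitBx = true :=
  (Tree.ok_s0 (Tree.ok_s1 (Tree.ok_s0 lv.2.2.1.1 lv.2.2.1.2.1) lv.2.2.1.2.2.1) lv.2.2.1.2.2.2)

def t_v00 : Tree := (.s1 (.s0 (.leaf 178 17 16 6 1) (.leaf 181 17 16 6 1)) (.s1 (.s0 (.leaf 196 17 16 6 1) (.leaf 201 17 16 6 1)) (.s1 (.leaf 201 17 16 6 1) (.leaf 202 17 16 6 1))))
theorem v00 : t_v00.ok 0 1 0 0 (UE1 (12, 24) D00) unitBx = true :=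
  (Tree.ok_s1 (Tree.ok_s0 lv.2.2.2.1.1 lv.2.2.2.1.2.1) (Tree.ok_s1 (Tree.ok_s0 lv.2.2.2.1.2.2.1 lv.2.2.2.1.2.2.2.1) (Tree.ok_s1 lv.2.2.2.1.2.2.2.2.1 lv.2.2.2.1.2.2.2.2.2)))

def t_u01 : Tree := (.s0 (.s0 (.s1 (.leaf 194 17 16 6 1) (.leaf 199 17 16 6 1)) (.s1 (.leaf 197 17 16 6 1) (.leaf 204 17 16 6 1))) (.leaf 174 17 16 6 1))
theorem u01 : t_u01.ok 0 1 0 0 (UE0 (24, 24) D01) unitBx = true :=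
  (Tree.ok_s0 (Tree.ok_s0 (Tree.ok_s1 lv.2.2.2.2.1.1 lv.2.2.2.2.1.2.1) (Tree.ok_s1 lv.2.2.2.2.1.2.2.1 lv.2.2.2.2.1.2.2.2.1)) lv.2.2.2.2.1.2.2.2.2)

def t_v01 : Tree := (.s1 (.leaf 164 17 16 6 1) (.s1 (.leaf 183 17 16 6 1) (.s1 (.leaf 200 17 16 6 1) (.leaf 202 17 16 6 1))))
theorem v01 : t_v01.ok 0 1 0 0 (UE1 (12, 24) D01) unitBx = true :=
  (Tree.ok_s1 lv.2.2.2.2.2.1.1 (Tree.ok_s1 lv.2.2.2.2.2.1.2.1 (Tree.ok_s1 lv.2.2.2.2.2.1.2.2.1 lv.2.2.2.2.2.1.2.2.2)))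

def t_u02 : Tree := (.s0 (.s1 (.s0 (.leaf 194 17 16 6 1) (.leaf 198 17 16 6 1)) (.s0 (.leaf 200 17 16 6 1) (.leaf 205 17 16 6 1))) (.s0 (.leaf 190 17 16 6 1) (.leaf 193 17 16 6 1)))
theorem u02 : t_u02.ok 0 1 0 0 (UE0 (24, 24) D02) unitBx = true :=
  (Tree.ok_s0 (Tree.ok_s1 (Tree.ok_s0 lv.2.2.2.2.2.2.1.1 lv.2.2.2.2.2.2.1.2.1) (Tree.ok_s0 lv.2.2.2.2.2.2.1.2.2.1 lv.2.2.2.2.2.2.1.2.2.2.1)) (Tree.ok_s0 lv.2.2.2.2.2.2.1.2.2.2.2.1 lv.2.2.2.2.2.2.1.2.2.2.2.2))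

def t_v02 : Tree := (.s1 (.s0 (.leaf 178 17 16 6 1) (.leaf 182 17 16 6 1)) (.s1 (.s0 (.leaf 197 17 16 6 1) (.leaf 202 17 16 6 1)) (.s1 (.leaf 202 17 16 6 1) (.leaf 204 17 16 6 1))))
theorem v02 : t_v02.ok 0 1 0 0 (UE1 (12, 24) D02) unitBx = true :=
  (Tree.ok_s1 (Tree.ok_s0 lv.2.2.2.2.2.2.2.1.1 lv.2.2.2.2.2.2.2.1.2.1) (Tree.ok_s1 (Tree.ok_s0 lv.2.2.2.2.2.2.2.1.2.2.1 lv.2.2.2.2.2.2.2.1.2.2.2.1) (Tree.ok_s1 lv.2.2.2.2.2.2.2.1.2.2.2.2.1 lv.2.2.2.2.2.2.2.1.2.2.2.2.2)))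

def t_u03 : Tree := (.s0 (.s1 (.s0 (.leaf 194 17 16 6 1) (.leaf 197 17 16 6 1)) (.s0 (.leaf 199 17 16 6 1) (.leaf 203 17 16 6 1))) (.leaf 174 17 16 6 1))
theorem u03 : t_u03.ok 0 1 0 0 (UE0 (24, 24) D03) unitBx = true :=
  (Tree.ok_s0 (Tree.ok_s1 (Tree.ok_s0 lv.2.2.2.2.2.2.2.2.1.1 lv.2.2.2.2.2.2.2.2.1.2.1) (Tree.ok_s0 lv.2.2.2.2.2.2.2.2.1.2.2.1 lv.2.2.2.2.2.2.2.2.1.2.2.2.1)) lv.2.2.2.2.2.2.2.2.1.2.2.2.2)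

def t_v03 : Tree := (.s1 (.s1 (.leaf 178 17 16 6 1) (.s2 (.leaf 184 17 16 6 1) (.leaf 185 17 16 6 1))) (.s2 (.leaf 173 17 16 6 1) (.s1 (.leaf 188 17 16 6 1) (.leaf 192 17 16 6 1))))
theorem v03 : t_v03.ok 0 1 0 0 (UE1 (12, 24) D03) unitBx = true :=
  (Tree.ok_s1 (Tree.ok_s1 lv.2.2.2.2.2.2.2.2.2.1.1 (Tree.ok_s2 lv.2.2.2.2.2.2.2.2.2.1.2.1 lv.2.2.2.2.2.2.2.2.2.1.2.2.1)) (Tree.ok_s2 lv.2.2.2.2.2.2.2.2.2.1.2.2.2.1 (Tree.ok_s1 lv.2.2.2.2.2.2.2.2.2.1.2.2.2.2.1 lv.2.2.2.2.2.2.2.2.2.1.2.2.2.2.2)))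

def t_h000 : Tree := (.s0 (.s3 (.leaf 181 16 16 6 6) (.leaf 181 16 16 6 6)) (.s3 (.leaf 186 16 16 6 6) (.leaf 186 16 16 6 6)))
theorem h000 : t_h000.ok 0 1 0 0 (GM 0 0 (D 0) (144, 624) (-1728, 15624) (0, 0) (2, 4) (.q 121 624) p00 k00 k10) unitBx = true :=
  (Tree.ok_s0 (Tree.ok_s3 lv.2.2.2.2.2.2.2.2.2.2.1.1 lv.2.2.2.2.2.2.2.2.2.2.1.2.1) (Tree.ok_s3 lv.2.2.2.2.2.2.2.2.2.2.1.2.2.1 lv.2.2.2.2.2.2.2.2.2.2.1.2.2.2))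

def t_h001 : Tree := (.s0 (.s3 (.leaf 181 16 16 6 6) (.leaf 181 16 16 6 6)) (.s3 (.leaf 186 16 16 6 6) (.leaf 186 16 16 6 6)))
theorem h001 : t_h001.ok 0 1 0 0 (GM 0 0 (D 0) (144, 624) (-1728, 15624) (0, 0) (2, 4) (tau1 (144, 624)) p00 k00 k10) unitBx = true :=
  (Tree.ok_s0 (Tree.ok_s3 lv.2.2.2.2.2.2.2.2.2.2.2.1.1 lv.2.2.2.2.2.2.2.2.2.2.2.1.2.1) (Tree.ok_s3 lv.2.2.2.2.2.2.2.2.2.2.2.1.2.2.1 lv.2.2.2.2.2.2.2.2.2.2.2.1.2.2.2))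

def t_h010 : Tree := (.s0 (.s1 (.leaf 191 16 16 6 6) (.leaf 192 16 16 6 6)) (.s0 (.leaf 195 16 16 6 6) (.leaf 198 16 16 6 6)))
theorem h010 : t_h010.ok 0 1 0 0 (GM 0 1 (D 0) (144, 624) (-1728, 15624) (0, 0) (2, 4) (.q 121 624) p01 k01 k11) unitBx = true :=
  (Tree.ok_s0 (Tree.ok_s1 lv.2.2.2.2.2.2.2.2.2.2.2.2.1.1 lv.2.2.2.2.2.2.2.2.2.2.2.2.1.2.1) (Tree.ok_s0 lv.2.2.2.2.2.2.2.2.2.2.2.2.1.2.2.1 lv.2.2.2.2.2.2.2.2.2.2.2.2.1.2.2.2))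

def t_h011 : Tree := (.s0 (.s1 (.leaf 191 16 16 6 6) (.leaf 192 16 16 6 6)) (.leaf 182 16 16 6 6))
theorem h011 : t_h011.ok 0 1 0 0 (GM 0 1 (D 0) (144, 624) (-1728, 15624) (0, 0) (2, 4) (tau1 (144, 624)) p01 k01 k11) unitBx = true :=
  (Tree.ok_s0 (Tree.ok_s1 lv.2.2.2.2.2.2.2.2.2.2.2.2.2.1.1 lv.2.2.2.2.2.2.2.2.2.2.2.2.2.1.2.1) lv.2.2.2.2.2.2.2.2.2.2.2.2.2.1.2.2)

def t_h020 : Tree := (.s0 (.s1 (.leaf 191 16 16 6 6) (.leaf 192 16 16 6 6)) (.s2 (.leaf 186 16 16 6 6) (.leaf 188 16 16 6 6)))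
theorem h020 : t_h020.ok 0 1 0 0 (GM 0 2 (D 0) (144, 624) (-1728, 15624) (0, 0) (2, 4) (.q 121 624) p02 k02 k12) unitBx = true :=
  (Tree.ok_s0 (Tree.ok_s1 lv.2.2.2.2.2.2.2.2.2.2.2.2.2.2.1.1 lv.2.2.2.2.2.2.2.2.2.2.2.2.2.2.1.2.1) (Tree.ok_s2 lv.2.2.2.2.2.2.2.2.2.2.2.2.2.2.1.2.2.1 lv.2.2.2.2.2.2.2.2.2.2.2.2.2.2.1.2.2.2))

def t_h021 : Tree := (.s0 (.s1 (.leaf 191 16 16 6 6) (.leaf 192 16 16 6 6)) (.s2 (.leaf 186 16 16 6 6) (.leaf 188 16 16 6 6)))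
theorem h021 : t_h021.ok 0 1 0 0 (GM 0 2 (D 0) (144, 624) (-1728, 15624) (0, 0) (2, 4) (tau1 (144, 624)) p02 k02 k12) unitBx = true :=
  (Tree.ok_s0 (Tree.ok_s1 lv.2.2.2.2.2.2.2.2.2.2.2.2.2.2.2.1.1 lv.2.2.2.2.2.2.2.2.2.2.2.2.2.2.2.1.2.1) (Tree.ok_s2 lv.2.2.2.2.2.2.2.2.2.2.2.2.2.2.2.1.2.2.1 lv.2.2.2.2.2.2.2.2.2.2.2.2.2.2.2.1.2.2.2))

def t_h030 : Tree := (.s3 (.s1 (.leaf 182 16 16 6 6) (.leaf 184 16 16 6 6)) (.s0 (.leaf 181 16 16 6 6) (.leaf 186 16 16 6 6)))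
theorem h030 : t_h030.ok 0 1 0 0 (GM 0 3 (D 0) (144, 624) (-1728, 15624) (0, 0) (2, 4) (.q 121 624) p03 k03 k13) unitBx = true :=
  (Tree.ok_s3 (Tree.ok_s1 lv.2.2.2.2.2.2.2.2.2.2.2.2.2.2.2.2.1.1 lv.2.2.2.2.2.2.2.2.2.2.2.2.2.2.2.2.1.2.1) (Tree.ok_s0 lv.2.2.2.2.2.2.2.2.2.2.2.2.2.2.2.2.1.2.2.1 lv.2.2.2.2.2.2.2.2.2.2.2.2.2.2.2.2.1.2.2.2))

def t_h031 : Tree := (.s3 (.s1 (.leaf 182 16 16 6 6) (.leaf 184 16 16 6 6)) (.s0 (.leaf 181 16 16 6 6) (.leaf 186 16 16 6 6)))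
theorem h031 : t_h031.ok 0 1 0 0 (GM 0 3 (D 0) (144, 624) (-1728, 15624) (0, 0) (2, 4) (tau1 (144, 624)) p03 k03 k13) unitBx = true :=
  (Tree.ok_s3 (Tree.ok_s1 lv.2.2.2.2.2.2.2.2.2.2.2.2.2.2.2.2.2.1.1 lv.2.2.2.2.2.2.2.2.2.2.2.2.2.2.2.2.2.1.2.1) (Tree.ok_s0 lv.2.2.2.2.2.2.2.2.2.2.2.2.2.2.2.2.2.1.2.2.1 lv.2.2.2.2.2.2.2.2.2.2.2.2.2.2.2.2.2.1.2.2.2))

def t_s1 : Tree := (.s2 (.leaf 85 9 13 5 1) (.leaf 86 9 13 5 1))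
theorem s1 : t_s1.ok 0 1 0 0 (SEG D13 (0, 0) (sP (11, 11) (1, 11)) p10 p11 p12 p13) unitBx = true :=
  (Tree.ok_s2 lv.2.2.2.2.2.2.2.2.2.2.2.2.2.2.2.2.2.2.1.1 lv.2.2.2.2.2.2.2.2.2.2.2.2.2.2.2.2.2.2.1.2)

def t_r1 : Tree := (.leaf 46 13 1 5 1)
theorem r1 : t_r1.ok 0 1 0 0 (RE D13 (0, 0)) unitBx = true :=
  lv.2.2.2.2.2.2.2.2.2.2.2.2.2.2.2.2.2.2.2.1

def t_u10 : Tree := (.s0 (.s1 (.s0 (.leaf 161 14 13 5 1) (.leaf 164 14 13 5 1)) (.s0 (.leaf 165 14 13 5 1) (.leaf 169 14 13 5 1))) (.leaf 146 14 13 5 1))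
theorem u10 : t_u10.ok 0 1 0 0 (UE0 (24, 24) D10) unitBx = true :=
  (Tree.ok_s0 (Tree.ok_s1 (Tree.ok_s0 lv.2.2.2.2.2.2.2.2.2.2.2.2.2.2.2.2.2.2.2.2.1.1 lv.2.2.2.2.2.2.2.2.2.2.2.2.2.2.2.2.2.2.2.2.1.2.1) (Tree.ok_s0 lv.2.2.2.2.2.2.2.2.2.2.2.2.2.2.2.2.2.2.2.2.1.2.2.1 lv.2.2.2.2.2.2.2.2.2.2.2.2.2.2.2.2.2.2.2.2.1.2.2.2.1)) lv.2.2.2.2.2.2.2.2.2.2.2.2.2.2.2.2.2.2.2.2.1.2.2.2.2)

def t_v10 : Tree := (.s1 (.s1 (.leaf 148 14 13 5 1) (.s1 (.leaf 161 14 13 5 1) (.leaf 162 14 13 5 1))) (.s1 (.s2 (.leaf 155 14 13 5 1) (.leaf 156 14 13 5 1)) (.s2 (.leaf 158 14 13 5 1) (.leaf 159 14 13 5 1))))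
theorem v10 : t_v10.ok 0 1 0 0 (UE1 (12, 24) D10) unitBx = true :=
  (Tree.ok_s1 (Tree.ok_s1 lv.2.2.2.2.2.2.2.2.2.2.2.2.2.2.2.2.2.2.2.2.2.1.1 (Tree.ok_s1 lv.2.2.2.2.2.2.2.2.2.2.2.2.2.2.2.2.2.2.2.2.2.1.2.1 lv.2.2.2.2.2.2.2.2.2.2.2.2.2.2.2.2.2.2.2.2.2.1.2.2.1)) (Tree.ok_s1 (Tree.ok_s2 lv.2.2.2.2.2.2.2.2.2.2.2.2.2.2.2.2.2.2.2.2.2.1.2.2.2.1 lv.2.2.2.2.2.2.2.2.2.2.2.2.2.2.2.2.2.2.2.2.2.1.2.2.2.2.1) (Tree.ok_s2 lv.2.2.2.2.2.2.2.2.2.2.2.2.2.2.2.2.2.2.2.2.2.1.2.2.2.2.2.1 lv.2.2.2.2.2.2.2.2.2.2.2.2.2.2.2.2.2.2.2.2.2.1.2.2.2.2.2.2)))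

def t_u11 : Tree := (.s0 (.s0 (.s1 (.leaf 161 14 13 5 1) (.leaf 164 14 13 5 1)) (.leaf 154 14 13 5 1)) (.leaf 146 14 13 5 1))
theorem u11 : t_u11.ok 0 1 0 0 (UE0 (24, 24) D11) unitBx = true :=
  (Tree.ok_s0 (Tree.ok_s0 (Tree.ok_s1 lv.2.2.2.2.2.2.2.2.2.2.2.2.2.2.2.2.2.2.2.2.2.2.1.1 lv.2.2.2.2.2.2.2.2.2.2.2.2.2.2.2.2.2.2.2.2.2.2.1.2.1) lv.2.2.2.2.2.2.2.2.2.2.2.2.2.2.2.2.2.2.2.2.2.2.1.2.2.1) lv.2.2.2.2.2.2.2.2.2.2.2.2.2.2.2.2.2.2.2.2.2.2.1.2.2.2)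

def t_v11 : Tree := (.s1 (.leaf 136 14 13 5 1) (.s1 (.s0 (.leaf 162 14 13 5 1) (.leaf 166 14 13 5 1)) (.s1 (.leaf 165 14 13 5 1) (.leaf 166 14 13 5 1))))
theorem v11 : t_v11.ok 0 1 0 0 (UE1 (12, 24) D11) unitBx = true :=
  (Tree.ok_s1 lv.2.2.2.2.2.2.2.2.2.2.2.2.2.2.2.2.2.2.2.2.2.2.2.1.1 (Tree.ok_s1 (Tree.ok_s0 lv.2.2.2.2.2.2.2.2.2.2.2.2.2.2.2.2.2.2.2.2.2.2.2.1.2.1 lv.2.2.2.2.2.2.2.2.2.2.2.2.2.2.2.2.2.2.2.2.2.2.2.1.2.2.1) (Tree.ok_s1 lv.2.2.2.2.2.2.2.2.2.2.2.2.2.2.2.2.2.2.2.2.2.2.2.1.2.2.2.1 lv.2.2.2.2.2.2.2.2.2.2.2.2.2.2.2.2.2.2.2.2.2.2.2.1.2.2.2.2)))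

def t_u12 : Tree := (.s0 (.s1 (.s0 (.leaf 160 14 13 5 1) (.leaf 163 14 13 5 1)) (.s0 (.leaf 163 14 13 5 1) (.leaf 168 14 13 5 1))) (.leaf 146 14 13 5 1))
theorem u12 : t_u12.ok 0 1 0 0 (UE0 (24, 24) D12) unitBx = true :=
  (Tree.ok_s0 (Tree.ok_s1 (Tree.ok_s0 lv.2.2.2.2.2.2.2.2.2.2.2.2.2.2.2.2.2.2.2.2.2.2.2.2.1.1 lv.2.2.2.2.2.2.2.2.2.2.2.2.2.2.2.2.2.2.2.2.2.2.2.2.1.2.1) (Tree.ok_s0 lv.2.2.2.2.2.2.2.2.2.2.2.2.2.2.2.2.2.2.2.2.2.2.2.2.1.2.2.1 lv.2.2.2.2.2.2.2.2.2.2.2.2.2.2.2.2.2.2.2.2.2.2.2.2.1.2.2.2.1)) lv.2.2.2.2.2.2.2.2.2.2.2.2.2.2.2.2.2.2.2.2.2.2.2.2.1.2.2.2.2)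

def t_v12 : Tree := (.s1 (.leaf 135 14 13 5 1) (.s1 (.s2 (.leaf 154 14 13 5 1) (.leaf 154 14 13 5 1)) (.s1 (.leaf 164 14 13 5 1) (.leaf 165 14 13 5 1))))
theorem v12 : t_v12.ok 0 1 0 0 (UE1 (12, 24) D12) unitBx = true :=
  (Tree.ok_s1 lv.2.2.2.2.2.2.2.2.2.2.2.2.2.2.2.2.2.2.2.2.2.2.2.2.2.1.1 (Tree.ok_s1 (Tree.ok_s2 lv.2.2.2.2.2.2.2.2.2.2.2.2.2.2.2.2.2.2.2.2.2.2.2.2.2.1.2.1 lv.2.2.2.2.2.2.2.2.2.2.2.2.2.2.2.2.2.2.2.2.2.2.2.2.2.1.2.2.1) (Tree.ok_s1 lv.2.2.2.2.2.2.2.2.2.2.2.2.2.2.2.2.2.2.2.2.2.2.2.2.2.1.2.2.2.1 lv.2.2.2.2.2.2.2.2.2.2.2.2.2.2.2.2.2.2.2.2.2.2.2.2.2.1.2.2.2.2)))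

def t_u13 : Tree := (.s0 (.s1 (.s0 (.leaf 161 14 13 5 1) (.leaf 163 14 13 5 1)) (.s0 (.leaf 163 14 13 5 1) (.leaf 168 14 13 5 1))) (.leaf 146 14 13 5 1))
theorem u13 : t_u13.ok 0 1 0 0 (UE0 (24, 24) D13) unitBx = true :=
  (Tree.ok_s0 (Tree.ok_s1 (Tree.ok_s0 lv.2.2.2.2.2.2.2.2.2.2.2.2.2.2.2.2.2.2.2.2.2.2.2.2.2.2.1.1 lv.2.2.2.2.2.2.2.2.2.2.2.2.2.2.2.2.2.2.2.2.2.2.2.2.2.2.1.2.1) (Tree.ok_s0 lv.2.2.2.2.2.2.2.2.2.2.2.2.2.2.2.2.2.2.2.2.2.2.2.2.2.2.1.2.2.1 lv.2.2.2.2.2.2.2.2.2.2.2.2.2.2.2.2.2.2.2.2.2.2.2.2.2.2.1.2.2.2.1)) lv.2.2.2.2.2.2.2.2.2.2.2.2.2.2.2.2.2.2.2.2.2.2.2.2.2.2.1.2.2.2.2)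

def t_v13 : Tree := (.s1 (.leaf 136 14 13 5 1) (.s1 (.s0 (.leaf 161 14 13 5 1) (.leaf 165 14 13 5 1)) (.s0 (.leaf 163 14 13 5 1) (.leaf 168 14 13 5 1))))
theorem v13 : t_v13.ok 0 1 0 0 (UE1 (12, 24) D13) unitBx = true :=
  (Tree.ok_s1 lv.2.2.2.2.2.2.2.2.2.2.2.2.2.2.2.2.2.2.2.2.2.2.2.2.2.2.2.1.1 (Tree.ok_s1 (Tree.ok_s0 lv.2.2.2.2.2.2.2.2.2.2.2.2.2.2.2.2.2.2.2.2.2.2.2.2.2.2.2.1.2.1 lv.2.2.2.2.2.2.2.2.2.2.2.2.2.2.2.2.2.2.2.2.2.2.2.2.2.2.2.1.2.2.1) (Tree.ok_s0 lv.2.2.2.2.2.2.2.2.2.2.2.2.2.2.2.2.2.2.2.2.2.2.2.2.2.2.2.1.2.2.2.1 lv.2.2.2.2.2.2.2.2.2.2.2.2.2.2.2.2.2.2.2.2.2.2.2.2.2.2.2.1.2.2.2.2)))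

def t_h100 : Tree := (.s0 (.s3 (.leaf 162 14 14 6 6) (.leaf 162 14 14 6 6)) (.s1 (.leaf 173 14 14 6 6) (.leaf 177 14 14 6 6)))
theorem h100 : t_h100.ok 0 1 0 0 (GM 1 0 (D 1) (144, 624) (-1728, 15624) (0, 0) (2, 4) (.q 121 624) p10 k00 k10) unitBx = true :=
  (Tree.ok_s0 (Tree.ok_s3 lv.2.2.2.2.2.2.2.2.2.2.2.2.2.2.2.2.2.2.2.2.2.2.2.2.2.2.2.2.1.1 lv.2.2.2.2.2.2.2.2.2.2.2.2.2.2.2.2.2.2.2.2.2.2.2.2.2.2.2.2.1.2.1) (Tree.ok_s1 lv.2.2.2.2.2.2.2.2.2.2.2.2.2.2.2.2.2.2.2.2.2.2.2.2.2.2.2.2.1.2.2.1 lv.2.2.2.2.2.2.2.2.2.2.2.2.2.2.2.2.2.2.2.2.2.2.2.2.2.2.2.2.1.2.2.2))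

def t_h101 : Tree := (.s0 (.s3 (.leaf 162 14 14 6 6) (.leaf 162 14 14 6 6)) (.leaf 162 14 14 6 6))
theorem h101 : t_h101.ok 0 1 0 0 (GM 1 0 (D 1) (144, 624) (-1728, 15624) (0, 0) (2, 4) (tau1 (144, 624)) p10 k00 k10) unitBx = true :=
  (Tree.ok_s0 (Tree.ok_s3 lv.2.2.2.2.2.2.2.2.2.2.2.2.2.2.2.2.2.2.2.2.2.2.2.2.2.2.2.2.2.1.1 lv.2.2.2.2.2.2.2.2.2.2.2.2.2.2.2.2.2.2.2.2.2.2.2.2.2.2.2.2.2.1.2.1) lv.2.2.2.2.2.2.2.2.2.2.2.2.2.2.2.2.2.2.2.2.2.2.2.2.2.2.2.2.2.1.2.2)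

def t_h110 : Tree := (.s0 (.s3 (.leaf 162 14 14 6 6) (.leaf 162 14 14 6 6)) (.s0 (.leaf 173 14 14 6 6) (.leaf 176 14 14 6 6)))
theorem h110 : t_h110.ok 0 1 0 0 (GM 1 1 (D 1) (144, 624) (-1728, 15624) (0, 0) (2, 4) (.q 121 624) p11 k01 k11) unitBx = true :=
  (Tree.ok_s0 (Tree.ok_s3 lv.2.2.2.2.2.2.2.2.2.2.2.2.2.2.2.2.2.2.2.2.2.2.2.2.2.2.2.2.2.2.1.1 lv.2.2.2.2.2.2.2.2.2.2.2.2.2.2.2.2.2.2.2.2.2.2.2.2.2.2.2.2.2.2.1.2.1) (Tree.ok_s0 lv.2.2.2.2.2.2.2.2.2.2.2.2.2.2.2.2.2.2.2.2.2.2.2.2.2.2.2.2.2.2.1.2.2.1 lv.2.2.2.2.2.2.2.2.2.2.2.2.2.2.2.2.2.2.2.2.2.2.2.2.2.2.2.2.2.2.1.2.2.2))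

def t_h111 : Tree := (.s0 (.leaf 157 14 14 6 6) (.s0 (.leaf 173 14 14 6 6) (.leaf 176 14 14 6 6)))
theorem h111 : t_h111.ok 0 1 0 0 (GM 1 1 (D 1) (144, 624) (-1728, 15624) (0, 0) (2, 4) (tau1 (144, 624)) p11 k01 k11) unitBx = true :=
  (Tree.ok_s0 lv.2.2.2.2.2.2.2.2.2.2.2.2.2.2.2.2.2.2.2.2.2.2.2.2.2.2.2.2.2.2.2.1.1 (Tree.ok_s0 lv.2.2.2.2.2.2.2.2.2.2.2.2.2.2.2.2.2.2.2.2.2.2.2.2.2.2.2.2.2.2.2.1.2.1 lv.2.2.2.2.2.2.2.2.2.2.2.2.2.2.2.2.2.2.2.2.2.2.2.2.2.2.2.2.2.2.2.1.2.2))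

def t_h120 : Tree := (.s0 (.s3 (.leaf 161 14 14 6 6) (.leaf 161 14 14 6 6)) (.s3 (.leaf 165 14 14 6 6) (.leaf 166 14 14 6 6)))
theorem h120 : t_h120.ok 0 1 0 0 (GM 1 2 (D 1) (144, 624) (-1728, 15624) (0, 0) (2, 4) (.q 121 624) p12 k02 k12) unitBx = true :=
  (Tree.ok_s0 (Tree.ok_s3 lv.2.2.2.2.2.2.2.2.2.2.2.2.2.2.2.2.2.2.2.2.2.2.2.2.2.2.2.2.2.2.2.2.1.1 lv.2.2.2.2.2.2.2.2.2.2.2.2.2.2.2.2.2.2.2.2.2.2.2.2.2.2.2.2.2.2.2.2.1.2.1) (Tree.ok_s3 lv.2.2.2.2.2.2.2.2.2.2.2.2.2.2.2.2.2.2.2.2.2.2.2.2.2.2.2.2.2.2.2.2.1.2.2.1 lv.2.2.2.2.2.2.2.2.2.2.2.2.2.2.2.2.2.2.2.2.2.2.2.2.2.2.2.2.2.2.2.2.1.2.2.2))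

def t_h121 : Tree := (.s0 (.s3 (.leaf 161 14 14 6 6) (.leaf 161 14 14 6 6)) (.s2 (.leaf 165 14 14 6 6) (.leaf 166 14 14 6 6)))
theorem h121 : t_h121.ok 0 1 0 0 (GM 1 2 (D 1) (144, 624) (-1728, 15624) (0, 0) (2, 4) (tau1 (144, 624)) p12 k02 k12) unitBx = true :=
  (Tree.ok_s0 (Tree.ok_s3 lv.2.2.2.2.2.2.2.2.2.2.2.2.2.2.2.2.2.2.2.2.2.2.2.2.2.2.2.2.2.2.2.2.2.1.1 lv.2.2.2.2.2.2.2.2.2.2.2.2.2.2.2.2.2.2.2.2.2.2.2.2.2.2.2.2.2.2.2.2.2.1.2.1) (Tree.ok_s2 lv.2.2.2.2.2.2.2.2.2.2.2.2.2.2.2.2.2.2.2.2.2.2.2.2.2.2.2.2.2.2.2.2.2.1.2.2.1 lv.2.2.2.2.2.2.2.2.2.2.2.2.2.2.2.2.2.2.2.2.2.2.2.2.2.2.2.2.2.2.2.2.2.1.2.2.2))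

def t_h130 : Tree := (.s1 (.s0 (.leaf 169 14 14 6 6) (.leaf 172 14 14 6 6)) (.s3 (.leaf 164 14 14 6 6) (.leaf 165 14 14 6 6)))
theorem h130 : t_h130.ok 0 1 0 0 (GM 1 3 (D 1) (144, 624) (-1728, 15624) (0, 0) (2, 4) (.q 121 624) p13 k03 k13) unitBx = true :=
  (Tree.ok_s1 (Tree.ok_s0 lv.2.2.2.2.2.2.2.2.2.2.2.2.2.2.2.2.2.2.2.2.2.2.2.2.2.2.2.2.2.2.2.2.2.2.1.1 lv.2.2.2.2.2.2.2.2.2.2.2.2.2.2.2.2.2.2.2.2.2.2.2.2.2.2.2.2.2.2.2.2.2.2.1.2.1) (Tree.ok_s3 lv.2.2.2.2.2.2.2.2.2.2.2.2.2.2.2.2.2.2.2.2.2.2.2.2.2.2.2.2.2.2.2.2.2.2.1.2.2.1 lv.2.2.2.2.2.2.2.2.2.2.2.2.2.2.2.2.2.2.2.2.2.2.2.2.2.2.2.2.2.2.2.2.2.2.1.2.2.2))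

def t_h131 : Tree := (.s1 (.s0 (.leaf 169 14 14 6 6) (.leaf 172 14 14 6 6)) (.s3 (.leaf 164 14 14 6 6) (.leaf 165 14 14 6 6)))
theorem h131 : t_h131.ok 0 1 0 0 (GM 1 3 (D 1) (144, 624) (-1728, 15624) (0, 0) (2, 4) (tau1 (144, 624)) p13 k03 k13) unitBx = true :=
  (Tree.ok_s1 (Tree.ok_s0 lv.2.2.2.2.2.2.2.2.2.2.2.2.2.2.2.2.2.2.2.2.2.2.2.2.2.2.2.2.2.2.2.2.2.2.2.1.1 lv.2.2.2.2.2.2.2.2.2.2.2.2.2.2.2.2.2.2.2.2.2.2.2.2.2.2.2.2.2.2.2.2.2.2.2.1.2.1) (Tree.ok_s3 lv.2.2.2.2.2.2.2.2.2.2.2.2.2.2.2.2.2.2.2.2.2.2.2.2.2.2.2.2.2.2.2.2.2.2.2.1.2.2.1 lv.2.2.2.2.2.2.2.2.2.2.2.2.2.2.2.2.2.2.2.2.2.2.2.2.2.2.2.2.2.2.2.2.2.2.2.1.2.2.2))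

def t_s2 : Tree := (.s1 (.leaf 86 9 10 5 1) (.s2 (.leaf 93 9 10 5 1) (.leaf 94 9 10 5 1)))
theorem s2 : t_s2.ok 0 1 0 0 (SEG D23 (-13023, 4095) (sP (11, 11) (1, 11)) p20 p21 p22 p23) unitBx = true :=
  (Tree.ok_s1 lv.2.2.2.2.2.2.2.2.2.2.2.2.2.2.2.2.2.2.2.2.2.2.2.2.2.2.2.2.2.2.2.2.2.2.2.2.1.1 (Tree.ok_s2 lv.2.2.2.2.2.2.2.2.2.2.2.2.2.2.2.2.2.2.2.2.2.2.2.2.2.2.2.2.2.2.2.2.2.2.2.2.1.2.1 lv.2.2.2.2.2.2.2.2.2.2.2.2.2.2.2.2.2.2.2.2.2.2.2.2.2.2.2.2.2.2.2.2.2.2.2.2.1.2.2))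

def t_r2 : Tree := (.leaf 41 10 1 4 1)
theorem r2 : t_r2.ok 0 1 0 0 (RE D23 (-13023, 4095)) unitBx = true :=
  lv.2.2.2.2.2.2.2.2.2.2.2.2.2.2.2.2.2.2.2.2.2.2.2.2.2.2.2.2.2.2.2.2.2.2.2.2.2.1

def t_u20 : Tree := (.s0 (.s1 (.s0 (.leaf 151 14 10 4 1) (.leaf 154 14 10 4 1)) (.leaf 143 14 10 4 1)) (.leaf 139 14 10 4 1))
theorem u20 : t_u20.ok 0 1 0 0 (UE0 (24, 24) D20) unitBx = true :=
  (Tree.ok_s0 (Tree.ok_s1 (Tree.ok_s0 lv.2.2.2.2.2.2.2.2.2.2.2.2.2.2.2.2.2.2.2.2.2.2.2.2.2.2.2.2.2.2.2.2.2.2.2.2.2.2.1.1 lv.2.2.2.2.2.2.2.2.2.2.2.2.2.2.2.2.2.2.2.2.2.2.2.2.2.2.2.2.2.2.2.2.2.2.2.2.2.2.1.2.1) lv.2.2.2.2.2.2.2.2.2.2.2.2.2.2.2.2.2.2.2.2.2.2.2.2.2.2.2.2.2.2.2.2.2.2.2.2.2.2.1.2.2.1) lv.2.2.2.2.2.2.2.2.2.2.2.2.2.2.2.2.2.2.2.2.2.2.2.2.2.2.2.2.2.2.2.2.2.2.2.2.2.2.1.2.2.2)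

def t_v20 : Tree := (.s1 (.s0 (.s0 (.leaf 151 14 10 4 1) (.leaf 152 14 10 4 1)) (.leaf 141 14 10 4 1)) (.s1 (.leaf 138 14 10 4 1) (.s1 (.leaf 149 14 10 4 1) (.leaf 150 14 10 4 1))))
theorem v20 : t_v20.ok 0 1 0 0 (UE1 (12, 24) D20) unitBx = true :=
  (Tree.ok_s1 (Tree.ok_s0 (Tree.ok_s0 lv.2.2.2.2.2.2.2.2.2.2.2.2.2.2.2.2.2.2.2.2.2.2.2.2.2.2.2.2.2.2.2.2.2.2.2.2.2.2.2.1.1 lv.2.2.2.2.2.2.2.2.2.2.2.2.2.2.2.2.2.2.2.2.2.2.2.2.2.2.2.2.2.2.2.2.2.2.2.2.2.2.2.1.2.1) lv.2.2.2.2.2.2.2.2.2.2.2.2.2.2.2.2.2.2.2.2.2.2.2.2.2.2.2.2.2.2.2.2.2.2.2.2.2.2.2.1.2.2.1) (Tree.ok_s1 lv.2.2.2.2.2.2.2.2.2.2.2.2.2.2.2.2.2.2.2.2.2.2.2.2.2.2.2.2.2.2.2.2.2.2.2.2.2.2.2.1.2.2.2.1 (Tree.ok_s1 lv.2.2.2.2.2.2.2.2.2.2.2.2.2.2.2.2.2.2.2.2.2.2.2.2.2.2.2.2.2.2.2.2.2.2.2.2.2.2.2.1.2.2.2.2.1 lv.2.2.2.2.2.2.2.2.2.2.2.2.2.2.2.2.2.2.2.2.2.2.2.2.2.2.2.2.2.2.2.2.2.2.2.2.2.2.2.1.2.2.2.2.2)))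

def t_u21 : Tree := (.s0 (.s1 (.s0 (.leaf 152 14 10 4 1) (.leaf 154 14 10 4 1)) (.leaf 144 14 10 4 1)) (.leaf 139 14 10 4 1))
theorem u21 : t_u21.ok 0 1 0 0 (UE0 (24, 24) D21) unitBx = true :=
  (Tree.ok_s0 (Tree.ok_s1 (Tree.ok_s0 lv.2.2.2.2.2.2.2.2.2.2.2.2.2.2.2.2.2.2.2.2.2.2.2.2.2.2.2.2.2.2.2.2.2.2.2.2.2.2.2.2.1.1 lv.2.2.2.2.2.2.2.2.2.2.2.2.2.2.2.2.2.2.2.2.2.2.2.2.2.2.2.2.2.2.2.2.2.2.2.2.2.2.2.2.1.2.1) lv.2.2.2.2.2.2.2.2.2.2.2.2.2.2.2.2.2.2.2.2.2.2.2.2.2.2.2.2.2.2.2.2.2.2.2.2.2.2.2.2.1.2.2.1) lv.2.2.2.2.2.2.2.2.2.2.2.2.2.2.2.2.2.2.2.2.2.2.2.2.2.2.2.2.2.2.2.2.2.2.2.2.2.2.2.2.1.2.2.2)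

def t_v21 : Tree := (.s1 (.s0 (.s0 (.leaf 151 14 10 4 1) (.leaf 152 14 10 4 1)) (.leaf 141 14 10 4 1)) (.s2 (.s1 (.leaf 141 14 10 4 1) (.leaf 143 14 10 4 1)) (.s1 (.leaf 142 14 10 4 1) (.leaf 144 14 10 4 1))))
theorem v21 : t_v21.ok 0 1 0 0 (UE1 (12, 24) D21) unitBx = true :=
  (Tree.ok_s1 (Tree.ok_s0 (Tree.ok_s0 lv.2.2.2.2.2.2.2.2.2.2.2.2.2.2.2.2.2.2.2.2.2.2.2.2.2.2.2.2.2.2.2.2.2.2.2.2.2.2.2.2.2.1.1 lv.2.2.2.2.2.2.2.2.2.2.2.2.2.2.2.2.2.2.2.2.2.2.2.2.2.2.2.2.2.2.2.2.2.2.2.2.2.2.2.2.2.1.2.1) lv.2.2.2.2.2.2.2.2.2.2.2.2.2.2.2.2.2.2.2.2.2.2.2.2.2.2.2.2.2.2.2.2.2.2.2.2.2.2.2.2.2.1.2.2.1) (Tree.ok_s2 (Tree.ok_s1 lv.2.2.2.2.2.2.2.2.2.2.2.2.2.2.2.2.2.2.2.2.2.2.2.2.2.2.2.2.2.2.2.2.2.2.2.2.2.2.2.2.2.1.2.2.2.1 lv.2.2.2.2.2.2.2.2.2.2.2.2.2.2.2.2.2.2.2.2.2.2.2.2.2.2.2.2.2.2.2.2.2.2.2.2.2.2.2.2.2.1.2.2.2.2.1)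 (Tree.ok_s1 lv.2.2.2.2.2.2.2.2.2.2.2.2.2.2.2.2.2.2.2.2.2.2.2.2.2.2.2.2.2.2.2.2.2.2.2.2.2.2.2.2.2.1.2.2.2.2.2.1 lv.2.2.2.2.2.2.2.2.2.2.2.2.2.2.2.2.2.2.2.2.2.2.2.2.2.2.2.2.2.2.2.2.2.2.2.2.2.2.2.2.2.1.2.2.2.2.2.2)))

def t_u22 : Tree := (.s0 (.s1 (.s0 (.leaf 152 14 10 4 1) (.leaf 155 14 10 4 1)) (.s1 (.leaf 152 14 10 4 1) (.leaf 154 14 10 4 1))) (.leaf 140 14 10 4 1))
theorem u22 : t_u22.ok 0 1 0 0 (UE0 (24, 24) D22) unitBx = true :=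
  (Tree.ok_s0 (Tree.ok_s1 (Tree.ok_s0 lv.2.2.2.2.2.2.2.2.2.2.2.2.2.2.2.2.2.2.2.2.2.2.2.2.2.2.2.2.2.2.2.2.2.2.2.2.2.2.2.2.2.2.1.1 lv.2.2.2.2.2.2.2.2.2.2.2.2.2.2.2.2.2.2.2.2.2.2.2.2.2.2.2.2.2.2.2.2.2.2.2.2.2.2.2.2.2.2.1.2.1) (Tree.ok_s1 lv.2.2.2.2.2.2.2.2.2.2.2.2.2.2.2.2.2.2.2.2.2.2.2.2.2.2.2.2.2.2.2.2.2.2.2.2.2.2.2.2.2.2.1.2.2.1 lv.2.2.2.2.2.2.2.2.2.2.2.2.2.2.2.2.2.2.2.2.2.2.2.2.2.2.2.2.2.2.2.2.2.2.2.2.2.2.2.2.2.2.1.2.2.2.1)) lv.2.2.2.2.2.2.2.2.2.2.2.2.2.2.2.2.2.2.2.2.2.2.2.2.2.2.2.2.2.2.2.2.2.2.2.2.2.2.2.2.2.2.1.2.2.2.2)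

def t_v22 : Tree := (.s1 (.leaf 127 14 10 4 1) (.s1 (.s2 (.leaf 141 14 10 4 1) (.leaf 142 14 10 4 1)) (.s2 (.leaf 143 14 10 4 1) (.leaf 144 14 10 4 1))))
theorem v22 : t_v22.ok 0 1 0 0 (UE1 (12, 24) D22) unitBx = true :=
  (Tree.ok_s1 lv.2.2.2.2.2.2.2.2.2.2.2.2.2.2.2.2.2.2.2.2.2.2.2.2.2.2.2.2.2.2.2.2.2.2.2.2.2.2.2.2.2.2.2.1.1 (Tree.ok_s1 (Tree.ok_s2 lv.2.2.2.2.2.2.2.2.2.2.2.2.2.2.2.2.2.2.2.2.2.2.2.2.2.2.2.2.2.2.2.2.2.2.2.2.2.2.2.2.2.2.2.1.2.1 lv.2.2.2.2.2.2.2.2.2.2.2.2.2.2.2.2.2.2.2.2.2.2.2.2.2.2.2.2.2.2.2.2.2.2.2.2.2.2.2.2.2.2.2.1.2.2.1) (Tree.ok_s2 lv.2.2.2.2.2.2.2.2.2.2.2.2.2.2.2.2.2.2.2.2.2.2.2.2.2.2.2.2.2.2.2.2.2.2.2.2.2.2.2.2.2.2.2.1.2.2.2.1 lv.2.2.2.2.2.2.2.2.2.2.2.2.2.2.2.2.2.2.2.2.2.2.2.2.2.2.2.2.2.2.2.2.2.2.2.2.2.2.2.2.2.2.2.1.2.2.2.2)))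

def t_u23 : Tree := (.s0 (.s1 (.s0 (.leaf 151 14 10 4 1) (.leaf 154 14 10 4 1)) (.s0 (.leaf 154 14 10 4 1) (.leaf 158 14 10 4 1))) (.leaf 139 14 10 4 1))
theorem u23 : t_u23.ok 0 1 0 0 (UE0 (24, 24) D23) unitBx = true :=
  (Tree.ok_s0 (Tree.ok_s1 (Tree.ok_s0 lv.2.2.2.2.2.2.2.2.2.2.2.2.2.2.2.2.2.2.2.2.2.2.2.2.2.2.2.2.2.2.2.2.2.2.2.2.2.2.2.2.2.2.2.2.1.1 lv.2.2.2.2.2.2.2.2.2.2.2.2.2.2.2.2.2.2.2.2.2.2.2.2.2.2.2.2.2.2.2.2.2.2.2.2.2.2.2.2.2.2.2.2.1.2.1) (Tree.ok_s0 lv.2.2.2.2.2.2.2.2.2.2.2.2.2.2.2.2.2.2.2.2.2.2.2.2.2.2.2.2.2.2.2.2.2.2.2.2.2.2.2.2.2.2.2.2.1.2.2.1 lv.2.2.2.2.2.2.2.2.2.2.2.2.2.2.2.2.2.2.2.2.2.2.2.2.2.2.2.2.2.2.2.2.2.2.2.2.2.2.2.2.2.2.2.2.1.2.2.2.1)) lv.2.2.2.2.2.2.2.2.2.2.2.2.2.2.2.2.2.2.2.2.2.2.2.2.2.2.2.2.2.2.2.2.2.2.2.2.2.2.2.2.2.2.2.2.1.2.2.2.2)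

def t_v23 : Tree := (.s1 (.leaf 126 14 10 4 1) (.s1 (.s2 (.leaf 141 14 10 4 1) (.leaf 141 14 10 4 1)) (.s2 (.leaf 143 14 10 4 1) (.leaf 144 14 10 4 1))))
theorem v23 : t_v23.ok 0 1 0 0 (UE1 (12, 24) D23) unitBx = true :=
  (Tree.ok_s1 lv.2.2.2.2.2.2.2.2.2.2.2.2.2.2.2.2.2.2.2.2.2.2.2.2.2.2.2.2.2.2.2.2.2.2.2.2.2.2.2.2.2.2.2.2.2.1.1 (Tree.ok_s1 (Tree.ok_s2 lv.2.2.2.2.2.2.2.2.2.2.2.2.2.2.2.2.2.2.2.2.2.2.2.2.2.2.2.2.2.2.2.2.2.2.2.2.2.2.2.2.2.2.2.2.2.1.2.1 lv.2.2.2.2.2.2.2.2.2.2.2.2.2.2.2.2.2.2.2.2.2.2.2.2.2.2.2.2.2.2.2.2.2.2.2.2.2.2.2.2.2.2.2.2.2.1.2.2.1) (Tree.ok_s2 lv.2.2.2.2.2.2.2.2.2.2.2.2.2.2.2.2.2.2.2.2.2.2.2.2.2.2.2.2.2.2.2.2.2.2.2.2.2.2.2.2.2.2.2.2.2.1.2.2.2.1 lv.2.2.2.2.2.2.2.2.2.2.2.2.2.2.2.2.2.2.2.2.2.2.2.2.2.2.2.2.2.2.2.2.2.2.2.2.2.2.2.2.2.2.2.2.2.1.2.2.2.2)))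

def t_h200 : Tree := (.s1 (.s0 (.leaf 170 14 14 6 6) (.leaf 173 14 14 6 6)) (.s0 (.leaf 171 14 14 6 6) (.leaf 177 14 14 6 6)))
theorem h200 : t_h200.ok 0 1 0 0 (GM 2 0 (D 2) (144, 624) (-1728, 15624) (0, 0) (2, 4) (.q 121 624) p20 k00 k10) unitBx = true :=
  (Tree.ok_s1 (Tree.ok_s0 lv.2.2.2.2.2.2.2.2.2.2.2.2.2.2.2.2.2.2.2.2.2.2.2.2.2.2.2.2.2.2.2.2.2.2.2.2.2.2.2.2.2.2.2.2.2.2.1.1 lv.2.2.2.2.2.2.2.2.2.2.2.2.2.2.2.2.2.2.2.2.2.2.2.2.2.2.2.2.2.2.2.2.2.2.2.2.2.2.2.2.2.2.2.2.2.2.1.2.1) (Tree.ok_s0 lv.2.2.2.2.2.2.2.2.2.2.2.2.2.2.2.2.2.2.2.2.2.2.2.2.2.2.2.2.2.2.2.2.2.2.2.2.2.2.2.2.2.2.2.2.2.2.1.2.2.1 lv.2.2.2.2.2.2.2.2.2.2.2.2.2.2.2.2.2.2.2.2.2.2.2.2.2.2.2.2.2.2.2.2.2.2.2.2.2.2.2.2.2.2.2.2.2.2.1.2.2.2))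

def t_h201 : Tree := (.s1 (.leaf 158 14 14 6 6) (.s0 (.leaf 171 14 14 6 6) (.leaf 177 14 14 6 6)))
theorem h201 : t_h201.ok 0 1 0 0 (GM 2 0 (D 2) (144, 624) (-1728, 15624) (0, 0) (2, 4) (tau1 (144, 624)) p20 k00 k10) unitBx = true :=
  (Tree.ok_s1 lv.2.2.2.2.2.2.2.2.2.2.2.2.2.2.2.2.2.2.2.2.2.2.2.2.2.2.2.2.2.2.2.2.2.2.2.2.2.2.2.2.2.2.2.2.2.2.2.1.1 (Tree.ok_s0 lv.2.2.2.2.2.2.2.2.2.2.2.2.2.2.2.2.2.2.2.2.2.2.2.2.2.2.2.2.2.2.2.2.2.2.2.2.2.2.2.2.2.2.2.2.2.2.2.1.2.1 lv.2.2.2.2.2.2.2.2.2.2.2.2.2.2.2.2.2.2.2.2.2.2.2.2.2.2.2.2.2.2.2.2.2.2.2.2.2.2.2.2.2.2.2.2.2.2.2.1.2.2))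

def t_h210 : Tree := (.s0 (.s1 (.leaf 170 14 14 6 6) (.leaf 171 14 14 6 6)) (.s1 (.leaf 173 14 14 6 6) (.leaf 177 14 14 6 6)))
theorem h210 : t_h210.ok 0 1 0 0 (GM 2 1 (D 2) (144, 624) (-1728, 15624) (0, 0) (2, 4) (.q 121 624) p21 k01 k11) unitBx = true :=
  (Tree.ok_s0 (Tree.ok_s1 lv.2.2.2.2.2.2.2.2.2.2.2.2.2.2.2.2.2.2.2.2.2.2.2.2.2.2.2.2.2.2.2.2.2.2.2.2.2.2.2.2.2.2.2.2.2.2.2.2.1.1 lv.2.2.2.2.2.2.2.2.2.2.2.2.2.2.2.2.2.2.2.2.2.2.2.2.2.2.2.2.2.2.2.2.2.2.2.2.2.2.2.2.2.2.2.2.2.2.2.2.1.2.1) (Tree.ok_s1 lv.2.2.2.2.2.2.2.2.2.2.2.2.2.2.2.2.2.2.2.2.2.2.2.2.2.2.2.2.2.2.2.2.2.2.2.2.2.2.2.2.2.2.2.2.2.2.2.2.1.2.2.1 lv.2.2.2.2.2.2.2.2.2.2.2.2.2.2.2.2.2.2.2.2.2.2.2.2.2.2.2.2.2.2.2.2.2.2.2.2.2.2.2.2.2.2.2.2.2.2.2.2.1.2.2.2))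

def t_h211 : Tree := (.s0 (.s1 (.leaf 170 14 14 6 6) (.leaf 171 14 14 6 6)) (.s1 (.leaf 173 14 14 6 6) (.leaf 177 14 14 6 6)))
theorem h211 : t_h211.ok 0 1 0 0 (GM 2 1 (D 2) (144, 624) (-1728, 15624) (0, 0) (2, 4) (tau1 (144, 624)) p21 k01 k11) unitBx = true :=
  (Tree.ok_s0 (Tree.ok_s1 lv.2.2.2.2.2.2.2.2.2.2.2.2.2.2.2.2.2.2.2.2.2.2.2.2.2.2.2.2.2.2.2.2.2.2.2.2.2.2.2.2.2.2.2.2.2.2.2.2.2.1.1 lv.2.2.2.2.2.2.2.2.2.2.2.2.2.2.2.2.2.2.2.2.2.2.2.2.2.2.2.2.2.2.2.2.2.2.2.2.2.2.2.2.2.2.2.2.2.2.2.2.2.1.2.1) (Tree.ok_s1 lv.2.2.2.2.2.2.2.2.2.2.2.2.2.2.2.2.2.2.2.2.2.2.2.2.2.2.2.2.2.2.2.2.2.2.2.2.2.2.2.2.2.2.2.2.2.2.2.2.2.1.2.2.1 lv.2.2.2.2.2.2.2.2.2.2.2.2.2.2.2.2.2.2.2.2.2.2.2.2.2.2.2.2.2.2.2.2.2.2.2.2.2.2.2.2.2.2.2.2.2.2.2.2.2.1.2.2.2))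

def t_h220 : Tree := (.s0 (.s3 (.leaf 162 14 14 6 6) (.leaf 162 14 14 6 6)) (.s2 (.leaf 166 14 14 6 6) (.leaf 168 14 14 6 6)))
theorem h220 : t_h220.ok 0 1 0 0 (GM 2 2 (D 2) (144, 624) (-1728, 15624) (0, 0) (2, 4) (.q 121 624) p22 k02 k12) unitBx = true :=
  (Tree.ok_s0 (Tree.ok_s3 lv.2.2.2.2.2.2.2.2.2.2.2.2.2.2.2.2.2.2.2.2.2.2.2.2.2.2.2.2.2.2.2.2.2.2.2.2.2.2.2.2.2.2.2.2.2.2.2.2.2.2.1.1 lv.2.2.2.2.2.2.2.2.2.2.2.2.2.2.2.2.2.2.2.2.2.2.2.2.2.2.2.2.2.2.2.2.2.2.2.2.2.2.2.2.2.2.2.2.2.2.2.2.2.2.1.2.1) (Tree.ok_s2 lv.2.2.2.2.2.2.2.2.2.2.2.2.2.2.2.2.2.2.2.2.2.2.2.2.2.2.2.2.2.2.2.2.2.2.2.2.2.2.2.2.2.2.2.2.2.2.2.2.2.2.1.2.2.1 lv.2.2.2.2.2.2.2.2.2.2.2.2.2.2.2.2.2.2.2.2.2.2.2.2.2.2.2.2.2.2.2.2.2.2.2.2.2.2.2.2.2.2.2.2.2.2.2.2.2.2.1.2.2.2))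

def t_h221 : Tree := (.s0 (.leaf 157 14 14 6 6) (.s2 (.leaf 166 14 14 6 6) (.leaf 168 14 14 6 6)))
theorem h221 : t_h221.ok 0 1 0 0 (GM 2 2 (D 2) (144, 624) (-1728, 15624) (0, 0) (2, 4) (tau1 (144, 624)) p22 k02 k12) unitBx = true :=
  (Tree.ok_s0 lv.2.2.2.2.2.2.2.2.2.2.2.2.2.2.2.2.2.2.2.2.2.2.2.2.2.2.2.2.2.2.2.2.2.2.2.2.2.2.2.2.2.2.2.2.2.2.2.2.2.2.2.1.1 (Tree.ok_s2 lv.2.2.2.2.2.2.2.2.2.2.2.2.2.2.2.2.2.2.2.2.2.2.2.2.2.2.2.2.2.2.2.2.2.2.2.2.2.2.2.2.2.2.2.2.2.2.2.2.2.2.2.1.2.1 lv.2.2.2.2.2.2.2.2.2.2.2.2.2.2.2.2.2.2.2.2.2.2.2.2.2.2.2.2.2.2.2.2.2.2.2.2.2.2.2.2.2.2.2.2.2.2.2.2.2.2.2.1.2.2))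

def t_h230 : Tree := (.s2 (.s0 (.leaf 162 14 14 6 6) (.leaf 166 14 14 6 6)) (.s0 (.leaf 162 14 14 6 6) (.leaf 167 14 14 6 6)))
theorem h230 : t_h230.ok 0 1 0 0 (GM 2 3 (D 2) (144, 624) (-1728, 15624) (0, 0) (2, 4) (.q 121 624) p23 k03 k13) unitBx = true :=
  (Tree.ok_s2 (Tree.ok_s0 lv.2.2.2.2.2.2.2.2.2.2.2.2.2.2.2.2.2.2.2.2.2.2.2.2.2.2.2.2.2.2.2.2.2.2.2.2.2.2.2.2.2.2.2.2.2.2.2.2.2.2.2.2.1.1 lv.2.2.2.2.2.2.2.2.2.2.2.2.2.2.2.2.2.2.2.2.2.2.2.2.2.2.2.2.2.2.2.2.2.2.2.2.2.2.2.2.2.2.2.2.2.2.2.2.2.2.2.2.1.2.1) (Tree.ok_s0 lv.2.2.2.2.2.2.2.2.2.2.2.2.2.2.2.2.2.2.2.2.2.2.2.2.2.2.2.2.2.2.2.2.2.2.2.2.2.2.2.2.2.2.2.2.2.2.2.2.2.2.2.2.1.2.2.1 lv.2.2.2.2.2.2.2.2.2.2.2.2.2.2.2.2.2.2.2.2.2.2.2.2.2.2.2.2.2.2.2.2.2.2.2.2.2.2.2.2.2.2.2.2.2.2.2.2.2.2.2.2.1.2.2.2))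

def t_h231 : Tree := (.s0 (.leaf 157 14 14 6 6) (.s2 (.leaf 166 14 14 6 6) (.leaf 167 14 14 6 6)))
theorem h231 : t_h231.ok 0 1 0 0 (GM 2 3 (D 2) (144, 624) (-1728, 15624) (0, 0) (2, 4) (tau1 (144, 624)) p23 k03 k13) unitBx = true :=
  (Tree.ok_s0 lv.2.2.2.2.2.2.2.2.2.2.2.2.2.2.2.2.2.2.2.2.2.2.2.2.2.2.2.2.2.2.2.2.2.2.2.2.2.2.2.2.2.2.2.2.2.2.2.2.2.2.2.2.2.1 (Tree.ok_s2 lv.2.2.2.2.2.2.2.2.2.2.2.2.2.2.2.2.2.2.2.2.2.2.2.2.2.2.2.2.2.2.2.2.2.2.2.2.2.2.2.2.2.2.2.2.2.2.2.2.2.2.2.2.2.2.1 lv.2.2.2.2.2.2.2.2.2.2.2.2.2.2.2.2.2.2.2.2.2.2.2.2.2.2.2.2.2.2.2.2.2.2.2.2.2.2.2.2.2.2.2.2.2.2.2.2.2.2.2.2.2.2.2))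

/-! The certified family. -/

theorem cert : PhiCert (-12 / 25) D psi hh (144, 624) (-1728, 15624) (24, 24) (12, 24) (0, 0) (2, 4) (11, 11) (1, 11)
    (.q 121 624) w2 dl where
  hl0 := by norm_num
  hl1 := by norm_num
  hne := by norm_num
  e2 := by norm_num [cv]
  e3 := by norm_num [cv]
  hmab := by norm_num [cv]
  hta := by norm_num [cv]
  htb := by norm_num [cv]
  htb0 := by norm_num [cv]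
  r1 := by norm_num [cv]
  r2 := by norm_num [cv]
  r3 := by norm_num [cv]
  r4 := by norm_num [cv]
  hc := by norm_num [cv]
  hc' := by norm_num [cv]
  hδ0 := by
    intro j hj
    interval_cases j <;> norm_num [cv, dl]
  hδ2 := by norm_num [cv, dl]
  htau := by
    intro s ρ a b e h0 h1 h2 h3 h4
    simp only [PE.real_q, cv] at h0 ⊢
    push_cast at h0 ⊢
    nlinarith [mul_self_le_mul_self (by norm_num) h0]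
  hU0 := by
    intro j k hj hk
    interval_cases j <;> interval_cases k
    exacts [box_zero _ _ u00, box_zero _ _ u01, box_zero _ _ u02, box_zero _ _ u03, box_zero _ _ u10, box_zero _ _ u11, box_zero _ _ u12, box_zero _ _ u13, box_zero _ _ u20, box_zero _ _ u21, box_zero _ _ u22, box_zero _ _ u23]
  hU1 := by
    intro j k hj hk
    interval_cases j <;> interval_cases k
    exacts [box_zero _ _ v00, box_zero _ _ v01, box_zero _ _ v02, box_zero _ _ v03, box_zero _ _ v10, box_zero _ _ v11, box_zero _ _ v12, box_zero _ _ v13, box_zero _ _ v20, box_zero _ _ v21, box_zero _ _ v22, box_zero _ _ v23]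
  hH0 := by
    intro j k hj hk
    interval_cases j <;> interval_cases k
    exacts [box_zero _ _ h000, box_zero _ _ h010, box_zero _ _ h020, box_zero _ _ h030, box_zero _ _ h100, box_zero _ _ h110, box_zero _ _ h120, box_zero _ _ h130, box_zero _ _ h200, box_zero _ _ h210, box_zero _ _ h220, box_zero _ _ h230]
  hH1 := by
    intro j k hj hk
    interval_cases j <;> interval_cases k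
    exacts [box_zero _ _ h001, box_zero _ _ h011, box_zero _ _ h021, box_zero _ _ h031, box_zero _ _ h101, box_zero _ _ h111, box_zero _ _ h121, box_zero _ _ h131, box_zero _ _ h201, box_zero _ _ h211, box_zero _ _ h221, box_zero _ _ h231]
  hS := by
    intro j hj
    interval_cases j
    exacts [box_zero _ _ s0, box_zero _ _ s1, box_zero _ _ s2]
  hR := by
    intro j hj
    interval_cases j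
    exacts [box_zero _ _ r0, box_zero _ _ r1, box_zero _ _ r2]
  hw2 := by
    intro j hj
    interval_cases j <;> norm_num [gR, wR, hr, cv, D, D00, D10, D20, w2, dl]
  hψ0 := by
    intro j k hj hk
    interval_cases j <;> interval_cases k <;> simp [h2R, hr, psi, cv, p00, p01, p02, p03, p10, p11, p12, p13, p20, p21, p22, p23]

end Vale.Agent.P154.M4
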