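import Vale.Agent.P154.Phi

/-! Data of a family of potentials for the Poisson tree. -/

namespace Vale.Agent.P154.M5

def D00 : NP where
  A := [(9716, 4095), (-40291, 4095), (10389, 4095), (209, 4095)]
  B := [(53613, 4095), (-7899, 4095), (15904, 4095)]
  E := [(39596, 4095)]
  a0 := [(102925, 4095), (-48190, 4095), (26293, 4095), (209, 4095)]
  a1 := [(102925, 4095), (96380, 4095), (-131465, 4095), (-1672, 4095)]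
  a2 := [(337, 4095), (-210208, 4095), (296610, 4095), (-13699, 4095)]
  a3 := [(181, 4095), (158610, 4095), (-336322, 4095), (228226, 4095)]
  a4 := [(184, 4095), (182342, 4095), (353458, 4095), (-409599, 4095)]
  b0 := [(-132805, 4095), (7899, 4095), (-15904, 4095)]
  b1 := [(132805, 4095), (-31596, 4095), (111328, 4095)]
  b2 := [(-51206, 4095), (191530, 4095), (-340165, 4095)]
  b3 := [(-1593, 4095), (-409600, 4095), (409599, 4095)]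
  b4 := [(-164921, 4095), (205442, 4095), (-175896, 4095)]
  g0 := [(39596, 4095)]
  g1 := [(-118788, 4095)]
  g2 := [(128710, 4095), (-868, 4095)]

def D01 : NP where
  A := [(10730, 4095), (-39645, 4095), (11791, 4095), (-366, 4095)]
  B := [(72590, 4095), (-4382, 4095), (13974, 4095)]
  E := [(43097, 4095)]
  a0 := [(126417, 4095), (-44027, 4095), (25765, 4095), (-366, 4095)]
  a1 := [(126417, 4095), (88054, 4095), (-128825, 4095), (2928, 4095)]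
  a2 := [(299, 4095), (-197595, 4095), (256067, 4095), (-25207, 4095)]
  a3 := [(1, 4095), (162413, 4095), (-409586, 4095), (228530, 4095)]
  a4 := [(1, 4095), (170111, 4095), (409582, 4095), (-409598, 4095)]
  b0 := [(-158784, 4095), (4382, 4095), (-13974, 4095)]
  b1 := [(158784, 4095), (-17528, 4095), (97818, 4095)]
  b2 := [(-69735, 4095), (164062, 4095), (-258816, 4095)]
  b3 := [(19105, 4095), (-409600, 4095), (406199, 4095)]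
  b4 := [(-202790, 4095), (267587, 4095), (-285529, 4095)]
  g0 := [(43097, 4095)]
  g1 := [(-129291, 4095)]
  g2 := [(140004, 4095), (-4866, 4095)]

def D02 : NP where
  A := [(4718, 4095), (-35545, 4095), (13135, 4095), (-1099, 4095)]
  B := [(93412, 4095), (11509, 4095), (391, 4095)]
  E := [(54683, 4095)]
  a0 := [(152813, 4095), (-24036, 4095), (13526, 4095), (-1099, 4095)]
  a1 := [(152813, 4095), (48072, 4095), (-67630, 4095), (8792, 4095)]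
  a2 := [(323, 4095), (-209589, 4095), (150743, 4095), (-50556, 4095)]
  a3 := [(68, 4095), (181791, 4095), (-409600, 4095), (284401, 4095)]
  a4 := [(47, 4095), (299830, 4095), (409600, 4095), (-268911, 4095)]
  b0 := [(-202778, 4095), (-11509, 4095), (-391, 4095)]
  b1 := [(202778, 4095), (46036, 4095), (2737, 4095)]
  b2 := [(-89539, 4095), (112066, 4095), (19134, 4095)]
  b3 := [(29139, 4095), (-409600, 4095), (-2886, 4095)]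
  b4 := [(-267172, 4095), (274987, 4095), (107308, 4095)]
  g0 := [(54683, 4095)]
  g1 := [(-164049, 4095)]
  g2 := [(177675, 4095), (-18315, 4095)]

def D03 : NP where
  A := [(-25192, 4095), (2084, 4095), (1725, 4095), (2401, 4095)]
  B := [(137319, 4095), (21913, 4095), (4848, 4095)]
  E := [(63645, 4095)]
  a0 := [(175772, 4095), (23997, 4095), (6573, 4095), (2401, 4095)]
  a1 := [(175772, 4095), (-47994, 4095), (-32865, 4095), (-19208, 4095)]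
  a2 := [(306, 4095), (-90953, 4095), (-133744, 4095), (118675, 4095)]
  a3 := [(24, 4095), (81650, 4095), (225943, 4095), (-20665, 4095)]
  a4 := [(19, 4095), (373391, 4095), (255008, 4095), (-409596, 4095)]
  b0 := [(-264609, 4095), (-21913, 4095), (-4848, 4095)]
  b1 := [(264609, 4095), (87652, 4095), (33936, 4095)]
  b2 := [(-132906, 4095), (63065, 4095), (85812, 4095)]
  b3 := [(61360, 4095), (-409600, 4095), (-409599, 4095)]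
  b4 := [(-327128, 4095), (366717, 4095), (409599, 4095)]
  g0 := [(63645, 4095)]
  g1 := [(-190935, 4095)]
  g2 := [(206766, 4095), (-32620, 4095)]

def D10 : NP where
  A := [(11262, 4095), (-46883, 4095), (21970, 4095), (-8855, 4095)]
  B := [(75156, 4095), (-16067, 4095), (5861, 4095)]
  E := [(21937, 4095)]
  a0 := [(108355, 4095), (-62950, 4095), (27831, 4095), (-8855, 4095)]
  a1 := [(108355, 4095), (125900, 4095), (-139155, 4095), (70840, 4095)]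
  a2 := [(3627, 4095), (-21655, 4095), (88620, 4095), (295539, 4095)]
  a3 := [(3734, 4095), (218894, 4095), (81521, 4095), (292721, 4095)]
  a4 := [(12037, 4095), (55438, 4095), (195392, 4095), (225076, 4095)]
  b0 := [(-119030, 4095), (16067, 4095), (-5861, 4095)]
  b1 := [(119030, 4095), (-64268, 4095), (41027, 4095)]
  b2 := [(-76578, 4095), (113184, 4095), (-46816, 4095)]
  b3 := [(28716, 4095), (-39476, 4095), (240219, 4095)]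
  b4 := [(-119628, 4095), (285029, 4095), (229316, 4095)]
  g0 := [(21937, 4095)]
  g1 := [(-65811, 4095)]
  g2 := [(75418, 4095), (-120615, 4095)]

def D11 : NP where
  A := [(18660, 4095), (-56998, 4095), (29178, 4095), (-11684, 4095)]
  B := [(88755, 4095), (-5118, 4095), (-2079, 4095)]
  E := [(43669, 4095)]
  a0 := [(151084, 4095), (-62116, 4095), (27099, 4095), (-11684, 4095)]
  a1 := [(151084, 4095), (124232, 4095), (-135495, 4095), (93472, 4095)]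
  a2 := [(2915, 4095), (-55526, 4095), (99019, 4095), (268678, 4095)]
  a3 := [(7960, 4095), (130024, 4095), (-213715, 4095), (279552, 4095)]
  a4 := [(9012, 4095), (-121486, 4095), (295658, 4095), (264475, 4095)]
  b0 := [(-176093, 4095), (5118, 4095), (2079, 4095)]
  b1 := [(176093, 4095), (-20472, 4095), (-14553, 4095)]
  b2 := [(-88283, 4095), (-26796, 4095), (-27783, 4095)]
  b3 := [(31859, 4095), (-209502, 4095), (292751, 4095)]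
  b4 := [(-231125, 4095), (345041, 4095), (305383, 4095)]
  g0 := [(43669, 4095)]
  g1 := [(-131007, 4095)]
  g2 := [(143566, 4095), (19603, 4095)]

def D12 : NP where
  A := [(13232, 4095), (-59071, 4095), (31940, 4095), (-6805, 4095)]
  B := [(136995, 4095), (18942, 4095), (1056, 4095)]
  E := [(56575, 4095)]
  a0 := [(206802, 4095), (-40129, 4095), (32996, 4095), (-6805, 4095)]
  a1 := [(206802, 4095), (80258, 4095), (-164980, 4095), (54440, 4095)]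
  a2 := [(1060, 4095), (-132094, 4095), (242038, 4095), (322841, 4095)]
  a3 := [(1966, 4095), (179218, 4095), (-268370, 4095), (241898, 4095)]
  a4 := [(1683, 4095), (163436, 4095), (241297, 4095), (219988, 4095)]
  b0 := [(-250145, 4095), (-18942, 4095), (-1056, 4095)]
  b1 := [(250145, 4095), (75768, 4095), (7392, 4095)]
  b2 := [(-134331, 4095), (-57085, 4095), (-59485, 4095)]
  b3 := [(65211, 4095), (-179745, 4095), (121306, 4095)]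
  b4 := [(-298375, 4095), (348124, 4095), (256361, 4095)]
  g0 := [(56575, 4095)]
  g1 := [(-169725, 4095)]
  g2 := [(185500, 4095), (-35411, 4095)]

def D13 : NP where
  A := [(-42803, 4095), (9008, 4095), (16322, 4095), (-2099, 4095)]
  B := [(233556, 4095), (40810, 4095), (-6024, 4095)]
  E := [(81834, 4095)]
  a0 := [(272587, 4095), (49818, 4095), (10298, 4095), (-2099, 4095)]
  a1 := [(272587, 4095), (-99636, 4095), (-51490, 4095), (16792, 4095)]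
  a2 := [(880, 4095), (94165, 4095), (-61442, 4095), (376315, 4095)]
  a3 := [(1196, 4095), (74864, 4095), (-147304, 4095), (265509, 4095)]
  a4 := [(1136, 4095), (341773, 4095), (171941, 4095), (205454, 4095)]
  b0 := [(-397224, 4095), (-40810, 4095), (6024, 4095)]
  b1 := [(397224, 4095), (163240, 4095), (-42168, 4095)]
  b2 := [(-227557, 4095), (-241105, 4095), (349782, 4095)]
  b3 := [(105247, 4095), (-139720, 4095), (188870, 4095)]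
  b4 := [(-398219, 4095), (270099, 4095), (193950, 4095)]
  g0 := [(81834, 4095)]
  g1 := [(-245502, 4095)]
  g2 := [(265603, 4095), (29901, 4095)]

def D20 : NP where
  A := [(764, 4095), (-52302, 4095), (8710, 4095), (-1926, 4095)]
  B := [(238108, 4095), (-153322, 4095), (249464, 4095)]
  E := [(-15914, 4095)]
  a0 := [(222958, 4095), (-205624, 4095), (258174, 4095), (-1926, 4095)]
  a1 := [(222958, 4095), (411248, 4095), (-1290870, 4095), (15408, 4095)]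
  a2 := [(84724, 4095), (93742, 4095), (140366, 4095), (274461, 4095)]
  a3 := [(-64262, 4095), (141541, 4095), (136738, 4095), (202691, 4095)]
  a4 := [(73627, 4095), (82298, 4095), (71685, 4095), (108758, 4095)]
  b0 := [(-206280, 4095), (153322, 4095), (-249464, 4095)]
  b1 := [(206280, 4095), (-613288, 4095), (1746248, 4095)]
  b2 := [(-71367, 4095), (110213, 4095), (234772, 4095)]
  b3 := [(92819, 4095), (161082, 4095), (192162, 4095)]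
  b4 := [(132380, 4095), (112460, 4095), (107744, 4095)]
  g0 := [(-15914, 4095)]
  g1 := [(47742, 4095)]
  g2 := [(-149335, 4095), (142545, 4095)]

def D21 : NP where
  A := [(16265, 4095), (-153007, 4095), (190509, 4095), (-106463, 4095)]
  B := [(140247, 4095), (24384, 4095), (-58662, 4095)]
  E := [(54076, 4095)]
  a0 := [(210588, 4095), (-128623, 4095), (131847, 4095), (-106463, 4095)]
  a1 := [(210588, 4095), (257246, 4095), (-659235, 4095), (851704, 4095)]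
  a2 := [(77856, 4095), (85804, 4095), (255168, 4095), (321055, 4095)]
  a3 := [(-28955, 4095), (193430, 4095), (153034, 4095), (206134, 4095)]
  a4 := [(11512, 4095), (-6407, 4095), (69622, 4095), (104900, 4095)]
  b0 := [(-248399, 4095), (-24384, 4095), (58662, 4095)]
  b1 := [(248399, 4095), (97536, 4095), (-410634, 4095)]
  b2 := [(-158536, 4095), (27961, 4095), (292397, 4095)]
  b3 := [(65782, 4095), (86065, 4095), (189916, 4095)]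
  b4 := [(-206377, 4095), (64901, 4095), (105772, 4095)]
  g0 := [(54076, 4095)]
  g1 := [(-162228, 4095)]
  g2 := [(161961, 4095), (-3815, 4095)]

def D22 : NP where
  A := [(51524, 4095), (-204757, 4095), (193409, 4095), (-78776, 4095)]
  B := [(182764, 4095), (18914, 4095), (128832, 4095)]
  E := [(76177, 4095)]
  a0 := [(310465, 4095), (-185843, 4095), (322241, 4095), (-78776, 4095)]
  a1 := [(310465, 4095), (371686, 4095), (-1611205, 4095), (630208, 4095)]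
  a2 := [(59740, 4095), (98652, 4095), (162773, 4095), (285573, 4095)]
  a3 := [(-43122, 4095), (210673, 4095), (96253, 4095), (185517, 4095)]
  a4 := [(-3840, 4095), (-74658, 4095), (37644, 4095), (91141, 4095)]
  b0 := [(-335118, 4095), (-18914, 4095), (-128832, 4095)]
  b1 := [(335118, 4095), (75656, 4095), (901824, 4095)]
  b2 := [(-224971, 4095), (-20355, 4095), (190306, 4095)]
  b3 := [(22038, 4095), (101787, 4095), (133135, 4095)]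
  b4 := [(-205140, 4095), (82055, 4095), (74370, 4095)]
  g0 := [(76177, 4095)]
  g1 := [(-228531, 4095)]
  g2 := [(266552, 4095), (-112948, 4095)]

def D23 : NP where
  A := [(-67518, 4095), (3970, 4095), (1138, 4095), (29652, 4095)]
  B := [(405528, 4095), (2249, 4095), (161419, 4095)]
  E := [(140741, 4095)]
  a0 := [(478751, 4095), (6219, 4095), (162557, 4095), (29652, 4095)]
  a1 := [(478751, 4095), (-12438, 4095), (-812785, 4095), (-237216, 4095)]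
  a2 := [(28126, 4095), (-177094, 4095), (130491, 4095), (333019, 4095)]
  a3 := [(61206, 4095), (-136347, 4095), (43104, 4095), (197625, 4095)]
  a4 := [(113230, 4095), (42915, 4095), (32285, 4095), (91411, 4095)]
  b0 := [(-687010, 4095), (-2249, 4095), (-161419, 4095)]
  b1 := [(687010, 4095), (8996, 4095), (1129933, 4095)]
  b2 := [(-307355, 4095), (-96876, 4095), (283612, 4095)]
  b3 := [(-48370, 4095), (3268, 4095), (139521, 4095)]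
  b4 := [(-361882, 4095), (76679, 4095), (71693, 4095)]
  g0 := [(140741, 4095)]
  g1 := [(-422223, 4095)]
  g2 := [(397136, 4095), (243040, 4095)]

def p00 : List CL := [[(0, 4095), (129842, 4095), (15841, 4095), (1727, 4095), (12040, 4095)], [(28218, 4095), (20351, 4095), (-26207, 4095)], [(6568, 4095), (9832, 4095)]]
def p01 : List CL := [[(0, 4095), (116897, 4095), (54070, 4095), (1516, 4095), (9279, 4095)], [(50471, 4095), (-83261, 4095), (46016, 4095)], [(41079, 4095), (-34401, 4095)]]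
def p02 : List CL := [[(0, 4095), (130949, 4095), (80037, 4095), (-87102, 4095), (32017, 4095)], [(24070, 4095), (-58786, 4095), (108061, 4095)], [(31423, 4095), (-66090, 4095)]]
def p03 : List CL := [[(0, 4095), (124537, 4095), (63816, 4095), (-23816, 4095), (-94069, 4095)], [(-2568, 4095), (-42444, 4095), (158385, 4095)], [(5255, 4095), (-4541, 4095)]]
def p10 : List CL := [[(0, 4095), (151584, 4095), (-47283, 4095), (187080, 4095), (-90748, 4095)], [(54930, 4095), (-72611, 4095), (6848, 4095)], [(-6511, 4095), (32381, 4095)]]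
def p11 : List CL := [[(0, 4095), (168666, 4095), (-36013, 4095), (87238, 4095), (90743, 4095)], [(81252, 4095), (-42381, 4095), (-89105, 4095)], [(91476, 4095), (-82590, 4095)]]
def p12 : List CL := [[(0, 4095), (187366, 4095), (25886, 4095), (123692, 4095), (-48826, 4095)], [(70573, 4095), (15715, 4095), (-208869, 4095)], [(3242, 4095), (142070, 4095)]]
def p13 : List CL := [[(0, 4095), (214405, 4095), (157252, 4095), (-92905, 4095), (2140, 4095)], [(51410, 4095), (4867, 4095), (-98298, 4095)], [(48870, 4095), (92693, 4095)]]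
def p20 : List CL := [[(0, 4095), (346564, 4095), (21710, 4095), (26273, 4095), (69252, 4095)], [(101649, 4095), (-290391, 4095), (-183996, 4095)], [(202737, 4095), (90223, 4095)]]
def p21 : List CL := [[(0, 4095), (289221, 4095), (16915, 4095), (177939, 4095), (116443, 4095)], [(141288, 4095), (-204782, 4095), (-104092, 4095)], [(152226, 4095), (-144845, 4095)]]
def p22 : List CL := [[(0, 4095), (341998, 4095), (54808, 4095), (109644, 4095), (102725, 4095)], [(160602, 4095), (-179721, 4095), (-121162, 4095)], [(160190, 4095), (-58313, 4095)]]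
def p23 : List CL := [[(0, 4095), (326520, 4095), (279566, 4095), (234947, 4095), (-63848, 4095)], [(50885, 4095), (2457, 4095), (-36716, 4095)], [(-104697, 4095), (5335, 4095)]]
def k00 : List CL := [[(-21145, 4095), (-130342, 4095), (72143, 4095), (-107052, 4095)], [(-50953, 4095), (70928, 4095)], [(-37142, 4095)]]
def k01 : List CL := [[(-14888, 4095), (-49894, 4095), (-30972, 4095), (31188, 4095)], [(-112673, 4095), (44810, 4095)], [(-60772, 4095)]]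
def k02 : List CL := [[(1333, 4095), (-28252, 4095), (263871, 4095), (2516, 4095)], [(-194657, 4095), (-244764, 4095)], [(8087, 4095)]]
def k03 : List CL := [[(-19848, 4095), (263036, 4095), (230058, 4095), (185984, 4095)], [(-409600, 4095), (-409600, 4095)], [(-14708, 4095)]]
def k10 : List CL := [[(1214, 4095), (-229908, 4095), (-111390, 4095), (-246120, 4095)], [(-35587, 4095), (313752, 4095)], [(108122, 4095)]]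
def k11 : List CL := [[(-46436, 4095), (-203243, 4095), (-76561, 4095), (-17333, 4095)], [(-42129, 4095), (38398, 4095)], [(17391, 4095)]]
def k12 : List CL := [[(-91743, 4095), (31930, 4095), (-76561, 4095), (-62606, 4095)], [(-394658, 4095), (258220, 4095)], [(-86057, 4095)]]
def k13 : List CL := [[(-56498, 4095), (323788, 4095), (-399188, 4095), (-11412, 4095)], [(-409025, 4095), (-407255, 4095)], [(400695, 4095)]]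

def D : ℕ → ℕ → NP
  | 0, 0 => D00
  | 0, 1 => D01
  | 0, 2 => D02
  | 0, 3 => D03
  | 1, 0 => D10
  | 1, 1 => D11
  | 1, 2 => D12
  | 1, 3 => D13
  | 2, 0 => D20
  | 2, 1 => D21
  | 2, 2 => D22
  | 2, 3 => D23
  | _, _ => D03

def psi : ℕ → ℕ → List CL
  | 0, 0 => p00
  | 0, 1 => p01
  | 0, 2 => p02
  | 0, 3 => p03
  | 1, 0 => p10
  | 1, 1 => p11
  | 1, 2 => p12
  | 1, 3 => p13
  | 2, 0 => p20
  | 2, 1 => p21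
  | 2, 2 => p22
  | 2, 3 => p23
  | _, _ => []

def hh : ℕ → ℕ → List CL
  | 0, 0 => k00
  | 0, 1 => k01
  | 0, 2 => k02
  | 0, 3 => k03
  | 1, 0 => k10
  | 1, 1 => k11
  | 1, 2 => k12
  | 1, 3 => k13
  | _, _ => []

def w2 : ℕ → ℤ × ℕ
  | 0 => (-19973, 4095)
  | 1 => (-22502, 4095)
  | 2 => (-44750, 4095)
  | _ => (0, 0)

def dl : ℕ → ℤ × ℕ
  | 0 => (4, 4095)
  | 1 => (4, 4095)
  | 2 => (4, 4095)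
  | _ => (0, 0)

/-! Certificates. -/

/-- the leaves of all trees -/
theorem lv :
    ((Tree.leaf 80 9 10 5 1).ok 0 1 0 0 (SEG D03 (-19973, 4095) (sP (11, 11) (1, 11)) p00 p01 p02 p03) ⟨0, 1, 1, 0, 1, 1, 0, 1, 1, 0, 1, 1⟩ = true) ∧
    ((Tree.leaf 41 10 1 4 1).ok 0 1 0 0 (RE D03 (-19973, 4095)) ⟨0, 1, 1, 0, 1, 1, 0, 1, 1, 0, 1, 1⟩ = true) ∧
    ((Tree.leaf 152 14 10 4 1).ok 0 1 0 0 (UE0 (24, 24) D00) ⟨0, 1, 4, 0, 1, 2, 0, 1, 1, 0, 1, 1⟩ = true ∧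
      (Tree.leaf 155 14 10 4 1).ok 0 1 0 0 (UE0 (24, 24) D00) ⟨1, 2, 4, 0, 1, 2, 0, 1, 1, 0, 1, 1⟩ = true ∧
      (Tree.leaf 146 14 10 4 1).ok 0 1 0 0 (UE0 (24, 24) D00) ⟨0, 1, 2, 1, 2, 2, 0, 1, 2, 0, 1, 1⟩ = true ∧
      (Tree.leaf 147 14 10 4 1).ok 0 1 0 0 (UE0 (24, 24) D00) ⟨0, 1, 2, 1, 2, 2, 1, 2, 2, 0, 1, 1⟩ = true ∧
      (Tree.leaf 139 14 10 4 1).ok 0 1 0 0 (UE0 (24, 24) D00) ⟨1, 2, 2, 0, 1, 1, 0, 1, 1, 0, 1, 1⟩ = true) ∧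
    ((Tree.leaf 139 14 10 4 1).ok 0 1 0 0 (UE1 (12, 24) D00) ⟨0, 1, 2, 0, 1, 2, 0, 1, 1, 0, 1, 1⟩ = true ∧
      (Tree.leaf 142 14 10 4 1).ok 0 1 0 0 (UE1 (12, 24) D00) ⟨1, 2, 2, 0, 1, 2, 0, 1, 1, 0, 1, 1⟩ = true ∧
      (Tree.leaf 141 14 10 4 1).ok 0 1 0 0 (UE1 (12, 24) D00) ⟨0, 1, 1, 2, 3, 4, 0, 1, 2, 0, 1, 1⟩ = true ∧
      (Tree.leaf 142 14 10 4 1).ok 0 1 0 0 (UE1 (12, 24) D00) ⟨0, 1, 1, 2, 3, 4, 1, 2, 2, 0, 1, 1⟩ = true ∧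
      (Tree.leaf 143 14 10 4 1).ok 0 1 0 0 (UE1 (12, 24) D00) ⟨0, 1, 1, 3, 4, 4, 0, 1, 2, 0, 1, 1⟩ = true ∧
      (Tree.leaf 144 14 10 4 1).ok 0 1 0 0 (UE1 (12, 24) D00) ⟨0, 1, 1, 3, 4, 4, 1, 2, 2, 0, 1, 1⟩ = true) ∧
    ((Tree.leaf 152 14 10 4 1).ok 0 1 0 0 (UE0 (24, 24) D01) ⟨0, 1, 4, 0, 1, 2, 0, 1, 1, 0, 1, 1⟩ = true ∧
      (Tree.leaf 154 14 10 4 1).ok 0 1 0 0 (UE0 (24, 24) D01) ⟨1, 2, 4, 0, 1, 2, 0, 1, 1, 0, 1, 1⟩ = true ∧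
      (Tree.leaf 146 14 10 4 1).ok 0 1 0 0 (UE0 (24, 24) D01) ⟨0, 1, 2, 1, 2, 2, 0, 1, 2, 0, 1, 1⟩ = true ∧
      (Tree.leaf 147 14 10 4 1).ok 0 1 0 0 (UE0 (24, 24) D01) ⟨0, 1, 2, 1, 2, 2, 1, 2, 2, 0, 1, 1⟩ = true ∧
      (Tree.leaf 139 14 10 4 1).ok 0 1 0 0 (UE0 (24, 24) D01) ⟨1, 2, 2, 0, 1, 1, 0, 1, 1, 0, 1, 1⟩ = true) ∧
    ((Tree.leaf 127 14 10 4 1).ok 0 1 0 0 (UE1 (12, 24) D01) ⟨0, 1, 1, 0, 1, 2, 0, 1, 1, 0, 1, 1⟩ = true ∧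
      (Tree.leaf 141 14 10 4 1).ok 0 1 0 0 (UE1 (12, 24) D01) ⟨0, 1, 1, 2, 3, 4, 0, 1, 2, 0, 1, 1⟩ = true ∧
      (Tree.leaf 142 14 10 4 1).ok 0 1 0 0 (UE1 (12, 24) D01) ⟨0, 1, 1, 2, 3, 4, 1, 2, 2, 0, 1, 1⟩ = true ∧
      (Tree.leaf 143 14 10 4 1).ok 0 1 0 0 (UE1 (12, 24) D01) ⟨0, 1, 1, 3, 4, 4, 0, 1, 2, 0, 1, 1⟩ = true ∧
      (Tree.leaf 144 14 10 4 1).ok 0 1 0 0 (UE1 (12, 24) D01) ⟨0, 1, 1, 3, 4, 4, 1, 2, 2, 0, 1, 1⟩ = true) ∧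
    ((Tree.leaf 152 14 10 4 1).ok 0 1 0 0 (UE0 (24, 24) D02) ⟨0, 1, 4, 0, 1, 2, 0, 1, 1, 0, 1, 1⟩ = true ∧
      (Tree.leaf 154 14 10 4 1).ok 0 1 0 0 (UE0 (24, 24) D02) ⟨1, 2, 4, 0, 1, 2, 0, 1, 1, 0, 1, 1⟩ = true ∧
      (Tree.leaf 143 14 10 4 1).ok 0 1 0 0 (UE0 (24, 24) D02) ⟨0, 1, 2, 1, 2, 2, 0, 1, 1, 0, 1, 1⟩ = true ∧
      (Tree.leaf 139 14 10 4 1).ok 0 1 0 0 (UE0 (24, 24) D02) ⟨1, 2, 2, 0, 1, 1, 0, 1, 1, 0, 1, 1⟩ = true) ∧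
    ((Tree.leaf 139 14 10 4 1).ok 0 1 0 0 (UE1 (12, 24) D02) ⟨0, 1, 2, 0, 1, 2, 0, 1, 1, 0, 1, 1⟩ = true ∧
      (Tree.leaf 141 14 10 4 1).ok 0 1 0 0 (UE1 (12, 24) D02) ⟨1, 2, 2, 0, 1, 2, 0, 1, 1, 0, 1, 1⟩ = true ∧
      (Tree.leaf 140 14 10 4 1).ok 0 1 0 0 (UE1 (12, 24) D02) ⟨0, 1, 1, 2, 3, 4, 0, 1, 2, 0, 1, 1⟩ = true ∧
      (Tree.leaf 141 14 10 4 1).ok 0 1 0 0 (UE1 (12, 24) D02) ⟨0, 1, 1, 2, 3, 4, 1, 2, 2, 0, 1, 1⟩ = true ∧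
      (Tree.leaf 142 14 10 4 1).ok 0 1 0 0 (UE1 (12, 24) D02) ⟨0, 1, 1, 3, 4, 4, 0, 1, 2, 0, 1, 1⟩ = true ∧
      (Tree.leaf 143 14 10 4 1).ok 0 1 0 0 (UE1 (12, 24) D02) ⟨0, 1, 1, 3, 4, 4, 1, 2, 2, 0, 1, 1⟩ = true) ∧
    ((Tree.leaf 152 14 10 4 1).ok 0 1 0 0 (UE0 (24, 24) D03) ⟨0, 1, 4, 0, 1, 2, 0, 1, 1, 0, 1, 1⟩ = true ∧
      (Tree.leaf 154 14 10 4 1).ok 0 1 0 0 (UE0 (24, 24) D03) ⟨1, 2, 4, 0, 1, 2, 0, 1, 1, 0, 1, 1⟩ = true ∧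
      (Tree.leaf 146 14 10 4 1).ok 0 1 0 0 (UE0 (24, 24) D03) ⟨1, 2, 2, 0, 1, 2, 0, 1, 1, 0, 1, 1⟩ = true ∧
      (Tree.leaf 151 14 10 4 1).ok 0 1 0 0 (UE0 (24, 24) D03) ⟨0, 1, 2, 2, 3, 4, 0, 1, 1, 0, 1, 1⟩ = true ∧
      (Tree.leaf 153 14 10 4 1).ok 0 1 0 0 (UE0 (24, 24) D03) ⟨0, 1, 2, 3, 4, 4, 0, 1, 1, 0, 1, 1⟩ = true ∧
      (Tree.leaf 151 14 10 4 1).ok 0 1 0 0 (UE0 (24, 24) D03) ⟨1, 2, 2, 1, 2, 2, 0, 1, 1, 0, 1, 1⟩ = true) ∧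
    ((Tree.leaf 127 14 10 4 1).ok 0 1 0 0 (UE1 (12, 24) D03) ⟨0, 1, 1, 0, 1, 2, 0, 1, 1, 0, 1, 1⟩ = true ∧
      (Tree.leaf 141 14 10 4 1).ok 0 1 0 0 (UE1 (12, 24) D03) ⟨0, 1, 1, 2, 3, 4, 0, 1, 2, 0, 1, 1⟩ = true ∧
      (Tree.leaf 142 14 10 4 1).ok 0 1 0 0 (UE1 (12, 24) D03) ⟨0, 1, 1, 2, 3, 4, 1, 2, 2, 0, 1, 1⟩ = true ∧
      (Tree.leaf 143 14 10 4 1).ok 0 1 0 0 (UE1 (12, 24) D03) ⟨0, 1, 1, 3, 4, 4, 0, 1, 2, 0, 1, 1⟩ = true ∧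
      (Tree.leaf 144 14 10 4 1).ok 0 1 0 0 (UE1 (12, 24) D03) ⟨0, 1, 1, 3, 4, 4, 1, 2, 2, 0, 1, 1⟩ = true) ∧
    ((Tree.leaf 162 14 14 6 6).ok 0 1 0 0 (GM 0 0 (D 0) (144, 624) (-1728, 15624) (2, 4) (1, 0) (.q 121 624) p00 k00 k10) ⟨0, 1, 2, 0, 1, 1, 0, 1, 2, 0, 1, 1⟩ = true ∧
      (Tree.leaf 166 14 14 6 6).ok 0 1 0 0 (GM 0 0 (D 0) (144, 624) (-1728, 15624) (2, 4) (1, 0) (.q 121 624) p00 k00 k10) ⟨1, 2, 2, 0, 1, 1, 0, 1, 2, 0, 1, 1⟩ = true ∧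
      (Tree.leaf 152 14 14 6 6).ok 0 1 0 0 (GM 0 0 (D 0) (144, 624) (-1728, 15624) (2, 4) (1, 0) (.q 121 624) p00 k00 k10) ⟨0, 1, 1, 0, 1, 1, 1, 2, 2, 0, 1, 1⟩ = true) ∧
    ((Tree.leaf 162 14 14 6 6).ok 0 1 0 0 (GM 0 0 (D 0) (144, 624) (-1728, 15624) (2, 4) (1, 0) (tau1 (144, 624)) p00 k00 k10) ⟨0, 1, 2, 0, 1, 1, 0, 1, 2, 0, 1, 1⟩ = true ∧
      (Tree.leaf 166 14 14 6 6).ok 0 1 0 0 (GM 0 0 (D 0) (144, 624) (-1728, 15624) (2, 4) (1, 0) (tau1 (144, 624)) p00 k00 k10) ⟨1, 2, 2, 0, 1, 1, 0, 1, 2, 0, 1, 1⟩ = true ∧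
      (Tree.leaf 152 14 14 6 6).ok 0 1 0 0 (GM 0 0 (D 0) (144, 624) (-1728, 15624) (2, 4) (1, 0) (tau1 (144, 624)) p00 k00 k10) ⟨0, 1, 1, 0, 1, 1, 1, 2, 2, 0, 1, 1⟩ = true) ∧
    ((Tree.leaf 163 14 14 6 6).ok 0 1 0 0 (GM 0 1 (D 0) (144, 624) (-1728, 15624) (2, 4) (1, 0) (.q 121 624) p01 k01 k11) ⟨0, 1, 1, 0, 1, 2, 0, 1, 2, 0, 1, 1⟩ = true ∧
      (Tree.leaf 165 14 14 6 6).ok 0 1 0 0 (GM 0 1 (D 0) (144, 624) (-1728, 15624) (2, 4) (1, 0) (.q 121 624) p01 k01 k11) ⟨0, 1, 1, 1, 2, 2, 0, 1, 2, 0, 1, 1⟩ = true ∧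
      (Tree.leaf 163 14 14 6 6).ok 0 1 0 0 (GM 0 1 (D 0) (144, 624) (-1728, 15624) (2, 4) (1, 0) (.q 121 624) p01 k01 k11) ⟨0, 1, 2, 0, 1, 1, 1, 2, 2, 0, 1, 1⟩ = true ∧
      (Tree.leaf 168 14 14 6 6).ok 0 1 0 0 (GM 0 1 (D 0) (144, 624) (-1728, 15624) (2, 4) (1, 0) (.q 121 624) p01 k01 k11) ⟨1, 2, 2, 0, 1, 1, 1, 2, 2, 0, 1, 1⟩ = true) ∧
    ((Tree.leaf 151 14 14 6 6).ok 0 1 0 0 (GM 0 1 (D 0) (144, 624) (-1728, 15624) (2, 4) (1, 0) (tau1 (144, 624)) p01 k01 k11) ⟨0, 1, 1, 0, 1, 1, 0, 1, 2, 0, 1, 1⟩ = true ∧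
      (Tree.leaf 151 14 14 6 6).ok 0 1 0 0 (GM 0 1 (D 0) (144, 624) (-1728, 15624) (2, 4) (1, 0) (tau1 (144, 624)) p01 k01 k11) ⟨0, 1, 1, 0, 1, 1, 1, 2, 2, 0, 1, 1⟩ = true) ∧
    ((Tree.leaf 157 14 14 6 6).ok 0 1 0 0 (GM 0 2 (D 0) (144, 624) (-1728, 15624) (2, 4) (1, 0) (.q 121 624) p02 k02 k12) ⟨0, 1, 2, 0, 1, 1, 0, 1, 1, 0, 1, 1⟩ = true ∧
      (Tree.leaf 161 14 14 6 6).ok 0 1 0 0 (GM 0 2 (D 0) (144, 624) (-1728, 15624) (2, 4) (1, 0) (.q 121 624) p02 k02 k12) ⟨1, 2, 2, 0, 1, 1, 0, 1, 1, 0, 1, 1⟩ = true) ∧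
    ((Tree.leaf 157 14 14 6 6).ok 0 1 0 0 (GM 0 2 (D 0) (144, 624) (-1728, 15624) (2, 4) (1, 0) (tau1 (144, 624)) p02 k02 k12) ⟨0, 1, 2, 0, 1, 1, 0, 1, 1, 0, 1, 1⟩ = true ∧
      (Tree.leaf 161 14 14 6 6).ok 0 1 0 0 (GM 0 2 (D 0) (144, 624) (-1728, 15624) (2, 4) (1, 0) (tau1 (144, 624)) p02 k02 k12) ⟨1, 2, 2, 0, 1, 1, 0, 1, 1, 0, 1, 1⟩ = true) ∧
    ((Tree.leaf 163 14 14 6 6).ok 0 1 0 0 (GM 0 3 (D 0) (144, 624) (-1728, 15624) (2, 4) (1, 0) (.q 121 624) p03 k03 k13) ⟨0, 1, 2, 0, 1, 1, 0, 1, 2, 0, 1, 1⟩ = true ∧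
      (Tree.leaf 166 14 14 6 6).ok 0 1 0 0 (GM 0 3 (D 0) (144, 624) (-1728, 15624) (2, 4) (1, 0) (.q 121 624) p03 k03 k13) ⟨1, 2, 2, 0, 1, 1, 0, 1, 2, 0, 1, 1⟩ = true ∧
      (Tree.leaf 156 14 14 6 6).ok 0 1 0 0 (GM 0 3 (D 0) (144, 624) (-1728, 15624) (2, 4) (1, 0) (.q 121 624) p03 k03 k13) ⟨0, 1, 1, 0, 1, 1, 2, 3, 4, 0, 1, 1⟩ = true ∧
      (Tree.leaf 156 14 14 6 6).ok 0 1 0 0 (GM 0 3 (D 0) (144, 624) (-1728, 15624) (2, 4) (1, 0) (.q 121 624) p03 k03 k13) ⟨0, 1, 1, 0, 1, 1, 3, 4, 4, 0, 1, 1⟩ = true) ∧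
    ((Tree.leaf 163 14 14 6 6).ok 0 1 0 0 (GM 0 3 (D 0) (144, 624) (-1728, 15624) (2, 4) (1, 0) (tau1 (144, 624)) p03 k03 k13) ⟨0, 1, 2, 0, 1, 1, 0, 1, 2, 0, 1, 1⟩ = true ∧
      (Tree.leaf 166 14 14 6 6).ok 0 1 0 0 (GM 0 3 (D 0) (144, 624) (-1728, 15624) (2, 4) (1, 0) (tau1 (144, 624)) p03 k03 k13) ⟨1, 2, 2, 0, 1, 1, 0, 1, 2, 0, 1, 1⟩ = true ∧
      (Tree.leaf 156 14 14 6 6).ok 0 1 0 0 (GM 0 3 (D 0) (144, 624) (-1728, 15624) (2, 4) (1, 0) (tau1 (144, 624)) p03 k03 k13) ⟨0, 1, 1, 0, 1, 1, 2, 3, 4, 0, 1, 1⟩ = true ∧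
      (Tree.leaf 157 14 14 6 6).ok 0 1 0 0 (GM 0 3 (D 0) (144, 624) (-1728, 15624) (2, 4) (1, 0) (tau1 (144, 624)) p03 k03 k13) ⟨0, 1, 1, 0, 1, 1, 3, 4, 4, 0, 1, 1⟩ = true) ∧
    ((Tree.leaf 81 9 10 5 1).ok 0 1 0 0 (SEG D13 (-22502, 4095) (sP (11, 11) (1, 11)) p10 p11 p12 p13) ⟨0, 1, 1, 0, 1, 1, 0, 1, 1, 0, 1, 1⟩ = true) ∧
    ((Tree.leaf 42 10 1 4 1).ok 0 1 0 0 (RE D13 (-22502, 4095)) ⟨0, 1, 1, 0, 1, 1, 0, 1, 1, 0, 1, 1⟩ = true) ∧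
    ((Tree.leaf 140 14 10 4 1).ok 0 1 0 0 (UE0 (24, 24) D10) ⟨0, 1, 2, 0, 1, 2, 0, 1, 1, 0, 1, 1⟩ = true ∧
      (Tree.leaf 146 14 10 4 1).ok 0 1 0 0 (UE0 (24, 24) D10) ⟨1, 2, 2, 0, 1, 2, 0, 1, 1, 0, 1, 1⟩ = true ∧
      (Tree.leaf 144 14 10 4 1).ok 0 1 0 0 (UE0 (24, 24) D10) ⟨0, 1, 2, 1, 2, 2, 0, 1, 1, 0, 1, 1⟩ = true ∧
      (Tree.leaf 151 14 10 4 1).ok 0 1 0 0 (UE0 (24, 24) D10) ⟨1, 2, 2, 1, 2, 2, 0, 1, 1, 0, 1, 1⟩ = true) ∧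
    ((Tree.leaf 127 14 10 4 1).ok 0 1 0 0 (UE1 (12, 24) D10) ⟨0, 1, 1, 0, 1, 2, 0, 1, 1, 0, 1, 1⟩ = true ∧
      (Tree.leaf 131 14 10 4 1).ok 0 1 0 0 (UE1 (12, 24) D10) ⟨0, 1, 1, 1, 2, 2, 0, 1, 1, 0, 1, 1⟩ = true) ∧
    ((Tree.leaf 140 14 10 4 1).ok 0 1 0 0 (UE0 (24, 24) D11) ⟨0, 1, 2, 0, 1, 2, 0, 1, 1, 0, 1, 1⟩ = true ∧
      (Tree.leaf 146 14 10 4 1).ok 0 1 0 0 (UE0 (24, 24) D11) ⟨1, 2, 2, 0, 1, 2, 0, 1, 1, 0, 1, 1⟩ = true ∧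
      (Tree.leaf 152 14 10 4 1).ok 0 1 0 0 (UE0 (24, 24) D11) ⟨0, 1, 2, 2, 3, 4, 0, 1, 1, 0, 1, 1⟩ = true ∧
      (Tree.leaf 155 14 10 4 1).ok 0 1 0 0 (UE0 (24, 24) D11) ⟨0, 1, 2, 3, 4, 4, 0, 1, 1, 0, 1, 1⟩ = true ∧
      (Tree.leaf 151 14 10 4 1).ok 0 1 0 0 (UE0 (24, 24) D11) ⟨1, 2, 2, 1, 2, 2, 0, 1, 1, 0, 1, 1⟩ = true) ∧
    ((Tree.leaf 127 14 10 4 1).ok 0 1 0 0 (UE1 (12, 24) D11) ⟨0, 1, 1, 0, 1, 2, 0, 1, 1, 0, 1, 1⟩ = true ∧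
      (Tree.leaf 139 14 10 4 1).ok 0 1 0 0 (UE1 (12, 24) D11) ⟨0, 1, 1, 2, 3, 4, 0, 1, 1, 0, 1, 1⟩ = true ∧
      (Tree.leaf 142 14 10 4 1).ok 0 1 0 0 (UE1 (12, 24) D11) ⟨0, 1, 1, 3, 4, 4, 0, 1, 1, 0, 1, 1⟩ = true) ∧
    ((Tree.leaf 140 14 10 4 1).ok 0 1 0 0 (UE0 (24, 24) D12) ⟨0, 1, 2, 0, 1, 2, 0, 1, 1, 0, 1, 1⟩ = true ∧
      (Tree.leaf 146 14 10 4 1).ok 0 1 0 0 (UE0 (24, 24) D12) ⟨1, 2, 2, 0, 1, 2, 0, 1, 1, 0, 1, 1⟩ = true ∧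
      (Tree.leaf 152 14 10 4 1).ok 0 1 0 0 (UE0 (24, 24) D12) ⟨0, 1, 2, 2, 3, 4, 0, 1, 1, 0, 1, 1⟩ = true ∧
      (Tree.leaf 154 14 10 4 1).ok 0 1 0 0 (UE0 (24, 24) D12) ⟨0, 1, 2, 3, 4, 4, 0, 1, 1, 0, 1, 1⟩ = true ∧
      (Tree.leaf 151 14 10 4 1).ok 0 1 0 0 (UE0 (24, 24) D12) ⟨1, 2, 2, 1, 2, 2, 0, 1, 1, 0, 1, 1⟩ = true) ∧
    ((Tree.leaf 127 14 10 4 1).ok 0 1 0 0 (UE1 (12, 24) D12) ⟨0, 1, 1, 0, 1, 2, 0, 1, 1, 0, 1, 1⟩ = true ∧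
      (Tree.leaf 139 14 10 4 1).ok 0 1 0 0 (UE1 (12, 24) D12) ⟨0, 1, 1, 2, 3, 4, 0, 1, 1, 0, 1, 1⟩ = true ∧
      (Tree.leaf 141 14 10 4 1).ok 0 1 0 0 (UE1 (12, 24) D12) ⟨0, 1, 1, 3, 4, 4, 0, 1, 1, 0, 1, 1⟩ = true) ∧
    ((Tree.leaf 133 14 10 4 1).ok 0 1 0 0 (UE0 (24, 24) D13) ⟨0, 1, 2, 0, 1, 1, 0, 1, 1, 0, 1, 1⟩ = true ∧
      (Tree.leaf 140 14 10 4 1).ok 0 1 0 0 (UE0 (24, 24) D13) ⟨1, 2, 2, 0, 1, 1, 0, 1, 1, 0, 1, 1⟩ = true) ∧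
    ((Tree.leaf 128 14 10 4 1).ok 0 1 0 0 (UE1 (12, 24) D13) ⟨0, 1, 1, 0, 1, 2, 0, 1, 1, 0, 1, 1⟩ = true ∧
      (Tree.leaf 131 14 10 4 1).ok 0 1 0 0 (UE1 (12, 24) D13) ⟨0, 1, 1, 1, 2, 2, 0, 1, 1, 0, 1, 1⟩ = true) ∧
    ((Tree.leaf 158 14 14 6 6).ok 0 1 0 0 (GM 1 0 (D 1) (144, 624) (-1728, 15624) (2, 4) (1, 0) (.q 121 624) p10 k00 k10) ⟨0, 1, 2, 0, 1, 1, 0, 1, 1, 0, 1, 1⟩ = true ∧
      (Tree.leaf 162 14 14 6 6).ok 0 1 0 0 (GM 1 0 (D 1) (144, 624) (-1728, 15624) (2, 4) (1, 0) (.q 121 624) p10 k00 k10) ⟨1, 2, 2, 0, 1, 1, 0, 1, 1, 0, 1, 1⟩ = true) ∧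
    ((Tree.leaf 158 14 14 6 6).ok 0 1 0 0 (GM 1 0 (D 1) (144, 624) (-1728, 15624) (2, 4) (1, 0) (tau1 (144, 624)) p10 k00 k10) ⟨0, 1, 2, 0, 1, 1, 0, 1, 1, 0, 1, 1⟩ = true ∧
      (Tree.leaf 162 14 14 6 6).ok 0 1 0 0 (GM 1 0 (D 1) (144, 624) (-1728, 15624) (2, 4) (1, 0) (tau1 (144, 624)) p10 k00 k10) ⟨1, 2, 2, 0, 1, 1, 0, 1, 1, 0, 1, 1⟩ = true) ∧
    ((Tree.leaf 163 14 14 6 6).ok 0 1 0 0 (GM 1 1 (D 1) (144, 624) (-1728, 15624) (2, 4) (1, 0) (.q 121 624) p11 k01 k11) ⟨0, 1, 2, 0, 1, 1, 0, 1, 1, 0, 1, 2⟩ = true ∧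
      (Tree.leaf 163 14 14 6 6).ok 0 1 0 0 (GM 1 1 (D 1) (144, 624) (-1728, 15624) (2, 4) (1, 0) (.q 121 624) p11 k01 k11) ⟨0, 1, 2, 0, 1, 1, 0, 1, 1, 1, 2, 2⟩ = true ∧
      (Tree.leaf 174 14 14 6 6).ok 0 1 0 0 (GM 1 1 (D 1) (144, 624) (-1728, 15624) (2, 4) (1, 0) (.q 121 624) p11 k01 k11) ⟨1, 2, 2, 0, 1, 2, 0, 1, 1, 0, 1, 1⟩ = true ∧
      (Tree.leaf 178 14 14 6 6).ok 0 1 0 0 (GM 1 1 (D 1) (144, 624) (-1728, 15624) (2, 4) (1, 0) (.q 121 624) p11 k01 k11) ⟨1, 2, 2, 1, 2, 2, 0, 1, 1, 0, 1, 1⟩ = true) ∧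
    ((Tree.leaf 158 14 14 6 6).ok 0 1 0 0 (GM 1 1 (D 1) (144, 624) (-1728, 15624) (2, 4) (1, 0) (tau1 (144, 624)) p11 k01 k11) ⟨0, 1, 2, 0, 1, 1, 0, 1, 1, 0, 1, 1⟩ = true ∧
      (Tree.leaf 162 14 14 6 6).ok 0 1 0 0 (GM 1 1 (D 1) (144, 624) (-1728, 15624) (2, 4) (1, 0) (tau1 (144, 624)) p11 k01 k11) ⟨1, 2, 2, 0, 1, 1, 0, 1, 1, 0, 1, 1⟩ = true) ∧
    ((Tree.leaf 158 14 14 6 6).ok 0 1 0 0 (GM 1 2 (D 1) (144, 624) (-1728, 15624) (2, 4) (1, 0) (.q 121 624) p12 k02 k12) ⟨0, 1, 2, 0, 1, 1, 0, 1, 1, 0, 1, 1⟩ = true ∧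
      (Tree.leaf 162 14 14 6 6).ok 0 1 0 0 (GM 1 2 (D 1) (144, 624) (-1728, 15624) (2, 4) (1, 0) (.q 121 624) p12 k02 k12) ⟨1, 2, 2, 0, 1, 1, 0, 1, 1, 0, 1, 1⟩ = true) ∧
    ((Tree.leaf 147 14 14 6 6).ok 0 1 0 0 (GM 1 2 (D 1) (144, 624) (-1728, 15624) (2, 4) (1, 0) (tau1 (144, 624)) p12 k02 k12) ⟨0, 1, 1, 0, 1, 1, 0, 1, 1, 0, 1, 1⟩ = true) ∧
    ((Tree.leaf 158 14 14 6 6).ok 0 1 0 0 (GM 1 3 (D 1) (144, 624) (-1728, 15624) (2, 4) (1, 0) (.q 121 624) p13 k03 k13) ⟨0, 1, 2, 0, 1, 1, 0, 1, 1, 0, 1, 1⟩ = true ∧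
      (Tree.leaf 167 14 14 6 6).ok 0 1 0 0 (GM 1 3 (D 1) (144, 624) (-1728, 15624) (2, 4) (1, 0) (.q 121 624) p13 k03 k13) ⟨1, 2, 2, 0, 1, 1, 0, 1, 2, 0, 1, 1⟩ = true ∧
      (Tree.leaf 168 14 14 6 6).ok 0 1 0 0 (GM 1 3 (D 1) (144, 624) (-1728, 15624) (2, 4) (1, 0) (.q 121 624) p13 k03 k13) ⟨1, 2, 2, 0, 1, 1, 1, 2, 2, 0, 1, 1⟩ = true) ∧
    ((Tree.leaf 158 14 14 6 6).ok 0 1 0 0 (GM 1 3 (D 1) (144, 624) (-1728, 15624) (2, 4) (1, 0) (tau1 (144, 624)) p13 k03 k13) ⟨0, 1, 2, 0, 1, 1, 0, 1, 1, 0, 1, 1⟩ = true ∧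
      (Tree.leaf 174 14 14 6 6).ok 0 1 0 0 (GM 1 3 (D 1) (144, 624) (-1728, 15624) (2, 4) (1, 0) (tau1 (144, 624)) p13 k03 k13) ⟨1, 2, 2, 0, 1, 2, 0, 1, 1, 0, 1, 1⟩ = true ∧
      (Tree.leaf 178 14 14 6 6).ok 0 1 0 0 (GM 1 3 (D 1) (144, 624) (-1728, 15624) (2, 4) (1, 0) (tau1 (144, 624)) p13 k03 k13) ⟨1, 2, 2, 1, 2, 2, 0, 1, 1, 0, 1, 1⟩ = true) ∧
    ((Tree.leaf 88 9 10 5 1).ok 0 1 0 0 (SEG D23 (-44750, 4095) (sP (11, 11) (1, 11)) p20 p21 p22 p23) ⟨0, 1, 1, 0, 1, 2, 0, 1, 1, 0, 1, 1⟩ = true ∧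
      (Tree.leaf 96 9 10 5 1).ok 0 1 0 0 (SEG D23 (-44750, 4095) (sP (11, 11) (1, 11)) p20 p21 p22 p23) ⟨0, 1, 1, 1, 2, 2, 0, 1, 2, 0, 1, 1⟩ = true ∧
      (Tree.leaf 97 9 10 5 1).ok 0 1 0 0 (SEG D23 (-44750, 4095) (sP (11, 11) (1, 11)) p20 p21 p22 p23) ⟨0, 1, 1, 1, 2, 2, 1, 2, 2, 0, 1, 1⟩ = true) ∧
    ((Tree.leaf 43 10 1 4 1).ok 0 1 0 0 (RE D23 (-44750, 4095)) ⟨0, 1, 1, 0, 1, 1, 0, 1, 1, 0, 1, 1⟩ = true) ∧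
    ((Tree.leaf 132 14 10 4 1).ok 0 1 0 0 (UE0 (24, 24) D20) ⟨0, 1, 1, 0, 1, 2, 0, 1, 1, 0, 1, 1⟩ = true ∧
      (Tree.leaf 136 14 10 4 1).ok 0 1 0 0 (UE0 (24, 24) D20) ⟨0, 1, 1, 1, 2, 2, 0, 1, 1, 0, 1, 1⟩ = true) ∧
    ((Tree.leaf 130 14 10 4 1).ok 0 1 0 0 (UE1 (12, 24) D20) ⟨0, 1, 1, 0, 1, 2, 0, 1, 1, 0, 1, 1⟩ = true ∧
      (Tree.leaf 142 14 10 4 1).ok 0 1 0 0 (UE1 (12, 24) D20) ⟨0, 1, 1, 2, 3, 4, 0, 1, 1, 0, 1, 1⟩ = true ∧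
      (Tree.leaf 144 14 10 4 1).ok 0 1 0 0 (UE1 (12, 24) D20) ⟨0, 1, 1, 3, 4, 4, 0, 1, 1, 0, 1, 1⟩ = true) ∧
    ((Tree.leaf 132 14 10 4 1).ok 0 1 0 0 (UE0 (24, 24) D21) ⟨0, 1, 1, 0, 1, 2, 0, 1, 1, 0, 1, 1⟩ = true ∧
      (Tree.leaf 137 14 10 4 1).ok 0 1 0 0 (UE0 (24, 24) D21) ⟨0, 1, 1, 1, 2, 2, 0, 1, 1, 0, 1, 1⟩ = true) ∧
    ((Tree.leaf 129 14 10 4 1).ok 0 1 0 0 (UE1 (12, 24) D21) ⟨0, 1, 1, 0, 1, 2, 0, 1, 1, 0, 1, 1⟩ = true ∧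
      (Tree.leaf 134 14 10 4 1).ok 0 1 0 0 (UE1 (12, 24) D21) ⟨0, 1, 1, 1, 2, 2, 0, 1, 1, 0, 1, 1⟩ = true) ∧
    ((Tree.leaf 132 14 10 4 1).ok 0 1 0 0 (UE0 (24, 24) D22) ⟨0, 1, 1, 0, 1, 2, 0, 1, 1, 0, 1, 1⟩ = true ∧
      (Tree.leaf 137 14 10 4 1).ok 0 1 0 0 (UE0 (24, 24) D22) ⟨0, 1, 1, 1, 2, 2, 0, 1, 1, 0, 1, 1⟩ = true) ∧
    ((Tree.leaf 130 14 10 4 1).ok 0 1 0 0 (UE1 (12, 24) D22) ⟨0, 1, 1, 0, 1, 2, 0, 1, 1, 0, 1, 1⟩ = true ∧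
      (Tree.leaf 134 14 10 4 1).ok 0 1 0 0 (UE1 (12, 24) D22) ⟨0, 1, 1, 1, 2, 2, 0, 1, 1, 0, 1, 1⟩ = true) ∧
    ((Tree.leaf 142 14 10 4 1).ok 0 1 0 0 (UE0 (24, 24) D23) ⟨0, 1, 2, 0, 1, 2, 0, 1, 1, 0, 1, 1⟩ = true ∧
      (Tree.leaf 147 14 10 4 1).ok 0 1 0 0 (UE0 (24, 24) D23) ⟨1, 2, 2, 0, 1, 2, 0, 1, 1, 0, 1, 1⟩ = true ∧
      (Tree.leaf 147 14 10 4 1).ok 0 1 0 0 (UE0 (24, 24) D23) ⟨0, 1, 2, 1, 2, 2, 0, 1, 1, 0, 1, 1⟩ = true ∧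
      (Tree.leaf 152 14 10 4 1).ok 0 1 0 0 (UE0 (24, 24) D23) ⟨1, 2, 2, 1, 2, 2, 0, 1, 1, 0, 1, 1⟩ = true) ∧
    ((Tree.leaf 129 14 10 4 1).ok 0 1 0 0 (UE1 (12, 24) D23) ⟨0, 1, 1, 0, 1, 2, 0, 1, 1, 0, 1, 1⟩ = true ∧
      (Tree.leaf 141 14 10 4 1).ok 0 1 0 0 (UE1 (12, 24) D23) ⟨0, 1, 1, 2, 3, 4, 0, 1, 1, 0, 1, 1⟩ = true ∧
      (Tree.leaf 146 14 10 4 1).ok 0 1 0 0 (UE1 (12, 24) D23) ⟨0, 1, 1, 3, 4, 4, 0, 1, 2, 0, 1, 1⟩ = true ∧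
      (Tree.leaf 147 14 10 4 1).ok 0 1 0 0 (UE1 (12, 24) D23) ⟨0, 1, 1, 3, 4, 4, 1, 2, 2, 0, 1, 1⟩ = true) ∧
    ((Tree.leaf 160 14 14 6 6).ok 0 1 0 0 (GM 2 0 (D 2) (144, 624) (-1728, 15624) (2, 4) (1, 0) (.q 121 624) p20 k00 k10) ⟨0, 1, 2, 0, 1, 1, 0, 1, 1, 0, 1, 1⟩ = true ∧
      (Tree.leaf 164 14 14 6 6).ok 0 1 0 0 (GM 2 0 (D 2) (144, 624) (-1728, 15624) (2, 4) (1, 0) (.q 121 624) p20 k00 k10) ⟨1, 2, 2, 0, 1, 1, 0, 1, 1, 0, 1, 1⟩ = true) ∧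
    ((Tree.leaf 149 14 14 6 6).ok 0 1 0 0 (GM 2 0 (D 2) (144, 624) (-1728, 15624) (2, 4) (1, 0) (tau1 (144, 624)) p20 k00 k10) ⟨0, 1, 1, 0, 1, 1, 0, 1, 1, 0, 1, 1⟩ = true) ∧
    ((Tree.leaf 160 14 14 6 6).ok 0 1 0 0 (GM 2 1 (D 2) (144, 624) (-1728, 15624) (2, 4) (1, 0) (.q 121 624) p21 k01 k11) ⟨0, 1, 2, 0, 1, 1, 0, 1, 1, 0, 1, 1⟩ = true ∧
      (Tree.leaf 176 14 14 6 6).ok 0 1 0 0 (GM 2 1 (D 2) (144, 624) (-1728, 15624) (2, 4) (1, 0) (.q 121 624) p21 k01 k11) ⟨2, 3, 4, 0, 1, 1, 0, 1, 1, 0, 1, 1⟩ = true ∧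
      (Tree.leaf 178 14 14 6 6).ok 0 1 0 0 (GM 2 1 (D 2) (144, 624) (-1728, 15624) (2, 4) (1, 0) (.q 121 624) p21 k01 k11) ⟨3, 4, 4, 0, 1, 1, 0, 1, 1, 0, 1, 1⟩ = true) ∧
    ((Tree.leaf 160 14 14 6 6).ok 0 1 0 0 (GM 2 1 (D 2) (144, 624) (-1728, 15624) (2, 4) (1, 0) (tau1 (144, 624)) p21 k01 k11) ⟨0, 1, 2, 0, 1, 1, 0, 1, 1, 0, 1, 1⟩ = true ∧
      (Tree.leaf 164 14 14 6 6).ok 0 1 0 0 (GM 2 1 (D 2) (144, 624) (-1728, 15624) (2, 4) (1, 0) (tau1 (144, 624)) p21 k01 k11) ⟨1, 2, 2, 0, 1, 1, 0, 1, 1, 0, 1, 1⟩ = true) ∧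
    ((Tree.leaf 160 14 14 6 6).ok 0 1 0 0 (GM 2 2 (D 2) (144, 624) (-1728, 15624) (2, 4) (1, 0) (.q 121 624) p22 k02 k12) ⟨0, 1, 2, 0, 1, 1, 0, 1, 1, 0, 1, 1⟩ = true ∧
      (Tree.leaf 169 14 14 6 6).ok 0 1 0 0 (GM 2 2 (D 2) (144, 624) (-1728, 15624) (2, 4) (1, 0) (.q 121 624) p22 k02 k12) ⟨1, 2, 2, 0, 1, 1, 0, 1, 1, 0, 1, 2⟩ = true ∧
      (Tree.leaf 169 14 14 6 6).ok 0 1 0 0 (GM 2 2 (D 2) (144, 624) (-1728, 15624) (2, 4) (1, 0) (.q 121 624) p22 k02 k12) ⟨1, 2, 2, 0, 1, 1, 0, 1, 1, 1, 2, 2⟩ = true) ∧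
    ((Tree.leaf 160 14 14 6 6).ok 0 1 0 0 (GM 2 2 (D 2) (144, 624) (-1728, 15624) (2, 4) (1, 0) (tau1 (144, 624)) p22 k02 k12) ⟨0, 1, 2, 0, 1, 1, 0, 1, 1, 0, 1, 1⟩ = true ∧
      (Tree.leaf 164 14 14 6 6).ok 0 1 0 0 (GM 2 2 (D 2) (144, 624) (-1728, 15624) (2, 4) (1, 0) (tau1 (144, 624)) p22 k02 k12) ⟨1, 2, 2, 0, 1, 1, 0, 1, 1, 0, 1, 1⟩ = true) ∧
    ((Tree.leaf 161 14 14 6 6).ok 0 1 0 0 (GM 2 3 (D 2) (144, 624) (-1728, 15624) (2, 4) (1, 0) (.q 121 624) p23 k03 k13) ⟨0, 1, 1, 0, 1, 2, 0, 1, 1, 0, 1, 1⟩ = true ∧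
      (Tree.leaf 173 14 14 6 6).ok 0 1 0 0 (GM 2 3 (D 2) (144, 624) (-1728, 15624) (2, 4) (1, 0) (.q 121 624) p23 k03 k13) ⟨0, 1, 2, 1, 2, 2, 0, 1, 1, 0, 1, 1⟩ = true ∧
      (Tree.leaf 179 14 14 6 6).ok 0 1 0 0 (GM 2 3 (D 2) (144, 624) (-1728, 15624) (2, 4) (1, 0) (.q 121 624) p23 k03 k13) ⟨1, 2, 2, 1, 2, 2, 0, 1, 1, 0, 1, 1⟩ = true) ∧
    ((Tree.leaf 160 14 14 6 6).ok 0 1 0 0 (GM 2 3 (D 2) (144, 624) (-1728, 15624) (2, 4) (1, 0) (tau1 (144, 624)) p23 k03 k13) ⟨0, 1, 2, 0, 1, 1, 0, 1, 1, 0, 1, 1⟩ = true ∧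
      (Tree.leaf 164 14 14 6 6).ok 0 1 0 0 (GM 2 3 (D 2) (144, 624) (-1728, 15624) (2, 4) (1, 0) (tau1 (144, 624)) p23 k03 k13) ⟨1, 2, 2, 0, 1, 1, 0, 1, 1, 0, 1, 1⟩ = true) :=
  ⟨by decide +kernel,
   by decide +kernel,
   ⟨by decide +kernel, by decide +kernel, by decide +kernel, by decide +kernel, by decide +kernel⟩,
   ⟨by decide +kernel, by decide +kernel, by decide +kernel, by decide +kernel, by decide +kernel, by decide +kernel⟩,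
   ⟨by decide +kernel, by decide +kernel, by decide +kernel, by decide +kernel, by decide +kernel⟩,
   ⟨by decide +kernel, by decide +kernel, by decide +kernel, by decide +kernel, by decide +kernel⟩,
   ⟨by decide +kernel, by decide +kernel, by decide +kernel, by decide +kernel⟩,
   ⟨by decide +kernel, by decide +kernel, by decide +kernel, by decide +kernel, by decide +kernel, by decide +kernel⟩,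
   ⟨by decide +kernel, by decide +kernel, by decide +kernel, by decide +kernel, by decide +kernel, by decide +kernel⟩,
   ⟨by decide +kernel, by decide +kernel, by decide +kernel, by decide +kernel, by decide +kernel⟩,
   ⟨by decide +kernel, by decide +kernel, by decide +kernel⟩,
   ⟨by decide +kernel, by decide +kernel, by decide +kernel⟩,
   ⟨by decide +kernel, by decide +kernel, by decide +kernel, by decide +kernel⟩,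
   ⟨by decide +kernel, by decide +kernel⟩,
   ⟨by decide +kernel, by decide +kernel⟩,
   ⟨by decide +kernel, by decide +kernel⟩,
   ⟨by decide +kernel, by decide +kernel, by decide +kernel, by decide +kernel⟩,
   ⟨by decide +kernel, by decide +kernel, by decide +kernel, by decide +kernel⟩,
   by decide +kernel,
   by decide +kernel,
   ⟨by decide +kernel, by decide +kernel, by decide +kernel, by decide +kernel⟩,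
   ⟨by decide +kernel, by decide +kernel⟩,
   ⟨by decide +kernel, by decide +kernel, by decide +kernel, by decide +kernel, by decide +kernel⟩,
   ⟨by decide +kernel, by decide +kernel, by decide +kernel⟩,
   ⟨by decide +kernel, by decide +kernel, by decide +kernel, by decide +kernel, by decide +kernel⟩,
   ⟨by decide +kernel, by decide +kernel, by decide +kernel⟩,
   ⟨by decide +kernel, by decide +kernel⟩,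
   ⟨by decide +kernel, by decide +kernel⟩,
   ⟨by decide +kernel, by decide +kernel⟩,
   ⟨by decide +kernel, by decide +kernel⟩,
   ⟨by decide +kernel, by decide +kernel, by decide +kernel, by decide +kernel⟩,
   ⟨by decide +kernel, by decide +kernel⟩,
   ⟨by decide +kernel, by decide +kernel⟩,
   by decide +kernel,
   ⟨by decide +kernel, by decide +kernel, by decide +kernel⟩,
   ⟨by decide +kernel, by decide +kernel, by decide +kernel⟩,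
   ⟨by decide +kernel, by decide +kernel, by decide +kernel⟩,
   by decide +kernel,
   ⟨by decide +kernel, by decide +kernel⟩,
   ⟨by decide +kernel, by decide +kernel, by decide +kernel⟩,
   ⟨by decide +kernel, by decide +kernel⟩,
   ⟨by decide +kernel, by decide +kernel⟩,
   ⟨by decide +kernel, by decide +kernel⟩,
   ⟨by decide +kernel, by decide +kernel⟩,
   ⟨by decide +kernel, by decide +kernel, by decide +kernel, by decide +kernel⟩,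
   ⟨by decide +kernel, by decide +kernel, by decide +kernel, by decide +kernel⟩,
   ⟨by decide +kernel, by decide +kernel⟩,
   by decide +kernel,
   ⟨by decide +kernel, by decide +kernel, by decide +kernel⟩,
   ⟨by decide +kernel, by decide +kernel⟩,
   ⟨by decide +kernel, by decide +kernel, by decide +kernel⟩,
   ⟨by decide +kernel, by decide +kernel⟩,
   ⟨by decide +kernel, by decide +kernel, by decide +kernel⟩,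
   ⟨by decide +kernel, by decide +kernel⟩⟩

def t_s0 : Tree := (.leaf 80 9 10 5 1)
theorem s0 : t_s0.ok 0 1 0 0 (SEG D03 (-19973, 4095) (sP (11, 11) (1, 11)) p00 p01 p02 p03) unitBx = true :=
  lv.1

def t_r0 : Tree := (.leaf 41 10 1 4 1)
theorem r0 : t_r0.ok 0 1 0 0 (RE D03 (-19973, 4095)) unitBx = true :=
  lv.2.1

def t_u00 : Tree := (.s0 (.s1 (.s0 (.leaf 152 14 10 4 1) (.leaf 155 14 10 4 1)) (.s2 (.leaf 146 14 10 4 1) (.leaf 147 14 10 4 1))) (.leaf 139 14 10 4 1))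
theorem u00 : t_u00.ok 0 1 0 0 (UE0 (24, 24) D00) unitBx = true :=
  (Tree.ok_s0 (Tree.ok_s1 (Tree.ok_s0 lv.2.2.1.1 lv.2.2.1.2.1) (Tree.ok_s2 lv.2.2.1.2.2.1 lv.2.2.1.2.2.2.1)) lv.2.2.1.2.2.2.2)

def t_v00 : Tree := (.s1 (.s0 (.leaf 139 14 10 4 1) (.leaf 142 14 10 4 1)) (.s1 (.s2 (.leaf 141 14 10 4 1) (.leaf 142 14 10 4 1)) (.s2 (.leaf 143 14 10 4 1) (.leaf 144 14 10 4 1))))
theorem v00 : t_v00.ok 0 1 0 0 (UE1 (12, 24) D00) unitBx = true :=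
  (Tree.ok_s1 (Tree.ok_s0 lv.2.2.2.1.1 lv.2.2.2.1.2.1) (Tree.ok_s1 (Tree.ok_s2 lv.2.2.2.1.2.2.1 lv.2.2.2.1.2.2.2.1) (Tree.ok_s2 lv.2.2.2.1.2.2.2.2.1 lv.2.2.2.1.2.2.2.2.2)))

def t_u01 : Tree := (.s0 (.s1 (.s0 (.leaf 152 14 10 4 1) (.leaf 154 14 10 4 1)) (.s2 (.leaf 146 14 10 4 1) (.leaf 147 14 10 4 1))) (.leaf 139 14 10 4 1))
theorem u01 : t_u01.ok 0 1 0 0 (UE0 (24, 24) D01) unitBx = true :=
  (Tree.ok_s0 (Tree.ok_s1 (Tree.ok_s0 lv.2.2.2.2.1.1 lv.2.2.2.2.1.2.1) (Tree.ok_s2 lv.2.2.2.2.1.2.2.1 lv.2.2.2.2.1.2.2.2.1)) lv.2.2.2.2.1.2.2.2.2)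

def t_v01 : Tree := (.s1 (.leaf 127 14 10 4 1) (.s1 (.s2 (.leaf 141 14 10 4 1) (.leaf 142 14 10 4 1)) (.s2 (.leaf 143 14 10 4 1) (.leaf 144 14 10 4 1))))
theorem v01 : t_v01.ok 0 1 0 0 (UE1 (12, 24) D01) unitBx = true :=
  (Tree.ok_s1 lv.2.2.2.2.2.1.1 (Tree.ok_s1 (Tree.ok_s2 lv.2.2.2.2.2.1.2.1 lv.2.2.2.2.2.1.2.2.1) (Tree.ok_s2 lv.2.2.2.2.2.1.2.2.2.1 lv.2.2.2.2.2.1.2.2.2.2)))

def t_u02 : Tree := (.s0 (.s1 (.s0 (.leaf 152 14 10 4 1) (.leaf 154 14 10 4 1)) (.leaf 143 14 10 4 1)) (.leaf 139 14 10 4 1))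
theorem u02 : t_u02.ok 0 1 0 0 (UE0 (24, 24) D02) unitBx = true :=
  (Tree.ok_s0 (Tree.ok_s1 (Tree.ok_s0 lv.2.2.2.2.2.2.1.1 lv.2.2.2.2.2.2.1.2.1) lv.2.2.2.2.2.2.1.2.2.1) lv.2.2.2.2.2.2.1.2.2.2)

def t_v02 : Tree := (.s1 (.s0 (.leaf 139 14 10 4 1) (.leaf 141 14 10 4 1)) (.s1 (.s2 (.leaf 140 14 10 4 1) (.leaf 141 14 10 4 1)) (.s2 (.leaf 142 14 10 4 1) (.leaf 143 14 10 4 1))))
theorem v02 : t_v02.ok 0 1 0 0 (UE1 (12, 24) D02) unitBx = true :=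
  (Tree.ok_s1 (Tree.ok_s0 lv.2.2.2.2.2.2.2.1.1 lv.2.2.2.2.2.2.2.1.2.1) (Tree.ok_s1 (Tree.ok_s2 lv.2.2.2.2.2.2.2.1.2.2.1 lv.2.2.2.2.2.2.2.1.2.2.2.1) (Tree.ok_s2 lv.2.2.2.2.2.2.2.1.2.2.2.2.1 lv.2.2.2.2.2.2.2.1.2.2.2.2.2)))

def t_u03 : Tree := (.s1 (.s0 (.s0 (.leaf 152 14 10 4 1) (.leaf 154 14 10 4 1)) (.leaf 146 14 10 4 1)) (.s0 (.s1 (.leaf 151 14 10 4 1) (.leaf 153 14 10 4 1)) (.leaf 151 14 10 4 1)))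
theorem u03 : t_u03.ok 0 1 0 0 (UE0 (24, 24) D03) unitBx = true :=
  (Tree.ok_s1 (Tree.ok_s0 (Tree.ok_s0 lv.2.2.2.2.2.2.2.2.1.1 lv.2.2.2.2.2.2.2.2.1.2.1) lv.2.2.2.2.2.2.2.2.1.2.2.1) (Tree.ok_s0 (Tree.ok_s1 lv.2.2.2.2.2.2.2.2.1.2.2.2.1 lv.2.2.2.2.2.2.2.2.1.2.2.2.2.1) lv.2.2.2.2.2.2.2.2.1.2.2.2.2.2))

def t_v03 : Tree := (.s1 (.leaf 127 14 10 4 1) (.s1 (.s2 (.leaf 141 14 10 4 1) (.leaf 142 14 10 4 1)) (.s2 (.leaf 143 14 10 4 1) (.leaf 144 14 10 4 1))))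
theorem v03 : t_v03.ok 0 1 0 0 (UE1 (12, 24) D03) unitBx = true :=
  (Tree.ok_s1 lv.2.2.2.2.2.2.2.2.2.1.1 (Tree.ok_s1 (Tree.ok_s2 lv.2.2.2.2.2.2.2.2.2.1.2.1 lv.2.2.2.2.2.2.2.2.2.1.2.2.1) (Tree.ok_s2 lv.2.2.2.2.2.2.2.2.2.1.2.2.2.1 lv.2.2.2.2.2.2.2.2.2.1.2.2.2.2)))

def t_h000 : Tree := (.s2 (.s0 (.leaf 162 14 14 6 6) (.leaf 166 14 14 6 6)) (.leaf 152 14 14 6 6))
theorem h000 : t_h000.ok 0 1 0 0 (GM 0 0 (D 0) (144, 624) (-1728, 15624) (2, 4) (1, 0) (.q 121 624) p00 k00 k10) unitBx = true :=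
  (Tree.ok_s2 (Tree.ok_s0 lv.2.2.2.2.2.2.2.2.2.2.1.1 lv.2.2.2.2.2.2.2.2.2.2.1.2.1) lv.2.2.2.2.2.2.2.2.2.2.1.2.2)

def t_h001 : Tree := (.s2 (.s0 (.leaf 162 14 14 6 6) (.leaf 166 14 14 6 6)) (.leaf 152 14 14 6 6))
theorem h001 : t_h001.ok 0 1 0 0 (GM 0 0 (D 0) (144, 624) (-1728, 15624) (2, 4) (1, 0) (tau1 (144, 624)) p00 k00 k10) unitBx = true :=
  (Tree.ok_s2 (Tree.ok_s0 lv.2.2.2.2.2.2.2.2.2.2.2.1.1 lv.2.2.2.2.2.2.2.2.2.2.2.1.2.1) lv.2.2.2.2.2.2.2.2.2.2.2.1.2.2)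

def t_h010 : Tree := (.s2 (.s1 (.leaf 163 14 14 6 6) (.leaf 165 14 14 6 6)) (.s0 (.leaf 163 14 14 6 6) (.leaf 168 14 14 6 6)))
theorem h010 : t_h010.ok 0 1 0 0 (GM 0 1 (D 0) (144, 624) (-1728, 15624) (2, 4) (1, 0) (.q 121 624) p01 k01 k11) unitBx = true :=
  (Tree.ok_s2 (Tree.ok_s1 lv.2.2.2.2.2.2.2.2.2.2.2.2.1.1 lv.2.2.2.2.2.2.2.2.2.2.2.2.1.2.1) (Tree.ok_s0 lv.2.2.2.2.2.2.2.2.2.2.2.2.1.2.2.1 lv.2.2.2.2.2.2.2.2.2.2.2.2.1.2.2.2))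

def t_h011 : Tree := (.s2 (.leaf 151 14 14 6 6) (.leaf 151 14 14 6 6))
theorem h011 : t_h011.ok 0 1 0 0 (GM 0 1 (D 0) (144, 624) (-1728, 15624) (2, 4) (1, 0) (tau1 (144, 624)) p01 k01 k11) unitBx = true :=
  (Tree.ok_s2 lv.2.2.2.2.2.2.2.2.2.2.2.2.2.1.1 lv.2.2.2.2.2.2.2.2.2.2.2.2.2.1.2)

def t_h020 : Tree := (.s0 (.leaf 157 14 14 6 6) (.leaf 161 14 14 6 6))
theorem h020 : t_h020.ok 0 1 0 0 (GM 0 2 (D 0) (144, 624) (-1728, 15624) (2, 4) (1, 0) (.q 121 624) p02 k02 k12) unitBx = true :=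
  (Tree.ok_s0 lv.2.2.2.2.2.2.2.2.2.2.2.2.2.2.1.1 lv.2.2.2.2.2.2.2.2.2.2.2.2.2.2.1.2)

def t_h021 : Tree := (.s0 (.leaf 157 14 14 6 6) (.leaf 161 14 14 6 6))
theorem h021 : t_h021.ok 0 1 0 0 (GM 0 2 (D 0) (144, 624) (-1728, 15624) (2, 4) (1, 0) (tau1 (144, 624)) p02 k02 k12) unitBx = true :=
  (Tree.ok_s0 lv.2.2.2.2.2.2.2.2.2.2.2.2.2.2.2.1.1 lv.2.2.2.2.2.2.2.2.2.2.2.2.2.2.2.1.2)

def t_h030 : Tree := (.s2 (.s0 (.leaf 163 14 14 6 6) (.leaf 166 14 14 6 6)) (.s2 (.leaf 156 14 14 6 6) (.leaf 156 14 14 6 6)))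
theorem h030 : t_h030.ok 0 1 0 0 (GM 0 3 (D 0) (144, 624) (-1728, 15624) (2, 4) (1, 0) (.q 121 624) p03 k03 k13) unitBx = true :=
  (Tree.ok_s2 (Tree.ok_s0 lv.2.2.2.2.2.2.2.2.2.2.2.2.2.2.2.2.1.1 lv.2.2.2.2.2.2.2.2.2.2.2.2.2.2.2.2.1.2.1) (Tree.ok_s2 lv.2.2.2.2.2.2.2.2.2.2.2.2.2.2.2.2.1.2.2.1 lv.2.2.2.2.2.2.2.2.2.2.2.2.2.2.2.2.1.2.2.2))

def t_h031 : Tree := (.s2 (.s0 (.leaf 163 14 14 6 6) (.leaf 166 14 14 6 6)) (.s2 (.leaf 156 14 14 6 6) (.leaf 157 14 14 6 6)))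
theorem h031 : t_h031.ok 0 1 0 0 (GM 0 3 (D 0) (144, 624) (-1728, 15624) (2, 4) (1, 0) (tau1 (144, 624)) p03 k03 k13) unitBx = true :=
  (Tree.ok_s2 (Tree.ok_s0 lv.2.2.2.2.2.2.2.2.2.2.2.2.2.2.2.2.2.1.1 lv.2.2.2.2.2.2.2.2.2.2.2.2.2.2.2.2.2.1.2.1) (Tree.ok_s2 lv.2.2.2.2.2.2.2.2.2.2.2.2.2.2.2.2.2.1.2.2.1 lv.2.2.2.2.2.2.2.2.2.2.2.2.2.2.2.2.2.1.2.2.2))

def t_s1 : Tree := (.leaf 81 9 10 5 1)
theorem s1 : t_s1.ok 0 1 0 0 (SEG D13 (-22502, 4095) (sP (11, 11) (1, 11)) p10 p11 p12 p13) unitBx = true :=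
  lv.2.2.2.2.2.2.2.2.2.2.2.2.2.2.2.2.2.2.1

def t_r1 : Tree := (.leaf 42 10 1 4 1)
theorem r1 : t_r1.ok 0 1 0 0 (RE D13 (-22502, 4095)) unitBx = true :=
  lv.2.2.2.2.2.2.2.2.2.2.2.2.2.2.2.2.2.2.2.1

def t_u10 : Tree := (.s1 (.s0 (.leaf 140 14 10 4 1) (.leaf 146 14 10 4 1)) (.s0 (.leaf 144 14 10 4 1) (.leaf 151 14 10 4 1)))
theorem u10 : t_u10.ok 0 1 0 0 (UE0 (24, 24) D10) unitBx = true :=
  (Tree.ok_s1 (Tree.ok_s0 lv.2.2.2.2.2.2.2.2.2.2.2.2.2.2.2.2.2.2.2.2.1.1 lv.2.2.2.2.2.2.2.2.2.2.2.2.2.2.2.2.2.2.2.2.1.2.1) (Tree.ok_s0 lv.2.2.2.2.2.2.2.2.2.2.2.2.2.2.2.2.2.2.2.2.1.2.2.1 lv.2.2.2.2.2.2.2.2.2.2.2.2.2.2.2.2.2.2.2.2.1.2.2.2))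

def t_v10 : Tree := (.s1 (.leaf 127 14 10 4 1) (.leaf 131 14 10 4 1))
theorem v10 : t_v10.ok 0 1 0 0 (UE1 (12, 24) D10) unitBx = true :=
  (Tree.ok_s1 lv.2.2.2.2.2.2.2.2.2.2.2.2.2.2.2.2.2.2.2.2.2.1.1 lv.2.2.2.2.2.2.2.2.2.2.2.2.2.2.2.2.2.2.2.2.2.1.2)

def t_u11 : Tree := (.s1 (.s0 (.leaf 140 14 10 4 1) (.leaf 146 14 10 4 1)) (.s0 (.s1 (.leaf 152 14 10 4 1) (.leaf 155 14 10 4 1)) (.leaf 151 14 10 4 1)))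
theorem u11 : t_u11.ok 0 1 0 0 (UE0 (24, 24) D11) unitBx = true :=
  (Tree.ok_s1 (Tree.ok_s0 lv.2.2.2.2.2.2.2.2.2.2.2.2.2.2.2.2.2.2.2.2.2.2.1.1 lv.2.2.2.2.2.2.2.2.2.2.2.2.2.2.2.2.2.2.2.2.2.2.1.2.1) (Tree.ok_s0 (Tree.ok_s1 lv.2.2.2.2.2.2.2.2.2.2.2.2.2.2.2.2.2.2.2.2.2.2.1.2.2.1 lv.2.2.2.2.2.2.2.2.2.2.2.2.2.2.2.2.2.2.2.2.2.2.1.2.2.2.1) lv.2.2.2.2.2.2.2.2.2.2.2.2.2.2.2.2.2.2.2.2.2.2.1.2.2.2.2))

def t_v11 : Tree := (.s1 (.leaf 127 14 10 4 1) (.s1 (.leaf 139 14 10 4 1) (.leaf 142 14 10 4 1)))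
theorem v11 : t_v11.ok 0 1 0 0 (UE1 (12, 24) D11) unitBx = true :=
  (Tree.ok_s1 lv.2.2.2.2.2.2.2.2.2.2.2.2.2.2.2.2.2.2.2.2.2.2.2.1.1 (Tree.ok_s1 lv.2.2.2.2.2.2.2.2.2.2.2.2.2.2.2.2.2.2.2.2.2.2.2.1.2.1 lv.2.2.2.2.2.2.2.2.2.2.2.2.2.2.2.2.2.2.2.2.2.2.2.1.2.2))

def t_u12 : Tree := (.s1 (.s0 (.leaf 140 14 10 4 1) (.leaf 146 14 10 4 1)) (.s0 (.s1 (.leaf 152 14 10 4 1) (.leaf 154 14 10 4 1)) (.leaf 151 14 10 4 1)))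
theorem u12 : t_u12.ok 0 1 0 0 (UE0 (24, 24) D12) unitBx = true :=
  (Tree.ok_s1 (Tree.ok_s0 lv.2.2.2.2.2.2.2.2.2.2.2.2.2.2.2.2.2.2.2.2.2.2.2.2.1.1 lv.2.2.2.2.2.2.2.2.2.2.2.2.2.2.2.2.2.2.2.2.2.2.2.2.1.2.1) (Tree.ok_s0 (Tree.ok_s1 lv.2.2.2.2.2.2.2.2.2.2.2.2.2.2.2.2.2.2.2.2.2.2.2.2.1.2.2.1 lv.2.2.2.2.2.2.2.2.2.2.2.2.2.2.2.2.2.2.2.2.2.2.2.2.1.2.2.2.1) lv.2.2.2.2.2.2.2.2.2.2.2.2.2.2.2.2.2.2.2.2.2.2.2.2.1.2.2.2.2))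

def t_v12 : Tree := (.s1 (.leaf 127 14 10 4 1) (.s1 (.leaf 139 14 10 4 1) (.leaf 141 14 10 4 1)))
theorem v12 : t_v12.ok 0 1 0 0 (UE1 (12, 24) D12) unitBx = true :=
  (Tree.ok_s1 lv.2.2.2.2.2.2.2.2.2.2.2.2.2.2.2.2.2.2.2.2.2.2.2.2.2.1.1 (Tree.ok_s1 lv.2.2.2.2.2.2.2.2.2.2.2.2.2.2.2.2.2.2.2.2.2.2.2.2.2.1.2.1 lv.2.2.2.2.2.2.2.2.2.2.2.2.2.2.2.2.2.2.2.2.2.2.2.2.2.1.2.2))

def t_u13 : Tree := (.s0 (.leaf 133 14 10 4 1) (.leaf 140 14 10 4 1))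
theorem u13 : t_u13.ok 0 1 0 0 (UE0 (24, 24) D13) unitBx = true :=
  (Tree.ok_s0 lv.2.2.2.2.2.2.2.2.2.2.2.2.2.2.2.2.2.2.2.2.2.2.2.2.2.2.1.1 lv.2.2.2.2.2.2.2.2.2.2.2.2.2.2.2.2.2.2.2.2.2.2.2.2.2.2.1.2)

def t_v13 : Tree := (.s1 (.leaf 128 14 10 4 1) (.leaf 131 14 10 4 1))
theorem v13 : t_v13.ok 0 1 0 0 (UE1 (12, 24) D13) unitBx = true :=
  (Tree.ok_s1 lv.2.2.2.2.2.2.2.2.2.2.2.2.2.2.2.2.2.2.2.2.2.2.2.2.2.2.2.1.1 lv.2.2.2.2.2.2.2.2.2.2.2.2.2.2.2.2.2.2.2.2.2.2.2.2.2.2.2.1.2)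

def t_h100 : Tree := (.s0 (.leaf 158 14 14 6 6) (.leaf 162 14 14 6 6))
theorem h100 : t_h100.ok 0 1 0 0 (GM 1 0 (D 1) (144, 624) (-1728, 15624) (2, 4) (1, 0) (.q 121 624) p10 k00 k10) unitBx = true :=
  (Tree.ok_s0 lv.2.2.2.2.2.2.2.2.2.2.2.2.2.2.2.2.2.2.2.2.2.2.2.2.2.2.2.2.1.1 lv.2.2.2.2.2.2.2.2.2.2.2.2.2.2.2.2.2.2.2.2.2.2.2.2.2.2.2.2.1.2)

def t_h101 : Tree := (.s0 (.leaf 158 14 14 6 6) (.leaf 162 14 14 6 6))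
theorem h101 : t_h101.ok 0 1 0 0 (GM 1 0 (D 1) (144, 624) (-1728, 15624) (2, 4) (1, 0) (tau1 (144, 624)) p10 k00 k10) unitBx = true :=
  (Tree.ok_s0 lv.2.2.2.2.2.2.2.2.2.2.2.2.2.2.2.2.2.2.2.2.2.2.2.2.2.2.2.2.2.1.1 lv.2.2.2.2.2.2.2.2.2.2.2.2.2.2.2.2.2.2.2.2.2.2.2.2.2.2.2.2.2.1.2)

def t_h110 : Tree := (.s0 (.s3 (.leaf 163 14 14 6 6) (.leaf 163 14 14 6 6)) (.s1 (.leaf 174 14 14 6 6) (.leaf 178 14 14 6 6)))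
theorem h110 : t_h110.ok 0 1 0 0 (GM 1 1 (D 1) (144, 624) (-1728, 15624) (2, 4) (1, 0) (.q 121 624) p11 k01 k11) unitBx = true :=
  (Tree.ok_s0 (Tree.ok_s3 lv.2.2.2.2.2.2.2.2.2.2.2.2.2.2.2.2.2.2.2.2.2.2.2.2.2.2.2.2.2.2.1.1 lv.2.2.2.2.2.2.2.2.2.2.2.2.2.2.2.2.2.2.2.2.2.2.2.2.2.2.2.2.2.2.1.2.1) (Tree.ok_s1 lv.2.2.2.2.2.2.2.2.2.2.2.2.2.2.2.2.2.2.2.2.2.2.2.2.2.2.2.2.2.2.1.2.2.1 lv.2.2.2.2.2.2.2.2.2.2.2.2.2.2.2.2.2.2.2.2.2.2.2.2.2.2.2.2.2.2.1.2.2.2))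

def t_h111 : Tree := (.s0 (.leaf 158 14 14 6 6) (.leaf 162 14 14 6 6))
theorem h111 : t_h111.ok 0 1 0 0 (GM 1 1 (D 1) (144, 624) (-1728, 15624) (2, 4) (1, 0) (tau1 (144, 624)) p11 k01 k11) unitBx = true :=
  (Tree.ok_s0 lv.2.2.2.2.2.2.2.2.2.2.2.2.2.2.2.2.2.2.2.2.2.2.2.2.2.2.2.2.2.2.2.1.1 lv.2.2.2.2.2.2.2.2.2.2.2.2.2.2.2.2.2.2.2.2.2.2.2.2.2.2.2.2.2.2.2.1.2)

def t_h120 : Tree := (.s0 (.leaf 158 14 14 6 6) (.leaf 162 14 14 6 6))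
theorem h120 : t_h120.ok 0 1 0 0 (GM 1 2 (D 1) (144, 624) (-1728, 15624) (2, 4) (1, 0) (.q 121 624) p12 k02 k12) unitBx = true :=
  (Tree.ok_s0 lv.2.2.2.2.2.2.2.2.2.2.2.2.2.2.2.2.2.2.2.2.2.2.2.2.2.2.2.2.2.2.2.2.1.1 lv.2.2.2.2.2.2.2.2.2.2.2.2.2.2.2.2.2.2.2.2.2.2.2.2.2.2.2.2.2.2.2.2.1.2)

def t_h121 : Tree := (.leaf 147 14 14 6 6)
theorem h121 : t_h121.ok 0 1 0 0 (GM 1 2 (D 1) (144, 624) (-1728, 15624) (2, 4) (1, 0) (tau1 (144, 624)) p12 k02 k12) unitBx = true :=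
  lv.2.2.2.2.2.2.2.2.2.2.2.2.2.2.2.2.2.2.2.2.2.2.2.2.2.2.2.2.2.2.2.2.2.1

def t_h130 : Tree := (.s0 (.leaf 158 14 14 6 6) (.s2 (.leaf 167 14 14 6 6) (.leaf 168 14 14 6 6)))
theorem h130 : t_h130.ok 0 1 0 0 (GM 1 3 (D 1) (144, 624) (-1728, 15624) (2, 4) (1, 0) (.q 121 624) p13 k03 k13) unitBx = true :=
  (Tree.ok_s0 lv.2.2.2.2.2.2.2.2.2.2.2.2.2.2.2.2.2.2.2.2.2.2.2.2.2.2.2.2.2.2.2.2.2.2.1.1 (Tree.ok_s2 lv.2.2.2.2.2.2.2.2.2.2.2.2.2.2.2.2.2.2.2.2.2.2.2.2.2.2.2.2.2.2.2.2.2.2.1.2.1 lv.2.2.2.2.2.2.2.2.2.2.2.2.2.2.2.2.2.2.2.2.2.2.2.2.2.2.2.2.2.2.2.2.2.2.1.2.2))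

def t_h131 : Tree := (.s0 (.leaf 158 14 14 6 6) (.s1 (.leaf 174 14 14 6 6) (.leaf 178 14 14 6 6)))
theorem h131 : t_h131.ok 0 1 0 0 (GM 1 3 (D 1) (144, 624) (-1728, 15624) (2, 4) (1, 0) (tau1 (144, 624)) p13 k03 k13) unitBx = true :=
  (Tree.ok_s0 lv.2.2.2.2.2.2.2.2.2.2.2.2.2.2.2.2.2.2.2.2.2.2.2.2.2.2.2.2.2.2.2.2.2.2.2.1.1 (Tree.ok_s1 lv.2.2.2.2.2.2.2.2.2.2.2.2.2.2.2.2.2.2.2.2.2.2.2.2.2.2.2.2.2.2.2.2.2.2.2.1.2.1 lv.2.2.2.2.2.2.2.2.2.2.2.2.2.2.2.2.2.2.2.2.2.2.2.2.2.2.2.2.2.2.2.2.2.2.2.1.2.2))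

def t_s2 : Tree := (.s1 (.leaf 88 9 10 5 1) (.s2 (.leaf 96 9 10 5 1) (.leaf 97 9 10 5 1)))
theorem s2 : t_s2.ok 0 1 0 0 (SEG D23 (-44750, 4095) (sP (11, 11) (1, 11)) p20 p21 p22 p23) unitBx = true :=
  (Tree.ok_s1 lv.2.2.2.2.2.2.2.2.2.2.2.2.2.2.2.2.2.2.2.2.2.2.2.2.2.2.2.2.2.2.2.2.2.2.2.2.1.1 (Tree.ok_s2 lv.2.2.2.2.2.2.2.2.2.2.2.2.2.2.2.2.2.2.2.2.2.2.2.2.2.2.2.2.2.2.2.2.2.2.2.2.1.2.1 lv.2.2.2.2.2.2.2.2.2.2.2.2.2.2.2.2.2.2.2.2.2.2.2.2.2.2.2.2.2.2.2.2.2.2.2.2.1.2.2))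

def t_r2 : Tree := (.leaf 43 10 1 4 1)
theorem r2 : t_r2.ok 0 1 0 0 (RE D23 (-44750, 4095)) unitBx = true :=
  lv.2.2.2.2.2.2.2.2.2.2.2.2.2.2.2.2.2.2.2.2.2.2.2.2.2.2.2.2.2.2.2.2.2.2.2.2.2.1

def t_u20 : Tree := (.s1 (.leaf 132 14 10 4 1) (.leaf 136 14 10 4 1))
theorem u20 : t_u20.ok 0 1 0 0 (UE0 (24, 24) D20) unitBx = true :=
  (Tree.ok_s1 lv.2.2.2.2.2.2.2.2.2.2.2.2.2.2.2.2.2.2.2.2.2.2.2.2.2.2.2.2.2.2.2.2.2.2.2.2.2.2.1.1 lv.2.2.2.2.2.2.2.2.2.2.2.2.2.2.2.2.2.2.2.2.2.2.2.2.2.2.2.2.2.2.2.2.2.2.2.2.2.2.1.2)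

def t_v20 : Tree := (.s1 (.leaf 130 14 10 4 1) (.s1 (.leaf 142 14 10 4 1) (.leaf 144 14 10 4 1)))
theorem v20 : t_v20.ok 0 1 0 0 (UE1 (12, 24) D20) unitBx = true :=
  (Tree.ok_s1 lv.2.2.2.2.2.2.2.2.2.2.2.2.2.2.2.2.2.2.2.2.2.2.2.2.2.2.2.2.2.2.2.2.2.2.2.2.2.2.2.1.1 (Tree.ok_s1 lv.2.2.2.2.2.2.2.2.2.2.2.2.2.2.2.2.2.2.2.2.2.2.2.2.2.2.2.2.2.2.2.2.2.2.2.2.2.2.2.1.2.1 lv.2.2.2.2.2.2.2.2.2.2.2.2.2.2.2.2.2.2.2.2.2.2.2.2.2.2.2.2.2.2.2.2.2.2.2.2.2.2.2.1.2.2))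

def t_u21 : Tree := (.s1 (.leaf 132 14 10 4 1) (.leaf 137 14 10 4 1))
theorem u21 : t_u21.ok 0 1 0 0 (UE0 (24, 24) D21) unitBx = true :=
  (Tree.ok_s1 lv.2.2.2.2.2.2.2.2.2.2.2.2.2.2.2.2.2.2.2.2.2.2.2.2.2.2.2.2.2.2.2.2.2.2.2.2.2.2.2.2.1.1 lv.2.2.2.2.2.2.2.2.2.2.2.2.2.2.2.2.2.2.2.2.2.2.2.2.2.2.2.2.2.2.2.2.2.2.2.2.2.2.2.2.1.2)

def t_v21 : Tree := (.s1 (.leaf 129 14 10 4 1) (.leaf 134 14 10 4 1))
theorem v21 : t_v21.ok 0 1 0 0 (UE1 (12, 24) D21) unitBx = true :=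
  (Tree.ok_s1 lv.2.2.2.2.2.2.2.2.2.2.2.2.2.2.2.2.2.2.2.2.2.2.2.2.2.2.2.2.2.2.2.2.2.2.2.2.2.2.2.2.2.1.1 lv.2.2.2.2.2.2.2.2.2.2.2.2.2.2.2.2.2.2.2.2.2.2.2.2.2.2.2.2.2.2.2.2.2.2.2.2.2.2.2.2.2.1.2)

def t_u22 : Tree := (.s1 (.leaf 132 14 10 4 1) (.leaf 137 14 10 4 1))
theorem u22 : t_u22.ok 0 1 0 0 (UE0 (24, 24) D22) unitBx = true :=
  (Tree.ok_s1 lv.2.2.2.2.2.2.2.2.2.2.2.2.2.2.2.2.2.2.2.2.2.2.2.2.2.2.2.2.2.2.2.2.2.2.2.2.2.2.2.2.2.2.1.1 lv.2.2.2.2.2.2.2.2.2.2.2.2.2.2.2.2.2.2.2.2.2.2.2.2.2.2.2.2.2.2.2.2.2.2.2.2.2.2.2.2.2.2.1.2)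

def t_v22 : Tree := (.s1 (.leaf 130 14 10 4 1) (.leaf 134 14 10 4 1))
theorem v22 : t_v22.ok 0 1 0 0 (UE1 (12, 24) D22) unitBx = true :=
  (Tree.ok_s1 lv.2.2.2.2.2.2.2.2.2.2.2.2.2.2.2.2.2.2.2.2.2.2.2.2.2.2.2.2.2.2.2.2.2.2.2.2.2.2.2.2.2.2.2.1.1 lv.2.2.2.2.2.2.2.2.2.2.2.2.2.2.2.2.2.2.2.2.2.2.2.2.2.2.2.2.2.2.2.2.2.2.2.2.2.2.2.2.2.2.2.1.2)

def t_u23 : Tree := (.s1 (.s0 (.leaf 142 14 10 4 1) (.leaf 147 14 10 4 1)) (.s0 (.leaf 147 14 10 4 1) (.leaf 152 14 10 4 1)))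
theorem u23 : t_u23.ok 0 1 0 0 (UE0 (24, 24) D23) unitBx = true :=
  (Tree.ok_s1 (Tree.ok_s0 lv.2.2.2.2.2.2.2.2.2.2.2.2.2.2.2.2.2.2.2.2.2.2.2.2.2.2.2.2.2.2.2.2.2.2.2.2.2.2.2.2.2.2.2.2.1.1 lv.2.2.2.2.2.2.2.2.2.2.2.2.2.2.2.2.2.2.2.2.2.2.2.2.2.2.2.2.2.2.2.2.2.2.2.2.2.2.2.2.2.2.2.2.1.2.1) (Tree.ok_s0 lv.2.2.2.2.2.2.2.2.2.2.2.2.2.2.2.2.2.2.2.2.2.2.2.2.2.2.2.2.2.2.2.2.2.2.2.2.2.2.2.2.2.2.2.2.1.2.2.1 lv.2.2.2.2.2.2.2.2.2.2.2.2.2.2.2.2.2.2.2.2.2.2.2.2.2.2.2.2.2.2.2.2.2.2.2.2.2.2.2.2.2.2.2.2.1.2.2.2))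

def t_v23 : Tree := (.s1 (.leaf 129 14 10 4 1) (.s1 (.leaf 141 14 10 4 1) (.s2 (.leaf 146 14 10 4 1) (.leaf 147 14 10 4 1))))
theorem v23 : t_v23.ok 0 1 0 0 (UE1 (12, 24) D23) unitBx = true :=
  (Tree.ok_s1 lv.2.2.2.2.2.2.2.2.2.2.2.2.2.2.2.2.2.2.2.2.2.2.2.2.2.2.2.2.2.2.2.2.2.2.2.2.2.2.2.2.2.2.2.2.2.1.1 (Tree.ok_s1 lv.2.2.2.2.2.2.2.2.2.2.2.2.2.2.2.2.2.2.2.2.2.2.2.2.2.2.2.2.2.2.2.2.2.2.2.2.2.2.2.2.2.2.2.2.2.1.2.1 (Tree.ok_s2 lv.2.2.2.2.2.2.2.2.2.2.2.2.2.2.2.2.2.2.2.2.2.2.2.2.2.2.2.2.2.2.2.2.2.2.2.2.2.2.2.2.2.2.2.2.2.1.2.2.1 lv.2.2.2.2.2.2.2.2.2.2.2.2.2.2.2.2.2.2.2.2.2.2.2.2.2.2.2.2.2.2.2.2.2.2.2.2.2.2.2.2.2.2.2.2.2.1.2.2.2)))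

def t_h200 : Tree := (.s0 (.leaf 160 14 14 6 6) (.leaf 164 14 14 6 6))
theorem h200 : t_h200.ok 0 1 0 0 (GM 2 0 (D 2) (144, 624) (-1728, 15624) (2, 4) (1, 0) (.q 121 624) p20 k00 k10) unitBx = true :=
  (Tree.ok_s0 lv.2.2.2.2.2.2.2.2.2.2.2.2.2.2.2.2.2.2.2.2.2.2.2.2.2.2.2.2.2.2.2.2.2.2.2.2.2.2.2.2.2.2.2.2.2.2.1.1 lv.2.2.2.2.2.2.2.2.2.2.2.2.2.2.2.2.2.2.2.2.2.2.2.2.2.2.2.2.2.2.2.2.2.2.2.2.2.2.2.2.2.2.2.2.2.2.1.2)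

def t_h201 : Tree := (.leaf 149 14 14 6 6)
theorem h201 : t_h201.ok 0 1 0 0 (GM 2 0 (D 2) (144, 624) (-1728, 15624) (2, 4) (1, 0) (tau1 (144, 624)) p20 k00 k10) unitBx = true :=
  lv.2.2.2.2.2.2.2.2.2.2.2.2.2.2.2.2.2.2.2.2.2.2.2.2.2.2.2.2.2.2.2.2.2.2.2.2.2.2.2.2.2.2.2.2.2.2.2.1

def t_h210 : Tree := (.s0 (.leaf 160 14 14 6 6) (.s0 (.leaf 176 14 14 6 6) (.leaf 178 14 14 6 6)))
theorem h210 : t_h210.ok 0 1 0 0 (GM 2 1 (D 2) (144, 624) (-1728, 15624) (2, 4) (1, 0) (.q 121 624) p21 k01 k11) unitBx = true :=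
  (Tree.ok_s0 lv.2.2.2.2.2.2.2.2.2.2.2.2.2.2.2.2.2.2.2.2.2.2.2.2.2.2.2.2.2.2.2.2.2.2.2.2.2.2.2.2.2.2.2.2.2.2.2.2.1.1 (Tree.ok_s0 lv.2.2.2.2.2.2.2.2.2.2.2.2.2.2.2.2.2.2.2.2.2.2.2.2.2.2.2.2.2.2.2.2.2.2.2.2.2.2.2.2.2.2.2.2.2.2.2.2.1.2.1 lv.2.2.2.2.2.2.2.2.2.2.2.2.2.2.2.2.2.2.2.2.2.2.2.2.2.2.2.2.2.2.2.2.2.2.2.2.2.2.2.2.2.2.2.2.2.2.2.2.1.2.2))

def t_h211 : Tree := (.s0 (.leaf 160 14 14 6 6) (.leaf 164 14 14 6 6))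
theorem h211 : t_h211.ok 0 1 0 0 (GM 2 1 (D 2) (144, 624) (-1728, 15624) (2, 4) (1, 0) (tau1 (144, 624)) p21 k01 k11) unitBx = true :=
  (Tree.ok_s0 lv.2.2.2.2.2.2.2.2.2.2.2.2.2.2.2.2.2.2.2.2.2.2.2.2.2.2.2.2.2.2.2.2.2.2.2.2.2.2.2.2.2.2.2.2.2.2.2.2.2.1.1 lv.2.2.2.2.2.2.2.2.2.2.2.2.2.2.2.2.2.2.2.2.2.2.2.2.2.2.2.2.2.2.2.2.2.2.2.2.2.2.2.2.2.2.2.2.2.2.2.2.2.1.2)

def t_h220 : Tree := (.s0 (.leaf 160 14 14 6 6) (.s3 (.leaf 169 14 14 6 6) (.leaf 169 14 14 6 6)))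
theorem h220 : t_h220.ok 0 1 0 0 (GM 2 2 (D 2) (144, 624) (-1728, 15624) (2, 4) (1, 0) (.q 121 624) p22 k02 k12) unitBx = true :=
  (Tree.ok_s0 lv.2.2.2.2.2.2.2.2.2.2.2.2.2.2.2.2.2.2.2.2.2.2.2.2.2.2.2.2.2.2.2.2.2.2.2.2.2.2.2.2.2.2.2.2.2.2.2.2.2.2.1.1 (Tree.ok_s3 lv.2.2.2.2.2.2.2.2.2.2.2.2.2.2.2.2.2.2.2.2.2.2.2.2.2.2.2.2.2.2.2.2.2.2.2.2.2.2.2.2.2.2.2.2.2.2.2.2.2.2.1.2.1 lv.2.2.2.2.2.2.2.2.2.2.2.2.2.2.2.2.2.2.2.2.2.2.2.2.2.2.2.2.2.2.2.2.2.2.2.2.2.2.2.2.2.2.2.2.2.2.2.2.2.2.1.2.2))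

def t_h221 : Tree := (.s0 (.leaf 160 14 14 6 6) (.leaf 164 14 14 6 6))
theorem h221 : t_h221.ok 0 1 0 0 (GM 2 2 (D 2) (144, 624) (-1728, 15624) (2, 4) (1, 0) (tau1 (144, 624)) p22 k02 k12) unitBx = true :=
  (Tree.ok_s0 lv.2.2.2.2.2.2.2.2.2.2.2.2.2.2.2.2.2.2.2.2.2.2.2.2.2.2.2.2.2.2.2.2.2.2.2.2.2.2.2.2.2.2.2.2.2.2.2.2.2.2.2.1.1 lv.2.2.2.2.2.2.2.2.2.2.2.2.2.2.2.2.2.2.2.2.2.2.2.2.2.2.2.2.2.2.2.2.2.2.2.2.2.2.2.2.2.2.2.2.2.2.2.2.2.2.2.1.2)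

def t_h230 : Tree := (.s1 (.leaf 161 14 14 6 6) (.s0 (.leaf 173 14 14 6 6) (.leaf 179 14 14 6 6)))
theorem h230 : t_h230.ok 0 1 0 0 (GM 2 3 (D 2) (144, 624) (-1728, 15624) (2, 4) (1, 0) (.q 121 624) p23 k03 k13) unitBx = true :=
  (Tree.ok_s1 lv.2.2.2.2.2.2.2.2.2.2.2.2.2.2.2.2.2.2.2.2.2.2.2.2.2.2.2.2.2.2.2.2.2.2.2.2.2.2.2.2.2.2.2.2.2.2.2.2.2.2.2.2.1.1 (Tree.ok_s0 lv.2.2.2.2.2.2.2.2.2.2.2.2.2.2.2.2.2.2.2.2.2.2.2.2.2.2.2.2.2.2.2.2.2.2.2.2.2.2.2.2.2.2.2.2.2.2.2.2.2.2.2.2.1.2.1 lv.2.2.2.2.2.2.2.2.2.2.2.2.2.2.2.2.2.2.2.2.2.2.2.2.2.2.2.2.2.2.2.2.2.2.2.2.2.2.2.2.2.2.2.2.2.2.2.2.2.2.2.2.1.2.2))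

def t_h231 : Tree := (.s0 (.leaf 160 14 14 6 6) (.leaf 164 14 14 6 6))
theorem h231 : t_h231.ok 0 1 0 0 (GM 2 3 (D 2) (144, 624) (-1728, 15624) (2, 4) (1, 0) (tau1 (144, 624)) p23 k03 k13) unitBx = true :=
  (Tree.ok_s0 lv.2.2.2.2.2.2.2.2.2.2.2.2.2.2.2.2.2.2.2.2.2.2.2.2.2.2.2.2.2.2.2.2.2.2.2.2.2.2.2.2.2.2.2.2.2.2.2.2.2.2.2.2.2.1 lv.2.2.2.2.2.2.2.2.2.2.2.2.2.2.2.2.2.2.2.2.2.2.2.2.2.2.2.2.2.2.2.2.2.2.2.2.2.2.2.2.2.2.2.2.2.2.2.2.2.2.2.2.2.2)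

/-! The certified family. -/

theorem cert : PhiCert (-12 / 25) D psi hh (144, 624) (-1728, 15624) (24, 24) (12, 24) (2, 4) (1, 0) (11, 11) (1, 11)
    (.q 121 624) w2 dl where
  hl0 := by norm_num
  hl1 := by norm_num
  hne := by norm_num
  e2 := by norm_num [cv]
  e3 := by norm_num [cv]
  hmab := by norm_num [cv]
  hta := by norm_num [cv]
  htb := by norm_num [cv]
  htb0 := by norm_num [cv]
  r1 := by norm_num [cv]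
  r2 := by norm_num [cv]
  r3 := by norm_num [cv]
  r4 := by norm_num [cv]
  hc := by norm_num [cv]
  hc' := by norm_num [cv]
  hδ0 := by
    intro j hj
    interval_cases j <;> norm_num [cv, dl]
  hδ2 := by norm_num [cv, dl]
  htau := by
    intro s ρ a b e h0 h1 h2 h3 h4
    simp only [PE.real_q, cv] at h0 ⊢
    push_cast at h0 ⊢
    nlinarith [mul_self_le_mul_self (by norm_num) h0]
  hU0 := by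
    intro j k hj hk
    interval_cases j <;> interval_cases k
    exacts [box_zero _ _ u00, box_zero _ _ u01, box_zero _ _ u02, box_zero _ _ u03, box_zero _ _ u10, box_zero _ _ u11, box_zero _ _ u12, box_zero _ _ u13, box_zero _ _ u20, box_zero _ _ u21, box_zero _ _ u22, box_zero _ _ u23]
  hU1 := by
    intro j k hj hk
    interval_cases j <;> interval_cases k
    exacts [box_zero _ _ v00, box_zero _ _ v01, box_zero _ _ v02, box_zero _ _ v03, box_zero _ _ v10, box_zero _ _ v11, box_zero _ _ v12, box_zero _ _ v13, box_zero _ _ v20, box_zero _ _ v21, box_zero _ _ v22, box_zero _ _ v23]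
  hH0 := by
    intro j k hj hk
    interval_cases j <;> interval_cases k
    exacts [box_zero _ _ h000, box_zero _ _ h010, box_zero _ _ h020, box_zero _ _ h030, box_zero _ _ h100, box_zero _ _ h110, box_zero _ _ h120, box_zero _ _ h130, box_zero _ _ h200, box_zero _ _ h210, box_zero _ _ h220, box_zero _ _ h230]
  hH1 := by
    intro j k hj hk
    interval_cases j <;> interval_cases k
    exacts [box_zero _ _ h001, box_zero _ _ h011, box_zero _ _ h021, box_zero _ _ h031, box_zero _ _ h101, box_zero _ _ h111, box_zero _ _ h121, box_zero _ _ h131, box_zero _ _ h201, box_zero _ _ h211, box_zero _ _ h221, box_zero _ _ h231]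
  hS := by
    intro j hj
    interval_cases j
    exacts [box_zero _ _ s0, box_zero _ _ s1, box_zero _ _ s2]
  hR := by
    intro j hj
    interval_cases j
    exacts [box_zero _ _ r0, box_zero _ _ r1, box_zero _ _ r2]
  hw2 := by
    intro j hj
    interval_cases j <;> norm_num [gR, wR, hr, cv, D, D00, D10, D20, w2, dl]
  hψ0 := by
    intro j k hj hk
    interval_cases j <;> interval_cases k <;> simp [h2R, hr, psi, cv, p00, p01, p02, p03, p10, p11, p12, p13, p20, p21, p22, p23]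

end Vale.Agent.P154.M5
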