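import Vale.Agent.P154.Near2

/-! Data of a family of potentials for the Poisson tree near `lam = 1`. -/

namespace Vale.Agent.P154.N1

def D0 : NP where
  A := [(1291, 16383), (-2870, 16383), (2490, 16383), (-1813, 16383), (1181, 16383), (-279, 16383)]
  B := [(11363, 16383), (5483, 16383), (-1392, 16383), (930, 16383)]
  E := [(5056, 16383)]
  a0 := [(17710, 16383), (2613, 16383), (1098, 16383), (-883, 16383), (1181, 16383), (-279, 16383)]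
  a1 := [(17710, 16383), (-5226, 16383), (-5490, 16383), (7064, 16383), (-12991, 16383), (3906, 16383)]
  a2 := [(621, 16383), (56723, 16383), (17648, 16383), (-12609, 16383)]
  a3 := [(4349, 16383), (-4687, 16383), (59705, 16383), (351731, 16383)]
  a4 := [(10009, 16383), (-130800, 16383), (-1040862, 16383), (795534, 16383)]
  b0 := [(-21475, 16383), (-5483, 16383), (1392, 16383), (-930, 16383)]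
  b1 := [(21475, 16383), (21932, 16383), (-9744, 16383), (9300, 16383)]
  b2 := [(-19792, 16383), (-151211, 16383), (17976, 16383)]
  b3 := [(-17485, 16383), (231798, 16383), (-602566, 16383)]
  b4 := [(15112, 16383), (48843, 16383), (1638400, 16383)]
  g0 := [(5056, 16383)]
  g1 := [(-15168, 16383)]
  g2 := [(27695, 16383), (47552, 16383)]

def D1 : NP where
  A := [(96354, 16383), (-174817, 16383), (114977, 16383), (-43808, 16383), (7294, 16383)]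
  B := [(150379, 16383), (129907, 16383), (-32468, 16383)]
  E := [(178002, 16383)]
  a0 := [(424735, 16383), (-44910, 16383), (82509, 16383), (-43808, 16383), (7294, 16383)]
  a1 := [(424735, 16383), (89820, 16383), (-412545, 16383), (350464, 16383), (-80234, 16383)]
  a2 := [(1759, 16383), (-1540066, 16383), (915312, 16383), (-100672, 16383)]
  a3 := [(18649, 16383), (967771, 16383), (-1172035, 16383), (1398981, 16383)]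
  a4 := [(63614, 16383), (826812, 16383), (510309, 16383), (1485442, 16383)]
  b0 := [(-506383, 16383), (-129907, 16383), (32468, 16383)]
  b1 := [(506383, 16383), (519628, 16383), (-227276, 16383)]
  b2 := [(22443, 16383), (1397052, 16383), (-290960, 16383)]
  b3 := [(-107558, 16383), (-1438758, 16383), (233049, 16383)]
  b4 := [(-46952, 16383), (969162, 16383), (1323559, 16383)]
  g0 := [(178002, 16383)]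
  g1 := [(-534006, 16383)]
  g2 := [(404460, 16383), (-625223, 16383)]

def E0 : NP where
  A := [(93261, 16383), (-164929, 16383), (103970, 16383), (-38865, 16383), (6563, 16383)]
  B := [(158252, 16383), (114498, 16383), (-27142, 16383)]
  E := [(178991, 16383)]
  a0 := [(430504, 16383), (-50431, 16383), (76828, 16383), (-38865, 16383), (6563, 16383)]
  a1 := [(430504, 16383), (100862, 16383), (-384140, 16383), (310920, 16383), (-72193, 16383)]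
  a2 := [(4424, 16383), (-1329552, 16383), (484804, 16383), (-200924, 16383)]
  a3 := [(32145, 16383), (602397, 16383), (-1104996, 16383), (908193, 16383)]
  a4 := [(59832, 16383), (49832, 16383), (827650, 16383), (1432835, 16383)]
  b0 := [(-516234, 16383), (-114498, 16383), (27142, 16383)]
  b1 := [(516234, 16383), (457992, 16383), (-189994, 16383)]
  b2 := [(4067, 16383), (1210219, 16383), (238282, 16383)]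
  b3 := [(-178111, 16383), (-773851, 16383), (-114655, 16383)]
  b4 := [(-56151, 16383), (973393, 16383), (1148799, 16383)]
  g0 := [(178991, 16383)]
  g1 := [(-536973, 16383)]
  g2 := [(434593, 16383), (-637988, 16383)]

def E1 : NP where
  A := [(87502, 16383), (-152035, 16383), (93033, 16383), (-34142, 16383), (5642, 16383)]
  B := [(172536, 16383), (101466, 16383), (-23804, 16383)]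
  E := [(166475, 16383)]
  a0 := [(426513, 16383), (-50569, 16383), (69229, 16383), (-34142, 16383), (5642, 16383)]
  a1 := [(426513, 16383), (101138, 16383), (-346145, 16383), (273136, 16383), (-62062, 16383)]
  a2 := [(6558, 16383), (-1469757, 16383), (1041264, 16383), (-128200, 16383)]
  a3 := [(36403, 16383), (359572, 16383), (-1331579, 16383), (1055244, 16383)]
  a4 := [(50991, 16383), (715439, 16383), (200835, 16383), (1478029, 16383)]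
  b0 := [(-505486, 16383), (-101466, 16383), (23804, 16383)]
  b1 := [(505486, 16383), (405864, 16383), (-166628, 16383)]
  b2 := [(59315, 16383), (1237828, 16383), (-519848, 16383)]
  b3 := [(177820, 16383), (-1489447, 16383), (952147, 16383)]
  b4 := [(-195802, 16383), (615235, 16383), (1434845, 16383)]
  g0 := [(166475, 16383)]
  g1 := [(-499425, 16383)]
  g2 := [(265830, 16383), (-310756, 16383)]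

def E2 : NP where
  A := [(83746, 16383), (-146638, 16383), (92423, 16383), (-35583, 16383), (6052, 16383)]
  B := [(182832, 16383), (96208, 16383), (-24262, 16383)]
  E := [(155936, 16383)]
  a0 := [(422514, 16383), (-50430, 16383), (68161, 16383), (-35583, 16383), (6052, 16383)]
  a1 := [(422514, 16383), (100860, 16383), (-340805, 16383), (284664, 16383), (-66572, 16383)]
  a2 := [(4428, 16383), (-1510892, 16383), (996008, 16383), (-50200, 16383)]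
  a3 := [(30923, 16383), (692893, 16383), (-1234592, 16383), (1446780, 16383)]
  a4 := [(58827, 16383), (142503, 16383), (953057, 16383), (1572770, 16383)]
  b0 := [(-494704, 16383), (-96208, 16383), (24262, 16383)]
  b1 := [(494704, 16383), (384832, 16383), (-169834, 16383)]
  b2 := [(6845, 16383), (1404293, 16383), (-489716, 16383)]
  b3 := [(-73911, 16383), (-1509807, 16383), (1049252, 16383)]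
  b4 := [(-102495, 16383), (1501925, 16383), (1524670, 16383)]
  g0 := [(155936, 16383)]
  g1 := [(-467808, 16383)]
  g2 := [(324892, 16383), (-508261, 16383)]

def E3 : NP where
  A := [(77313, 16383), (-132200, 16383), (80575, 16383), (-30978, 16383), (5290, 16383)]
  B := [(199513, 16383), (79979, 16383), (-20116, 16383)]
  E := [(141502, 16383)]
  a0 := [(418328, 16383), (-52221, 16383), (60459, 16383), (-30978, 16383), (5290, 16383)]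
  a1 := [(418328, 16383), (104442, 16383), (-302295, 16383), (247824, 16383), (-58190, 16383)]
  a2 := [(4854, 16383), (-1553904, 16383), (1041984, 16383), (-92225, 16383)]
  a3 := [(29357, 16383), (288577, 16383), (-1285490, 16383), (1219775, 16383)]
  a4 := [(47396, 16383), (454655, 16383), (1202914, 16383), (1549885, 16383)]
  b0 := [(-482517, 16383), (-79979, 16383), (20116, 16383)]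
  b1 := [(482517, 16383), (319916, 16383), (-140812, 16383)]
  b2 := [(26117, 16383), (1625087, 16383), (-569238, 16383)]
  b3 := [(274058, 16383), (-1561699, 16383), (1210042, 16383)]
  b4 := [(-205732, 16383), (1377177, 16383), (1577979, 16383)]
  g0 := [(141502, 16383)]
  g1 := [(-424506, 16383)]
  g2 := [(186284, 16383), (-508793, 16383)]

def p0 : List CL := [[(0, 16383), (-29891, 16383), (203724, 16383), (236737, 16383), (-340631, 16383)], [(-8881, 16383), (-72492, 16383), (55535, 16383)], [(-223766, 16383), (316608, 16383)]]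
def p1 : List CL := [[(0, 16383), (-28371, 16383), (-77098, 16383), (-54245, 16383), (145436, 16383)], [(51310, 16383), (206700, 16383), (-70823, 16383)], [(45893, 16383), (-180358, 16383)]]
def p2 : List CL := [[(0, 16383), (-26481, 16383), (-364072, 16383), (-207364, 16383), (-75811, 16383)], [(111092, 16383), (590235, 16383), (614910, 16383)], [(-404474, 16383), (-274326, 16383)]]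
def p3 : List CL := [[(0, 16383), (-24981, 16383), (-645402, 16383), (-240558, 16383), (87122, 16383)], [(171446, 16383), (870201, 16383), (352542, 16383)], [(-390961, 16383), (-279016, 16383)]]
def hh : List CL := [[(0, 16383), (-1396, 16383), (213234, 16383), (-37597, 16383)], [(-45072, 16383), (-230689, 16383)], [(158044, 16383)]]
def r0 : CL := [(16384, 16383), (712, 16383), (9315, 16383), (-42444, 16383), (67797, 16383)]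
def rs0 : List CL := [[(0, 16383), (-5186, 16383), (-10242, 16383), (96444, 16383), (-225990, 16383)], [(5388, 16383), (1236, 16383), (-79704, 16383), (301320, 16383)], [(968, 16383), (27984, 16383), (-200880, 16383)], [(-3424, 16383), (66960, 16383)], [(-8928, 16383)]]
def r1 : CL := [(389151, 16383), (228942, 16383), (102852, 16383), (590814, 16383)]
def rs1 : List CL := [[(-94222, 16383), (-197862, 16383), (-400512, 16383), (-1575504, 16383)], [(109268, 16383), (396880, 16383), (1575504, 16383)], [(-117056, 16383), (-700224, 16383)], [(116704, 16383)]]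

def D : ℕ → NP
  | 0 => E0
  | 1 => E1
  | 2 => E2
  | _ => E3

def rho : ℕ → List CL
  | 0 => p0
  | 1 => p1
  | 2 => p2
  | _ => p3

/-! Certificates. -/

/-- the leaves of all trees -/
theorem lv :
    ((Tree.leaf 125 16 16 6 6).ok 0 1 0 0 (A0E D0 hh) ⟨0, 1, 2, 0, 1, 2, 0, 1, 2, 0, 1, 1⟩ = true ∧
      (Tree.leaf 132 16 16 6 6).ok 0 1 0 0 (A0E D0 hh) ⟨0, 1, 2, 1, 2, 2, 0, 1, 2, 0, 1, 1⟩ = true ∧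
      (Tree.leaf 135 16 16 6 6).ok 0 1 0 0 (A0E D0 hh) ⟨2, 3, 4, 0, 1, 1, 0, 1, 2, 0, 1, 1⟩ = true ∧
      (Tree.leaf 139 16 16 6 6).ok 0 1 0 0 (A0E D0 hh) ⟨3, 4, 4, 0, 1, 1, 0, 1, 2, 0, 1, 1⟩ = true ∧
      (Tree.leaf 113 16 16 6 6).ok 0 1 0 0 (A0E D0 hh) ⟨0, 1, 1, 0, 1, 2, 1, 2, 2, 0, 1, 1⟩ = true ∧
      (Tree.leaf 136 16 16 6 6).ok 0 1 0 0 (A0E D0 hh) ⟨0, 1, 1, 2, 3, 4, 1, 2, 2, 0, 1, 1⟩ = true ∧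
      (Tree.leaf 141 16 16 6 6).ok 0 1 0 0 (A0E D0 hh) ⟨0, 1, 1, 3, 4, 4, 1, 2, 2, 0, 1, 1⟩ = true) ∧
    ((Tree.leaf 111 14 14 6 6).ok 0 1 0 0 (A1E D1) ⟨0, 1, 2, 0, 1, 1, 0, 1, 2, 0, 1, 2⟩ = true ∧
      (Tree.leaf 117 14 14 6 6).ok 0 1 0 0 (A1E D1) ⟨1, 2, 2, 0, 1, 1, 0, 1, 2, 0, 1, 2⟩ = true ∧
      (Tree.leaf 102 14 14 6 6).ok 0 1 0 0 (A1E D1) ⟨0, 1, 1, 0, 1, 1, 1, 2, 2, 0, 1, 2⟩ = true ∧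
      (Tree.leaf 102 14 14 6 6).ok 0 1 0 0 (A1E D1) ⟨0, 1, 1, 0, 1, 1, 0, 1, 2, 1, 2, 2⟩ = true ∧
      (Tree.leaf 123 14 14 6 6).ok 0 1 0 0 (A1E D1) ⟨0, 1, 2, 0, 1, 2, 1, 2, 2, 1, 2, 2⟩ = true ∧
      (Tree.leaf 128 14 14 6 6).ok 0 1 0 0 (A1E D1) ⟨0, 1, 2, 1, 2, 2, 1, 2, 2, 1, 2, 2⟩ = true ∧
      (Tree.leaf 128 14 14 6 6).ok 0 1 0 0 (A1E D1) ⟨1, 2, 2, 0, 1, 2, 1, 2, 2, 1, 2, 2⟩ = true ∧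
      (Tree.leaf 138 14 14 6 6).ok 0 1 0 0 (A1E D1) ⟨1, 2, 2, 1, 2, 2, 1, 2, 2, 1, 2, 2⟩ = true) ∧
    ((Tree.leaf 118 17 16 6 1).ok 0 1 0 0 (UE0 (1, 0) D0) ⟨0, 1, 4, 0, 1, 2, 0, 1, 1, 0, 1, 1⟩ = true ∧
      (Tree.leaf 138 17 16 6 1).ok 0 1 0 0 (UE0 (1, 0) D0) ⟨2, 3, 8, 0, 1, 2, 0, 1, 1, 0, 1, 1⟩ = true ∧
      (Tree.leaf 140 17 16 6 1).ok 0 1 0 0 (UE0 (1, 0) D0) ⟨3, 4, 8, 0, 1, 2, 0, 1, 1, 0, 1, 1⟩ = true ∧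
      (Tree.leaf 111 17 16 6 1).ok 0 1 0 0 (UE0 (1, 0) D0) ⟨0, 1, 2, 1, 2, 2, 0, 1, 1, 0, 1, 1⟩ = true ∧
      (Tree.leaf 101 17 16 6 1).ok 0 1 0 0 (UE0 (1, 0) D0) ⟨1, 2, 2, 0, 1, 1, 0, 1, 1, 0, 1, 1⟩ = true) ∧
    ((Tree.leaf 121 17 16 6 1).ok 0 1 0 0 (UE1 (2, 0) D0) ⟨0, 1, 4, 0, 1, 2, 0, 1, 1, 0, 1, 1⟩ = true ∧
      (Tree.leaf 129 17 16 6 1).ok 0 1 0 0 (UE1 (2, 0) D0) ⟨1, 2, 4, 0, 1, 2, 0, 1, 1, 0, 1, 1⟩ = true ∧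
      (Tree.leaf 121 17 16 6 1).ok 0 1 0 0 (UE1 (2, 0) D0) ⟨1, 2, 2, 0, 1, 2, 0, 1, 1, 0, 1, 1⟩ = true ∧
      (Tree.leaf 140 17 16 6 1).ok 0 1 0 0 (UE1 (2, 0) D0) ⟨0, 1, 4, 2, 3, 4, 0, 1, 1, 0, 1, 1⟩ = true ∧
      (Tree.leaf 149 17 16 6 1).ok 0 1 0 0 (UE1 (2, 0) D0) ⟨1, 2, 4, 2, 3, 4, 0, 1, 1, 0, 1, 1⟩ = true ∧
      (Tree.leaf 141 17 16 6 1).ok 0 1 0 0 (UE1 (2, 0) D0) ⟨1, 2, 2, 2, 3, 4, 0, 1, 1, 0, 1, 1⟩ = true ∧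
      (Tree.leaf 147 17 16 6 1).ok 0 1 0 0 (UE1 (2, 0) D0) ⟨0, 1, 2, 6, 7, 8, 0, 1, 1, 0, 1, 1⟩ = true ∧
      (Tree.leaf 159 17 16 6 1).ok 0 1 0 0 (UE1 (2, 0) D0) ⟨1, 2, 2, 6, 7, 8, 0, 1, 1, 0, 1, 1⟩ = true ∧
      (Tree.leaf 144 17 16 6 1).ok 0 1 0 0 (UE1 (2, 0) D0) ⟨0, 1, 1, 7, 8, 8, 0, 1, 2, 0, 1, 1⟩ = true ∧
      (Tree.leaf 146 17 16 6 1).ok 0 1 0 0 (UE1 (2, 0) D0) ⟨0, 1, 1, 7, 8, 8, 1, 2, 2, 0, 1, 1⟩ = true) ∧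
    ((Tree.leaf 128 14 13 5 1).ok 0 1 0 0 (UE0 (1, 0) D1) ⟨0, 1, 8, 0, 1, 4, 0, 1, 1, 0, 1, 1⟩ = true ∧
      (Tree.leaf 129 14 13 5 1).ok 0 1 0 0 (UE0 (1, 0) D1) ⟨0, 1, 8, 1, 2, 4, 0, 1, 1, 0, 1, 1⟩ = true ∧
      (Tree.leaf 129 14 13 5 1).ok 0 1 0 0 (UE0 (1, 0) D1) ⟨1, 2, 8, 0, 1, 4, 0, 1, 1, 0, 1, 1⟩ = true ∧
      (Tree.leaf 130 14 13 5 1).ok 0 1 0 0 (UE0 (1, 0) D1) ⟨1, 2, 8, 1, 2, 4, 0, 1, 1, 0, 1, 1⟩ = true ∧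
      (Tree.leaf 107 14 13 5 1).ok 0 1 0 0 (UE0 (1, 0) D1) ⟨1, 2, 4, 0, 1, 2, 0, 1, 1, 0, 1, 1⟩ = true ∧
      (Tree.leaf 108 14 13 5 1).ok 0 1 0 0 (UE0 (1, 0) D1) ⟨0, 1, 4, 1, 2, 2, 0, 1, 1, 0, 1, 1⟩ = true ∧
      (Tree.leaf 112 14 13 5 1).ok 0 1 0 0 (UE0 (1, 0) D1) ⟨1, 2, 4, 1, 2, 2, 0, 1, 1, 0, 1, 1⟩ = true ∧
      (Tree.leaf 89 14 13 5 1).ok 0 1 0 0 (UE0 (1, 0) D1) ⟨1, 2, 2, 0, 1, 1, 0, 1, 1, 0, 1, 1⟩ = true) ∧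
    ((Tree.leaf 88 14 13 5 1).ok 0 1 0 0 (UE1 (2, 0) D1) ⟨0, 1, 1, 0, 1, 2, 0, 1, 1, 0, 1, 1⟩ = true ∧
      (Tree.leaf 121 14 13 5 1).ok 0 1 0 0 (UE1 (2, 0) D1) ⟨0, 1, 4, 2, 3, 4, 0, 1, 1, 0, 1, 1⟩ = true ∧
      (Tree.leaf 128 14 13 5 1).ok 0 1 0 0 (UE1 (2, 0) D1) ⟨1, 2, 4, 2, 3, 4, 0, 1, 1, 0, 1, 1⟩ = true ∧
      (Tree.leaf 122 14 13 5 1).ok 0 1 0 0 (UE1 (2, 0) D1) ⟨1, 2, 2, 2, 3, 4, 0, 1, 1, 0, 1, 1⟩ = true ∧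
      (Tree.leaf 123 14 13 5 1).ok 0 1 0 0 (UE1 (2, 0) D1) ⟨0, 1, 4, 3, 4, 4, 0, 1, 1, 0, 1, 1⟩ = true ∧
      (Tree.leaf 131 14 13 5 1).ok 0 1 0 0 (UE1 (2, 0) D1) ⟨1, 2, 4, 3, 4, 4, 0, 1, 1, 0, 1, 1⟩ = true ∧
      (Tree.leaf 136 14 13 5 1).ok 0 1 0 0 (UE1 (2, 0) D1) ⟨1, 2, 2, 6, 7, 8, 0, 1, 1, 0, 1, 1⟩ = true ∧
      (Tree.leaf 141 14 13 5 1).ok 0 1 0 0 (UE1 (2, 0) D1) ⟨1, 2, 2, 7, 8, 8, 0, 1, 2, 0, 1, 1⟩ = true ∧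
      (Tree.leaf 142 14 13 5 1).ok 0 1 0 0 (UE1 (2, 0) D1) ⟨1, 2, 2, 7, 8, 8, 1, 2, 2, 0, 1, 1⟩ = true) ∧
    ((Tree.leaf 115 14 13 5 1).ok 0 1 0 0 (UE0 (1, 0) E0) ⟨0, 1, 4, 0, 1, 4, 0, 1, 1, 0, 1, 1⟩ = true ∧
      (Tree.leaf 129 14 13 5 1).ok 0 1 0 0 (UE0 (1, 0) E0) ⟨0, 1, 8, 1, 2, 4, 0, 1, 1, 0, 1, 1⟩ = true ∧
      (Tree.leaf 130 14 13 5 1).ok 0 1 0 0 (UE0 (1, 0) E0) ⟨1, 2, 8, 1, 2, 4, 0, 1, 1, 0, 1, 1⟩ = true ∧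
      (Tree.leaf 106 14 13 5 1).ok 0 1 0 0 (UE0 (1, 0) E0) ⟨1, 2, 4, 0, 1, 2, 0, 1, 1, 0, 1, 1⟩ = true ∧
      (Tree.leaf 120 14 13 5 1).ok 0 1 0 0 (UE0 (1, 0) E0) ⟨0, 1, 8, 1, 2, 2, 0, 1, 1, 0, 1, 1⟩ = true ∧
      (Tree.leaf 122 14 13 5 1).ok 0 1 0 0 (UE0 (1, 0) E0) ⟨1, 2, 8, 1, 2, 2, 0, 1, 1, 0, 1, 1⟩ = true ∧
      (Tree.leaf 112 14 13 5 1).ok 0 1 0 0 (UE0 (1, 0) E0) ⟨1, 2, 4, 1, 2, 2, 0, 1, 1, 0, 1, 1⟩ = true ∧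
      (Tree.leaf 89 14 13 5 1).ok 0 1 0 0 (UE0 (1, 0) E0) ⟨1, 2, 2, 0, 1, 1, 0, 1, 1, 0, 1, 1⟩ = true) ∧
    ((Tree.leaf 88 14 13 5 1).ok 0 1 0 0 (UE1 (2, 0) E0) ⟨0, 1, 1, 0, 1, 2, 0, 1, 1, 0, 1, 1⟩ = true ∧
      (Tree.leaf 120 14 13 5 1).ok 0 1 0 0 (UE1 (2, 0) E0) ⟨0, 1, 4, 2, 3, 4, 0, 1, 1, 0, 1, 1⟩ = true ∧
      (Tree.leaf 127 14 13 5 1).ok 0 1 0 0 (UE1 (2, 0) E0) ⟨1, 2, 4, 2, 3, 4, 0, 1, 1, 0, 1, 1⟩ = true ∧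
      (Tree.leaf 122 14 13 5 1).ok 0 1 0 0 (UE1 (2, 0) E0) ⟨1, 2, 2, 2, 3, 4, 0, 1, 1, 0, 1, 1⟩ = true ∧
      (Tree.leaf 114 14 13 5 1).ok 0 1 0 0 (UE1 (2, 0) E0) ⟨0, 1, 1, 3, 4, 4, 0, 1, 4, 0, 1, 1⟩ = true ∧
      (Tree.leaf 115 14 13 5 1).ok 0 1 0 0 (UE1 (2, 0) E0) ⟨0, 1, 1, 3, 4, 4, 1, 2, 4, 0, 1, 1⟩ = true ∧
      (Tree.leaf 119 14 13 5 1).ok 0 1 0 0 (UE1 (2, 0) E0) ⟨0, 1, 2, 3, 4, 4, 1, 2, 2, 0, 1, 1⟩ = true ∧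
      (Tree.leaf 129 14 13 5 1).ok 0 1 0 0 (UE1 (2, 0) E0) ⟨1, 2, 2, 3, 4, 4, 1, 2, 2, 0, 1, 1⟩ = true) ∧
    ((Tree.leaf 92 14 13 5 1).ok 0 1 0 0 (UE0 (1, 0) E1) ⟨0, 1, 2, 0, 1, 2, 0, 1, 1, 0, 1, 1⟩ = true ∧
      (Tree.leaf 108 14 13 5 1).ok 0 1 0 0 (UE0 (1, 0) E1) ⟨0, 1, 4, 1, 2, 2, 0, 1, 1, 0, 1, 1⟩ = true ∧
      (Tree.leaf 124 14 13 5 1).ok 0 1 0 0 (UE0 (1, 0) E1) ⟨2, 3, 8, 1, 2, 2, 0, 1, 1, 0, 1, 1⟩ = true ∧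
      (Tree.leaf 126 14 13 5 1).ok 0 1 0 0 (UE0 (1, 0) E1) ⟨3, 4, 8, 1, 2, 2, 0, 1, 1, 0, 1, 1⟩ = true ∧
      (Tree.leaf 89 14 13 5 1).ok 0 1 0 0 (UE0 (1, 0) E1) ⟨1, 2, 2, 0, 1, 1, 0, 1, 1, 0, 1, 1⟩ = true) ∧
    ((Tree.leaf 95 14 13 5 1).ok 0 1 0 0 (UE1 (2, 0) E1) ⟨0, 1, 2, 0, 1, 2, 0, 1, 1, 0, 1, 1⟩ = true ∧
      (Tree.leaf 106 14 13 5 1).ok 0 1 0 0 (UE1 (2, 0) E1) ⟨1, 2, 2, 0, 1, 2, 0, 1, 1, 0, 1, 1⟩ = true ∧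
      (Tree.leaf 111 14 13 5 1).ok 0 1 0 0 (UE1 (2, 0) E1) ⟨0, 1, 2, 2, 3, 4, 0, 1, 1, 0, 1, 1⟩ = true ∧
      (Tree.leaf 122 14 13 5 1).ok 0 1 0 0 (UE1 (2, 0) E1) ⟨1, 2, 2, 2, 3, 4, 0, 1, 1, 0, 1, 1⟩ = true ∧
      (Tree.leaf 125 14 13 5 1).ok 0 1 0 0 (UE1 (2, 0) E1) ⟨0, 1, 2, 6, 7, 8, 0, 1, 1, 0, 1, 1⟩ = true ∧
      (Tree.leaf 136 14 13 5 1).ok 0 1 0 0 (UE1 (2, 0) E1) ⟨1, 2, 2, 6, 7, 8, 0, 1, 1, 0, 1, 1⟩ = true ∧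
      (Tree.leaf 138 14 13 5 1).ok 0 1 0 0 (UE1 (2, 0) E1) ⟨0, 1, 2, 14, 15, 16, 0, 1, 1, 0, 1, 1⟩ = true ∧
      (Tree.leaf 149 14 13 5 1).ok 0 1 0 0 (UE1 (2, 0) E1) ⟨1, 2, 2, 14, 15, 16, 0, 1, 1, 0, 1, 1⟩ = true ∧
      (Tree.leaf 139 14 13 5 1).ok 0 1 0 0 (UE1 (2, 0) E1) ⟨0, 1, 2, 15, 16, 16, 0, 1, 1, 0, 1, 1⟩ = true ∧
      (Tree.leaf 162 14 13 5 1).ok 0 1 0 0 (UE1 (2, 0) E1) ⟨1, 2, 2, 30, 31, 32, 0, 1, 1, 0, 1, 1⟩ = true ∧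
      (Tree.leaf 165 14 13 5 1).ok 0 1 0 0 (UE1 (2, 0) E1) ⟨1, 2, 2, 31, 32, 32, 0, 1, 2, 0, 1, 1⟩ = true ∧
      (Tree.leaf 167 14 13 5 1).ok 0 1 0 0 (UE1 (2, 0) E1) ⟨1, 2, 2, 31, 32, 32, 1, 2, 2, 0, 1, 1⟩ = true) ∧
    ((Tree.leaf 116 14 13 5 1).ok 0 1 0 0 (UE0 (1, 0) E2) ⟨0, 1, 8, 0, 1, 2, 0, 1, 1, 0, 1, 1⟩ = true ∧
      (Tree.leaf 117 14 13 5 1).ok 0 1 0 0 (UE0 (1, 0) E2) ⟨1, 2, 8, 0, 1, 2, 0, 1, 1, 0, 1, 1⟩ = true ∧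
      (Tree.leaf 107 14 13 5 1).ok 0 1 0 0 (UE0 (1, 0) E2) ⟨1, 2, 4, 0, 1, 2, 0, 1, 1, 0, 1, 1⟩ = true ∧
      (Tree.leaf 120 14 13 5 1).ok 0 1 0 0 (UE0 (1, 0) E2) ⟨0, 1, 8, 1, 2, 2, 0, 1, 1, 0, 1, 1⟩ = true ∧
      (Tree.leaf 122 14 13 5 1).ok 0 1 0 0 (UE0 (1, 0) E2) ⟨1, 2, 8, 1, 2, 2, 0, 1, 1, 0, 1, 1⟩ = true ∧
      (Tree.leaf 112 14 13 5 1).ok 0 1 0 0 (UE0 (1, 0) E2) ⟨1, 2, 4, 1, 2, 2, 0, 1, 1, 0, 1, 1⟩ = true ∧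
      (Tree.leaf 89 14 13 5 1).ok 0 1 0 0 (UE0 (1, 0) E2) ⟨1, 2, 2, 0, 1, 1, 0, 1, 1, 0, 1, 1⟩ = true) ∧
    ((Tree.leaf 88 14 13 5 1).ok 0 1 0 0 (UE1 (2, 0) E2) ⟨0, 1, 1, 0, 1, 2, 0, 1, 1, 0, 1, 1⟩ = true ∧
      (Tree.leaf 105 14 13 5 1).ok 0 1 0 0 (UE1 (2, 0) E2) ⟨0, 1, 1, 1, 2, 2, 0, 1, 8, 0, 1, 1⟩ = true ∧
      (Tree.leaf 105 14 13 5 1).ok 0 1 0 0 (UE1 (2, 0) E2) ⟨0, 1, 1, 1, 2, 2, 1, 2, 8, 0, 1, 1⟩ = true ∧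
      (Tree.leaf 102 14 13 5 1).ok 0 1 0 0 (UE1 (2, 0) E2) ⟨0, 1, 1, 1, 2, 2, 1, 2, 4, 0, 1, 1⟩ = true ∧
      (Tree.leaf 125 14 13 5 1).ok 0 1 0 0 (UE1 (2, 0) E2) ⟨0, 1, 4, 2, 3, 4, 1, 2, 2, 0, 1, 1⟩ = true ∧
      (Tree.leaf 139 14 13 5 1).ok 0 1 0 0 (UE1 (2, 0) E2) ⟨0, 1, 8, 3, 4, 4, 1, 2, 2, 0, 1, 1⟩ = true ∧
      (Tree.leaf 143 14 13 5 1).ok 0 1 0 0 (UE1 (2, 0) E2) ⟨1, 2, 8, 3, 4, 4, 1, 2, 2, 0, 1, 1⟩ = true ∧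
      (Tree.leaf 132 14 13 5 1).ok 0 1 0 0 (UE1 (2, 0) E2) ⟨1, 2, 4, 2, 3, 4, 1, 2, 2, 0, 1, 1⟩ = true ∧
      (Tree.leaf 135 14 13 5 1).ok 0 1 0 0 (UE1 (2, 0) E2) ⟨1, 2, 4, 3, 4, 4, 1, 2, 2, 0, 1, 1⟩ = true ∧
      (Tree.leaf 116 14 13 5 1).ok 0 1 0 0 (UE1 (2, 0) E2) ⟨1, 2, 2, 1, 2, 2, 1, 2, 2, 0, 1, 1⟩ = true) ∧
    ((Tree.leaf 92 14 13 5 1).ok 0 1 0 0 (UE0 (1, 0) E3) ⟨0, 1, 2, 0, 1, 2, 0, 1, 1, 0, 1, 1⟩ = true ∧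
      (Tree.leaf 123 14 13 5 1).ok 0 1 0 0 (UE0 (1, 0) E3) ⟨0, 1, 8, 1, 2, 2, 0, 1, 2, 0, 1, 1⟩ = true ∧
      (Tree.leaf 125 14 13 5 1).ok 0 1 0 0 (UE0 (1, 0) E3) ⟨1, 2, 8, 1, 2, 2, 0, 1, 2, 0, 1, 1⟩ = true ∧
      (Tree.leaf 115 14 13 5 1).ok 0 1 0 0 (UE0 (1, 0) E3) ⟨1, 2, 4, 1, 2, 2, 0, 1, 2, 0, 1, 1⟩ = true ∧
      (Tree.leaf 112 14 13 5 1).ok 0 1 0 0 (UE0 (1, 0) E3) ⟨0, 1, 2, 2, 3, 4, 1, 2, 2, 0, 1, 1⟩ = true ∧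
      (Tree.leaf 115 14 13 5 1).ok 0 1 0 0 (UE0 (1, 0) E3) ⟨0, 1, 2, 3, 4, 4, 1, 2, 2, 0, 1, 1⟩ = true ∧
      (Tree.leaf 89 14 13 5 1).ok 0 1 0 0 (UE0 (1, 0) E3) ⟨1, 2, 2, 0, 1, 1, 0, 1, 1, 0, 1, 1⟩ = true) ∧
    ((Tree.leaf 88 14 13 5 1).ok 0 1 0 0 (UE1 (2, 0) E3) ⟨0, 1, 1, 0, 1, 2, 0, 1, 1, 0, 1, 1⟩ = true ∧
      (Tree.leaf 104 14 13 5 1).ok 0 1 0 0 (UE1 (2, 0) E3) ⟨0, 1, 1, 2, 3, 4, 0, 1, 1, 0, 1, 1⟩ = true ∧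
      (Tree.leaf 125 14 13 5 1).ok 0 1 0 0 (UE1 (2, 0) E3) ⟨0, 1, 2, 6, 7, 8, 0, 1, 1, 0, 1, 1⟩ = true ∧
      (Tree.leaf 136 14 13 5 1).ok 0 1 0 0 (UE1 (2, 0) E3) ⟨1, 2, 2, 6, 7, 8, 0, 1, 1, 0, 1, 1⟩ = true ∧
      (Tree.leaf 138 14 13 5 1).ok 0 1 0 0 (UE1 (2, 0) E3) ⟨0, 1, 2, 14, 15, 16, 0, 1, 1, 0, 1, 1⟩ = true ∧
      (Tree.leaf 139 14 13 5 1).ok 0 1 0 0 (UE1 (2, 0) E3) ⟨0, 1, 2, 15, 16, 16, 0, 1, 1, 0, 1, 1⟩ = true ∧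
      (Tree.leaf 141 14 13 5 1).ok 0 1 0 0 (UE1 (2, 0) E3) ⟨1, 2, 2, 7, 8, 8, 0, 1, 2, 0, 1, 1⟩ = true ∧
      (Tree.leaf 142 14 13 5 1).ok 0 1 0 0 (UE1 (2, 0) E3) ⟨1, 2, 2, 7, 8, 8, 1, 2, 2, 0, 1, 1⟩ = true) ∧
    ((Tree.leaf 125 14 14 6 6).ok 0 1 0 0 (G1E 0 D1 D p0 hh (1, 19) (1, 4) (271, 131071) (.q 361 399)) ⟨0, 1, 2, 0, 1, 2, 0, 1, 1, 0, 1, 2⟩ = true ∧
      (Tree.leaf 129 14 14 6 6).ok 0 1 0 0 (G1E 0 D1 D p0 hh (1, 19) (1, 4) (271, 131071) (.q 361 399)) ⟨1, 2, 2, 0, 1, 2, 0, 1, 1, 0, 1, 2⟩ = true ∧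
      (Tree.leaf 120 14 14 6 6).ok 0 1 0 0 (G1E 0 D1 D p0 hh (1, 19) (1, 4) (271, 131071) (.q 361 399)) ⟨0, 1, 1, 1, 2, 2, 0, 1, 1, 0, 1, 2⟩ = true ∧
      (Tree.leaf 125 14 14 6 6).ok 0 1 0 0 (G1E 0 D1 D p0 hh (1, 19) (1, 4) (271, 131071) (.q 361 399)) ⟨0, 1, 2, 0, 1, 2, 0, 1, 1, 1, 2, 2⟩ = true ∧
      (Tree.leaf 130 14 14 6 6).ok 0 1 0 0 (G1E 0 D1 D p0 hh (1, 19) (1, 4) (271, 131071) (.q 361 399)) ⟨1, 2, 2, 0, 1, 2, 0, 1, 1, 1, 2, 2⟩ = true ∧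
      (Tree.leaf 129 14 14 6 6).ok 0 1 0 0 (G1E 0 D1 D p0 hh (1, 19) (1, 4) (271, 131071) (.q 361 399)) ⟨0, 1, 2, 1, 2, 2, 0, 1, 1, 1, 2, 2⟩ = true ∧
      (Tree.leaf 139 14 14 6 6).ok 0 1 0 0 (G1E 0 D1 D p0 hh (1, 19) (1, 4) (271, 131071) (.q 361 399)) ⟨1, 2, 2, 1, 2, 2, 0, 1, 1, 1, 2, 2⟩ = true) ∧
    ((Tree.leaf 121 14 14 6 6).ok 0 1 0 0 (G1E 0 D1 D p0 hh (1, 19) (1, 4) (271, 131071) one') ⟨0, 1, 2, 0, 1, 2, 0, 1, 1, 0, 1, 2⟩ = true ∧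
      (Tree.leaf 125 14 14 6 6).ok 0 1 0 0 (G1E 0 D1 D p0 hh (1, 19) (1, 4) (271, 131071) one') ⟨1, 2, 2, 0, 1, 2, 0, 1, 1, 0, 1, 2⟩ = true ∧
      (Tree.leaf 115 14 14 6 6).ok 0 1 0 0 (G1E 0 D1 D p0 hh (1, 19) (1, 4) (271, 131071) one') ⟨0, 1, 1, 1, 2, 2, 0, 1, 1, 0, 1, 2⟩ = true ∧
      (Tree.leaf 121 14 14 6 6).ok 0 1 0 0 (G1E 0 D1 D p0 hh (1, 19) (1, 4) (271, 131071) one') ⟨0, 1, 2, 0, 1, 2, 0, 1, 1, 1, 2, 2⟩ = true ∧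
      (Tree.leaf 125 14 14 6 6).ok 0 1 0 0 (G1E 0 D1 D p0 hh (1, 19) (1, 4) (271, 131071) one') ⟨0, 1, 2, 1, 2, 2, 0, 1, 1, 1, 2, 2⟩ = true ∧
      (Tree.leaf 125 14 14 6 6).ok 0 1 0 0 (G1E 0 D1 D p0 hh (1, 19) (1, 4) (271, 131071) one') ⟨1, 2, 2, 0, 1, 2, 0, 1, 1, 1, 2, 2⟩ = true ∧
      (Tree.leaf 134 14 14 6 6).ok 0 1 0 0 (G1E 0 D1 D p0 hh (1, 19) (1, 4) (271, 131071) one') ⟨1, 2, 2, 1, 2, 2, 0, 1, 1, 1, 2, 2⟩ = true) ∧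
    ((Tree.leaf 130 14 14 6 6).ok 0 1 0 0 (G1E 1 D1 D p1 hh (1, 19) (1, 4) (271, 131071) (.q 361 399)) ⟨0, 1, 2, 0, 1, 2, 0, 1, 2, 0, 1, 2⟩ = true ∧
      (Tree.leaf 133 14 14 6 6).ok 0 1 0 0 (G1E 1 D1 D p1 hh (1, 19) (1, 4) (271, 131071) (.q 361 399)) ⟨0, 1, 2, 1, 2, 2, 0, 1, 2, 0, 1, 2⟩ = true ∧
      (Tree.leaf 124 14 14 6 6).ok 0 1 0 0 (G1E 1 D1 D p1 hh (1, 19) (1, 4) (271, 131071) (.q 361 399)) ⟨1, 2, 2, 0, 1, 1, 0, 1, 2, 0, 1, 2⟩ = true ∧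
      (Tree.leaf 119 14 14 6 6).ok 0 1 0 0 (G1E 1 D1 D p1 hh (1, 19) (1, 4) (271, 131071) (.q 361 399)) ⟨0, 1, 1, 0, 1, 2, 1, 2, 2, 0, 1, 2⟩ = true ∧
      (Tree.leaf 126 14 14 6 6).ok 0 1 0 0 (G1E 1 D1 D p1 hh (1, 19) (1, 4) (271, 131071) (.q 361 399)) ⟨0, 1, 1, 1, 2, 2, 1, 2, 2, 0, 1, 2⟩ = true ∧
      (Tree.leaf 118 14 14 6 6).ok 0 1 0 0 (G1E 1 D1 D p1 hh (1, 19) (1, 4) (271, 131071) (.q 361 399)) ⟨0, 1, 2, 0, 1, 1, 0, 1, 2, 1, 2, 2⟩ = true ∧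
      (Tree.leaf 126 14 14 6 6).ok 0 1 0 0 (G1E 1 D1 D p1 hh (1, 19) (1, 4) (271, 131071) (.q 361 399)) ⟨1, 2, 2, 0, 1, 1, 0, 1, 2, 1, 2, 2⟩ = true ∧
      (Tree.leaf 119 14 14 6 6).ok 0 1 0 0 (G1E 1 D1 D p1 hh (1, 19) (1, 4) (271, 131071) (.q 361 399)) ⟨0, 1, 2, 0, 1, 1, 1, 2, 2, 1, 2, 2⟩ = true ∧
      (Tree.leaf 127 14 14 6 6).ok 0 1 0 0 (G1E 1 D1 D p1 hh (1, 19) (1, 4) (271, 131071) (.q 361 399)) ⟨1, 2, 2, 0, 1, 1, 1, 2, 2, 1, 2, 2⟩ = true) ∧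
    ((Tree.leaf 125 14 14 6 6).ok 0 1 0 0 (G1E 1 D1 D p1 hh (1, 19) (1, 4) (271, 131071) one') ⟨0, 1, 2, 0, 1, 2, 0, 1, 2, 0, 1, 2⟩ = true ∧
      (Tree.leaf 128 14 14 6 6).ok 0 1 0 0 (G1E 1 D1 D p1 hh (1, 19) (1, 4) (271, 131071) one') ⟨0, 1, 2, 1, 2, 2, 0, 1, 2, 0, 1, 2⟩ = true ∧
      (Tree.leaf 120 14 14 6 6).ok 0 1 0 0 (G1E 1 D1 D p1 hh (1, 19) (1, 4) (271, 131071) one') ⟨1, 2, 2, 0, 1, 1, 0, 1, 2, 0, 1, 2⟩ = true ∧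
      (Tree.leaf 114 14 14 6 6).ok 0 1 0 0 (G1E 1 D1 D p1 hh (1, 19) (1, 4) (271, 131071) one') ⟨0, 1, 1, 0, 1, 2, 1, 2, 2, 0, 1, 2⟩ = true ∧
      (Tree.leaf 121 14 14 6 6).ok 0 1 0 0 (G1E 1 D1 D p1 hh (1, 19) (1, 4) (271, 131071) one') ⟨0, 1, 1, 1, 2, 2, 1, 2, 2, 0, 1, 2⟩ = true ∧
      (Tree.leaf 114 14 14 6 6).ok 0 1 0 0 (G1E 1 D1 D p1 hh (1, 19) (1, 4) (271, 131071) one') ⟨0, 1, 2, 0, 1, 1, 0, 1, 2, 1, 2, 2⟩ = true ∧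
      (Tree.leaf 121 14 14 6 6).ok 0 1 0 0 (G1E 1 D1 D p1 hh (1, 19) (1, 4) (271, 131071) one') ⟨1, 2, 2, 0, 1, 1, 0, 1, 2, 1, 2, 2⟩ = true ∧
      (Tree.leaf 114 14 14 6 6).ok 0 1 0 0 (G1E 1 D1 D p1 hh (1, 19) (1, 4) (271, 131071) one') ⟨0, 1, 2, 0, 1, 1, 1, 2, 2, 1, 2, 2⟩ = true ∧
      (Tree.leaf 123 14 14 6 6).ok 0 1 0 0 (G1E 1 D1 D p1 hh (1, 19) (1, 4) (271, 131071) one') ⟨1, 2, 2, 0, 1, 1, 1, 2, 2, 1, 2, 2⟩ = true) ∧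
    ((Tree.leaf 125 14 14 6 6).ok 0 1 0 0 (G1E 2 D1 D p2 hh (1, 19) (1, 4) (271, 131071) (.q 361 399)) ⟨0, 1, 2, 0, 1, 2, 0, 1, 1, 0, 1, 2⟩ = true ∧
      (Tree.leaf 128 14 14 6 6).ok 0 1 0 0 (G1E 2 D1 D p2 hh (1, 19) (1, 4) (271, 131071) (.q 361 399)) ⟨0, 1, 2, 1, 2, 2, 0, 1, 1, 0, 1, 2⟩ = true ∧
      (Tree.leaf 125 14 14 6 6).ok 0 1 0 0 (G1E 2 D1 D p2 hh (1, 19) (1, 4) (271, 131071) (.q 361 399)) ⟨0, 1, 2, 0, 1, 2, 0, 1, 1, 1, 2, 2⟩ = true ∧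
      (Tree.leaf 130 14 14 6 6).ok 0 1 0 0 (G1E 2 D1 D p2 hh (1, 19) (1, 4) (271, 131071) (.q 361 399)) ⟨0, 1, 2, 1, 2, 2, 0, 1, 1, 1, 2, 2⟩ = true ∧
      (Tree.leaf 129 14 14 6 6).ok 0 1 0 0 (G1E 2 D1 D p2 hh (1, 19) (1, 4) (271, 131071) (.q 361 399)) ⟨1, 2, 2, 0, 1, 2, 0, 1, 2, 0, 1, 1⟩ = true ∧
      (Tree.leaf 130 14 14 6 6).ok 0 1 0 0 (G1E 2 D1 D p2 hh (1, 19) (1, 4) (271, 131071) (.q 361 399)) ⟨1, 2, 2, 0, 1, 2, 1, 2, 2, 0, 1, 1⟩ = true ∧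
      (Tree.leaf 144 14 14 6 6).ok 0 1 0 0 (G1E 2 D1 D p2 hh (1, 19) (1, 4) (271, 131071) (.q 361 399)) ⟨1, 2, 2, 2, 3, 4, 0, 1, 1, 0, 1, 1⟩ = true ∧
      (Tree.leaf 149 14 14 6 6).ok 0 1 0 0 (G1E 2 D1 D p2 hh (1, 19) (1, 4) (271, 131071) (.q 361 399)) ⟨1, 2, 2, 3, 4, 4, 0, 1, 1, 0, 1, 1⟩ = true) ∧
    ((Tree.leaf 120 14 14 6 6).ok 0 1 0 0 (G1E 2 D1 D p2 hh (1, 19) (1, 4) (271, 131071) one') ⟨0, 1, 2, 0, 1, 2, 0, 1, 1, 0, 1, 2⟩ = true ∧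
      (Tree.leaf 124 14 14 6 6).ok 0 1 0 0 (G1E 2 D1 D p2 hh (1, 19) (1, 4) (271, 131071) one') ⟨0, 1, 2, 1, 2, 2, 0, 1, 1, 0, 1, 2⟩ = true ∧
      (Tree.leaf 120 14 14 6 6).ok 0 1 0 0 (G1E 2 D1 D p2 hh (1, 19) (1, 4) (271, 131071) one') ⟨0, 1, 2, 0, 1, 2, 0, 1, 1, 1, 2, 2⟩ = true ∧
      (Tree.leaf 125 14 14 6 6).ok 0 1 0 0 (G1E 2 D1 D p2 hh (1, 19) (1, 4) (271, 131071) one') ⟨0, 1, 2, 1, 2, 2, 0, 1, 1, 1, 2, 2⟩ = true ∧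
      (Tree.leaf 124 14 14 6 6).ok 0 1 0 0 (G1E 2 D1 D p2 hh (1, 19) (1, 4) (271, 131071) one') ⟨1, 2, 2, 0, 1, 2, 0, 1, 2, 0, 1, 1⟩ = true ∧
      (Tree.leaf 125 14 14 6 6).ok 0 1 0 0 (G1E 2 D1 D p2 hh (1, 19) (1, 4) (271, 131071) one') ⟨1, 2, 2, 0, 1, 2, 1, 2, 2, 0, 1, 1⟩ = true ∧
      (Tree.leaf 129 14 14 6 6).ok 0 1 0 0 (G1E 2 D1 D p2 hh (1, 19) (1, 4) (271, 131071) one') ⟨1, 2, 2, 1, 2, 2, 0, 1, 1, 0, 1, 1⟩ = true) ∧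
    ((Tree.leaf 130 14 14 6 6).ok 0 1 0 0 (G1E 3 D1 D p3 hh (1, 19) (1, 4) (271, 131071) (.q 361 399)) ⟨0, 1, 2, 0, 1, 2, 0, 1, 2, 0, 1, 2⟩ = true ∧
      (Tree.leaf 133 14 14 6 6).ok 0 1 0 0 (G1E 3 D1 D p3 hh (1, 19) (1, 4) (271, 131071) (.q 361 399)) ⟨0, 1, 2, 1, 2, 2, 0, 1, 2, 0, 1, 2⟩ = true ∧
      (Tree.leaf 124 14 14 6 6).ok 0 1 0 0 (G1E 3 D1 D p3 hh (1, 19) (1, 4) (271, 131071) (.q 361 399)) ⟨1, 2, 2, 0, 1, 1, 0, 1, 2, 0, 1, 2⟩ = true ∧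
      (Tree.leaf 119 14 14 6 6).ok 0 1 0 0 (G1E 3 D1 D p3 hh (1, 19) (1, 4) (271, 131071) (.q 361 399)) ⟨0, 1, 1, 0, 1, 2, 1, 2, 2, 0, 1, 2⟩ = true ∧
      (Tree.leaf 126 14 14 6 6).ok 0 1 0 0 (G1E 3 D1 D p3 hh (1, 19) (1, 4) (271, 131071) (.q 361 399)) ⟨0, 1, 1, 1, 2, 2, 1, 2, 2, 0, 1, 2⟩ = true ∧
      (Tree.leaf 118 14 14 6 6).ok 0 1 0 0 (G1E 3 D1 D p3 hh (1, 19) (1, 4) (271, 131071) (.q 361 399)) ⟨0, 1, 2, 0, 1, 1, 0, 1, 2, 1, 2, 2⟩ = true ∧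
      (Tree.leaf 126 14 14 6 6).ok 0 1 0 0 (G1E 3 D1 D p3 hh (1, 19) (1, 4) (271, 131071) (.q 361 399)) ⟨1, 2, 2, 0, 1, 1, 0, 1, 2, 1, 2, 2⟩ = true ∧
      (Tree.leaf 119 14 14 6 6).ok 0 1 0 0 (G1E 3 D1 D p3 hh (1, 19) (1, 4) (271, 131071) (.q 361 399)) ⟨0, 1, 1, 0, 1, 2, 1, 2, 2, 1, 2, 2⟩ = true ∧
      (Tree.leaf 127 14 14 6 6).ok 0 1 0 0 (G1E 3 D1 D p3 hh (1, 19) (1, 4) (271, 131071) (.q 361 399)) ⟨0, 1, 1, 1, 2, 2, 1, 2, 2, 1, 2, 2⟩ = true) ∧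
    ((Tree.leaf 125 14 14 6 6).ok 0 1 0 0 (G1E 3 D1 D p3 hh (1, 19) (1, 4) (271, 131071) one') ⟨0, 1, 2, 0, 1, 2, 0, 1, 2, 0, 1, 2⟩ = true ∧
      (Tree.leaf 128 14 14 6 6).ok 0 1 0 0 (G1E 3 D1 D p3 hh (1, 19) (1, 4) (271, 131071) one') ⟨0, 1, 2, 1, 2, 2, 0, 1, 2, 0, 1, 2⟩ = true ∧
      (Tree.leaf 120 14 14 6 6).ok 0 1 0 0 (G1E 3 D1 D p3 hh (1, 19) (1, 4) (271, 131071) one') ⟨1, 2, 2, 0, 1, 1, 0, 1, 2, 0, 1, 2⟩ = true ∧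
      (Tree.leaf 114 14 14 6 6).ok 0 1 0 0 (G1E 3 D1 D p3 hh (1, 19) (1, 4) (271, 131071) one') ⟨0, 1, 1, 0, 1, 2, 1, 2, 2, 0, 1, 2⟩ = true ∧
      (Tree.leaf 121 14 14 6 6).ok 0 1 0 0 (G1E 3 D1 D p3 hh (1, 19) (1, 4) (271, 131071) one') ⟨0, 1, 1, 1, 2, 2, 1, 2, 2, 0, 1, 2⟩ = true ∧
      (Tree.leaf 121 14 14 6 6).ok 0 1 0 0 (G1E 3 D1 D p3 hh (1, 19) (1, 4) (271, 131071) one') ⟨0, 1, 2, 0, 1, 2, 0, 1, 1, 1, 2, 2⟩ = true ∧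
      (Tree.leaf 125 14 14 6 6).ok 0 1 0 0 (G1E 3 D1 D p3 hh (1, 19) (1, 4) (271, 131071) one') ⟨1, 2, 2, 0, 1, 2, 0, 1, 1, 1, 2, 2⟩ = true ∧
      (Tree.leaf 117 14 14 6 6).ok 0 1 0 0 (G1E 3 D1 D p3 hh (1, 19) (1, 4) (271, 131071) one') ⟨0, 1, 1, 1, 2, 2, 0, 1, 1, 1, 2, 2⟩ = true) ∧
    ((Tree.leaf 148 15 16 6 1).ok 0 1 0 0 (S0E (1, 19) r0 rs0) ⟨0, 1, 1, 0, 1, 4, 0, 1, 2, 0, 1, 1⟩ = true ∧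
      (Tree.leaf 158 15 16 6 1).ok 0 1 0 0 (S0E (1, 19) r0 rs0) ⟨0, 1, 1, 1, 2, 4, 0, 1, 2, 0, 1, 1⟩ = true ∧
      (Tree.leaf 152 15 16 6 1).ok 0 1 0 0 (S0E (1, 19) r0 rs0) ⟨0, 1, 1, 1, 2, 2, 0, 1, 2, 0, 1, 1⟩ = true ∧
      (Tree.leaf 144 15 16 6 1).ok 0 1 0 0 (S0E (1, 19) r0 rs0) ⟨0, 1, 1, 0, 1, 2, 2, 3, 4, 0, 1, 1⟩ = true ∧
      (Tree.leaf 159 15 16 6 1).ok 0 1 0 0 (S0E (1, 19) r0 rs0) ⟨0, 1, 1, 1, 2, 2, 2, 3, 4, 0, 1, 1⟩ = true ∧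
      (Tree.leaf 138 15 16 6 1).ok 0 1 0 0 (S0E (1, 19) r0 rs0) ⟨0, 1, 1, 0, 1, 1, 3, 4, 4, 0, 1, 1⟩ = true) ∧
    ((Tree.leaf 130 12 13 5 1).ok 0 1 0 0 (S1E (1, 19) (20, 0) D1 E3 r1 rs1 p0 p1 p2 p3) ⟨0, 1, 1, 0, 1, 2, 0, 1, 2, 0, 1, 1⟩ = true ∧
      (Tree.leaf 144 12 13 5 1).ok 0 1 0 0 (S1E (1, 19) (20, 0) D1 E3 r1 rs1 p0 p1 p2 p3) ⟨0, 1, 1, 2, 3, 4, 0, 1, 2, 0, 1, 1⟩ = true ∧
      (Tree.leaf 147 12 13 5 1).ok 0 1 0 0 (S1E (1, 19) (20, 0) D1 E3 r1 rs1 p0 p1 p2 p3) ⟨0, 1, 1, 3, 4, 4, 0, 1, 2, 0, 1, 1⟩ = true ∧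
      (Tree.leaf 120 12 13 5 1).ok 0 1 0 0 (S1E (1, 19) (20, 0) D1 E3 r1 rs1 p0 p1 p2 p3) ⟨0, 1, 1, 0, 1, 1, 1, 2, 2, 0, 1, 1⟩ = true) ∧
    ((Tree.leaf 54 16 1 6 1).ok 0 1 0 0 (RE D0 (0, 0)) ⟨0, 1, 1, 0, 1, 1, 0, 1, 1, 0, 1, 1⟩ = true) ∧
    ((Tree.leaf 52 13 1 5 1).ok 0 1 0 0 (RE D1 (0, 0)) ⟨0, 1, 1, 0, 1, 1, 0, 1, 1, 0, 1, 1⟩ = true) ∧
    ((Tree.leaf 51 13 1 5 1).ok 0 1 0 0 (RE E3 (0, 0)) ⟨0, 1, 1, 0, 1, 1, 0, 1, 1, 0, 1, 1⟩ = true) :=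
  ⟨⟨by decide +kernel, by decide +kernel, by decide +kernel, by decide +kernel, by decide +kernel, by decide +kernel, by decide +kernel⟩,
   ⟨by decide +kernel, by decide +kernel, by decide +kernel, by decide +kernel, by decide +kernel, by decide +kernel, by decide +kernel, by decide +kernel⟩,
   ⟨by decide +kernel, by decide +kernel, by decide +kernel, by decide +kernel, by decide +kernel⟩,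
   ⟨by decide +kernel, by decide +kernel, by decide +kernel, by decide +kernel, by decide +kernel, by decide +kernel, by decide +kernel, by decide +kernel, by decide +kernel, by decide +kernel⟩,
   ⟨by decide +kernel, by decide +kernel, by decide +kernel, by decide +kernel, by decide +kernel, by decide +kernel, by decide +kernel, by decide +kernel⟩,
   ⟨by decide +kernel, by decide +kernel, by decide +kernel, by decide +kernel, by decide +kernel, by decide +kernel, by decide +kernel, by decide +kernel, by decide +kernel⟩,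
   ⟨by decide +kernel, by decide +kernel, by decide +kernel, by decide +kernel, by decide +kernel, by decide +kernel, by decide +kernel, by decide +kernel⟩,
   ⟨by decide +kernel, by decide +kernel, by decide +kernel, by decide +kernel, by decide +kernel, by decide +kernel, by decide +kernel, by decide +kernel⟩,
   ⟨by decide +kernel, by decide +kernel, by decide +kernel, by decide +kernel, by decide +kernel⟩,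
   ⟨by decide +kernel, by decide +kernel, by decide +kernel, by decide +kernel, by decide +kernel, by decide +kernel, by decide +kernel, by decide +kernel, by decide +kernel, by decide +kernel, by decide +kernel, by decide +kernel⟩,
   ⟨by decide +kernel, by decide +kernel, by decide +kernel, by decide +kernel, by decide +kernel, by decide +kernel, by decide +kernel⟩,
   ⟨by decide +kernel, by decide +kernel, by decide +kernel, by decide +kernel, by decide +kernel, by decide +kernel, by decide +kernel, by decide +kernel, by decide +kernel, by decide +kernel⟩,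
   ⟨by decide +kernel, by decide +kernel, by decide +kernel, by decide +kernel, by decide +kernel, by decide +kernel, by decide +kernel⟩,
   ⟨by decide +kernel, by decide +kernel, by decide +kernel, by decide +kernel, by decide +kernel, by decide +kernel, by decide +kernel, by decide +kernel⟩,
   ⟨by decide +kernel, by decide +kernel, by decide +kernel, by decide +kernel, by decide +kernel, by decide +kernel, by decide +kernel⟩,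
   ⟨by decide +kernel, by decide +kernel, by decide +kernel, by decide +kernel, by decide +kernel, by decide +kernel, by decide +kernel⟩,
   ⟨by decide +kernel, by decide +kernel, by decide +kernel, by decide +kernel, by decide +kernel, by decide +kernel, by decide +kernel, by decide +kernel, by decide +kernel⟩,
   ⟨by decide +kernel, by decide +kernel, by decide +kernel, by decide +kernel, by decide +kernel, by decide +kernel, by decide +kernel, by decide +kernel, by decide +kernel⟩,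
   ⟨by decide +kernel, by decide +kernel, by decide +kernel, by decide +kernel, by decide +kernel, by decide +kernel, by decide +kernel, by decide +kernel⟩,
   ⟨by decide +kernel, by decide +kernel, by decide +kernel, by decide +kernel, by decide +kernel, by decide +kernel, by decide +kernel⟩,
   ⟨by decide +kernel, by decide +kernel, by decide +kernel, by decide +kernel, by decide +kernel, by decide +kernel, by decide +kernel, by decide +kernel, by decide +kernel⟩,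
   ⟨by decide +kernel, by decide +kernel, by decide +kernel, by decide +kernel, by decide +kernel, by decide +kernel, by decide +kernel, by decide +kernel⟩,
   ⟨by decide +kernel, by decide +kernel, by decide +kernel, by decide +kernel, by decide +kernel, by decide +kernel⟩,
   ⟨by decide +kernel, by decide +kernel, by decide +kernel, by decide +kernel⟩,
   by decide +kernel,
   by decide +kernel,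
   by decide +kernel⟩

def t_a0 : Tree := (.s2 (.s0 (.s1 (.leaf 125 16 16 6 6) (.leaf 132 16 16 6 6)) (.s0 (.leaf 135 16 16 6 6) (.leaf 139 16 16 6 6))) (.s1 (.leaf 113 16 16 6 6) (.s1 (.leaf 136 16 16 6 6) (.leaf 141 16 16 6 6))))
theorem a0 : t_a0.ok 0 1 0 0 (A0E D0 hh) unitBx = true :=
  (Tree.ok_s2 (Tree.ok_s0 (Tree.ok_s1 lv.1.1 lv.1.2.1) (Tree.ok_s0 lv.1.2.2.1 lv.1.2.2.2.1)) (Tree.ok_s1 lv.1.2.2.2.2.1 (Tree.ok_s1 lv.1.2.2.2.2.2.1 lv.1.2.2.2.2.2.2)))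

def t_a1 : Tree := (.s3 (.s2 (.s0 (.leaf 111 14 14 6 6) (.leaf 117 14 14 6 6)) (.leaf 102 14 14 6 6)) (.s2 (.leaf 102 14 14 6 6) (.s0 (.s1 (.leaf 123 14 14 6 6) (.leaf 128 14 14 6 6)) (.s1 (.leaf 128 14 14 6 6) (.leaf 138 14 14 6 6)))))
theorem a1 : t_a1.ok 0 1 0 0 (A1E D1) unitBx = true :=
  (Tree.ok_s3 (Tree.ok_s2 (Tree.ok_s0 lv.2.1.1 lv.2.1.2.1) lv.2.1.2.2.1) (Tree.ok_s2 lv.2.1.2.2.2.1 (Tree.ok_s0 (Tree.ok_s1 lv.2.1.2.2.2.2.1 lv.2.1.2.2.2.2.2.1) (Tree.ok_s1 lv.2.1.2.2.2.2.2.2.1 lv.2.1.2.2.2.2.2.2.2))))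

def t_u0 : Tree := (.s0 (.s1 (.s0 (.leaf 118 17 16 6 1) (.s0 (.leaf 138 17 16 6 1) (.leaf 140 17 16 6 1))) (.leaf 111 17 16 6 1)) (.leaf 101 17 16 6 1))
theorem u0 : t_u0.ok 0 1 0 0 (UE0 (1, 0) D0) unitBx = true :=
  (Tree.ok_s0 (Tree.ok_s1 (Tree.ok_s0 lv.2.2.1.1 (Tree.ok_s0 lv.2.2.1.2.1 lv.2.2.1.2.2.1)) lv.2.2.1.2.2.2.1) lv.2.2.1.2.2.2.2)

def t_v0 : Tree := (.s1 (.s0 (.s0 (.leaf 121 17 16 6 1) (.leaf 129 17 16 6 1)) (.leaf 121 17 16 6 1)) (.s1 (.s0 (.s0 (.leaf 140 17 16 6 1) (.leaf 149 17 16 6 1)) (.leaf 141 17 16 6 1)) (.s1 (.s0 (.leaf 147 17 16 6 1) (.leaf 159 17 16 6 1)) (.s2 (.leaf 144 17 16 6 1) (.leaf 146 17 16 6 1)))))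
theorem v0 : t_v0.ok 0 1 0 0 (UE1 (2, 0) D0) unitBx = true :=
  (Tree.ok_s1 (Tree.ok_s0 (Tree.ok_s0 lv.2.2.2.1.1 lv.2.2.2.1.2.1) lv.2.2.2.1.2.2.1) (Tree.ok_s1 (Tree.ok_s0 (Tree.ok_s0 lv.2.2.2.1.2.2.2.1 lv.2.2.2.1.2.2.2.2.1) lv.2.2.2.1.2.2.2.2.2.1) (Tree.ok_s1 (Tree.ok_s0 lv.2.2.2.1.2.2.2.2.2.2.1 lv.2.2.2.1.2.2.2.2.2.2.2.1) (Tree.ok_s2 lv.2.2.2.1.2.2.2.2.2.2.2.2.1 lv.2.2.2.1.2.2.2.2.2.2.2.2.2))))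

def t_u1 : Tree := (.s0 (.s1 (.s0 (.s0 (.s1 (.leaf 128 14 13 5 1) (.leaf 129 14 13 5 1)) (.s1 (.leaf 129 14 13 5 1) (.leaf 130 14 13 5 1))) (.leaf 107 14 13 5 1)) (.s0 (.leaf 108 14 13 5 1) (.leaf 112 14 13 5 1))) (.leaf 89 14 13 5 1))
theorem u1 : t_u1.ok 0 1 0 0 (UE0 (1, 0) D1) unitBx = true :=
  (Tree.ok_s0 (Tree.ok_s1 (Tree.ok_s0 (Tree.ok_s0 (Tree.ok_s1 lv.2.2.2.2.1.1 lv.2.2.2.2.1.2.1) (Tree.ok_s1 lv.2.2.2.2.1.2.2.1 lv.2.2.2.2.1.2.2.2.1)) lv.2.2.2.2.1.2.2.2.2.1) (Tree.ok_s0 lv.2.2.2.2.1.2.2.2.2.2.1 lv.2.2.2.2.1.2.2.2.2.2.2.1)) lv.2.2.2.2.1.2.2.2.2.2.2.2)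

def t_v1 : Tree := (.s1 (.leaf 88 14 13 5 1) (.s1 (.s0 (.s0 (.leaf 121 14 13 5 1) (.leaf 128 14 13 5 1)) (.leaf 122 14 13 5 1)) (.s0 (.s0 (.leaf 123 14 13 5 1) (.leaf 131 14 13 5 1)) (.s1 (.leaf 136 14 13 5 1) (.s2 (.leaf 141 14 13 5 1) (.leaf 142 14 13 5 1))))))
theorem v1 : t_v1.ok 0 1 0 0 (UE1 (2, 0) D1) unitBx = true :=
  (Tree.ok_s1 lv.2.2.2.2.2.1.1 (Tree.ok_s1 (Tree.ok_s0 (Tree.ok_s0 lv.2.2.2.2.2.1.2.1 lv.2.2.2.2.2.1.2.2.1) lv.2.2.2.2.2.1.2.2.2.1) (Tree.ok_s0 (Tree.ok_s0 lv.2.2.2.2.2.1.2.2.2.2.1 lv.2.2.2.2.2.1.2.2.2.2.2.1) (Tree.ok_s1 lv.2.2.2.2.2.1.2.2.2.2.2.2.1 (Tree.ok_s2 lv.2.2.2.2.2.1.2.2.2.2.2.2.2.1 lv.2.2.2.2.2.1.2.2.2.2.2.2.2.2)))))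

def t_u2 : Tree := (.s0 (.s1 (.s0 (.s1 (.leaf 115 14 13 5 1) (.s0 (.leaf 129 14 13 5 1) (.leaf 130 14 13 5 1))) (.leaf 106 14 13 5 1)) (.s0 (.s0 (.leaf 120 14 13 5 1) (.leaf 122 14 13 5 1)) (.leaf 112 14 13 5 1))) (.leaf 89 14 13 5 1))
theorem u2 : t_u2.ok 0 1 0 0 (UE0 (1, 0) E0) unitBx = true :=
  (Tree.ok_s0 (Tree.ok_s1 (Tree.ok_s0 (Tree.ok_s1 lv.2.2.2.2.2.2.1.1 (Tree.ok_s0 lv.2.2.2.2.2.2.1.2.1 lv.2.2.2.2.2.2.1.2.2.1)) lv.2.2.2.2.2.2.1.2.2.2.1) (Tree.ok_s0 (Tree.ok_s0 lv.2.2.2.2.2.2.1.2.2.2.2.1 lv.2.2.2.2.2.2.1.2.2.2.2.2.1) lv.2.2.2.2.2.2.1.2.2.2.2.2.2.1)) lv.2.2.2.2.2.2.1.2.2.2.2.2.2.2)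

def t_v2 : Tree := (.s1 (.leaf 88 14 13 5 1) (.s1 (.s0 (.s0 (.leaf 120 14 13 5 1) (.leaf 127 14 13 5 1)) (.leaf 122 14 13 5 1)) (.s2 (.s2 (.leaf 114 14 13 5 1) (.leaf 115 14 13 5 1)) (.s0 (.leaf 119 14 13 5 1) (.leaf 129 14 13 5 1)))))
theorem v2 : t_v2.ok 0 1 0 0 (UE1 (2, 0) E0) unitBx = true :=
  (Tree.ok_s1 lv.2.2.2.2.2.2.2.1.1 (Tree.ok_s1 (Tree.ok_s0 (Tree.ok_s0 lv.2.2.2.2.2.2.2.1.2.1 lv.2.2.2.2.2.2.2.1.2.2.1) lv.2.2.2.2.2.2.2.1.2.2.2.1) (Tree.ok_s2 (Tree.ok_s2 lv.2.2.2.2.2.2.2.1.2.2.2.2.1 lv.2.2.2.2.2.2.2.1.2.2.2.2.2.1) (Tree.ok_s0 lv.2.2.2.2.2.2.2.1.2.2.2.2.2.2.1 lv.2.2.2.2.2.2.2.1.2.2.2.2.2.2.2))))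

def t_u3 : Tree := (.s0 (.s1 (.leaf 92 14 13 5 1) (.s0 (.leaf 108 14 13 5 1) (.s0 (.leaf 124 14 13 5 1) (.leaf 126 14 13 5 1)))) (.leaf 89 14 13 5 1))
theorem u3 : t_u3.ok 0 1 0 0 (UE0 (1, 0) E1) unitBx = true :=
  (Tree.ok_s0 (Tree.ok_s1 lv.2.2.2.2.2.2.2.2.1.1 (Tree.ok_s0 lv.2.2.2.2.2.2.2.2.1.2.1 (Tree.ok_s0 lv.2.2.2.2.2.2.2.2.1.2.2.1 lv.2.2.2.2.2.2.2.2.1.2.2.2.1))) lv.2.2.2.2.2.2.2.2.1.2.2.2.2)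

def t_v3 : Tree := (.s1 (.s0 (.leaf 95 14 13 5 1) (.leaf 106 14 13 5 1)) (.s1 (.s0 (.leaf 111 14 13 5 1) (.leaf 122 14 13 5 1)) (.s1 (.s0 (.leaf 125 14 13 5 1) (.leaf 136 14 13 5 1)) (.s1 (.s0 (.leaf 138 14 13 5 1) (.leaf 149 14 13 5 1)) (.s0 (.leaf 139 14 13 5 1) (.s1 (.leaf 162 14 13 5 1) (.s2 (.leaf 165 14 13 5 1) (.leaf 167 14 13 5 1))))))))
theorem v3 : t_v3.ok 0 1 0 0 (UE1 (2, 0) E1) unitBx = true :=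
  (Tree.ok_s1 (Tree.ok_s0 lv.2.2.2.2.2.2.2.2.2.1.1 lv.2.2.2.2.2.2.2.2.2.1.2.1) (Tree.ok_s1 (Tree.ok_s0 lv.2.2.2.2.2.2.2.2.2.1.2.2.1 lv.2.2.2.2.2.2.2.2.2.1.2.2.2.1) (Tree.ok_s1 (Tree.ok_s0 lv.2.2.2.2.2.2.2.2.2.1.2.2.2.2.1 lv.2.2.2.2.2.2.2.2.2.1.2.2.2.2.2.1) (Tree.ok_s1 (Tree.ok_s0 lv.2.2.2.2.2.2.2.2.2.1.2.2.2.2.2.2.1 lv.2.2.2.2.2.2.2.2.2.1.2.2.2.2.2.2.2.1) (Tree.ok_s0 lv.2.2.2.2.2.2.2.2.2.1.2.2.2.2.2.2.2.2.1 (Tree.ok_s1 lv.2.2.2.2.2.2.2.2.2.1.2.2.2.2.2.2.2.2.2.1 (Tree.ok_s2 lv.2.2.2.2.2.2.2.2.2.1.2.2.2.2.2.2.2.2.2.2.1 lv.2.2.2.2.2.2.2.2.2.1.2.2.2.2.2.2.2.2.2.2.2)))))))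

def t_u4 : Tree := (.s0 (.s1 (.s0 (.s0 (.leaf 116 14 13 5 1) (.leaf 117 14 13 5 1)) (.leaf 107 14 13 5 1)) (.s0 (.s0 (.leaf 120 14 13 5 1) (.leaf 122 14 13 5 1)) (.leaf 112 14 13 5 1))) (.leaf 89 14 13 5 1))
theorem u4 : t_u4.ok 0 1 0 0 (UE0 (1, 0) E2) unitBx = true :=
  (Tree.ok_s0 (Tree.ok_s1 (Tree.ok_s0 (Tree.ok_s0 lv.2.2.2.2.2.2.2.2.2.2.1.1 lv.2.2.2.2.2.2.2.2.2.2.1.2.1) lv.2.2.2.2.2.2.2.2.2.2.1.2.2.1) (Tree.ok_s0 (Tree.ok_s0 lv.2.2.2.2.2.2.2.2.2.2.1.2.2.2.1 lv.2.2.2.2.2.2.2.2.2.2.1.2.2.2.2.1) lv.2.2.2.2.2.2.2.2.2.2.1.2.2.2.2.2.1)) lv.2.2.2.2.2.2.2.2.2.2.1.2.2.2.2.2.2)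

def t_v4 : Tree := (.s1 (.leaf 88 14 13 5 1) (.s2 (.s2 (.s2 (.leaf 105 14 13 5 1) (.leaf 105 14 13 5 1)) (.leaf 102 14 13 5 1)) (.s0 (.s0 (.s1 (.leaf 125 14 13 5 1) (.s0 (.leaf 139 14 13 5 1) (.leaf 143 14 13 5 1))) (.s1 (.leaf 132 14 13 5 1) (.leaf 135 14 13 5 1))) (.leaf 116 14 13 5 1))))
theorem v4 : t_v4.ok 0 1 0 0 (UE1 (2, 0) E2) unitBx = true :=
  (Tree.ok_s1 lv.2.2.2.2.2.2.2.2.2.2.2.1.1 (Tree.ok_s2 (Tree.ok_s2 (Tree.ok_s2 lv.2.2.2.2.2.2.2.2.2.2.2.1.2.1 lv.2.2.2.2.2.2.2.2.2.2.2.1.2.2.1) lv.2.2.2.2.2.2.2.2.2.2.2.1.2.2.2.1) (Tree.ok_s0 (Tree.ok_s0 (Tree.ok_s1 lv.2.2.2.2.2.2.2.2.2.2.2.1.2.2.2.2.1 (Tree.ok_s0 lv.2.2.2.2.2.2.2.2.2.2.2.1.2.2.2.2.2.1 lv.2.2.2.2.2.2.2.2.2.2.2.1.2.2.2.2.2.2.1)) (Tree.ok_s1 lv.2.2.2.2.2.2.2.2.2.2.2.1.2.2.2.2.2.2.2.1 lv.2.2.2.2.2.2.2.2.2.2.2.1.2.2.2.2.2.2.2.2.1))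 lv.2.2.2.2.2.2.2.2.2.2.2.1.2.2.2.2.2.2.2.2.2)))

def t_u5 : Tree := (.s0 (.s1 (.leaf 92 14 13 5 1) (.s2 (.s0 (.s0 (.leaf 123 14 13 5 1) (.leaf 125 14 13 5 1)) (.leaf 115 14 13 5 1)) (.s1 (.leaf 112 14 13 5 1) (.leaf 115 14 13 5 1)))) (.leaf 89 14 13 5 1))
theorem u5 : t_u5.ok 0 1 0 0 (UE0 (1, 0) E3) unitBx = true :=
  (Tree.ok_s0 (Tree.ok_s1 lv.2.2.2.2.2.2.2.2.2.2.2.2.1.1 (Tree.ok_s2 (Tree.ok_s0 (Tree.ok_s0 lv.2.2.2.2.2.2.2.2.2.2.2.2.1.2.1 lv.2.2.2.2.2.2.2.2.2.2.2.2.1.2.2.1) lv.2.2.2.2.2.2.2.2.2.2.2.2.1.2.2.2.1) (Tree.ok_s1 lv.2.2.2.2.2.2.2.2.2.2.2.2.1.2.2.2.2.1 lv.2.2.2.2.2.2.2.2.2.2.2.2.1.2.2.2.2.2.1))) lv.2.2.2.2.2.2.2.2.2.2.2.2.1.2.2.2.2.2.2)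

def t_v5 : Tree := (.s1 (.leaf 88 14 13 5 1) (.s1 (.leaf 104 14 13 5 1) (.s1 (.s0 (.leaf 125 14 13 5 1) (.leaf 136 14 13 5 1)) (.s0 (.s1 (.leaf 138 14 13 5 1) (.leaf 139 14 13 5 1)) (.s2 (.leaf 141 14 13 5 1) (.leaf 142 14 13 5 1))))))
theorem v5 : t_v5.ok 0 1 0 0 (UE1 (2, 0) E3) unitBx = true :=
  (Tree.ok_s1 lv.2.2.2.2.2.2.2.2.2.2.2.2.2.1.1 (Tree.ok_s1 lv.2.2.2.2.2.2.2.2.2.2.2.2.2.1.2.1 (Tree.ok_s1 (Tree.ok_s0 lv.2.2.2.2.2.2.2.2.2.2.2.2.2.1.2.2.1 lv.2.2.2.2.2.2.2.2.2.2.2.2.2.1.2.2.2.1) (Tree.ok_s0 (Tree.ok_s1 lv.2.2.2.2.2.2.2.2.2.2.2.2.2.1.2.2.2.2.1 lv.2.2.2.2.2.2.2.2.2.2.2.2.2.1.2.2.2.2.2.1) (Tree.ok_s2 lv.2.2.2.2.2.2.2.2.2.2.2.2.2.1.2.2.2.2.2.2.1 lv.2.2.2.2.2.2.2.2.2.2.2.2.2.1.2.2.2.2.2.2.2)))))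

def t_g00 : Tree := (.s3 (.s1 (.s0 (.leaf 125 14 14 6 6) (.leaf 129 14 14 6 6)) (.leaf 120 14 14 6 6)) (.s1 (.s0 (.leaf 125 14 14 6 6) (.leaf 130 14 14 6 6)) (.s0 (.leaf 129 14 14 6 6) (.leaf 139 14 14 6 6))))
theorem g00 : t_g00.ok 0 1 0 0 (G1E 0 D1 D p0 hh (1, 19) (1, 4) (271, 131071) (.q 361 399)) unitBx = true :=
  (Tree.ok_s3 (Tree.ok_s1 (Tree.ok_s0 lv.2.2.2.2.2.2.2.2.2.2.2.2.2.2.1.1 lv.2.2.2.2.2.2.2.2.2.2.2.2.2.2.1.2.1) lv.2.2.2.2.2.2.2.2.2.2.2.2.2.2.1.2.2.1) (Tree.ok_s1 (Tree.ok_s0 lv.2.2.2.2.2.2.2.2.2.2.2.2.2.2.1.2.2.2.1 lv.2.2.2.2.2.2.2.2.2.2.2.2.2.2.1.2.2.2.2.1) (Tree.ok_s0 lv.2.2.2.2.2.2.2.2.2.2.2.2.2.2.1.2.2.2.2.2.1 lv.2.2.2.2.2.2.2.2.2.2.2.2.2.2.1.2.2.2.2.2.2)))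

def t_g01 : Tree := (.s3 (.s1 (.s0 (.leaf 121 14 14 6 6) (.leaf 125 14 14 6 6)) (.leaf 115 14 14 6 6)) (.s0 (.s1 (.leaf 121 14 14 6 6) (.leaf 125 14 14 6 6)) (.s1 (.leaf 125 14 14 6 6) (.leaf 134 14 14 6 6))))
theorem g01 : t_g01.ok 0 1 0 0 (G1E 0 D1 D p0 hh (1, 19) (1, 4) (271, 131071) one') unitBx = true :=
  (Tree.ok_s3 (Tree.ok_s1 (Tree.ok_s0 lv.2.2.2.2.2.2.2.2.2.2.2.2.2.2.2.1.1 lv.2.2.2.2.2.2.2.2.2.2.2.2.2.2.2.1.2.1) lv.2.2.2.2.2.2.2.2.2.2.2.2.2.2.2.1.2.2.1) (Tree.ok_s0 (Tree.ok_s1 lv.2.2.2.2.2.2.2.2.2.2.2.2.2.2.2.1.2.2.2.1 lv.2.2.2.2.2.2.2.2.2.2.2.2.2.2.2.1.2.2.2.2.1) (Tree.ok_s1 lv.2.2.2.2.2.2.2.2.2.2.2.2.2.2.2.1.2.2.2.2.2.1 lv.2.2.2.2.2.2.2.2.2.2.2.2.2.2.2.1.2.2.2.2.2.2)))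

def t_g10 : Tree := (.s3 (.s2 (.s0 (.s1 (.leaf 130 14 14 6 6) (.leaf 133 14 14 6 6)) (.leaf 124 14 14 6 6)) (.s1 (.leaf 119 14 14 6 6) (.leaf 126 14 14 6 6))) (.s2 (.s0 (.leaf 118 14 14 6 6) (.leaf 126 14 14 6 6)) (.s0 (.leaf 119 14 14 6 6) (.leaf 127 14 14 6 6))))
theorem g10 : t_g10.ok 0 1 0 0 (G1E 1 D1 D p1 hh (1, 19) (1, 4) (271, 131071) (.q 361 399)) unitBx = true :=
  (Tree.ok_s3 (Tree.ok_s2 (Tree.ok_s0 (Tree.ok_s1 lv.2.2.2.2.2.2.2.2.2.2.2.2.2.2.2.2.1.1 lv.2.2.2.2.2.2.2.2.2.2.2.2.2.2.2.2.1.2.1) lv.2.2.2.2.2.2.2.2.2.2.2.2.2.2.2.2.1.2.2.1) (Tree.ok_s1 lv.2.2.2.2.2.2.2.2.2.2.2.2.2.2.2.2.1.2.2.2.1 lv.2.2.2.2.2.2.2.2.2.2.2.2.2.2.2.2.1.2.2.2.2.1)) (Tree.ok_s2 (Tree.ok_s0 lv.2.2.2.2.2.2.2.2.2.2.2.2.2.2.2.2.1.2.2.2.2.2.1 lv.2.2.2.2.2.2.2.2.2.2.2.2.2.2.2.2.1.2.2.2.2.2.2.1)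 (Tree.ok_s0 lv.2.2.2.2.2.2.2.2.2.2.2.2.2.2.2.2.1.2.2.2.2.2.2.2.1 lv.2.2.2.2.2.2.2.2.2.2.2.2.2.2.2.2.1.2.2.2.2.2.2.2.2)))

def t_g11 : Tree := (.s3 (.s2 (.s0 (.s1 (.leaf 125 14 14 6 6) (.leaf 128 14 14 6 6)) (.leaf 120 14 14 6 6)) (.s1 (.leaf 114 14 14 6 6) (.leaf 121 14 14 6 6))) (.s2 (.s0 (.leaf 114 14 14 6 6) (.leaf 121 14 14 6 6)) (.s0 (.leaf 114 14 14 6 6) (.leaf 123 14 14 6 6))))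
theorem g11 : t_g11.ok 0 1 0 0 (G1E 1 D1 D p1 hh (1, 19) (1, 4) (271, 131071) one') unitBx = true :=
  (Tree.ok_s3 (Tree.ok_s2 (Tree.ok_s0 (Tree.ok_s1 lv.2.2.2.2.2.2.2.2.2.2.2.2.2.2.2.2.2.1.1 lv.2.2.2.2.2.2.2.2.2.2.2.2.2.2.2.2.2.1.2.1) lv.2.2.2.2.2.2.2.2.2.2.2.2.2.2.2.2.2.1.2.2.1) (Tree.ok_s1 lv.2.2.2.2.2.2.2.2.2.2.2.2.2.2.2.2.2.1.2.2.2.1 lv.2.2.2.2.2.2.2.2.2.2.2.2.2.2.2.2.2.1.2.2.2.2.1)) (Tree.ok_s2 (Tree.ok_s0 lv.2.2.2.2.2.2.2.2.2.2.2.2.2.2.2.2.2.1.2.2.2.2.2.1 lv.2.2.2.2.2.2.2.2.2.2.2.2.2.2.2.2.2.1.2.2.2.2.2.2.1) (Tree.ok_s0 lv.2.2.2.2.2.2.2.2.2.2.2.2.2.2.2.2.2.1.2.2.2.2.2.2.2.1 lv.2.2.2.2.2.2.2.2.2.2.2.2.2.2.2.2.2.1.2.2.2.2.2.2.2.2)))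

def t_g20 : Tree := (.s0 (.s3 (.s1 (.leaf 125 14 14 6 6) (.leaf 128 14 14 6 6)) (.s1 (.leaf 125 14 14 6 6) (.leaf 130 14 14 6 6))) (.s1 (.s2 (.leaf 129 14 14 6 6) (.leaf 130 14 14 6 6)) (.s1 (.leaf 144 14 14 6 6) (.leaf 149 14 14 6 6))))
theorem g20 : t_g20.ok 0 1 0 0 (G1E 2 D1 D p2 hh (1, 19) (1, 4) (271, 131071) (.q 361 399)) unitBx = true :=
  (Tree.ok_s0 (Tree.ok_s3 (Tree.ok_s1 lv.2.2.2.2.2.2.2.2.2.2.2.2.2.2.2.2.2.2.1.1 lv.2.2.2.2.2.2.2.2.2.2.2.2.2.2.2.2.2.2.1.2.1) (Tree.ok_s1 lv.2.2.2.2.2.2.2.2.2.2.2.2.2.2.2.2.2.2.1.2.2.1 lv.2.2.2.2.2.2.2.2.2.2.2.2.2.2.2.2.2.2.1.2.2.2.1)) (Tree.ok_s1 (Tree.ok_s2 lv.2.2.2.2.2.2.2.2.2.2.2.2.2.2.2.2.2.2.1.2.2.2.2.1 lv.2.2.2.2.2.2.2.2.2.2.2.2.2.2.2.2.2.2.1.2.2.2.2.2.1) (Tree.ok_s1 lv.2.2.2.2.2.2.2.2.2.2.2.2.2.2.2.2.2.2.1.2.2.2.2.2.2.1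 lv.2.2.2.2.2.2.2.2.2.2.2.2.2.2.2.2.2.2.1.2.2.2.2.2.2.2)))

def t_g21 : Tree := (.s0 (.s3 (.s1 (.leaf 120 14 14 6 6) (.leaf 124 14 14 6 6)) (.s1 (.leaf 120 14 14 6 6) (.leaf 125 14 14 6 6))) (.s1 (.s2 (.leaf 124 14 14 6 6) (.leaf 125 14 14 6 6)) (.leaf 129 14 14 6 6)))
theorem g21 : t_g21.ok 0 1 0 0 (G1E 2 D1 D p2 hh (1, 19) (1, 4) (271, 131071) one') unitBx = true :=
  (Tree.ok_s0 (Tree.ok_s3 (Tree.ok_s1 lv.2.2.2.2.2.2.2.2.2.2.2.2.2.2.2.2.2.2.2.1.1 lv.2.2.2.2.2.2.2.2.2.2.2.2.2.2.2.2.2.2.2.1.2.1) (Tree.ok_s1 lv.2.2.2.2.2.2.2.2.2.2.2.2.2.2.2.2.2.2.2.1.2.2.1 lv.2.2.2.2.2.2.2.2.2.2.2.2.2.2.2.2.2.2.2.1.2.2.2.1)) (Tree.ok_s1 (Tree.ok_s2 lv.2.2.2.2.2.2.2.2.2.2.2.2.2.2.2.2.2.2.2.1.2.2.2.2.1 lv.2.2.2.2.2.2.2.2.2.2.2.2.2.2.2.2.2.2.2.1.2.2.2.2.2.1) lv.2.2.2.2.2.2.2.2.2.2.2.2.2.2.2.2.2.2.2.1.2.2.2.2.2.2))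

def t_g30 : Tree := (.s3 (.s2 (.s0 (.s1 (.leaf 130 14 14 6 6) (.leaf 133 14 14 6 6)) (.leaf 124 14 14 6 6)) (.s1 (.leaf 119 14 14 6 6) (.leaf 126 14 14 6 6))) (.s2 (.s0 (.leaf 118 14 14 6 6) (.leaf 126 14 14 6 6)) (.s1 (.leaf 119 14 14 6 6) (.leaf 127 14 14 6 6))))
theorem g30 : t_g30.ok 0 1 0 0 (G1E 3 D1 D p3 hh (1, 19) (1, 4) (271, 131071) (.q 361 399)) unitBx = true :=
  (Tree.ok_s3 (Tree.ok_s2 (Tree.ok_s0 (Tree.ok_s1 lv.2.2.2.2.2.2.2.2.2.2.2.2.2.2.2.2.2.2.2.2.1.1 lv.2.2.2.2.2.2.2.2.2.2.2.2.2.2.2.2.2.2.2.2.1.2.1) lv.2.2.2.2.2.2.2.2.2.2.2.2.2.2.2.2.2.2.2.2.1.2.2.1) (Tree.ok_s1 lv.2.2.2.2.2.2.2.2.2.2.2.2.2.2.2.2.2.2.2.2.1.2.2.2.1 lv.2.2.2.2.2.2.2.2.2.2.2.2.2.2.2.2.2.2.2.2.1.2.2.2.2.1)) (Tree.ok_s2 (Tree.ok_s0 lv.2.2.2.2.2.2.2.2.2.2.2.2.2.2.2.2.2.2.2.2.1.2.2.2.2.2.1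 lv.2.2.2.2.2.2.2.2.2.2.2.2.2.2.2.2.2.2.2.2.1.2.2.2.2.2.2.1) (Tree.ok_s1 lv.2.2.2.2.2.2.2.2.2.2.2.2.2.2.2.2.2.2.2.2.1.2.2.2.2.2.2.2.1 lv.2.2.2.2.2.2.2.2.2.2.2.2.2.2.2.2.2.2.2.2.1.2.2.2.2.2.2.2.2)))

def t_g31 : Tree := (.s3 (.s2 (.s0 (.s1 (.leaf 125 14 14 6 6) (.leaf 128 14 14 6 6)) (.leaf 120 14 14 6 6)) (.s1 (.leaf 114 14 14 6 6) (.leaf 121 14 14 6 6))) (.s1 (.s0 (.leaf 121 14 14 6 6) (.leaf 125 14 14 6 6)) (.leaf 117 14 14 6 6)))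
theorem g31 : t_g31.ok 0 1 0 0 (G1E 3 D1 D p3 hh (1, 19) (1, 4) (271, 131071) one') unitBx = true :=
  (Tree.ok_s3 (Tree.ok_s2 (Tree.ok_s0 (Tree.ok_s1 lv.2.2.2.2.2.2.2.2.2.2.2.2.2.2.2.2.2.2.2.2.2.1.1 lv.2.2.2.2.2.2.2.2.2.2.2.2.2.2.2.2.2.2.2.2.2.1.2.1) lv.2.2.2.2.2.2.2.2.2.2.2.2.2.2.2.2.2.2.2.2.2.1.2.2.1) (Tree.ok_s1 lv.2.2.2.2.2.2.2.2.2.2.2.2.2.2.2.2.2.2.2.2.2.1.2.2.2.1 lv.2.2.2.2.2.2.2.2.2.2.2.2.2.2.2.2.2.2.2.2.2.1.2.2.2.2.1)) (Tree.ok_s1 (Tree.ok_s0 lv.2.2.2.2.2.2.2.2.2.2.2.2.2.2.2.2.2.2.2.2.2.1.2.2.2.2.2.1 lv.2.2.2.2.2.2.2.2.2.2.2.2.2.2.2.2.2.2.2.2.2.1.2.2.2.2.2.2.1) lv.2.2.2.2.2.2.2.2.2.2.2.2.2.2.2.2.2.2.2.2.2.1.2.2.2.2.2.2.2))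

def t_s0 : Tree := (.s2 (.s1 (.s1 (.leaf 148 15 16 6 1) (.leaf 158 15 16 6 1)) (.leaf 152 15 16 6 1)) (.s2 (.s1 (.leaf 144 15 16 6 1) (.leaf 159 15 16 6 1)) (.leaf 138 15 16 6 1)))
theorem s0 : t_s0.ok 0 1 0 0 (S0E (1, 19) r0 rs0) unitBx = true :=
  (Tree.ok_s2 (Tree.ok_s1 (Tree.ok_s1 lv.2.2.2.2.2.2.2.2.2.2.2.2.2.2.2.2.2.2.2.2.2.2.1.1 lv.2.2.2.2.2.2.2.2.2.2.2.2.2.2.2.2.2.2.2.2.2.2.1.2.1) lv.2.2.2.2.2.2.2.2.2.2.2.2.2.2.2.2.2.2.2.2.2.2.1.2.2.1) (Tree.ok_s2 (Tree.ok_s1 lv.2.2.2.2.2.2.2.2.2.2.2.2.2.2.2.2.2.2.2.2.2.2.1.2.2.2.1 lv.2.2.2.2.2.2.2.2.2.2.2.2.2.2.2.2.2.2.2.2.2.2.1.2.2.2.2.1) lv.2.2.2.2.2.2.2.2.2.2.2.2.2.2.2.2.2.2.2.2.2.2.1.2.2.2.2.2))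

def t_s1 : Tree := (.s2 (.s1 (.leaf 130 12 13 5 1) (.s1 (.leaf 144 12 13 5 1) (.leaf 147 12 13 5 1))) (.leaf 120 12 13 5 1))
theorem s1 : t_s1.ok 0 1 0 0 (S1E (1, 19) (20, 0) D1 E3 r1 rs1 p0 p1 p2 p3) unitBx = true :=
  (Tree.ok_s2 (Tree.ok_s1 lv.2.2.2.2.2.2.2.2.2.2.2.2.2.2.2.2.2.2.2.2.2.2.2.1.1 (Tree.ok_s1 lv.2.2.2.2.2.2.2.2.2.2.2.2.2.2.2.2.2.2.2.2.2.2.2.1.2.1 lv.2.2.2.2.2.2.2.2.2.2.2.2.2.2.2.2.2.2.2.2.2.2.2.1.2.2.1)) lv.2.2.2.2.2.2.2.2.2.2.2.2.2.2.2.2.2.2.2.2.2.2.2.1.2.2.2)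

def t_q0 : Tree := (.leaf 54 16 1 6 1)
theorem q0 : t_q0.ok 0 1 0 0 (RE D0 (0, 0)) unitBx = true :=
  lv.2.2.2.2.2.2.2.2.2.2.2.2.2.2.2.2.2.2.2.2.2.2.2.2.1

def t_q1 : Tree := (.leaf 52 13 1 5 1)
theorem q1 : t_q1.ok 0 1 0 0 (RE D1 (0, 0)) unitBx = true :=
  lv.2.2.2.2.2.2.2.2.2.2.2.2.2.2.2.2.2.2.2.2.2.2.2.2.2.1

def t_q3 : Tree := (.leaf 51 13 1 5 1)
theorem q3 : t_q3.ok 0 1 0 0 (RE E3 (0, 0)) unitBx = true :=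
  lv.2.2.2.2.2.2.2.2.2.2.2.2.2.2.2.2.2.2.2.2.2.2.2.2.2.2

/-! The certified family. -/

theorem cert : NearCert D0 D1 D r0 r1 rs0 rs1 rho hh (1, 19) (20, 0) (1, 4) (271, 131071) (361, 399) where
  he0 := by norm_num [cv]
  he1 := by norm_num [cv]
  hie := by norm_num [cv]
  hkk := by norm_num [cv]
  hcc := by norm_num [cv]
  htl := by norm_num [cv]
  hU0 := by
    refine ⟨box_zero _ _ u0, box_zero _ _ u1, ?_⟩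
    intro k hk
    interval_cases k
    exacts [box_zero _ _ u2, box_zero _ _ u3, box_zero _ _ u4, box_zero _ _ u5]
  hU1 := by
    refine ⟨box_zero _ _ v0, box_zero _ _ v1, ?_⟩
    intro k hk
    interval_cases k
    exacts [box_zero _ _ v2, box_zero _ _ v3, box_zero _ _ v4, box_zero _ _ v5]
  hF0 := by
    intro P C
    simp only [gR, wR, hr, h2R, lst, cv, D0, r0, rs0]
    push_cast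
    ring
  hF1 := by
    intro P C
    simp only [gR, wR, hr, h2R, lst, cv, D1, r1, rs1]
    push_cast
    ring
  hr0 := by
    intro k hk
    interval_cases k <;> simp [h2R, hr, rho, cv, p0, p1, p2, p3]
  hD0 := by norm_num [gR, wR, hr, cv, D, E0]
  hA0 := box_zero _ _ a0
  hA1 := box_zero _ _ a1
  hG0 := by
    intro k hk
    interval_cases k
    exacts [box_zero _ _ g00, box_zero _ _ g10, box_zero _ _ g20, box_zero _ _ g30]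
  hG1 := by
    intro k hk
    interval_cases k
    exacts [box_zero _ _ g01, box_zero _ _ g11, box_zero _ _ g21, box_zero _ _ g31]
  hS0 := box_zero _ _ s0
  hS1 := box_zero _ _ s1
  hP0 := box_zero _ _ q0
  hP1 := box_zero _ _ q1
  hP3 := box_zero _ _ q3

end Vale.Agent.P154.N1
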