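import Vale.Agent.P154.Step3

/-! Certificate of a stationary potential. -/

namespace Vale.Agent.P154.Q3

def D : Pot where
  f := [(748, 4095), (-1101, 4095), (-30, 4095), (371, 4095), (12, 4095)]
  f2 := [(20, 4095), (-2985, 4095), (-1700, 4095), (15071, 4095)]
  f3 := [(0, 4095), (4107, 4095), (-370, 4095), (-46023, 4095)]
  f4 := [(28, 4095), (-6472, 4095), (96173, 4095), (19351, 4095)]
  g := [(-3193, 4095), (1211, 4095), (1982, 4095)]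
  g2 := [(-3172, 4095), (18351, 4095), (40072, 4095), (9551, 4095)]
  g3 := [(3163, 4095), (-93242, 4095), (-59729, 4095), (-27334, 4095)]
  g4 := [(-1871, 4095), (210820, 4095), (245760, 4095), (96624, 4095)]
  h := [(3503, 4095), (2429, 4095)]
  h2 := [(24827, 4095), (80175, 4095), (-32762, 4095)]
  h3 := [(-44275, 4095), (-245760, 4095), (43937, 4095)]
  h4 := [(34060, 4095), (245760, 4095), (245760, 4095)]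

def t0 : Tree := (.s0 (.leaf 63 5 14 1 1) (.leaf 66 5 14 1 1))
theorem h0 : t0.ok 0 1 0 0 (B1 0 1 (1, 2) D.f D.f2 D.f3 D.f4) unitBx = true := by decide +kernel

def t1 : Tree := (.s0 (.s0 (.leaf 93 5 24 1 1) (.leaf 93 5 24 1 1)) (.leaf 90 5 24 1 1))
theorem h1 : t1.ok 0 1 0 0 (B2 0 1 (2, 2) D.f D.f2 D.f3 D.f4) unitBx = true := by decide +kernel

def t2 : Tree := (.s0 (.leaf 67 4 15 1 1) (.s0 (.leaf 72 4 15 1 1) (.s1 (.s1 (.s0 (.leaf 102 4 15 1 1) (.s1 (.leaf 116 4 15 1 1) (.leaf 117 4 15 1 1))) (.leaf 100 4 15 1 1)) (.leaf 87 4 15 1 1))))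
theorem h2 : t2.ok 0 1 0 0 (B1 1 0 (1, 2) D.g D.g2 D.g3 D.g4) unitBx = true := by decide +kernel

def t3 : Tree := (.s0 (.s1 (.s1 (.s0 (.leaf 88 4 16 1 1) (.s0 (.leaf 88 4 16 1 1) (.leaf 89 4 16 1 1))) (.s0 (.leaf 91 4 16 1 1) (.leaf 91 4 16 1 1))) (.leaf 79 4 16 1 1)) (.s1 (.s0 (.s1 (.s0 (.s1 (.leaf 103 4 16 1 1) (.leaf 104 4 16 1 1)) (.s1 (.leaf 103 4 16 1 1) (.leaf 104 4 16 1 1))) (.leaf 91 4 16 1 1)) (.s1 (.s0 (.leaf 89 4 16 1 1) (.leaf 89 4 16 1 1)) (.leaf 92 4 16 1 1))) (.leaf 80 4 16 1 1)))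
theorem h3 : t3.ok 0 1 0 0 (B2 1 0 (2, 2) D.g D.g2 D.g3 D.g4) unitBx = true := by decide +kernel

def t4 : Tree := (.leaf 62 3 14 1 1)
theorem h4 : t4.ok 0 1 0 0 (B1 3 0 (1, 2) D.h D.h2 D.h3 D.h4) unitBx = true := by decide +kernel

def t5 : Tree := (.s1 (.s1 (.s1 (.leaf 85 3 13 1 1) (.leaf 86 3 13 1 1)) (.leaf 76 3 13 1 1)) (.s0 (.s0 (.s0 (.s1 (.s0 (.leaf 78 3 13 1 1) (.leaf 78 3 13 1 1)) (.leaf 80 3 13 1 1)) (.s1 (.leaf 78 3 13 1 1) (.leaf 80 3 13 1 1))) (.leaf 67 3 13 1 1)) (.leaf 68 3 13 1 1)))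
theorem h5 : t5.ok 0 1 0 0 (B2 3 0 (2, 2) D.h D.h2 D.h3 D.h4) unitBx = true := by decide +kernel

def t6 : Tree := (.s0 (.s2 (.s0 (.leaf 82 13 13 5 1) (.leaf 83 13 13 5 1)) (.s2 (.leaf 74 13 13 5 1) (.leaf 74 13 13 5 1))) (.s2 (.leaf 73 13 13 5 1) (.s2 (.s2 (.leaf 82 13 13 5 1) (.s1 (.leaf 92 13 13 5 1) (.leaf 95 13 13 5 1))) (.leaf 78 13 13 5 1))))
theorem h6_0 : (Tree.leaf 82 13 13 5 1).ok 0 1 0 0 (scalE D)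
    ⟨0, 1, 4, 0, 1, 1, 0, 1, 2, 0, 1, 1⟩ = true := by decide +kernel
theorem h6_1 : (Tree.leaf 83 13 13 5 1).ok 0 1 0 0 (scalE D)
    ⟨1, 2, 4, 0, 1, 1, 0, 1, 2, 0, 1, 1⟩ = true := by decide +kernel
theorem h6_2 : (Tree.leaf 74 13 13 5 1).ok 0 1 0 0 (scalE D)
    ⟨0, 1, 2, 0, 1, 1, 2, 3, 4, 0, 1, 1⟩ = true := by decide +kernel
theorem h6_3 : (Tree.leaf 74 13 13 5 1).ok 0 1 0 0 (scalE D)
    ⟨0, 1, 2, 0, 1, 1, 3, 4, 4, 0, 1, 1⟩ = true := by decide +kernel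
theorem h6_4 : (Tree.leaf 73 13 13 5 1).ok 0 1 0 0 (scalE D)
    ⟨1, 2, 2, 0, 1, 1, 0, 1, 2, 0, 1, 1⟩ = true := by decide +kernel
theorem h6_5 : (Tree.leaf 82 13 13 5 1).ok 0 1 0 0 (scalE D)
    ⟨1, 2, 2, 0, 1, 1, 4, 5, 8, 0, 1, 1⟩ = true := by decide +kernel
theorem h6_6 : (Tree.leaf 92 13 13 5 1).ok 0 1 0 0 (scalE D)
    ⟨1, 2, 2, 0, 1, 2, 5, 6, 8, 0, 1, 1⟩ = true := by decide +kernel
theorem h6_7 : (Tree.leaf 95 13 13 5 1).ok 0 1 0 0 (scalE D)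
    ⟨1, 2, 2, 1, 2, 2, 5, 6, 8, 0, 1, 1⟩ = true := by decide +kernel
theorem h6_8 : (Tree.leaf 78 13 13 5 1).ok 0 1 0 0 (scalE D)
    ⟨1, 2, 2, 0, 1, 1, 3, 4, 4, 0, 1, 1⟩ = true := by decide +kernel
theorem h6 : t6.ok 0 1 0 0 (scalE D) unitBx = true :=
  (Tree.ok_s0 (Tree.ok_s2 (Tree.ok_s0 h6_0 h6_1) (Tree.ok_s2 h6_2 h6_3)) (Tree.ok_s2 h6_4 (Tree.ok_s2 (Tree.ok_s2 h6_5 (Tree.ok_s1 h6_6 h6_7)) h6_8)))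

def t7 : Tree := (.leaf 45 13 5 1 1)
theorem h7 : t7.ok 0 1 0 0 (posE D) unitBx = true := by decide +kernel

def t8 : Tree := (.s2 (.leaf 164 37 19 8 8) (.s2 (.leaf 172 37 19 8 8) (.leaf 172 37 19 8 8)))
theorem h8_0 : (Tree.leaf 164 37 19 8 8).ok 0 1 0 0 (qE1 D (.q 1 8) (.q (1) 26) (1, 999))
    ⟨0, 1, 1, 0, 1, 1, 0, 1, 2, 0, 1, 1⟩ = true := by decide +kernel
theorem h8_1 : (Tree.leaf 172 37 19 8 8).ok 0 1 0 0 (qE1 D (.q 1 8) (.q (1) 26) (1, 999))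
    ⟨0, 1, 1, 0, 1, 1, 2, 3, 4, 0, 1, 1⟩ = true := by decide +kernel
theorem h8_2 : (Tree.leaf 172 37 19 8 8).ok 0 1 0 0 (qE1 D (.q 1 8) (.q (1) 26) (1, 999))
    ⟨0, 1, 1, 0, 1, 1, 3, 4, 4, 0, 1, 1⟩ = true := by decide +kernel
theorem h8 : t8.ok 0 1 0 0 (qE1 D (.q 1 8) (.q (1) 26) (1, 999)) unitBx = true :=
  (Tree.ok_s2 h8_0 (Tree.ok_s2 h8_1 h8_2))

def t9 : Tree := (.s1 (.s3 (.leaf 180 37 19 8 8) (.s3 (.leaf 187 37 19 8 8) (.leaf 187 37 19 8 8))) (.s1 (.s1 (.leaf 210 37 19 8 8) (.leaf 210 37 19 8 8)) (.leaf 194 37 19 8 8)))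
theorem h9_0 : (Tree.leaf 180 37 19 8 8).ok 0 1 0 0 (qE2 D (.q 1 8) (.q (1) 26) (1, 999))
    ⟨0, 1, 1, 0, 1, 2, 0, 1, 1, 0, 1, 2⟩ = true := by decide +kernel
theorem h9_1 : (Tree.leaf 187 37 19 8 8).ok 0 1 0 0 (qE2 D (.q 1 8) (.q (1) 26) (1, 999))
    ⟨0, 1, 1, 0, 1, 2, 0, 1, 1, 2, 3, 4⟩ = true := by decide +kernel
theorem h9_2 : (Tree.leaf 187 37 19 8 8).ok 0 1 0 0 (qE2 D (.q 1 8) (.q (1) 26) (1, 999))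
    ⟨0, 1, 1, 0, 1, 2, 0, 1, 1, 3, 4, 4⟩ = true := by decide +kernel
theorem h9_3 : (Tree.leaf 210 37 19 8 8).ok 0 1 0 0 (qE2 D (.q 1 8) (.q (1) 26) (1, 999))
    ⟨0, 1, 1, 4, 5, 8, 0, 1, 1, 0, 1, 1⟩ = true := by decide +kernel
theorem h9_4 : (Tree.leaf 210 37 19 8 8).ok 0 1 0 0 (qE2 D (.q 1 8) (.q (1) 26) (1, 999))
    ⟨0, 1, 1, 5, 6, 8, 0, 1, 1, 0, 1, 1⟩ = true := by decide +kernel
theorem h9_5 : (Tree.leaf 194 37 19 8 8).ok 0 1 0 0 (qE2 D (.q 1 8) (.q (1) 26) (1, 999))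
    ⟨0, 1, 1, 3, 4, 4, 0, 1, 1, 0, 1, 1⟩ = true := by decide +kernel
theorem h9 : t9.ok 0 1 0 0 (qE2 D (.q 1 8) (.q (1) 26) (1, 999)) unitBx = true :=
  (Tree.ok_s1 (Tree.ok_s3 h9_0 (Tree.ok_s3 h9_1 h9_2)) (Tree.ok_s1 (Tree.ok_s1 h9_3 h9_4) h9_5))

end Vale.Agent.P154.Q3
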