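import Vale.Agent.P154.Pois

/-! Data of a family of potentials for the Poisson tree. -/

namespace Vale.Agent.P154.Q7

def D00 : NP where
  A := [(875, 1023), (-1840, 1023), (4010, 1023), (-7554, 1023), (6063, 1023), (-1554, 1023)]
  B := [(53498, 1023), (-7219, 1023), (6641, 1023), (-194, 1023)]
  E := [(1333, 1023)]
  a0 := [(55706, 1023), (-9059, 1023), (10651, 1023), (-7748, 1023), (6063, 1023), (-1554, 1023)]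
  a1 := [(55706, 1023), (18118, 1023), (-53255, 1023), (61984, 1023), (-66693, 1023), (21756, 1023)]
  a2 := [(5707, 1023), (-11165, 1023), (-30461, 1023), (70747, 1023)]
  a3 := [(-3097, 1023), (78809, 1023), (-56773, 1023), (-20317, 1023)]
  a4 := [(2477, 1023), (-68707, 1023), (79868, 1023), (90013, 1023)]
  b0 := [(-56164, 1023), (7219, 1023), (-6641, 1023), (194, 1023)]
  b1 := [(56164, 1023), (-28876, 1023), (46487, 1023), (-1940, 1023)]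
  b2 := [(-54093, 1023), (88280, 1023), (-92601, 1023)]
  b3 := [(34538, 1023), (-15987, 1023), (74626, 1023)]
  b4 := [(15670, 1023), (3499, 1023), (90274, 1023)]
  g0 := [(1333, 1023)]
  g1 := [(-3999, 1023)]
  g2 := [(2876, 1023), (-34322, 1023)]

def D01 : NP where
  A := [(960, 1023), (-1440, 1023), (857, 1023), (-1799, 1023), (1987, 1023), (-565, 1023)]
  B := [(52098, 1023), (-4262, 1023), (5965, 1023), (-1075, 1023)]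
  E := [(1924, 1023)]
  a0 := [(54982, 1023), (-5702, 1023), (6822, 1023), (-2874, 1023), (1987, 1023), (-565, 1023)]
  a1 := [(54982, 1023), (11404, 1023), (-34110, 1023), (22992, 1023), (-21857, 1023), (7910, 1023)]
  a2 := [(7355, 1023), (-22405, 1023), (953, 1023), (53135, 1023)]
  a3 := [(-2126, 1023), (78999, 1023), (-3948, 1023), (14640, 1023)]
  a4 := [(1056, 1023), (-71278, 1023), (58665, 1023), (90115, 1023)]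
  b0 := [(-55946, 1023), (4262, 1023), (-5965, 1023), (1075, 1023)]
  b1 := [(55946, 1023), (-17048, 1023), (41755, 1023), (-10750, 1023)]
  b2 := [(-62396, 1023), (67925, 1023), (-86199, 1023)]
  b3 := [(33265, 1023), (-52443, 1023), (8625, 1023)]
  b4 := [(1933, 1023), (53305, 1023), (79211, 1023)]
  g0 := [(1924, 1023)]
  g1 := [(-5772, 1023)]
  g2 := [(12616, 1023), (-23998, 1023)]

def D02 : NP where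
  A := [(1112, 1023), (-2237, 1023), (2227, 1023), (-2646, 1023), (1999, 1023), (-455, 1023)]
  B := [(51381, 1023), (-1789, 1023), (3051, 1023), (83, 1023)]
  E := [(2105, 1023)]
  a0 := [(54598, 1023), (-4026, 1023), (5278, 1023), (-2563, 1023), (1999, 1023), (-455, 1023)]
  a1 := [(54598, 1023), (8052, 1023), (-26390, 1023), (20504, 1023), (-21989, 1023), (6370, 1023)]
  a2 := [(5213, 1023), (-30026, 1023), (9653, 1023), (52236, 1023)]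
  a3 := [(1470, 1023), (60940, 1023), (50291, 1023), (-82978, 1023)]
  a4 := [(-1870, 1023), (-82840, 1023), (82883, 1023), (90948, 1023)]
  b0 := [(-55591, 1023), (1789, 1023), (-3051, 1023), (-83, 1023)]
  b1 := [(55591, 1023), (-7156, 1023), (21357, 1023), (830, 1023)]
  b2 := [(-57118, 1023), (81617, 1023), (-90413, 1023)]
  b3 := [(32915, 1023), (-59527, 1023), (83191, 1023)]
  b4 := [(4413, 1023), (59044, 1023), (89472, 1023)]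
  g0 := [(2105, 1023)]
  g1 := [(-6315, 1023)]
  g2 := [(9723, 1023), (-34405, 1023)]

def D03 : NP where
  A := [(1112, 1023), (-2025, 1023), (1408, 1023), (-1554, 1023), (1424, 1023), (-365, 1023)]
  B := [(51152, 1023), (-1776, 1023), (3909, 1023), (-559, 1023)]
  E := [(2249, 1023)]
  a0 := [(54513, 1023), (-3801, 1023), (5317, 1023), (-2113, 1023), (1424, 1023), (-365, 1023)]
  a1 := [(54513, 1023), (7602, 1023), (-26585, 1023), (16904, 1023), (-15664, 1023), (5110, 1023)]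
  a2 := [(3239, 1023), (-28197, 1023), (11112, 1023), (53552, 1023)]
  a3 := [(876, 1023), (70228, 1023), (53056, 1023), (-75030, 1023)]
  a4 := [(1739, 1023), (-91670, 1023), (82494, 1023), (88320, 1023)]
  b0 := [(-55650, 1023), (1776, 1023), (-3909, 1023), (559, 1023)]
  b1 := [(55650, 1023), (-7104, 1023), (27363, 1023), (-5590, 1023)]
  b2 := [(-55453, 1023), (71746, 1023), (-89830, 1023)]
  b3 := [(22628, 1023), (-65458, 1023), (86063, 1023)]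
  b4 := [(9300, 1023), (62710, 1023), (85613, 1023)]
  g0 := [(2249, 1023)]
  g1 := [(-6747, 1023)]
  g2 := [(12155, 1023), (-31659, 1023)]

def D10 : NP where
  A := [(38654, 1023), (-42904, 1023), (3629, 1023), (-1414, 1023), (2035, 1023)]
  B := [(19242, 1023), (-43090, 1023), (27249, 1023)]
  E := [(41610, 1023)]
  a0 := [(99506, 1023), (-85994, 1023), (30878, 1023), (-1414, 1023), (2035, 1023)]
  a1 := [(99506, 1023), (171988, 1023), (-154390, 1023), (11312, 1023), (-22385, 1023)]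
  a2 := [(14276, 1023), (-78226, 1023), (-59203, 1023), (10925, 1023)]
  a3 := [(-40662, 1023), (-81697, 1023), (-73675, 1023), (80028, 1023)]
  a4 := [(34117, 1023), (74836, 1023), (74012, 1023), (92501, 1023)]
  b0 := [(-102462, 1023), (43090, 1023), (-27249, 1023)]
  b1 := [(102462, 1023), (-172360, 1023), (190743, 1023)]
  b2 := [(34507, 1023), (82857, 1023), (-64545, 1023)]
  b3 := [(-74120, 1023), (785, 1023), (51656, 1023)]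
  b4 := [(59214, 1023), (84280, 1023), (89357, 1023)]
  g0 := [(41610, 1023)]
  g1 := [(-124830, 1023)]
  g2 := [(100125, 1023), (90895, 1023)]

def D11 : NP where
  A := [(30931, 1023), (-32481, 1023), (-1909, 1023), (2305, 1023), (1154, 1023)]
  B := [(30098, 1023), (-31101, 1023), (25110, 1023)]
  E := [(35590, 1023)]
  a0 := [(96619, 1023), (-63582, 1023), (23201, 1023), (2305, 1023), (1154, 1023)]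
  a1 := [(96619, 1023), (127164, 1023), (-116005, 1023), (-18440, 1023), (-12694, 1023)]
  a2 := [(7284, 1023), (-84267, 1023), (-63463, 1023), (-6626, 1023)]
  a3 := [(-19505, 1023), (-76663, 1023), (-60941, 1023), (87609, 1023)]
  a4 := [(18714, 1023), (45679, 1023), (64439, 1023), (91824, 1023)]
  b0 := [(-101278, 1023), (31101, 1023), (-25110, 1023)]
  b1 := [(101278, 1023), (-124404, 1023), (175770, 1023)]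
  b2 := [(4576, 1023), (74230, 1023), (-66691, 1023)]
  b3 := [(-80503, 1023), (3328, 1023), (69808, 1023)]
  b4 := [(69341, 1023), (78496, 1023), (87841, 1023)]
  g0 := [(35590, 1023)]
  g1 := [(-106770, 1023)]
  g2 := [(100150, 1023), (84797, 1023)]

def D12 : NP where
  A := [(23246, 1023), (-26665, 1023), (-455, 1023), (4258, 1023), (-384, 1023)]
  B := [(47235, 1023), (-8279, 1023), (12828, 1023)]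
  E := [(28804, 1023)]
  a0 := [(99285, 1023), (-34944, 1023), (12373, 1023), (4258, 1023), (-384, 1023)]
  a1 := [(99285, 1023), (69888, 1023), (-61865, 1023), (-34064, 1023), (4224, 1023)]
  a2 := [(6460, 1023), (-15811, 1023), (-15477, 1023), (44037, 1023)]
  a3 := [(-13129, 1023), (-63380, 1023), (-46221, 1023), (76834, 1023)]
  a4 := [(8814, 1023), (-19914, 1023), (65174, 1023), (88323, 1023)]
  b0 := [(-104843, 1023), (8279, 1023), (-12828, 1023)]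
  b1 := [(104843, 1023), (-33116, 1023), (89796, 1023)]
  b2 := [(-52382, 1023), (33465, 1023), (-77823, 1023)]
  b3 := [(-19714, 1023), (23974, 1023), (69461, 1023)]
  b4 := [(40812, 1023), (67842, 1023), (85315, 1023)]
  g0 := [(28804, 1023)]
  g1 := [(-86412, 1023)]
  g2 := [(98084, 1023), (-18098, 1023)]

def D13 : NP where
  A := [(13203, 1023), (-18032, 1023), (5608, 1023), (-1842, 1023), (1063, 1023)]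
  B := [(77068, 1023), (277, 1023), (2009, 1023)]
  E := [(11851, 1023)]
  a0 := [(102122, 1023), (-17755, 1023), (7617, 1023), (-1842, 1023), (1063, 1023)]
  a1 := [(102122, 1023), (35510, 1023), (-38085, 1023), (14736, 1023), (-11693, 1023)]
  a2 := [(6971, 1023), (-6730, 1023), (24164, 1023), (95518, 1023)]
  a3 := [(-11837, 1023), (-40299, 1023), (-80554, 1023), (24048, 1023)]
  a4 := [(6772, 1023), (58301, 1023), (78667, 1023), (93867, 1023)]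
  b0 := [(-100770, 1023), (-277, 1023), (-2009, 1023)]
  b1 := [(100770, 1023), (1108, 1023), (14063, 1023)]
  b2 := [(-87227, 1023), (-36838, 1023), (-75786, 1023)]
  b3 := [(43198, 1023), (67343, 1023), (48669, 1023)]
  b4 := [(23977, 1023), (80390, 1023), (91059, 1023)]
  g0 := [(11851, 1023)]
  g1 := [(-35553, 1023)]
  g2 := [(58790, 1023), (-1895, 1023)]

def D20 : NP where
  A := [(10017, 1023), (-84528, 1023), (58255, 1023), (-16855, 1023)]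
  B := [(26551, 1023), (-2266, 1023), (12121, 1023)]
  E := [(9645, 1023)]
  a0 := [(46213, 1023), (-86794, 1023), (70376, 1023), (-16855, 1023)]
  a1 := [(46213, 1023), (173588, 1023), (-351880, 1023), (134840, 1023)]
  a2 := [(44923, 1023), (-57470, 1023), (-50499, 1023), (34734, 1023)]
  a3 := [(-71130, 1023), (-23895, 1023), (42912, 1023), (82750, 1023)]
  a4 := [(46301, 1023), (15940, 1023), (48991, 1023), (86155, 1023)]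
  b0 := [(-45841, 1023), (2266, 1023), (-12121, 1023)]
  b1 := [(45841, 1023), (-9064, 1023), (84847, 1023)]
  b2 := [(-20023, 1023), (-21567, 1023), (-9339, 1023)]
  b3 := [(1589, 1023), (48255, 1023), (76620, 1023)]
  b4 := [(71856, 1023), (52745, 1023), (80039, 1023)]
  g0 := [(9645, 1023)]
  g1 := [(-28935, 1023)]
  g2 := [(88449, 1023), (37444, 1023)]

def D21 : NP where
  A := [(-1747, 1023), (-60641, 1023), (47398, 1023), (-16379, 1023)]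
  B := [(2274, 1023), (18010, 1023), (1013, 1023)]
  E := [(17832, 1023)]
  a0 := [(18359, 1023), (-42631, 1023), (48411, 1023), (-16379, 1023)]
  a1 := [(18359, 1023), (85262, 1023), (-242055, 1023), (131032, 1023)]
  a2 := [(28809, 1023), (-82759, 1023), (-10120, 1023), (65004, 1023)]
  a3 := [(-43968, 1023), (-36339, 1023), (32424, 1023), (78284, 1023)]
  a4 := [(20683, 1023), (2538, 1023), (44550, 1023), (81566, 1023)]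
  b0 := [(-37938, 1023), (-18010, 1023), (-1013, 1023)]
  b1 := [(37938, 1023), (72040, 1023), (7091, 1023)]
  b2 := [(-17483, 1023), (-26121, 1023), (40097, 1023)]
  b3 := [(-31603, 1023), (30507, 1023), (70848, 1023)]
  b4 := [(67944, 1023), (47471, 1023), (76057, 1023)]
  g0 := [(17832, 1023)]
  g1 := [(-53496, 1023)]
  g2 := [(77876, 1023), (52612, 1023)]

def D22 : NP where
  A := [(8271, 1023), (-56085, 1023), (26604, 1023), (-8427, 1023)]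
  B := [(5299, 1023), (-409, 1023), (7012, 1023)]
  E := [(24411, 1023)]
  a0 := [(37981, 1023), (-56494, 1023), (33616, 1023), (-8427, 1023)]
  a1 := [(37981, 1023), (112988, 1023), (-168080, 1023), (67416, 1023)]
  a2 := [(13968, 1023), (-80082, 1023), (-27285, 1023), (54139, 1023)]
  a3 := [(-18359, 1023), (-37704, 1023), (37253, 1023), (81531, 1023)]
  a4 := [(7689, 1023), (22937, 1023), (48358, 1023), (84623, 1023)]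
  b0 := [(-54121, 1023), (409, 1023), (-7012, 1023)]
  b1 := [(54121, 1023), (-1636, 1023), (49084, 1023)]
  b2 := [(-8224, 1023), (7514, 1023), (18250, 1023)]
  b3 := [(-56173, 1023), (39718, 1023), (73544, 1023)]
  b4 := [(60870, 1023), (48675, 1023), (77656, 1023)]
  g0 := [(24411, 1023)]
  g1 := [(-73233, 1023)]
  g2 := [(93974, 1023), (56272, 1023)]

def D23 : NP where
  A := [(-16257, 1023), (-26430, 1023), (13919, 1023), (-3129, 1023)]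
  B := [(67755, 1023), (6720, 1023), (-3104, 1023)]
  E := [(15154, 1023)]
  a0 := [(66652, 1023), (-19710, 1023), (10815, 1023), (-3129, 1023)]
  a1 := [(66652, 1023), (39420, 1023), (-54075, 1023), (25032, 1023)]
  a2 := [(6938, 1023), (-50877, 1023), (-26668, 1023), (84820, 1023)]
  a3 := [(-16610, 1023), (-15547, 1023), (14295, 1023), (80794, 1023)]
  a4 := [(11791, 1023), (49134, 1023), (51032, 1023), (82809, 1023)]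
  b0 := [(-98063, 1023), (-6720, 1023), (3104, 1023)]
  b1 := [(98063, 1023), (26880, 1023), (-21728, 1023)]
  b2 := [(-49027, 1023), (-43305, 1023), (59066, 1023)]
  b3 := [(-42261, 1023), (40701, 1023), (71925, 1023)]
  b4 := [(49460, 1023), (59688, 1023), (76759, 1023)]
  g0 := [(15154, 1023)]
  g1 := [(-45462, 1023)]
  g2 := [(73779, 1023), (32171, 1023)]

def p00 : List CL := [[(0, 1023), (52726, 1023), (2241, 1023), (8307, 1023), (7552, 1023)], [(0, 1023), (-5231, 1023), (-5855, 1023)], [(478, 1023), (-5564, 1023)]]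
def p01 : List CL := [[(0, 1023), (52726, 1023), (2581, 1023), (14296, 1023), (-3085, 1023)], [(0, 1023), (-6650, 1023), (-11139, 1023)], [(-2576, 1023), (8673, 1023)]]
def p02 : List CL := [[(0, 1023), (52726, 1023), (4230, 1023), (2543, 1023), (6935, 1023)], [(0, 1023), (-13806, 1023), (3092, 1023)], [(13138, 1023), (-15170, 1023)]]
def p03 : List CL := [[(0, 1023), (52726, 1023), (5355, 1023), (-3996, 1023), (16151, 1023)], [(0, 1023), (-16855, 1023), (12532, 1023)], [(18470, 1023), (-30556, 1023)]]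
def p10 : List CL := [[(0, 1023), (102231, 1023), (76040, 1023), (-41862, 1023), (51068, 1023)], [(-40120, 1023), (-10038, 1023), (-92314, 1023)], [(20765, 1023), (33124, 1023)]]
def p11 : List CL := [[(0, 1023), (101928, 1023), (56080, 1023), (-2254, 1023), (46642, 1023)], [(-32002, 1023), (-6028, 1023), (-88764, 1023)], [(10149, 1023), (14838, 1023)]]
def p12 : List CL := [[(0, 1023), (102307, 1023), (46772, 1023), (-11243, 1023), (32187, 1023)], [(-21136, 1023), (4980, 1023), (-94239, 1023)], [(10361, 1023), (32386, 1023)]]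
def p13 : List CL := [[(0, 1023), (101510, 1023), (26266, 1023), (38147, 1023), (11817, 1023)], [(-12069, 1023), (9056, 1023), (-94335, 1023)], [(-14552, 1023), (37800, 1023)]]
def p20 : List CL := [[(0, 1023), (102055, 1023), (73989, 1023), (7551, 1023), (-7692, 1023)], [(-16691, 1023), (-87775, 1023), (-66282, 1023)], [(71037, 1023), (23837, 1023)]]
def p21 : List CL := [[(0, 1023), (78985, 1023), (19794, 1023), (71394, 1023), (21049, 1023)], [(-14627, 1023), (-57470, 1023), (-30191, 1023)], [(34184, 1023), (-41925, 1023)]]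
def p22 : List CL := [[(0, 1023), (102083, 1023), (62998, 1023), (30080, 1023), (29059, 1023)], [(-22818, 1023), (-76913, 1023), (-31720, 1023)], [(3998, 1023), (1198, 1023)]]
def p23 : List CL := [[(0, 1023), (102027, 1023), (56879, 1023), (22464, 1023), (26047, 1023)], [(-3359, 1023), (-72019, 1023), (-15988, 1023)], [(4771, 1023), (-7567, 1023)]]
def k00 : List CL := [[(0, 1023), (-391, 1023), (101752, 1023), (97821, 1023)], [(-99889, 1023), (-97597, 1023)], [(10585, 1023)]]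
def k01 : List CL := [[(0, 1023), (-9944, 1023), (101870, 1023), (97872, 1023)], [(-102051, 1023), (-99492, 1023)], [(4868, 1023)]]
def k02 : List CL := [[(0, 1023), (-15924, 1023), (102113, 1023), (98557, 1023)], [(-102149, 1023), (-98481, 1023)], [(-4104, 1023)]]
def k03 : List CL := [[(0, 1023), (-18592, 1023), (102112, 1023), (97707, 1023)], [(-102267, 1023), (-94953, 1023)], [(-3125, 1023)]]
def k10 : List CL := [[(-6314, 1023), (44820, 1023), (-5721, 1023), (-68107, 1023)], [(94642, 1023), (-11723, 1023)], [(-59512, 1023)]]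
def k11 : List CL := [[(-6249, 1023), (-57659, 1023), (-28854, 1023), (-59344, 1023)], [(90168, 1023), (5939, 1023)], [(-37027, 1023)]]
def k12 : List CL := [[(-2320, 1023), (-63791, 1023), (-91803, 1023), (-3740, 1023)], [(-10721, 1023), (62989, 1023)], [(-10131, 1023)]]
def k13 : List CL := [[(5689, 1023), (866, 1023), (-97279, 1023), (-10692, 1023)], [(-100514, 1023), (-7559, 1023)], [(74337, 1023)]]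

def D : ℕ → ℕ → NP
  | 0, 0 => D00
  | 0, 1 => D01
  | 0, 2 => D02
  | 0, 3 => D03
  | 1, 0 => D10
  | 1, 1 => D11
  | 1, 2 => D12
  | 1, 3 => D13
  | 2, 0 => D20
  | 2, 1 => D21
  | 2, 2 => D22
  | 2, 3 => D23
  | _, _ => D03

def psi : ℕ → ℕ → List CL
  | 0, 0 => p00
  | 0, 1 => p01
  | 0, 2 => p02
  | 0, 3 => p03
  | 1, 0 => p10
  | 1, 1 => p11
  | 1, 2 => p12
  | 1, 3 => p13
  | 2, 0 => p20
  | 2, 1 => p21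
  | 2, 2 => p22
  | 2, 3 => p23
  | _, _ => []

def hh : ℕ → ℕ → List CL
  | 0, 0 => k00
  | 0, 1 => k01
  | 0, 2 => k02
  | 0, 3 => k03
  | 1, 0 => k10
  | 1, 1 => k11
  | 1, 2 => k12
  | 1, 3 => k13
  | _, _ => []

def w2 : ℕ → ℤ × ℕ
  | 0 => (0, 0)
  | 1 => (0, 0)
  | 2 => (-33110, 1023)
  | _ => (0, 0)

/-! Certificates. -/

/-- the leaves of all trees -/
theorem lv :
    ((Tree.leaf 65 9 16 6 1).ok 0 1 0 0 (SEG D03 (0, 0) (sP (0, 0) (1, 0)) p00 p01 p02 p03) ⟨0, 1, 1, 0, 1, 1, 0, 1, 2, 0, 1, 1⟩ = true ∧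
      (Tree.leaf 78 9 16 6 1).ok 0 1 0 0 (SEG D03 (0, 0) (sP (0, 0) (1, 0)) p00 p01 p02 p03) ⟨0, 1, 1, 0, 1, 2, 1, 2, 2, 0, 1, 1⟩ = true ∧
      (Tree.leaf 85 9 16 6 1).ok 0 1 0 0 (SEG D03 (0, 0) (sP (0, 0) (1, 0)) p00 p01 p02 p03) ⟨0, 1, 1, 1, 2, 2, 1, 2, 2, 0, 1, 1⟩ = true) ∧
    ((Tree.leaf 55 16 1 6 1).ok 0 1 0 0 (RE D03 (0, 0)) ⟨0, 1, 1, 0, 1, 1, 0, 1, 1, 0, 1, 1⟩ = true) ∧
    ((Tree.leaf 145 17 16 6 1).ok 0 1 0 0 (UE0 (7, 9) D00) ⟨0, 1, 1, 0, 1, 2, 0, 1, 1, 0, 1, 1⟩ = true ∧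
      (Tree.leaf 153 17 16 6 1).ok 0 1 0 0 (UE0 (7, 9) D00) ⟨0, 1, 1, 1, 2, 2, 0, 1, 1, 0, 1, 1⟩ = true) ∧
    ((Tree.leaf 134 17 16 6 1).ok 0 1 0 0 (UE1 (7, 4) D00) ⟨0, 1, 1, 0, 1, 2, 0, 1, 1, 0, 1, 1⟩ = true ∧
      (Tree.leaf 155 17 16 6 1).ok 0 1 0 0 (UE1 (7, 4) D00) ⟨0, 1, 1, 2, 3, 4, 0, 1, 1, 0, 1, 1⟩ = true ∧
      (Tree.leaf 160 17 16 6 1).ok 0 1 0 0 (UE1 (7, 4) D00) ⟨0, 1, 1, 3, 4, 4, 0, 1, 1, 0, 1, 1⟩ = true) ∧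
    ((Tree.leaf 144 17 16 6 1).ok 0 1 0 0 (UE0 (7, 9) D01) ⟨0, 1, 1, 0, 1, 2, 0, 1, 1, 0, 1, 1⟩ = true ∧
      (Tree.leaf 151 17 16 6 1).ok 0 1 0 0 (UE0 (7, 9) D01) ⟨0, 1, 1, 1, 2, 2, 0, 1, 1, 0, 1, 1⟩ = true) ∧
    ((Tree.leaf 133 17 16 6 1).ok 0 1 0 0 (UE1 (7, 4) D01) ⟨0, 1, 1, 0, 1, 2, 0, 1, 1, 0, 1, 1⟩ = true ∧
      (Tree.leaf 151 17 16 6 1).ok 0 1 0 0 (UE1 (7, 4) D01) ⟨0, 1, 2, 1, 2, 2, 0, 1, 1, 0, 1, 1⟩ = true ∧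
      (Tree.leaf 162 17 16 6 1).ok 0 1 0 0 (UE1 (7, 4) D01) ⟨1, 2, 2, 1, 2, 2, 0, 1, 1, 0, 1, 1⟩ = true) ∧
    ((Tree.leaf 159 17 16 6 1).ok 0 1 0 0 (UE0 (7, 9) D02) ⟨0, 1, 4, 0, 1, 1, 0, 1, 1, 0, 1, 1⟩ = true ∧
      (Tree.leaf 162 17 16 6 1).ok 0 1 0 0 (UE0 (7, 9) D02) ⟨1, 2, 4, 0, 1, 1, 0, 1, 1, 0, 1, 1⟩ = true ∧
      (Tree.leaf 151 17 16 6 1).ok 0 1 0 0 (UE0 (7, 9) D02) ⟨1, 2, 2, 0, 1, 1, 0, 1, 1, 0, 1, 1⟩ = true) ∧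
    ((Tree.leaf 133 17 16 6 1).ok 0 1 0 0 (UE1 (7, 4) D02) ⟨0, 1, 1, 0, 1, 2, 0, 1, 1, 0, 1, 1⟩ = true ∧
      (Tree.leaf 154 17 16 6 1).ok 0 1 0 0 (UE1 (7, 4) D02) ⟨0, 1, 1, 2, 3, 4, 0, 1, 1, 0, 1, 1⟩ = true ∧
      (Tree.leaf 158 17 16 6 1).ok 0 1 0 0 (UE1 (7, 4) D02) ⟨0, 1, 1, 3, 4, 4, 0, 1, 1, 0, 1, 1⟩ = true) ∧
    ((Tree.leaf 157 17 16 6 1).ok 0 1 0 0 (UE0 (7, 9) D03) ⟨0, 1, 2, 0, 1, 2, 0, 1, 1, 0, 1, 1⟩ = true ∧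
      (Tree.leaf 162 17 16 6 1).ok 0 1 0 0 (UE0 (7, 9) D03) ⟨1, 2, 2, 0, 1, 2, 0, 1, 1, 0, 1, 1⟩ = true ∧
      (Tree.leaf 151 17 16 6 1).ok 0 1 0 0 (UE0 (7, 9) D03) ⟨0, 1, 1, 1, 2, 2, 0, 1, 1, 0, 1, 1⟩ = true) ∧
    ((Tree.leaf 132 17 16 6 1).ok 0 1 0 0 (UE1 (7, 4) D03) ⟨0, 1, 1, 0, 1, 2, 0, 1, 1, 0, 1, 1⟩ = true ∧
      (Tree.leaf 153 17 16 6 1).ok 0 1 0 0 (UE1 (7, 4) D03) ⟨0, 1, 1, 2, 3, 4, 0, 1, 1, 0, 1, 1⟩ = true ∧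
      (Tree.leaf 157 17 16 6 1).ok 0 1 0 0 (UE1 (7, 4) D03) ⟨0, 1, 1, 3, 4, 4, 0, 1, 1, 0, 1, 1⟩ = true) ∧
    ((Tree.leaf 157 16 16 6 6).ok 0 1 0 0 (GE 0 0 (D 0) (49, 99) (343, 999) (tau0 (49, 99)) p00 k00 k10) ⟨0, 1, 2, 0, 1, 1, 0, 1, 1, 0, 1, 1⟩ = true ∧
      (Tree.leaf 164 16 16 6 6).ok 0 1 0 0 (GE 0 0 (D 0) (49, 99) (343, 999) (tau0 (49, 99)) p00 k00 k10) ⟨1, 2, 2, 0, 1, 1, 0, 1, 1, 0, 1, 1⟩ = true) ∧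
    ((Tree.leaf 157 16 16 6 6).ok 0 1 0 0 (GE 0 0 (D 0) (49, 99) (343, 999) (tau1 (49, 99)) p00 k00 k10) ⟨0, 1, 2, 0, 1, 1, 0, 1, 1, 0, 1, 1⟩ = true ∧
      (Tree.leaf 164 16 16 6 6).ok 0 1 0 0 (GE 0 0 (D 0) (49, 99) (343, 999) (tau1 (49, 99)) p00 k00 k10) ⟨1, 2, 2, 0, 1, 1, 0, 1, 1, 0, 1, 1⟩ = true) ∧
    ((Tree.leaf 156 16 16 6 6).ok 0 1 0 0 (GE 0 1 (D 0) (49, 99) (343, 999) (tau0 (49, 99)) p01 k01 k11) ⟨0, 1, 2, 0, 1, 1, 0, 1, 1, 0, 1, 1⟩ = true ∧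
      (Tree.leaf 163 16 16 6 6).ok 0 1 0 0 (GE 0 1 (D 0) (49, 99) (343, 999) (tau0 (49, 99)) p01 k01 k11) ⟨1, 2, 2, 0, 1, 1, 0, 1, 1, 0, 1, 1⟩ = true) ∧
    ((Tree.leaf 156 16 16 6 6).ok 0 1 0 0 (GE 0 1 (D 0) (49, 99) (343, 999) (tau1 (49, 99)) p01 k01 k11) ⟨0, 1, 2, 0, 1, 1, 0, 1, 1, 0, 1, 1⟩ = true ∧
      (Tree.leaf 163 16 16 6 6).ok 0 1 0 0 (GE 0 1 (D 0) (49, 99) (343, 999) (tau1 (49, 99)) p01 k01 k11) ⟨1, 2, 2, 0, 1, 1, 0, 1, 1, 0, 1, 1⟩ = true) ∧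
    ((Tree.leaf 156 16 16 6 6).ok 0 1 0 0 (GE 0 2 (D 0) (49, 99) (343, 999) (tau0 (49, 99)) p02 k02 k12) ⟨0, 1, 2, 0, 1, 1, 0, 1, 1, 0, 1, 1⟩ = true ∧
      (Tree.leaf 163 16 16 6 6).ok 0 1 0 0 (GE 0 2 (D 0) (49, 99) (343, 999) (tau0 (49, 99)) p02 k02 k12) ⟨1, 2, 2, 0, 1, 1, 0, 1, 1, 0, 1, 1⟩ = true) ∧
    ((Tree.leaf 149 16 16 6 6).ok 0 1 0 0 (GE 0 2 (D 0) (49, 99) (343, 999) (tau1 (49, 99)) p02 k02 k12) ⟨0, 1, 1, 0, 1, 1, 0, 1, 1, 0, 1, 2⟩ = true ∧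
      (Tree.leaf 149 16 16 6 6).ok 0 1 0 0 (GE 0 2 (D 0) (49, 99) (343, 999) (tau1 (49, 99)) p02 k02 k12) ⟨0, 1, 1, 0, 1, 1, 0, 1, 1, 1, 2, 2⟩ = true) ∧
    ((Tree.leaf 149 16 16 6 6).ok 0 1 0 0 (GE 0 3 (D 0) (49, 99) (343, 999) (tau0 (49, 99)) p03 k03 k13) ⟨0, 1, 1, 0, 1, 1, 0, 1, 1, 0, 1, 2⟩ = true ∧
      (Tree.leaf 161 16 16 6 6).ok 0 1 0 0 (GE 0 3 (D 0) (49, 99) (343, 999) (tau0 (49, 99)) p03 k03 k13) ⟨0, 1, 2, 0, 1, 1, 0, 1, 1, 1, 2, 2⟩ = true ∧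
      (Tree.leaf 168 16 16 6 6).ok 0 1 0 0 (GE 0 3 (D 0) (49, 99) (343, 999) (tau0 (49, 99)) p03 k03 k13) ⟨1, 2, 2, 0, 1, 1, 0, 1, 1, 1, 2, 2⟩ = true) ∧
    ((Tree.leaf 149 16 16 6 6).ok 0 1 0 0 (GE 0 3 (D 0) (49, 99) (343, 999) (tau1 (49, 99)) p03 k03 k13) ⟨0, 1, 1, 0, 1, 1, 0, 1, 1, 0, 1, 2⟩ = true ∧
      (Tree.leaf 149 16 16 6 6).ok 0 1 0 0 (GE 0 3 (D 0) (49, 99) (343, 999) (tau1 (49, 99)) p03 k03 k13) ⟨0, 1, 1, 0, 1, 1, 0, 1, 1, 1, 2, 2⟩ = true) ∧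
    ((Tree.leaf 65 9 13 5 1).ok 0 1 0 0 (SEG D13 (0, 0) (sP (0, 0) (1, 0)) p10 p11 p12 p13) ⟨0, 1, 2, 0, 1, 2, 0, 1, 1, 0, 1, 1⟩ = true ∧
      (Tree.leaf 69 9 13 5 1).ok 0 1 0 0 (SEG D13 (0, 0) (sP (0, 0) (1, 0)) p10 p11 p12 p13) ⟨0, 1, 2, 1, 2, 2, 0, 1, 1, 0, 1, 1⟩ = true ∧
      (Tree.leaf 65 9 13 5 1).ok 0 1 0 0 (SEG D13 (0, 0) (sP (0, 0) (1, 0)) p10 p11 p12 p13) ⟨1, 2, 2, 0, 1, 1, 0, 1, 2, 0, 1, 1⟩ = true ∧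
      (Tree.leaf 66 9 13 5 1).ok 0 1 0 0 (SEG D13 (0, 0) (sP (0, 0) (1, 0)) p10 p11 p12 p13) ⟨1, 2, 2, 0, 1, 1, 1, 2, 2, 0, 1, 1⟩ = true) ∧
    ((Tree.leaf 48 13 1 5 1).ok 0 1 0 0 (RE D13 (0, 0)) ⟨0, 1, 1, 0, 1, 1, 0, 1, 1, 0, 1, 1⟩ = true) ∧
    ((Tree.leaf 121 14 13 5 1).ok 0 1 0 0 (UE0 (7, 9) D10) ⟨0, 1, 1, 0, 1, 2, 0, 1, 1, 0, 1, 1⟩ = true ∧
      (Tree.leaf 127 14 13 5 1).ok 0 1 0 0 (UE0 (7, 9) D10) ⟨0, 1, 1, 1, 2, 2, 0, 1, 1, 0, 1, 1⟩ = true) ∧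
    ((Tree.leaf 112 14 13 5 1).ok 0 1 0 0 (UE1 (7, 4) D10) ⟨0, 1, 1, 0, 1, 2, 0, 1, 1, 0, 1, 1⟩ = true ∧
      (Tree.leaf 127 14 13 5 1).ok 0 1 0 0 (UE1 (7, 4) D10) ⟨0, 1, 2, 1, 2, 2, 0, 1, 1, 0, 1, 1⟩ = true ∧
      (Tree.leaf 135 14 13 5 1).ok 0 1 0 0 (UE1 (7, 4) D10) ⟨1, 2, 2, 1, 2, 2, 0, 1, 1, 0, 1, 1⟩ = true) ∧
    ((Tree.leaf 132 14 13 5 1).ok 0 1 0 0 (UE0 (7, 9) D11) ⟨0, 1, 2, 0, 1, 2, 0, 1, 1, 0, 1, 1⟩ = true ∧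
      (Tree.leaf 136 14 13 5 1).ok 0 1 0 0 (UE0 (7, 9) D11) ⟨0, 1, 2, 1, 2, 2, 0, 1, 1, 0, 1, 1⟩ = true ∧
      (Tree.leaf 126 14 13 5 1).ok 0 1 0 0 (UE0 (7, 9) D11) ⟨1, 2, 2, 0, 1, 1, 0, 1, 1, 0, 1, 1⟩ = true) ∧
    ((Tree.leaf 112 14 13 5 1).ok 0 1 0 0 (UE1 (7, 4) D11) ⟨0, 1, 1, 0, 1, 2, 0, 1, 1, 0, 1, 1⟩ = true ∧
      (Tree.leaf 126 14 13 5 1).ok 0 1 0 0 (UE1 (7, 4) D11) ⟨0, 1, 2, 1, 2, 2, 0, 1, 1, 0, 1, 1⟩ = true ∧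
      (Tree.leaf 134 14 13 5 1).ok 0 1 0 0 (UE1 (7, 4) D11) ⟨1, 2, 2, 1, 2, 2, 0, 1, 1, 0, 1, 1⟩ = true) ∧
    ((Tree.leaf 121 14 13 5 1).ok 0 1 0 0 (UE0 (7, 9) D12) ⟨0, 1, 2, 0, 1, 1, 0, 1, 1, 0, 1, 1⟩ = true ∧
      (Tree.leaf 126 14 13 5 1).ok 0 1 0 0 (UE0 (7, 9) D12) ⟨1, 2, 2, 0, 1, 1, 0, 1, 1, 0, 1, 1⟩ = true) ∧
    ((Tree.leaf 121 14 13 5 1).ok 0 1 0 0 (UE1 (7, 4) D12) ⟨0, 1, 2, 0, 1, 2, 0, 1, 1, 0, 1, 1⟩ = true ∧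
      (Tree.leaf 128 14 13 5 1).ok 0 1 0 0 (UE1 (7, 4) D12) ⟨1, 2, 2, 0, 1, 2, 0, 1, 1, 0, 1, 1⟩ = true ∧
      (Tree.leaf 125 14 13 5 1).ok 0 1 0 0 (UE1 (7, 4) D12) ⟨0, 1, 2, 1, 2, 2, 0, 1, 1, 0, 1, 1⟩ = true ∧
      (Tree.leaf 134 14 13 5 1).ok 0 1 0 0 (UE1 (7, 4) D12) ⟨1, 2, 2, 1, 2, 2, 0, 1, 1, 0, 1, 1⟩ = true) ∧
    ((Tree.leaf 121 14 13 5 1).ok 0 1 0 0 (UE0 (7, 9) D13) ⟨0, 1, 2, 0, 1, 1, 0, 1, 1, 0, 1, 1⟩ = true ∧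
      (Tree.leaf 126 14 13 5 1).ok 0 1 0 0 (UE0 (7, 9) D13) ⟨1, 2, 2, 0, 1, 1, 0, 1, 1, 0, 1, 1⟩ = true) ∧
    ((Tree.leaf 111 14 13 5 1).ok 0 1 0 0 (UE1 (7, 4) D13) ⟨0, 1, 1, 0, 1, 2, 0, 1, 1, 0, 1, 1⟩ = true ∧
      (Tree.leaf 126 14 13 5 1).ok 0 1 0 0 (UE1 (7, 4) D13) ⟨0, 1, 2, 1, 2, 2, 0, 1, 1, 0, 1, 1⟩ = true ∧
      (Tree.leaf 134 14 13 5 1).ok 0 1 0 0 (UE1 (7, 4) D13) ⟨1, 2, 2, 1, 2, 2, 0, 1, 1, 0, 1, 1⟩ = true) ∧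
    ((Tree.leaf 141 14 14 6 6).ok 0 1 0 0 (GE 1 0 (D 1) (49, 99) (343, 999) (tau0 (49, 99)) p10 k00 k10) ⟨0, 1, 2, 0, 1, 1, 0, 1, 1, 0, 1, 1⟩ = true ∧
      (Tree.leaf 146 14 14 6 6).ok 0 1 0 0 (GE 1 0 (D 1) (49, 99) (343, 999) (tau0 (49, 99)) p10 k00 k10) ⟨1, 2, 2, 0, 1, 1, 0, 1, 1, 0, 1, 1⟩ = true) ∧
    ((Tree.leaf 130 14 14 6 6).ok 0 1 0 0 (GE 1 0 (D 1) (49, 99) (343, 999) (tau1 (49, 99)) p10 k00 k10) ⟨0, 1, 1, 0, 1, 1, 0, 1, 1, 0, 1, 1⟩ = true) ∧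
    ((Tree.leaf 141 14 14 6 6).ok 0 1 0 0 (GE 1 1 (D 1) (49, 99) (343, 999) (tau0 (49, 99)) p11 k01 k11) ⟨0, 1, 2, 0, 1, 1, 0, 1, 1, 0, 1, 1⟩ = true ∧
      (Tree.leaf 146 14 14 6 6).ok 0 1 0 0 (GE 1 1 (D 1) (49, 99) (343, 999) (tau0 (49, 99)) p11 k01 k11) ⟨1, 2, 2, 0, 1, 1, 0, 1, 1, 0, 1, 1⟩ = true) ∧
    ((Tree.leaf 142 14 14 6 6).ok 0 1 0 0 (GE 1 1 (D 1) (49, 99) (343, 999) (tau1 (49, 99)) p11 k01 k11) ⟨0, 1, 1, 0, 1, 2, 0, 1, 1, 0, 1, 1⟩ = true ∧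
      (Tree.leaf 145 14 14 6 6).ok 0 1 0 0 (GE 1 1 (D 1) (49, 99) (343, 999) (tau1 (49, 99)) p11 k01 k11) ⟨0, 1, 1, 1, 2, 2, 0, 1, 1, 0, 1, 1⟩ = true) ∧
    ((Tree.leaf 140 14 14 6 6).ok 0 1 0 0 (GE 1 2 (D 1) (49, 99) (343, 999) (tau0 (49, 99)) p12 k02 k12) ⟨0, 1, 2, 0, 1, 1, 0, 1, 1, 0, 1, 1⟩ = true ∧
      (Tree.leaf 146 14 14 6 6).ok 0 1 0 0 (GE 1 2 (D 1) (49, 99) (343, 999) (tau0 (49, 99)) p12 k02 k12) ⟨1, 2, 2, 0, 1, 1, 0, 1, 1, 0, 1, 1⟩ = true) ∧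
    ((Tree.leaf 130 14 14 6 6).ok 0 1 0 0 (GE 1 2 (D 1) (49, 99) (343, 999) (tau1 (49, 99)) p12 k02 k12) ⟨0, 1, 1, 0, 1, 1, 0, 1, 1, 0, 1, 1⟩ = true) ∧
    ((Tree.leaf 140 14 14 6 6).ok 0 1 0 0 (GE 1 3 (D 1) (49, 99) (343, 999) (tau0 (49, 99)) p13 k03 k13) ⟨0, 1, 2, 0, 1, 1, 0, 1, 1, 0, 1, 1⟩ = true ∧
      (Tree.leaf 146 14 14 6 6).ok 0 1 0 0 (GE 1 3 (D 1) (49, 99) (343, 999) (tau0 (49, 99)) p13 k03 k13) ⟨1, 2, 2, 0, 1, 1, 0, 1, 1, 0, 1, 1⟩ = true) ∧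
    ((Tree.leaf 140 14 14 6 6).ok 0 1 0 0 (GE 1 3 (D 1) (49, 99) (343, 999) (tau1 (49, 99)) p13 k03 k13) ⟨0, 1, 2, 0, 1, 1, 0, 1, 1, 0, 1, 1⟩ = true ∧
      (Tree.leaf 146 14 14 6 6).ok 0 1 0 0 (GE 1 3 (D 1) (49, 99) (343, 999) (tau1 (49, 99)) p13 k03 k13) ⟨1, 2, 2, 0, 1, 1, 0, 1, 1, 0, 1, 1⟩ = true) ∧
    ((Tree.leaf 50 9 10 5 1).ok 0 1 0 0 (SEG D23 (-33110, 1023) (sP (0, 0) (1, 0)) p20 p21 p22 p23) ⟨0, 1, 1, 0, 1, 1, 0, 1, 1, 0, 1, 1⟩ = true) ∧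
    ((Tree.leaf 42 10 1 4 1).ok 0 1 0 0 (RE D23 (-33110, 1023)) ⟨0, 1, 1, 0, 1, 1, 0, 1, 1, 0, 1, 1⟩ = true) ∧
    ((Tree.leaf 111 14 10 4 1).ok 0 1 0 0 (UE0 (7, 9) D20) ⟨0, 1, 1, 0, 1, 2, 0, 1, 1, 0, 1, 1⟩ = true ∧
      (Tree.leaf 116 14 10 4 1).ok 0 1 0 0 (UE0 (7, 9) D20) ⟨0, 1, 1, 1, 2, 2, 0, 1, 1, 0, 1, 1⟩ = true) ∧
    ((Tree.leaf 102 14 10 4 1).ok 0 1 0 0 (UE1 (7, 4) D20) ⟨0, 1, 1, 0, 1, 2, 0, 1, 1, 0, 1, 1⟩ = true ∧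
      (Tree.leaf 107 14 10 4 1).ok 0 1 0 0 (UE1 (7, 4) D20) ⟨0, 1, 1, 1, 2, 2, 0, 1, 1, 0, 1, 1⟩ = true) ∧
    ((Tree.leaf 111 14 10 4 1).ok 0 1 0 0 (UE0 (7, 9) D21) ⟨0, 1, 1, 0, 1, 2, 0, 1, 1, 0, 1, 1⟩ = true ∧
      (Tree.leaf 116 14 10 4 1).ok 0 1 0 0 (UE0 (7, 9) D21) ⟨0, 1, 1, 1, 2, 2, 0, 1, 1, 0, 1, 1⟩ = true) ∧
    ((Tree.leaf 102 14 10 4 1).ok 0 1 0 0 (UE1 (7, 4) D21) ⟨0, 1, 1, 0, 1, 2, 0, 1, 1, 0, 1, 1⟩ = true ∧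
      (Tree.leaf 107 14 10 4 1).ok 0 1 0 0 (UE1 (7, 4) D21) ⟨0, 1, 1, 1, 2, 2, 0, 1, 1, 0, 1, 1⟩ = true) ∧
    ((Tree.leaf 111 14 10 4 1).ok 0 1 0 0 (UE0 (7, 9) D22) ⟨0, 1, 1, 0, 1, 2, 0, 1, 1, 0, 1, 1⟩ = true ∧
      (Tree.leaf 115 14 10 4 1).ok 0 1 0 0 (UE0 (7, 9) D22) ⟨0, 1, 1, 1, 2, 2, 0, 1, 1, 0, 1, 1⟩ = true) ∧
    ((Tree.leaf 102 14 10 4 1).ok 0 1 0 0 (UE1 (7, 4) D22) ⟨0, 1, 1, 0, 1, 2, 0, 1, 1, 0, 1, 1⟩ = true ∧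
      (Tree.leaf 107 14 10 4 1).ok 0 1 0 0 (UE1 (7, 4) D22) ⟨0, 1, 1, 1, 2, 2, 0, 1, 1, 0, 1, 1⟩ = true) ∧
    ((Tree.leaf 103 14 10 4 1).ok 0 1 0 0 (UE0 (7, 9) D23) ⟨0, 1, 1, 0, 1, 1, 0, 1, 1, 0, 1, 1⟩ = true) ∧
    ((Tree.leaf 101 14 10 4 1).ok 0 1 0 0 (UE1 (7, 4) D23) ⟨0, 1, 1, 0, 1, 2, 0, 1, 1, 0, 1, 1⟩ = true ∧
      (Tree.leaf 106 14 10 4 1).ok 0 1 0 0 (UE1 (7, 4) D23) ⟨0, 1, 1, 1, 2, 2, 0, 1, 1, 0, 1, 1⟩ = true) ∧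
    ((Tree.leaf 141 14 14 6 6).ok 0 1 0 0 (GE 2 0 (D 2) (49, 99) (343, 999) (tau0 (49, 99)) p20 k00 k10) ⟨0, 1, 2, 0, 1, 1, 0, 1, 1, 0, 1, 1⟩ = true ∧
      (Tree.leaf 146 14 14 6 6).ok 0 1 0 0 (GE 2 0 (D 2) (49, 99) (343, 999) (tau0 (49, 99)) p20 k00 k10) ⟨1, 2, 2, 0, 1, 1, 0, 1, 1, 0, 1, 1⟩ = true) ∧
    ((Tree.leaf 131 14 14 6 6).ok 0 1 0 0 (GE 2 0 (D 2) (49, 99) (343, 999) (tau1 (49, 99)) p20 k00 k10) ⟨0, 1, 1, 0, 1, 1, 0, 1, 1, 0, 1, 1⟩ = true) ∧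
    ((Tree.leaf 141 14 14 6 6).ok 0 1 0 0 (GE 2 1 (D 2) (49, 99) (343, 999) (tau0 (49, 99)) p21 k01 k11) ⟨0, 1, 2, 0, 1, 1, 0, 1, 1, 0, 1, 1⟩ = true ∧
      (Tree.leaf 146 14 14 6 6).ok 0 1 0 0 (GE 2 1 (D 2) (49, 99) (343, 999) (tau0 (49, 99)) p21 k01 k11) ⟨1, 2, 2, 0, 1, 1, 0, 1, 1, 0, 1, 1⟩ = true) ∧
    ((Tree.leaf 130 14 14 6 6).ok 0 1 0 0 (GE 2 1 (D 2) (49, 99) (343, 999) (tau1 (49, 99)) p21 k01 k11) ⟨0, 1, 1, 0, 1, 1, 0, 1, 1, 0, 1, 1⟩ = true) ∧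
    ((Tree.leaf 140 14 14 6 6).ok 0 1 0 0 (GE 2 2 (D 2) (49, 99) (343, 999) (tau0 (49, 99)) p22 k02 k12) ⟨0, 1, 2, 0, 1, 1, 0, 1, 1, 0, 1, 1⟩ = true ∧
      (Tree.leaf 146 14 14 6 6).ok 0 1 0 0 (GE 2 2 (D 2) (49, 99) (343, 999) (tau0 (49, 99)) p22 k02 k12) ⟨1, 2, 2, 0, 1, 1, 0, 1, 1, 0, 1, 1⟩ = true) ∧
    ((Tree.leaf 130 14 14 6 6).ok 0 1 0 0 (GE 2 2 (D 2) (49, 99) (343, 999) (tau1 (49, 99)) p22 k02 k12) ⟨0, 1, 1, 0, 1, 1, 0, 1, 1, 0, 1, 1⟩ = true) ∧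
    ((Tree.leaf 140 14 14 6 6).ok 0 1 0 0 (GE 2 3 (D 2) (49, 99) (343, 999) (tau0 (49, 99)) p23 k03 k13) ⟨0, 1, 2, 0, 1, 1, 0, 1, 1, 0, 1, 1⟩ = true ∧
      (Tree.leaf 146 14 14 6 6).ok 0 1 0 0 (GE 2 3 (D 2) (49, 99) (343, 999) (tau0 (49, 99)) p23 k03 k13) ⟨1, 2, 2, 0, 1, 1, 0, 1, 1, 0, 1, 1⟩ = true) ∧
    ((Tree.leaf 141 14 14 6 6).ok 0 1 0 0 (GE 2 3 (D 2) (49, 99) (343, 999) (tau1 (49, 99)) p23 k03 k13) ⟨0, 1, 2, 0, 1, 1, 0, 1, 1, 0, 1, 1⟩ = true ∧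
      (Tree.leaf 146 14 14 6 6).ok 0 1 0 0 (GE 2 3 (D 2) (49, 99) (343, 999) (tau1 (49, 99)) p23 k03 k13) ⟨1, 2, 2, 0, 1, 1, 0, 1, 1, 0, 1, 1⟩ = true) :=
  ⟨⟨by decide +kernel, by decide +kernel, by decide +kernel⟩,
   by decide +kernel,
   ⟨by decide +kernel, by decide +kernel⟩,
   ⟨by decide +kernel, by decide +kernel, by decide +kernel⟩,
   ⟨by decide +kernel, by decide +kernel⟩,
   ⟨by decide +kernel, by decide +kernel, by decide +kernel⟩,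
   ⟨by decide +kernel, by decide +kernel, by decide +kernel⟩,
   ⟨by decide +kernel, by decide +kernel, by decide +kernel⟩,
   ⟨by decide +kernel, by decide +kernel, by decide +kernel⟩,
   ⟨by decide +kernel, by decide +kernel, by decide +kernel⟩,
   ⟨by decide +kernel, by decide +kernel⟩,
   ⟨by decide +kernel, by decide +kernel⟩,
   ⟨by decide +kernel, by decide +kernel⟩,
   ⟨by decide +kernel, by decide +kernel⟩,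
   ⟨by decide +kernel, by decide +kernel⟩,
   ⟨by decide +kernel, by decide +kernel⟩,
   ⟨by decide +kernel, by decide +kernel, by decide +kernel⟩,
   ⟨by decide +kernel, by decide +kernel⟩,
   ⟨by decide +kernel, by decide +kernel, by decide +kernel, by decide +kernel⟩,
   by decide +kernel,
   ⟨by decide +kernel, by decide +kernel⟩,
   ⟨by decide +kernel, by decide +kernel, by decide +kernel⟩,
   ⟨by decide +kernel, by decide +kernel, by decide +kernel⟩,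
   ⟨by decide +kernel, by decide +kernel, by decide +kernel⟩,
   ⟨by decide +kernel, by decide +kernel⟩,
   ⟨by decide +kernel, by decide +kernel, by decide +kernel, by decide +kernel⟩,
   ⟨by decide +kernel, by decide +kernel⟩,
   ⟨by decide +kernel, by decide +kernel, by decide +kernel⟩,
   ⟨by decide +kernel, by decide +kernel⟩,
   by decide +kernel,
   ⟨by decide +kernel, by decide +kernel⟩,
   ⟨by decide +kernel, by decide +kernel⟩,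
   ⟨by decide +kernel, by decide +kernel⟩,
   by decide +kernel,
   ⟨by decide +kernel, by decide +kernel⟩,
   ⟨by decide +kernel, by decide +kernel⟩,
   by decide +kernel,
   by decide +kernel,
   ⟨by decide +kernel, by decide +kernel⟩,
   ⟨by decide +kernel, by decide +kernel⟩,
   ⟨by decide +kernel, by decide +kernel⟩,
   ⟨by decide +kernel, by decide +kernel⟩,
   ⟨by decide +kernel, by decide +kernel⟩,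
   ⟨by decide +kernel, by decide +kernel⟩,
   by decide +kernel,
   ⟨by decide +kernel, by decide +kernel⟩,
   ⟨by decide +kernel, by decide +kernel⟩,
   by decide +kernel,
   ⟨by decide +kernel, by decide +kernel⟩,
   by decide +kernel,
   ⟨by decide +kernel, by decide +kernel⟩,
   by decide +kernel,
   ⟨by decide +kernel, by decide +kernel⟩,
   ⟨by decide +kernel, by decide +kernel⟩⟩

def t_s0 : Tree := (.s2 (.leaf 65 9 16 6 1) (.s1 (.leaf 78 9 16 6 1) (.leaf 85 9 16 6 1)))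
theorem s0 : t_s0.ok 0 1 0 0 (SEG D03 (0, 0) (sP (0, 0) (1, 0)) p00 p01 p02 p03) unitBx = true :=
  (Tree.ok_s2 lv.1.1 (Tree.ok_s1 lv.1.2.1 lv.1.2.2))

def t_r0 : Tree := (.leaf 55 16 1 6 1)
theorem r0 : t_r0.ok 0 1 0 0 (RE D03 (0, 0)) unitBx = true :=
  lv.2.1

def t_u00 : Tree := (.s1 (.leaf 145 17 16 6 1) (.leaf 153 17 16 6 1))
theorem u00 : t_u00.ok 0 1 0 0 (UE0 (7, 9) D00) unitBx = true :=
  (Tree.ok_s1 lv.2.2.1.1 lv.2.2.1.2)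

def t_v00 : Tree := (.s1 (.leaf 134 17 16 6 1) (.s1 (.leaf 155 17 16 6 1) (.leaf 160 17 16 6 1)))
theorem v00 : t_v00.ok 0 1 0 0 (UE1 (7, 4) D00) unitBx = true :=
  (Tree.ok_s1 lv.2.2.2.1.1 (Tree.ok_s1 lv.2.2.2.1.2.1 lv.2.2.2.1.2.2))

def t_u01 : Tree := (.s1 (.leaf 144 17 16 6 1) (.leaf 151 17 16 6 1))
theorem u01 : t_u01.ok 0 1 0 0 (UE0 (7, 9) D01) unitBx = true :=
  (Tree.ok_s1 lv.2.2.2.2.1.1 lv.2.2.2.2.1.2)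

def t_v01 : Tree := (.s1 (.leaf 133 17 16 6 1) (.s0 (.leaf 151 17 16 6 1) (.leaf 162 17 16 6 1)))
theorem v01 : t_v01.ok 0 1 0 0 (UE1 (7, 4) D01) unitBx = true :=
  (Tree.ok_s1 lv.2.2.2.2.2.1.1 (Tree.ok_s0 lv.2.2.2.2.2.1.2.1 lv.2.2.2.2.2.1.2.2))

def t_u02 : Tree := (.s0 (.s0 (.leaf 159 17 16 6 1) (.leaf 162 17 16 6 1)) (.leaf 151 17 16 6 1))
theorem u02 : t_u02.ok 0 1 0 0 (UE0 (7, 9) D02) unitBx = true :=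
  (Tree.ok_s0 (Tree.ok_s0 lv.2.2.2.2.2.2.1.1 lv.2.2.2.2.2.2.1.2.1) lv.2.2.2.2.2.2.1.2.2)

def t_v02 : Tree := (.s1 (.leaf 133 17 16 6 1) (.s1 (.leaf 154 17 16 6 1) (.leaf 158 17 16 6 1)))
theorem v02 : t_v02.ok 0 1 0 0 (UE1 (7, 4) D02) unitBx = true :=
  (Tree.ok_s1 lv.2.2.2.2.2.2.2.1.1 (Tree.ok_s1 lv.2.2.2.2.2.2.2.1.2.1 lv.2.2.2.2.2.2.2.1.2.2))

def t_u03 : Tree := (.s1 (.s0 (.leaf 157 17 16 6 1) (.leaf 162 17 16 6 1)) (.leaf 151 17 16 6 1))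
theorem u03 : t_u03.ok 0 1 0 0 (UE0 (7, 9) D03) unitBx = true :=
  (Tree.ok_s1 (Tree.ok_s0 lv.2.2.2.2.2.2.2.2.1.1 lv.2.2.2.2.2.2.2.2.1.2.1) lv.2.2.2.2.2.2.2.2.1.2.2)

def t_v03 : Tree := (.s1 (.leaf 132 17 16 6 1) (.s1 (.leaf 153 17 16 6 1) (.leaf 157 17 16 6 1)))
theorem v03 : t_v03.ok 0 1 0 0 (UE1 (7, 4) D03) unitBx = true :=
  (Tree.ok_s1 lv.2.2.2.2.2.2.2.2.2.1.1 (Tree.ok_s1 lv.2.2.2.2.2.2.2.2.2.1.2.1 lv.2.2.2.2.2.2.2.2.2.1.2.2))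

def t_h000 : Tree := (.s0 (.leaf 157 16 16 6 6) (.leaf 164 16 16 6 6))
theorem h000 : t_h000.ok 0 1 0 0 (GE 0 0 (D 0) (49, 99) (343, 999) (tau0 (49, 99)) p00 k00 k10) unitBx = true :=
  (Tree.ok_s0 lv.2.2.2.2.2.2.2.2.2.2.1.1 lv.2.2.2.2.2.2.2.2.2.2.1.2)

def t_h001 : Tree := (.s0 (.leaf 157 16 16 6 6) (.leaf 164 16 16 6 6))
theorem h001 : t_h001.ok 0 1 0 0 (GE 0 0 (D 0) (49, 99) (343, 999) (tau1 (49, 99)) p00 k00 k10) unitBx = true :=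
  (Tree.ok_s0 lv.2.2.2.2.2.2.2.2.2.2.2.1.1 lv.2.2.2.2.2.2.2.2.2.2.2.1.2)

def t_h010 : Tree := (.s0 (.leaf 156 16 16 6 6) (.leaf 163 16 16 6 6))
theorem h010 : t_h010.ok 0 1 0 0 (GE 0 1 (D 0) (49, 99) (343, 999) (tau0 (49, 99)) p01 k01 k11) unitBx = true :=
  (Tree.ok_s0 lv.2.2.2.2.2.2.2.2.2.2.2.2.1.1 lv.2.2.2.2.2.2.2.2.2.2.2.2.1.2)

def t_h011 : Tree := (.s0 (.leaf 156 16 16 6 6) (.leaf 163 16 16 6 6))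
theorem h011 : t_h011.ok 0 1 0 0 (GE 0 1 (D 0) (49, 99) (343, 999) (tau1 (49, 99)) p01 k01 k11) unitBx = true :=
  (Tree.ok_s0 lv.2.2.2.2.2.2.2.2.2.2.2.2.2.1.1 lv.2.2.2.2.2.2.2.2.2.2.2.2.2.1.2)

def t_h020 : Tree := (.s0 (.leaf 156 16 16 6 6) (.leaf 163 16 16 6 6))
theorem h020 : t_h020.ok 0 1 0 0 (GE 0 2 (D 0) (49, 99) (343, 999) (tau0 (49, 99)) p02 k02 k12) unitBx = true :=
  (Tree.ok_s0 lv.2.2.2.2.2.2.2.2.2.2.2.2.2.2.1.1 lv.2.2.2.2.2.2.2.2.2.2.2.2.2.2.1.2)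

def t_h021 : Tree := (.s3 (.leaf 149 16 16 6 6) (.leaf 149 16 16 6 6))
theorem h021 : t_h021.ok 0 1 0 0 (GE 0 2 (D 0) (49, 99) (343, 999) (tau1 (49, 99)) p02 k02 k12) unitBx = true :=
  (Tree.ok_s3 lv.2.2.2.2.2.2.2.2.2.2.2.2.2.2.2.1.1 lv.2.2.2.2.2.2.2.2.2.2.2.2.2.2.2.1.2)

def t_h030 : Tree := (.s3 (.leaf 149 16 16 6 6) (.s0 (.leaf 161 16 16 6 6) (.leaf 168 16 16 6 6)))
theorem h030 : t_h030.ok 0 1 0 0 (GE 0 3 (D 0) (49, 99) (343, 999) (tau0 (49, 99)) p03 k03 k13) unitBx = true :=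
  (Tree.ok_s3 lv.2.2.2.2.2.2.2.2.2.2.2.2.2.2.2.2.1.1 (Tree.ok_s0 lv.2.2.2.2.2.2.2.2.2.2.2.2.2.2.2.2.1.2.1 lv.2.2.2.2.2.2.2.2.2.2.2.2.2.2.2.2.1.2.2))

def t_h031 : Tree := (.s3 (.leaf 149 16 16 6 6) (.leaf 149 16 16 6 6))
theorem h031 : t_h031.ok 0 1 0 0 (GE 0 3 (D 0) (49, 99) (343, 999) (tau1 (49, 99)) p03 k03 k13) unitBx = true :=
  (Tree.ok_s3 lv.2.2.2.2.2.2.2.2.2.2.2.2.2.2.2.2.2.1.1 lv.2.2.2.2.2.2.2.2.2.2.2.2.2.2.2.2.2.1.2)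

def t_s1 : Tree := (.s0 (.s1 (.leaf 65 9 13 5 1) (.leaf 69 9 13 5 1)) (.s2 (.leaf 65 9 13 5 1) (.leaf 66 9 13 5 1)))
theorem s1 : t_s1.ok 0 1 0 0 (SEG D13 (0, 0) (sP (0, 0) (1, 0)) p10 p11 p12 p13) unitBx = true :=
  (Tree.ok_s0 (Tree.ok_s1 lv.2.2.2.2.2.2.2.2.2.2.2.2.2.2.2.2.2.2.1.1 lv.2.2.2.2.2.2.2.2.2.2.2.2.2.2.2.2.2.2.1.2.1) (Tree.ok_s2 lv.2.2.2.2.2.2.2.2.2.2.2.2.2.2.2.2.2.2.1.2.2.1 lv.2.2.2.2.2.2.2.2.2.2.2.2.2.2.2.2.2.2.1.2.2.2))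

def t_r1 : Tree := (.leaf 48 13 1 5 1)
theorem r1 : t_r1.ok 0 1 0 0 (RE D13 (0, 0)) unitBx = true :=
  lv.2.2.2.2.2.2.2.2.2.2.2.2.2.2.2.2.2.2.2.1

def t_u10 : Tree := (.s1 (.leaf 121 14 13 5 1) (.leaf 127 14 13 5 1))
theorem u10 : t_u10.ok 0 1 0 0 (UE0 (7, 9) D10) unitBx = true :=
  (Tree.ok_s1 lv.2.2.2.2.2.2.2.2.2.2.2.2.2.2.2.2.2.2.2.2.1.1 lv.2.2.2.2.2.2.2.2.2.2.2.2.2.2.2.2.2.2.2.2.1.2)

def t_v10 : Tree := (.s1 (.leaf 112 14 13 5 1) (.s0 (.leaf 127 14 13 5 1) (.leaf 135 14 13 5 1)))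
theorem v10 : t_v10.ok 0 1 0 0 (UE1 (7, 4) D10) unitBx = true :=
  (Tree.ok_s1 lv.2.2.2.2.2.2.2.2.2.2.2.2.2.2.2.2.2.2.2.2.2.1.1 (Tree.ok_s0 lv.2.2.2.2.2.2.2.2.2.2.2.2.2.2.2.2.2.2.2.2.2.1.2.1 lv.2.2.2.2.2.2.2.2.2.2.2.2.2.2.2.2.2.2.2.2.2.1.2.2))

def t_u11 : Tree := (.s0 (.s1 (.leaf 132 14 13 5 1) (.leaf 136 14 13 5 1)) (.leaf 126 14 13 5 1))
theorem u11 : t_u11.ok 0 1 0 0 (UE0 (7, 9) D11) unitBx = true :=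
  (Tree.ok_s0 (Tree.ok_s1 lv.2.2.2.2.2.2.2.2.2.2.2.2.2.2.2.2.2.2.2.2.2.2.1.1 lv.2.2.2.2.2.2.2.2.2.2.2.2.2.2.2.2.2.2.2.2.2.2.1.2.1) lv.2.2.2.2.2.2.2.2.2.2.2.2.2.2.2.2.2.2.2.2.2.2.1.2.2)

def t_v11 : Tree := (.s1 (.leaf 112 14 13 5 1) (.s0 (.leaf 126 14 13 5 1) (.leaf 134 14 13 5 1)))
theorem v11 : t_v11.ok 0 1 0 0 (UE1 (7, 4) D11) unitBx = true :=
  (Tree.ok_s1 lv.2.2.2.2.2.2.2.2.2.2.2.2.2.2.2.2.2.2.2.2.2.2.2.1.1 (Tree.ok_s0 lv.2.2.2.2.2.2.2.2.2.2.2.2.2.2.2.2.2.2.2.2.2.2.2.1.2.1 lv.2.2.2.2.2.2.2.2.2.2.2.2.2.2.2.2.2.2.2.2.2.2.2.1.2.2))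

def t_u12 : Tree := (.s0 (.leaf 121 14 13 5 1) (.leaf 126 14 13 5 1))
theorem u12 : t_u12.ok 0 1 0 0 (UE0 (7, 9) D12) unitBx = true :=
  (Tree.ok_s0 lv.2.2.2.2.2.2.2.2.2.2.2.2.2.2.2.2.2.2.2.2.2.2.2.2.1.1 lv.2.2.2.2.2.2.2.2.2.2.2.2.2.2.2.2.2.2.2.2.2.2.2.2.1.2)

def t_v12 : Tree := (.s1 (.s0 (.leaf 121 14 13 5 1) (.leaf 128 14 13 5 1)) (.s0 (.leaf 125 14 13 5 1) (.leaf 134 14 13 5 1)))
theorem v12 : t_v12.ok 0 1 0 0 (UE1 (7, 4) D12) unitBx = true :=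
  (Tree.ok_s1 (Tree.ok_s0 lv.2.2.2.2.2.2.2.2.2.2.2.2.2.2.2.2.2.2.2.2.2.2.2.2.2.1.1 lv.2.2.2.2.2.2.2.2.2.2.2.2.2.2.2.2.2.2.2.2.2.2.2.2.2.1.2.1) (Tree.ok_s0 lv.2.2.2.2.2.2.2.2.2.2.2.2.2.2.2.2.2.2.2.2.2.2.2.2.2.1.2.2.1 lv.2.2.2.2.2.2.2.2.2.2.2.2.2.2.2.2.2.2.2.2.2.2.2.2.2.1.2.2.2))

def t_u13 : Tree := (.s0 (.leaf 121 14 13 5 1) (.leaf 126 14 13 5 1))
theorem u13 : t_u13.ok 0 1 0 0 (UE0 (7, 9) D13) unitBx = true :=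
  (Tree.ok_s0 lv.2.2.2.2.2.2.2.2.2.2.2.2.2.2.2.2.2.2.2.2.2.2.2.2.2.2.1.1 lv.2.2.2.2.2.2.2.2.2.2.2.2.2.2.2.2.2.2.2.2.2.2.2.2.2.2.1.2)

def t_v13 : Tree := (.s1 (.leaf 111 14 13 5 1) (.s0 (.leaf 126 14 13 5 1) (.leaf 134 14 13 5 1)))
theorem v13 : t_v13.ok 0 1 0 0 (UE1 (7, 4) D13) unitBx = true :=
  (Tree.ok_s1 lv.2.2.2.2.2.2.2.2.2.2.2.2.2.2.2.2.2.2.2.2.2.2.2.2.2.2.2.1.1 (Tree.ok_s0 lv.2.2.2.2.2.2.2.2.2.2.2.2.2.2.2.2.2.2.2.2.2.2.2.2.2.2.2.1.2.1 lv.2.2.2.2.2.2.2.2.2.2.2.2.2.2.2.2.2.2.2.2.2.2.2.2.2.2.2.1.2.2))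

def t_h100 : Tree := (.s0 (.leaf 141 14 14 6 6) (.leaf 146 14 14 6 6))
theorem h100 : t_h100.ok 0 1 0 0 (GE 1 0 (D 1) (49, 99) (343, 999) (tau0 (49, 99)) p10 k00 k10) unitBx = true :=
  (Tree.ok_s0 lv.2.2.2.2.2.2.2.2.2.2.2.2.2.2.2.2.2.2.2.2.2.2.2.2.2.2.2.2.1.1 lv.2.2.2.2.2.2.2.2.2.2.2.2.2.2.2.2.2.2.2.2.2.2.2.2.2.2.2.2.1.2)

def t_h101 : Tree := (.leaf 130 14 14 6 6)
theorem h101 : t_h101.ok 0 1 0 0 (GE 1 0 (D 1) (49, 99) (343, 999) (tau1 (49, 99)) p10 k00 k10) unitBx = true :=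
  lv.2.2.2.2.2.2.2.2.2.2.2.2.2.2.2.2.2.2.2.2.2.2.2.2.2.2.2.2.2.1

def t_h110 : Tree := (.s0 (.leaf 141 14 14 6 6) (.leaf 146 14 14 6 6))
theorem h110 : t_h110.ok 0 1 0 0 (GE 1 1 (D 1) (49, 99) (343, 999) (tau0 (49, 99)) p11 k01 k11) unitBx = true :=
  (Tree.ok_s0 lv.2.2.2.2.2.2.2.2.2.2.2.2.2.2.2.2.2.2.2.2.2.2.2.2.2.2.2.2.2.2.1.1 lv.2.2.2.2.2.2.2.2.2.2.2.2.2.2.2.2.2.2.2.2.2.2.2.2.2.2.2.2.2.2.1.2)

def t_h111 : Tree := (.s1 (.leaf 142 14 14 6 6) (.leaf 145 14 14 6 6))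
theorem h111 : t_h111.ok 0 1 0 0 (GE 1 1 (D 1) (49, 99) (343, 999) (tau1 (49, 99)) p11 k01 k11) unitBx = true :=
  (Tree.ok_s1 lv.2.2.2.2.2.2.2.2.2.2.2.2.2.2.2.2.2.2.2.2.2.2.2.2.2.2.2.2.2.2.2.1.1 lv.2.2.2.2.2.2.2.2.2.2.2.2.2.2.2.2.2.2.2.2.2.2.2.2.2.2.2.2.2.2.2.1.2)

def t_h120 : Tree := (.s0 (.leaf 140 14 14 6 6) (.leaf 146 14 14 6 6))
theorem h120 : t_h120.ok 0 1 0 0 (GE 1 2 (D 1) (49, 99) (343, 999) (tau0 (49, 99)) p12 k02 k12) unitBx = true :=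
  (Tree.ok_s0 lv.2.2.2.2.2.2.2.2.2.2.2.2.2.2.2.2.2.2.2.2.2.2.2.2.2.2.2.2.2.2.2.2.1.1 lv.2.2.2.2.2.2.2.2.2.2.2.2.2.2.2.2.2.2.2.2.2.2.2.2.2.2.2.2.2.2.2.2.1.2)

def t_h121 : Tree := (.leaf 130 14 14 6 6)
theorem h121 : t_h121.ok 0 1 0 0 (GE 1 2 (D 1) (49, 99) (343, 999) (tau1 (49, 99)) p12 k02 k12) unitBx = true :=
  lv.2.2.2.2.2.2.2.2.2.2.2.2.2.2.2.2.2.2.2.2.2.2.2.2.2.2.2.2.2.2.2.2.2.1

def t_h130 : Tree := (.s0 (.leaf 140 14 14 6 6) (.leaf 146 14 14 6 6))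
theorem h130 : t_h130.ok 0 1 0 0 (GE 1 3 (D 1) (49, 99) (343, 999) (tau0 (49, 99)) p13 k03 k13) unitBx = true :=
  (Tree.ok_s0 lv.2.2.2.2.2.2.2.2.2.2.2.2.2.2.2.2.2.2.2.2.2.2.2.2.2.2.2.2.2.2.2.2.2.2.1.1 lv.2.2.2.2.2.2.2.2.2.2.2.2.2.2.2.2.2.2.2.2.2.2.2.2.2.2.2.2.2.2.2.2.2.2.1.2)

def t_h131 : Tree := (.s0 (.leaf 140 14 14 6 6) (.leaf 146 14 14 6 6))
theorem h131 : t_h131.ok 0 1 0 0 (GE 1 3 (D 1) (49, 99) (343, 999) (tau1 (49, 99)) p13 k03 k13) unitBx = true :=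
  (Tree.ok_s0 lv.2.2.2.2.2.2.2.2.2.2.2.2.2.2.2.2.2.2.2.2.2.2.2.2.2.2.2.2.2.2.2.2.2.2.2.1.1 lv.2.2.2.2.2.2.2.2.2.2.2.2.2.2.2.2.2.2.2.2.2.2.2.2.2.2.2.2.2.2.2.2.2.2.2.1.2)

def t_s2 : Tree := (.leaf 50 9 10 5 1)
theorem s2 : t_s2.ok 0 1 0 0 (SEG D23 (-33110, 1023) (sP (0, 0) (1, 0)) p20 p21 p22 p23) unitBx = true :=
  lv.2.2.2.2.2.2.2.2.2.2.2.2.2.2.2.2.2.2.2.2.2.2.2.2.2.2.2.2.2.2.2.2.2.2.2.2.1

def t_r2 : Tree := (.leaf 42 10 1 4 1)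
theorem r2 : t_r2.ok 0 1 0 0 (RE D23 (-33110, 1023)) unitBx = true :=
  lv.2.2.2.2.2.2.2.2.2.2.2.2.2.2.2.2.2.2.2.2.2.2.2.2.2.2.2.2.2.2.2.2.2.2.2.2.2.1

def t_u20 : Tree := (.s1 (.leaf 111 14 10 4 1) (.leaf 116 14 10 4 1))
theorem u20 : t_u20.ok 0 1 0 0 (UE0 (7, 9) D20) unitBx = true :=
  (Tree.ok_s1 lv.2.2.2.2.2.2.2.2.2.2.2.2.2.2.2.2.2.2.2.2.2.2.2.2.2.2.2.2.2.2.2.2.2.2.2.2.2.2.1.1 lv.2.2.2.2.2.2.2.2.2.2.2.2.2.2.2.2.2.2.2.2.2.2.2.2.2.2.2.2.2.2.2.2.2.2.2.2.2.2.1.2)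

def t_v20 : Tree := (.s1 (.leaf 102 14 10 4 1) (.leaf 107 14 10 4 1))
theorem v20 : t_v20.ok 0 1 0 0 (UE1 (7, 4) D20) unitBx = true :=
  (Tree.ok_s1 lv.2.2.2.2.2.2.2.2.2.2.2.2.2.2.2.2.2.2.2.2.2.2.2.2.2.2.2.2.2.2.2.2.2.2.2.2.2.2.2.1.1 lv.2.2.2.2.2.2.2.2.2.2.2.2.2.2.2.2.2.2.2.2.2.2.2.2.2.2.2.2.2.2.2.2.2.2.2.2.2.2.2.1.2)

def t_u21 : Tree := (.s1 (.leaf 111 14 10 4 1) (.leaf 116 14 10 4 1))
theorem u21 : t_u21.ok 0 1 0 0 (UE0 (7, 9) D21) unitBx = true :=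
  (Tree.ok_s1 lv.2.2.2.2.2.2.2.2.2.2.2.2.2.2.2.2.2.2.2.2.2.2.2.2.2.2.2.2.2.2.2.2.2.2.2.2.2.2.2.2.1.1 lv.2.2.2.2.2.2.2.2.2.2.2.2.2.2.2.2.2.2.2.2.2.2.2.2.2.2.2.2.2.2.2.2.2.2.2.2.2.2.2.2.1.2)

def t_v21 : Tree := (.s1 (.leaf 102 14 10 4 1) (.leaf 107 14 10 4 1))
theorem v21 : t_v21.ok 0 1 0 0 (UE1 (7, 4) D21) unitBx = true :=
  (Tree.ok_s1 lv.2.2.2.2.2.2.2.2.2.2.2.2.2.2.2.2.2.2.2.2.2.2.2.2.2.2.2.2.2.2.2.2.2.2.2.2.2.2.2.2.2.1.1 lv.2.2.2.2.2.2.2.2.2.2.2.2.2.2.2.2.2.2.2.2.2.2.2.2.2.2.2.2.2.2.2.2.2.2.2.2.2.2.2.2.2.1.2)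

def t_u22 : Tree := (.s1 (.leaf 111 14 10 4 1) (.leaf 115 14 10 4 1))
theorem u22 : t_u22.ok 0 1 0 0 (UE0 (7, 9) D22) unitBx = true :=
  (Tree.ok_s1 lv.2.2.2.2.2.2.2.2.2.2.2.2.2.2.2.2.2.2.2.2.2.2.2.2.2.2.2.2.2.2.2.2.2.2.2.2.2.2.2.2.2.2.1.1 lv.2.2.2.2.2.2.2.2.2.2.2.2.2.2.2.2.2.2.2.2.2.2.2.2.2.2.2.2.2.2.2.2.2.2.2.2.2.2.2.2.2.2.1.2)

def t_v22 : Tree := (.s1 (.leaf 102 14 10 4 1) (.leaf 107 14 10 4 1))
theorem v22 : t_v22.ok 0 1 0 0 (UE1 (7, 4) D22) unitBx = true :=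
  (Tree.ok_s1 lv.2.2.2.2.2.2.2.2.2.2.2.2.2.2.2.2.2.2.2.2.2.2.2.2.2.2.2.2.2.2.2.2.2.2.2.2.2.2.2.2.2.2.2.1.1 lv.2.2.2.2.2.2.2.2.2.2.2.2.2.2.2.2.2.2.2.2.2.2.2.2.2.2.2.2.2.2.2.2.2.2.2.2.2.2.2.2.2.2.2.1.2)

def t_u23 : Tree := (.leaf 103 14 10 4 1)
theorem u23 : t_u23.ok 0 1 0 0 (UE0 (7, 9) D23) unitBx = true :=
  lv.2.2.2.2.2.2.2.2.2.2.2.2.2.2.2.2.2.2.2.2.2.2.2.2.2.2.2.2.2.2.2.2.2.2.2.2.2.2.2.2.2.2.2.2.1

def t_v23 : Tree := (.s1 (.leaf 101 14 10 4 1) (.leaf 106 14 10 4 1))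
theorem v23 : t_v23.ok 0 1 0 0 (UE1 (7, 4) D23) unitBx = true :=
  (Tree.ok_s1 lv.2.2.2.2.2.2.2.2.2.2.2.2.2.2.2.2.2.2.2.2.2.2.2.2.2.2.2.2.2.2.2.2.2.2.2.2.2.2.2.2.2.2.2.2.2.1.1 lv.2.2.2.2.2.2.2.2.2.2.2.2.2.2.2.2.2.2.2.2.2.2.2.2.2.2.2.2.2.2.2.2.2.2.2.2.2.2.2.2.2.2.2.2.2.1.2)

def t_h200 : Tree := (.s0 (.leaf 141 14 14 6 6) (.leaf 146 14 14 6 6))
theorem h200 : t_h200.ok 0 1 0 0 (GE 2 0 (D 2) (49, 99) (343, 999) (tau0 (49, 99)) p20 k00 k10) unitBx = true :=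
  (Tree.ok_s0 lv.2.2.2.2.2.2.2.2.2.2.2.2.2.2.2.2.2.2.2.2.2.2.2.2.2.2.2.2.2.2.2.2.2.2.2.2.2.2.2.2.2.2.2.2.2.2.1.1 lv.2.2.2.2.2.2.2.2.2.2.2.2.2.2.2.2.2.2.2.2.2.2.2.2.2.2.2.2.2.2.2.2.2.2.2.2.2.2.2.2.2.2.2.2.2.2.1.2)

def t_h201 : Tree := (.leaf 131 14 14 6 6)
theorem h201 : t_h201.ok 0 1 0 0 (GE 2 0 (D 2) (49, 99) (343, 999) (tau1 (49, 99)) p20 k00 k10) unitBx = true :=
  lv.2.2.2.2.2.2.2.2.2.2.2.2.2.2.2.2.2.2.2.2.2.2.2.2.2.2.2.2.2.2.2.2.2.2.2.2.2.2.2.2.2.2.2.2.2.2.2.1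

def t_h210 : Tree := (.s0 (.leaf 141 14 14 6 6) (.leaf 146 14 14 6 6))
theorem h210 : t_h210.ok 0 1 0 0 (GE 2 1 (D 2) (49, 99) (343, 999) (tau0 (49, 99)) p21 k01 k11) unitBx = true :=
  (Tree.ok_s0 lv.2.2.2.2.2.2.2.2.2.2.2.2.2.2.2.2.2.2.2.2.2.2.2.2.2.2.2.2.2.2.2.2.2.2.2.2.2.2.2.2.2.2.2.2.2.2.2.2.1.1 lv.2.2.2.2.2.2.2.2.2.2.2.2.2.2.2.2.2.2.2.2.2.2.2.2.2.2.2.2.2.2.2.2.2.2.2.2.2.2.2.2.2.2.2.2.2.2.2.2.1.2)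

def t_h211 : Tree := (.leaf 130 14 14 6 6)
theorem h211 : t_h211.ok 0 1 0 0 (GE 2 1 (D 2) (49, 99) (343, 999) (tau1 (49, 99)) p21 k01 k11) unitBx = true :=
  lv.2.2.2.2.2.2.2.2.2.2.2.2.2.2.2.2.2.2.2.2.2.2.2.2.2.2.2.2.2.2.2.2.2.2.2.2.2.2.2.2.2.2.2.2.2.2.2.2.2.1

def t_h220 : Tree := (.s0 (.leaf 140 14 14 6 6) (.leaf 146 14 14 6 6))
theorem h220 : t_h220.ok 0 1 0 0 (GE 2 2 (D 2) (49, 99) (343, 999) (tau0 (49, 99)) p22 k02 k12) unitBx = true :=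
  (Tree.ok_s0 lv.2.2.2.2.2.2.2.2.2.2.2.2.2.2.2.2.2.2.2.2.2.2.2.2.2.2.2.2.2.2.2.2.2.2.2.2.2.2.2.2.2.2.2.2.2.2.2.2.2.2.1.1 lv.2.2.2.2.2.2.2.2.2.2.2.2.2.2.2.2.2.2.2.2.2.2.2.2.2.2.2.2.2.2.2.2.2.2.2.2.2.2.2.2.2.2.2.2.2.2.2.2.2.2.1.2)

def t_h221 : Tree := (.leaf 130 14 14 6 6)
theorem h221 : t_h221.ok 0 1 0 0 (GE 2 2 (D 2) (49, 99) (343, 999) (tau1 (49, 99)) p22 k02 k12) unitBx = true :=
  lv.2.2.2.2.2.2.2.2.2.2.2.2.2.2.2.2.2.2.2.2.2.2.2.2.2.2.2.2.2.2.2.2.2.2.2.2.2.2.2.2.2.2.2.2.2.2.2.2.2.2.2.1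

def t_h230 : Tree := (.s0 (.leaf 140 14 14 6 6) (.leaf 146 14 14 6 6))
theorem h230 : t_h230.ok 0 1 0 0 (GE 2 3 (D 2) (49, 99) (343, 999) (tau0 (49, 99)) p23 k03 k13) unitBx = true :=
  (Tree.ok_s0 lv.2.2.2.2.2.2.2.2.2.2.2.2.2.2.2.2.2.2.2.2.2.2.2.2.2.2.2.2.2.2.2.2.2.2.2.2.2.2.2.2.2.2.2.2.2.2.2.2.2.2.2.2.1.1 lv.2.2.2.2.2.2.2.2.2.2.2.2.2.2.2.2.2.2.2.2.2.2.2.2.2.2.2.2.2.2.2.2.2.2.2.2.2.2.2.2.2.2.2.2.2.2.2.2.2.2.2.2.1.2)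

def t_h231 : Tree := (.s0 (.leaf 141 14 14 6 6) (.leaf 146 14 14 6 6))
theorem h231 : t_h231.ok 0 1 0 0 (GE 2 3 (D 2) (49, 99) (343, 999) (tau1 (49, 99)) p23 k03 k13) unitBx = true :=
  (Tree.ok_s0 lv.2.2.2.2.2.2.2.2.2.2.2.2.2.2.2.2.2.2.2.2.2.2.2.2.2.2.2.2.2.2.2.2.2.2.2.2.2.2.2.2.2.2.2.2.2.2.2.2.2.2.2.2.2.1 lv.2.2.2.2.2.2.2.2.2.2.2.2.2.2.2.2.2.2.2.2.2.2.2.2.2.2.2.2.2.2.2.2.2.2.2.2.2.2.2.2.2.2.2.2.2.2.2.2.2.2.2.2.2.2)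

/-! The certified family. -/

theorem cert : PoisCert (7 / 10) D psi hh (49, 99) (343, 999) (7, 9) (7, 4) (1, 1023) (0, 0) (1, 0)
    (tau0 (49, 99)) w2 where
  hl0 := by norm_num
  hl1 := by norm_num
  hne := by norm_num
  e2 := by norm_num [cv]
  e3 := by norm_num [cv]
  hδ := by norm_num [cv]
  hta := by norm_num [cv]
  htb := by norm_num [cv]
  htb0 := by norm_num [cv]
  r1 := by norm_num [cv]
  r2 := by norm_num [cv]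
  r3 := by norm_num [cv]
  r4 := by norm_num [cv]
  hc := by norm_num [cv]
  hc' := by norm_num [cv]
  htau := by
    intro s ρ a b e _ h1 h2 h3 h4
    simp only [tau0, PE.real_mul, PE.real_q, PE.real_x, env]
    have k1 : 0 ≤ s * ρ := mul_nonneg h2 h3
    have k2 : s * ρ ≤ s := by nlinarith
    push_cast
    nlinarith [mul_le_mul k2 k2 k1 h2]
  hU0 := by
    intro j k hj hk
    interval_cases j <;> interval_cases k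
    exacts [box_zero _ _ u00, box_zero _ _ u01, box_zero _ _ u02, box_zero _ _ u03, box_zero _ _ u10, box_zero _ _ u11, box_zero _ _ u12, box_zero _ _ u13, box_zero _ _ u20, box_zero _ _ u21, box_zero _ _ u22, box_zero _ _ u23]
  hU1 := by
    intro j k hj hk
    interval_cases j <;> interval_cases k
    exacts [box_zero _ _ v00, box_zero _ _ v01, box_zero _ _ v02, box_zero _ _ v03, box_zero _ _ v10, box_zero _ _ v11, box_zero _ _ v12, box_zero _ _ v13, box_zero _ _ v20, box_zero _ _ v21, box_zero _ _ v22, box_zero _ _ v23]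
  hH0 := by
    intro j k hj hk
    interval_cases j <;> interval_cases k
    exacts [box_zero _ _ h000, box_zero _ _ h010, box_zero _ _ h020, box_zero _ _ h030, box_zero _ _ h100, box_zero _ _ h110, box_zero _ _ h120, box_zero _ _ h130, box_zero _ _ h200, box_zero _ _ h210, box_zero _ _ h220, box_zero _ _ h230]
  hH1 := by
    intro j k hj hk
    interval_cases j <;> interval_cases k
    exacts [box_zero _ _ h001, box_zero _ _ h011, box_zero _ _ h021, box_zero _ _ h031, box_zero _ _ h101, box_zero _ _ h111, box_zero _ _ h121, box_zero _ _ h131, box_zero _ _ h201, box_zero _ _ h211, box_zero _ _ h221, box_zero _ _ h231]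
  hS := by
    intro j hj
    interval_cases j
    exacts [box_zero _ _ s0, box_zero _ _ s1, box_zero _ _ s2]
  hR := by
    intro j hj
    interval_cases j
    exacts [box_zero _ _ r0, box_zero _ _ r1, box_zero _ _ r2]
  hw2 := by
    intro j hj
    interval_cases j <;> norm_num [gR, wR, hr, cv, D, D00, D10, D20, w2]
  hψ0 := by
    intro j k hj hk
    interval_cases j <;> interval_cases k <;> simp [h2R, hr, psi, cv, p00, p01, p02, p03, p10, p11, p12, p13, p20, p21, p22, p23]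

end Vale.Agent.P154.Q7
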