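import Vale.Agent.P154.Pois

/-! Data of a family of potentials for the Poisson tree. -/

namespace Vale.Agent.P154.Q9

def D00 : NP where
  A := [(3763, 4095), (-7622, 4095), (3975, 4095), (-149, 4095), (46, 4095), (-13, 4095)]
  B := [(52274, 4095), (14561, 4095), (234, 4095), (-74, 4095)]
  E := [(17136, 4095)]
  a0 := [(73173, 4095), (6939, 4095), (4209, 4095), (-223, 4095), (46, 4095), (-13, 4095)]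
  a1 := [(73173, 4095), (-13878, 4095), (-21045, 4095), (1784, 4095), (-506, 4095), (182, 4095)]
  a2 := [(515, 4095), (-114816, 4095), (149211, 4095), (42099, 4095)]
  a3 := [(436, 4095), (68892, 4095), (-27340, 4095), (-73695, 4095)]
  a4 := [(473, 4095), (27938, 4095), (-26432, 4095), (49790, 4095)]
  b0 := [(-86546, 4095), (-14561, 4095), (-234, 4095), (74, 4095)]
  b1 := [(86546, 4095), (58244, 4095), (1638, 4095), (-740, 4095)]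
  b2 := [(-26785, 4095), (26839, 4095), (-187809, 4095)]
  b3 := [(67131, 4095), (-266290, 4095), (338391, 4095)]
  b4 := [(-38938, 4095), (110779, 4095), (-153452, 4095)]
  g0 := [(17136, 4095)]
  g1 := [(-51408, 4095)]
  g2 := [(23650, 4095), (34078, 4095)]

def D01 : NP where
  A := [(3756, 4095), (-7591, 4095), (3902, 4095), (-71, 4095), (20, 4095), (-16, 4095)]
  B := [(52308, 4095), (14476, 4095), (377, 4095), (-166, 4095)]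
  E := [(17076, 4095)]
  a0 := [(73140, 4095), (6885, 4095), (4279, 4095), (-237, 4095), (20, 4095), (-16, 4095)]
  a1 := [(73140, 4095), (-13770, 4095), (-21395, 4095), (1896, 4095), (-220, 4095), (224, 4095)]
  a2 := [(484, 4095), (-80433, 4095), (62729, 4095), (43237, 4095)]
  a3 := [(260, 4095), (98618, 4095), (-252565, 4095), (92230, 4095)]
  a4 := [(296, 4095), (-25228, 4095), (141466, 4095), (-61450, 4095)]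
  b0 := [(-86460, 4095), (-14476, 4095), (-377, 4095), (166, 4095)]
  b1 := [(86460, 4095), (57904, 4095), (2639, 4095), (-1660, 4095)]
  b2 := [(-27985, 4095), (12583, 4095), (-93761, 4095)]
  b3 := [(68214, 4095), (-144582, 4095), (238449, 4095)]
  b4 := [(-39290, 4095), (62120, 4095), (-110531, 4095)]
  g0 := [(17076, 4095)]
  g1 := [(-51228, 4095)]
  g2 := [(24693, 4095), (7901, 4095)]

def D02 : NP where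
  A := [(3756, 4095), (-7589, 4095), (3909, 4095), (-102, 4095), (53, 4095), (-27, 4095)]
  B := [(52303, 4095), (14465, 4095), (402, 4095), (-175, 4095)]
  E := [(17066, 4095)]
  a0 := [(73125, 4095), (6876, 4095), (4311, 4095), (-277, 4095), (53, 4095), (-27, 4095)]
  a1 := [(73125, 4095), (-13752, 4095), (-21555, 4095), (2216, 4095), (-583, 4095), (378, 4095)]
  a2 := [(2401, 4095), (-33874, 4095), (158355, 4095), (64365, 4095)]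
  a3 := [(8365, 4095), (224235, 4095), (2686, 4095), (-53477, 4095)]
  a4 := [(8252, 4095), (57681, 4095), (-37559, 4095), (20061, 4095)]
  b0 := [(-86435, 4095), (-14465, 4095), (-402, 4095), (175, 4095)]
  b1 := [(86435, 4095), (57860, 4095), (2814, 4095), (-1750, 4095)]
  b2 := [(-51961, 4095), (-140762, 4095), (-230584, 4095)]
  b3 := [(26044, 4095), (-409600, 4095), (300283, 4095)]
  b4 := [(-26174, 4095), (129357, 4095), (-124658, 4095)]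
  g0 := [(17066, 4095)]
  g1 := [(-51198, 4095)]
  g2 := [(52590, 4095), (126443, 4095)]

def D03 : NP where
  A := [(3752, 4095), (-7586, 4095), (3913, 4095), (-99, 4095), (43, 4095), (-23, 4095)]
  B := [(52326, 4095), (14456, 4095), (383, 4095), (-170, 4095)]
  E := [(17017, 4095)]
  a0 := [(73095, 4095), (6870, 4095), (4296, 4095), (-269, 4095), (43, 4095), (-23, 4095)]
  a1 := [(73095, 4095), (-13740, 4095), (-21480, 4095), (2152, 4095), (-473, 4095), (322, 4095)]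
  a2 := [(1492, 4095), (-19645, 4095), (197248, 4095), (49194, 4095)]
  a3 := [(6846, 4095), (249398, 4095), (42591, 4095), (121608, 4095)]
  a4 := [(9883, 4095), (41290, 4095), (125702, 4095), (-8817, 4095)]
  b0 := [(-86360, 4095), (-14456, 4095), (-383, 4095), (170, 4095)]
  b1 := [(86360, 4095), (57824, 4095), (2681, 4095), (-1700, 4095)]
  b2 := [(-43364, 4095), (-211809, 4095), (-251702, 4095)]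
  b3 := [(36425, 4095), (-409600, 4095), (53761, 4095)]
  b4 := [(-28399, 4095), (131541, 4095), (-88939, 4095)]
  g0 := [(17017, 4095)]
  g1 := [(-51051, 4095)]
  g2 := [(42933, 4095), (181698, 4095)]

def D10 : NP where
  A := [(183243, 4095), (-210554, 4095), (6562, 4095), (21841, 4095), (-1092, 4095)]
  B := [(19288, 4095), (-132316, 4095), (109864, 4095)]
  E := [(191296, 4095)]
  a0 := [(393827, 4095), (-342870, 4095), (116426, 4095), (21841, 4095), (-1092, 4095)]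
  a1 := [(393827, 4095), (685740, 4095), (-582130, 4095), (-174728, 4095), (12012, 4095)]
  a2 := [(298, 4095), (-409600, 4095), (236812, 4095), (-263900, 4095)]
  a3 := [(2114, 4095), (-406029, 4095), (-409600, 4095), (148803, 4095)]
  a4 := [(43887, 4095), (57744, 4095), (206629, 4095), (371607, 4095)]
  b0 := [(-401880, 4095), (132316, 4095), (-109864, 4095)]
  b1 := [(401880, 4095), (-529264, 4095), (769048, 4095)]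
  b2 := [(166280, 4095), (274511, 4095), (-379392, 4095)]
  b3 := [(25079, 4095), (-409507, 4095), (-276768, 4095)]
  b4 := [(18817, 4095), (205563, 4095), (331678, 4095)]
  g0 := [(191296, 4095)]
  g1 := [(-573888, 4095)]
  g2 := [(409600, 4095), (400118, 4095)]

def D11 : NP where
  A := [(166945, 4095), (-185885, 4095), (-8003, 4095), (28938, 4095), (-1995, 4095)]
  B := [(57962, 4095), (-137714, 4095), (116422, 4095)]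
  E := [(166802, 4095)]
  a0 := [(391709, 4095), (-323599, 4095), (108419, 4095), (28938, 4095), (-1995, 4095)]
  a1 := [(391709, 4095), (647198, 4095), (-542095, 4095), (-231504, 4095), (21945, 4095)]
  a2 := [(220, 4095), (-408831, 4095), (381088, 4095), (-296574, 4095)]
  a3 := [(-1286, 4095), (-376263, 4095), (-388502, 4095), (109693, 4095)]
  a4 := [(22130, 4095), (-10209, 4095), (285562, 4095), (393620, 4095)]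
  b0 := [(-391566, 4095), (137714, 4095), (-116422, 4095)]
  b1 := [(391566, 4095), (-550856, 4095), (814954, 4095)]
  b2 := [(96170, 4095), (313302, 4095), (-409600, 4095)]
  b3 := [(-16993, 4095), (-297082, 4095), (24104, 4095)]
  b4 := [(2849, 4095), (176063, 4095), (359859, 4095)]
  g0 := [(166802, 4095)]
  g1 := [(-500406, 4095)]
  g2 := [(409600, 4095), (206891, 4095)]

def D12 : NP where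
  A := [(162987, 4095), (-199550, 4095), (20528, 4095), (15973, 4095), (62, 4095)]
  B := [(49378, 4095), (-68437, 4095), (95897, 4095)]
  E := [(184271, 4095)]
  a0 := [(396636, 4095), (-267987, 4095), (116425, 4095), (15973, 4095), (62, 4095)]
  a1 := [(396636, 4095), (535974, 4095), (-582125, 4095), (-127784, 4095), (-682, 4095)]
  a2 := [(456, 4095), (-409600, 4095), (409600, 4095), (-209995, 4095)]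
  a3 := [(-1302, 4095), (-370967, 4095), (-394249, 4095), (296115, 4095)]
  a4 := [(14092, 4095), (-120452, 4095), (232348, 4095), (404064, 4095)]
  b0 := [(-417920, 4095), (68437, 4095), (-95897, 4095)]
  b1 := [(417920, 4095), (-273748, 4095), (671279, 4095)]
  b2 := [(110593, 4095), (115536, 4095), (-409573, 4095)]
  b3 := [(121903, 4095), (-172678, 4095), (-175998, 4095)]
  b4 := [(-97785, 4095), (130678, 4095), (353473, 4095)]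
  g0 := [(184271, 4095)]
  g1 := [(-552813, 4095)]
  g2 := [(409600, 4095), (192316, 4095)]

def D13 : NP where
  A := [(143465, 4095), (-160289, 4095), (-15919, 4095), (34506, 4095), (-1763, 4095)]
  B := [(88496, 4095), (-88533, 4095), (124780, 4095)]
  E := [(160040, 4095)]
  a0 := [(392001, 4095), (-248822, 4095), (108861, 4095), (34506, 4095), (-1763, 4095)]
  a1 := [(392001, 4095), (497644, 4095), (-544305, 4095), (-276048, 4095), (19393, 4095)]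
  a2 := [(428, 4095), (-409599, 4095), (189197, 4095), (-111692, 4095)]
  a3 := [(0, 4095), (-318378, 4095), (-409493, 4095), (-97421, 4095)]
  a4 := [(0, 4095), (-296103, 4095), (194048, 4095), (409600, 4095)]
  b0 := [(-408576, 4095), (88533, 4095), (-124780, 4095)]
  b1 := [(408576, 4095), (-354132, 4095), (873460, 4095)]
  b2 := [(51250, 4095), (409600, 4095), (-409600, 4095)]
  b3 := [(-74503, 4095), (377356, 4095), (231911, 4095)]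
  b4 := [(65320, 4095), (-174735, 4095), (371928, 4095)]
  g0 := [(160040, 4095)]
  g1 := [(-480120, 4095)]
  g2 := [(409600, 4095), (-173285, 4095)]

def D20 : NP where
  A := [(-49697, 4095), (-70651, 4095), (23915, 4095), (9209, 4095)]
  B := [(312021, 4095), (98583, 4095), (237, 4095)]
  E := [(9537, 4095)]
  a0 := [(271861, 4095), (27932, 4095), (24152, 4095), (9209, 4095)]
  a1 := [(271861, 4095), (-55864, 4095), (-120760, 4095), (-73672, 4095)]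
  a2 := [(134586, 4095), (-260091, 4095), (-3586, 4095), (320557, 4095)]
  a3 := [(-174042, 4095), (94650, 4095), (100957, 4095), (325229, 4095)]
  a4 := [(75531, 4095), (147719, 4095), (170385, 4095), (360635, 4095)]
  b0 := [(-331095, 4095), (-98583, 4095), (-237, 4095)]
  b1 := [(331095, 4095), (394332, 4095), (1659, 4095)]
  b2 := [(-380902, 4095), (-297353, 4095), (95520, 4095)]
  b3 := [(210586, 4095), (191259, 4095), (273435, 4095)]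
  b4 := [(343607, 4095), (257474, 4095), (332037, 4095)]
  g0 := [(9537, 4095)]
  g1 := [(-28611, 4095)]
  g2 := [(13423, 4095), (-92204, 4095)]

def D21 : NP where
  A := [(15732, 4095), (-156212, 4095), (63348, 4095), (-8351, 4095)]
  B := [(43239, 4095), (124229, 4095), (-2921, 4095)]
  E := [(111450, 4095)]
  a0 := [(170421, 4095), (-31983, 4095), (60427, 4095), (-8351, 4095)]
  a1 := [(170421, 4095), (63966, 4095), (-302135, 4095), (66808, 4095)]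
  a2 := [(107292, 4095), (-317172, 4095), (-256554, 4095), (206458, 4095)]
  a3 := [(-70860, 4095), (77570, 4095), (185412, 4095), (334821, 4095)]
  a4 := [(13427, 4095), (109268, 4095), (193476, 4095), (351802, 4095)]
  b0 := [(-266139, 4095), (-124229, 4095), (2921, 4095)]
  b1 := [(266139, 4095), (496916, 4095), (-20447, 4095)]
  b2 := [(44969, 4095), (-254515, 4095), (36854, 4095)]
  b3 := [(-137805, 4095), (212455, 4095), (308144, 4095)]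
  b4 := [(200538, 4095), (226601, 4095), (328970, 4095)]
  g0 := [(111450, 4095)]
  g1 := [(-334350, 4095)]
  g2 := [(302165, 4095), (104549, 4095)]

def D22 : NP where
  A := [(43762, 4095), (-147890, 4095), (25892, 4095), (-5426, 4095)]
  B := [(-863, 4095), (-9680, 4095), (1754, 4095)]
  E := [(131821, 4095)]
  a0 := [(174720, 4095), (-157570, 4095), (27646, 4095), (-5426, 4095)]
  a1 := [(174720, 4095), (315140, 4095), (-138230, 4095), (43408, 4095)]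
  a2 := [(37185, 4095), (-309477, 4095), (-120194, 4095), (184920, 4095)]
  a3 := [(-55001, 4095), (-139358, 4095), (-184801, 4095), (313047, 4095)]
  a4 := [(24095, 4095), (-101434, 4095), (46447, 4095), (357404, 4095)]
  b0 := [(-262779, 4095), (9680, 4095), (-1754, 4095)]
  b1 := [(262779, 4095), (-38720, 4095), (12278, 4095)]
  b2 := [(82243, 4095), (72478, 4095), (36478, 4095)]
  b3 := [(-166380, 4095), (-168786, 4095), (175100, 4095)]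
  b4 := [(119159, 4095), (20101, 4095), (319508, 4095)]
  g0 := [(131821, 4095)]
  g1 := [(-395463, 4095)]
  g2 := [(349220, 4095), (171395, 4095)]

def D23 : NP where
  A := [(-9589, 4095), (-99005, 4095), (12476, 4095), (10319, 4095)]
  B := [(178616, 4095), (5057, 4095), (44342, 4095)]
  E := [(90792, 4095)]
  a0 := [(259819, 4095), (-93948, 4095), (56818, 4095), (10319, 4095)]
  a1 := [(259819, 4095), (187896, 4095), (-284090, 4095), (-82552, 4095)]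
  a2 := [(29385, 4095), (-168806, 4095), (-235262, 4095), (66552, 4095)]
  a3 := [(-33353, 4095), (-51590, 4095), (-34914, 4095), (324981, 4095)]
  a4 := [(12460, 4095), (-45927, 4095), (111976, 4095), (354192, 4095)]
  b0 := [(-360200, 4095), (-5057, 4095), (-44342, 4095)]
  b1 := [(360200, 4095), (20228, 4095), (310394, 4095)]
  b2 := [(-97125, 4095), (-9430, 4095), (-115706, 4095)]
  b3 := [(-91643, 4095), (5632, 4095), (263640, 4095)]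
  b4 := [(90713, 4095), (142162, 4095), (319521, 4095)]
  g0 := [(90792, 4095)]
  g1 := [(-272376, 4095)]
  g2 := [(264826, 4095), (107167, 4095)]

def p00 : List CL := [[(0, 4095), (66995, 4095), (4727, 4095), (2245, 4095), (1432, 4095)], [(0, 4095), (-10568, 4095), (-6879, 4095)], [(9934, 4095), (6097, 4095)]]
def p01 : List CL := [[(0, 4095), (66995, 4095), (4930, 4095), (2718, 4095), (1445, 4095)], [(0, 4095), (-12254, 4095), (-6701, 4095)], [(13007, 4095), (1060, 4095)]]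
def p02 : List CL := [[(0, 4095), (66995, 4095), (5374, 4095), (3387, 4095), (3600, 4095)], [(0, 4095), (-14909, 4095), (-10198, 4095)], [(17614, 4095), (-908, 4095)]]
def p03 : List CL := [[(0, 4095), (66995, 4095), (6480, 4095), (3446, 4095), (-1017, 4095)], [(0, 4095), (-19646, 4095), (-915, 4095)], [(19632, 4095), (-4031, 4095)]]
def p10 : List CL := [[(0, 4095), (409600, 4095), (409600, 4095), (409600, 4095), (251291, 4095)], [(-246454, 4095), (-409600, 4095), (-409600, 4095)], [(153304, 4095), (-174559, 4095)]]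
def p11 : List CL := [[(0, 4095), (409600, 4095), (387260, 4095), (409597, 4095), (-150244, 4095)], [(-222199, 4095), (-409600, 4095), (-409600, 4095)], [(148393, 4095), (229460, 4095)]]
def p12 : List CL := [[(0, 4095), (409580, 4095), (350517, 4095), (337975, 4095), (-38837, 4095)], [(-198856, 4095), (-405891, 4095), (-313943, 4095)], [(143055, 4095), (109935, 4095)]]
def p13 : List CL := [[(0, 4095), (409600, 4095), (294594, 4095), (327693, 4095), (9157, 4095)], [(-172899, 4095), (-399734, 4095), (-385589, 4095)], [(206076, 4095), (96388, 4095)]]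
def p20 : List CL := [[(0, 4095), (404736, 4095), (201522, 4095), (141734, 4095), (-2179, 4095)], [(-1156, 4095), (-391893, 4095), (-319271, 4095)], [(241360, 4095), (132776, 4095)]]
def p21 : List CL := [[(0, 4095), (336484, 4095), (80758, 4095), (302798, 4095), (185214, 4095)], [(-98141, 4095), (-175133, 4095), (-264578, 4095)], [(26063, 4095), (-76751, 4095)]]
def p22 : List CL := [[(0, 4095), (332432, 4095), (215198, 4095), (185296, 4095), (413, 4095)], [(-198580, 4095), (-215674, 4095), (-253952, 4095)], [(142142, 4095), (77737, 4095)]]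
def p23 : List CL := [[(0, 4095), (353831, 4095), (180314, 4095), (202823, 4095), (-13511, 4095)], [(-81957, 4095), (-213432, 4095), (-116925, 4095)], [(79811, 4095), (-30561, 4095)]]
def k00 : List CL := [[(0, 4095), (-1859, 4095), (229160, 4095), (68947, 4095)], [(-158103, 4095), (-35352, 4095)], [(-90656, 4095)]]
def k01 : List CL := [[(0, 4095), (-9668, 4095), (302091, 4095), (-39019, 4095)], [(-159226, 4095), (-66190, 4095)], [(-93739, 4095)]]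
def k02 : List CL := [[(0, 4095), (-16310, 4095), (338481, 4095), (-97658, 4095)], [(-161924, 4095), (-72454, 4095)], [(-1144, 4095)]]
def k03 : List CL := [[(0, 4095), (-24335, 4095), (409600, 4095), (-254603, 4095)], [(-175734, 4095), (54805, 4095)], [(-17375, 4095)]]
def k10 : List CL := [[(-6647, 4095), (202837, 4095), (-214349, 4095), (-355486, 4095)], [(409600, 4095), (-206086, 4095)], [(-2855, 4095)]]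
def k11 : List CL := [[(-6806, 4095), (67238, 4095), (-409600, 4095), (-227485, 4095)], [(380861, 4095), (-332423, 4095)], [(220292, 4095)]]
def k12 : List CL := [[(-2930, 4095), (-30252, 4095), (-160804, 4095), (-388009, 4095)], [(47272, 4095), (254056, 4095)], [(50398, 4095)]]
def k13 : List CL := [[(4981, 4095), (-87063, 4095), (104730, 4095), (-227494, 4095)], [(-409600, 4095), (409600, 4095)], [(-88240, 4095)]]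

def D : ℕ → ℕ → NP
  | 0, 0 => D00
  | 0, 1 => D01
  | 0, 2 => D02
  | 0, 3 => D03
  | 1, 0 => D10
  | 1, 1 => D11
  | 1, 2 => D12
  | 1, 3 => D13
  | 2, 0 => D20
  | 2, 1 => D21
  | 2, 2 => D22
  | 2, 3 => D23
  | _, _ => D03

def psi : ℕ → ℕ → List CL
  | 0, 0 => p00
  | 0, 1 => p01
  | 0, 2 => p02
  | 0, 3 => p03
  | 1, 0 => p10
  | 1, 1 => p11
  | 1, 2 => p12
  | 1, 3 => p13
  | 2, 0 => p20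
  | 2, 1 => p21
  | 2, 2 => p22
  | 2, 3 => p23
  | _, _ => []

def hh : ℕ → ℕ → List CL
  | 0, 0 => k00
  | 0, 1 => k01
  | 0, 2 => k02
  | 0, 3 => k03
  | 1, 0 => k10
  | 1, 1 => k11
  | 1, 2 => k12
  | 1, 3 => k13
  | _, _ => []

def w2 : ℕ → ℤ × ℕ
  | 0 => (0, 0)
  | 1 => (0, 0)
  | 2 => (-87220, 4095)
  | _ => (0, 0)

/-! Certificates. -/

/-- the leaves of all trees -/
theorem lv :
    ((Tree.leaf 92 9 16 6 1).ok 0 1 0 0 (SEG D03 (0, 0) (sP (7, 8) (2, 8)) p00 p01 p02 p03) ⟨0, 1, 1, 0, 1, 1, 0, 1, 2, 0, 1, 1⟩ = true ∧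
      (Tree.leaf 92 9 16 6 1).ok 0 1 0 0 (SEG D03 (0, 0) (sP (7, 8) (2, 8)) p00 p01 p02 p03) ⟨0, 1, 1, 0, 1, 1, 1, 2, 2, 0, 1, 1⟩ = true) ∧
    ((Tree.leaf 54 16 1 6 1).ok 0 1 0 0 (RE D03 (0, 0)) ⟨0, 1, 1, 0, 1, 1, 0, 1, 1, 0, 1, 1⟩ = true) ∧
    ((Tree.leaf 172 17 16 6 1).ok 0 1 0 0 (UE0 (9, 9) D00) ⟨0, 1, 4, 0, 1, 2, 0, 1, 1, 0, 1, 1⟩ = true ∧
      (Tree.leaf 175 17 16 6 1).ok 0 1 0 0 (UE0 (9, 9) D00) ⟨1, 2, 4, 0, 1, 2, 0, 1, 1, 0, 1, 1⟩ = true ∧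
      (Tree.leaf 163 17 16 6 1).ok 0 1 0 0 (UE0 (9, 9) D00) ⟨1, 2, 2, 0, 1, 2, 0, 1, 1, 0, 1, 1⟩ = true ∧
      (Tree.leaf 175 17 16 6 1).ok 0 1 0 0 (UE0 (9, 9) D00) ⟨0, 1, 4, 1, 2, 2, 0, 1, 1, 0, 1, 1⟩ = true ∧
      (Tree.leaf 179 17 16 6 1).ok 0 1 0 0 (UE0 (9, 9) D00) ⟨1, 2, 4, 1, 2, 2, 0, 1, 1, 0, 1, 1⟩ = true ∧
      (Tree.leaf 169 17 16 6 1).ok 0 1 0 0 (UE0 (9, 9) D00) ⟨1, 2, 2, 1, 2, 2, 0, 1, 1, 0, 1, 1⟩ = true) ∧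
    ((Tree.leaf 134 17 16 6 1).ok 0 1 0 0 (UE1 (9, 4) D00) ⟨0, 1, 1, 0, 1, 2, 0, 1, 1, 0, 1, 1⟩ = true ∧
      (Tree.leaf 153 17 16 6 1).ok 0 1 0 0 (UE1 (9, 4) D00) ⟨0, 1, 1, 2, 3, 4, 0, 1, 1, 0, 1, 1⟩ = true ∧
      (Tree.leaf 160 17 16 6 1).ok 0 1 0 0 (UE1 (9, 4) D00) ⟨0, 1, 1, 3, 4, 4, 0, 1, 2, 0, 1, 1⟩ = true ∧
      (Tree.leaf 162 17 16 6 1).ok 0 1 0 0 (UE1 (9, 4) D00) ⟨0, 1, 1, 3, 4, 4, 1, 2, 2, 0, 1, 1⟩ = true) ∧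
    ((Tree.leaf 172 17 16 6 1).ok 0 1 0 0 (UE0 (9, 9) D01) ⟨0, 1, 4, 0, 1, 2, 0, 1, 1, 0, 1, 1⟩ = true ∧
      (Tree.leaf 175 17 16 6 1).ok 0 1 0 0 (UE0 (9, 9) D01) ⟨1, 2, 4, 0, 1, 2, 0, 1, 1, 0, 1, 1⟩ = true ∧
      (Tree.leaf 161 17 16 6 1).ok 0 1 0 0 (UE0 (9, 9) D01) ⟨0, 1, 2, 1, 2, 2, 0, 1, 1, 0, 1, 1⟩ = true ∧
      (Tree.leaf 150 17 16 6 1).ok 0 1 0 0 (UE0 (9, 9) D01) ⟨1, 2, 2, 0, 1, 1, 0, 1, 1, 0, 1, 1⟩ = true) ∧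
    ((Tree.leaf 134 17 16 6 1).ok 0 1 0 0 (UE1 (9, 4) D01) ⟨0, 1, 1, 0, 1, 2, 0, 1, 1, 0, 1, 1⟩ = true ∧
      (Tree.leaf 153 17 16 6 1).ok 0 1 0 0 (UE1 (9, 4) D01) ⟨0, 1, 1, 2, 3, 4, 0, 1, 1, 0, 1, 1⟩ = true ∧
      (Tree.leaf 170 17 16 6 1).ok 0 1 0 0 (UE1 (9, 4) D01) ⟨0, 1, 1, 6, 7, 8, 0, 1, 1, 0, 1, 1⟩ = true ∧
      (Tree.leaf 172 17 16 6 1).ok 0 1 0 0 (UE1 (9, 4) D01) ⟨0, 1, 1, 7, 8, 8, 0, 1, 1, 0, 1, 1⟩ = true) ∧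
    ((Tree.leaf 158 17 16 6 1).ok 0 1 0 0 (UE0 (9, 9) D02) ⟨0, 1, 2, 0, 1, 2, 0, 1, 1, 0, 1, 1⟩ = true ∧
      (Tree.leaf 162 17 16 6 1).ok 0 1 0 0 (UE0 (9, 9) D02) ⟨0, 1, 2, 1, 2, 2, 0, 1, 1, 0, 1, 1⟩ = true ∧
      (Tree.leaf 151 17 16 6 1).ok 0 1 0 0 (UE0 (9, 9) D02) ⟨1, 2, 2, 0, 1, 1, 0, 1, 1, 0, 1, 1⟩ = true) ∧
    ((Tree.leaf 134 17 16 6 1).ok 0 1 0 0 (UE1 (9, 4) D02) ⟨0, 1, 1, 0, 1, 2, 0, 1, 1, 0, 1, 1⟩ = true ∧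
      (Tree.leaf 163 17 16 6 1).ok 0 1 0 0 (UE1 (9, 4) D02) ⟨0, 1, 2, 2, 3, 4, 0, 1, 1, 0, 1, 1⟩ = true ∧
      (Tree.leaf 174 17 16 6 1).ok 0 1 0 0 (UE1 (9, 4) D02) ⟨1, 2, 2, 2, 3, 4, 0, 1, 1, 0, 1, 1⟩ = true ∧
      (Tree.leaf 161 17 16 6 1).ok 0 1 0 0 (UE1 (9, 4) D02) ⟨0, 1, 1, 3, 4, 4, 0, 1, 2, 0, 1, 1⟩ = true ∧
      (Tree.leaf 163 17 16 6 1).ok 0 1 0 0 (UE1 (9, 4) D02) ⟨0, 1, 1, 3, 4, 4, 1, 2, 2, 0, 1, 1⟩ = true) ∧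
    ((Tree.leaf 172 17 16 6 1).ok 0 1 0 0 (UE0 (9, 9) D03) ⟨0, 1, 4, 0, 1, 2, 0, 1, 1, 0, 1, 1⟩ = true ∧
      (Tree.leaf 175 17 16 6 1).ok 0 1 0 0 (UE0 (9, 9) D03) ⟨1, 2, 4, 0, 1, 2, 0, 1, 1, 0, 1, 1⟩ = true ∧
      (Tree.leaf 175 17 16 6 1).ok 0 1 0 0 (UE0 (9, 9) D03) ⟨0, 1, 4, 1, 2, 2, 0, 1, 1, 0, 1, 1⟩ = true ∧
      (Tree.leaf 180 17 16 6 1).ok 0 1 0 0 (UE0 (9, 9) D03) ⟨1, 2, 4, 1, 2, 2, 0, 1, 1, 0, 1, 1⟩ = true ∧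
      (Tree.leaf 151 17 16 6 1).ok 0 1 0 0 (UE0 (9, 9) D03) ⟨1, 2, 2, 0, 1, 1, 0, 1, 1, 0, 1, 1⟩ = true) ∧
    ((Tree.leaf 134 17 16 6 1).ok 0 1 0 0 (UE1 (9, 4) D03) ⟨0, 1, 1, 0, 1, 2, 0, 1, 1, 0, 1, 1⟩ = true ∧
      (Tree.leaf 163 17 16 6 1).ok 0 1 0 0 (UE1 (9, 4) D03) ⟨0, 1, 2, 2, 3, 4, 0, 1, 1, 0, 1, 1⟩ = true ∧
      (Tree.leaf 174 17 16 6 1).ok 0 1 0 0 (UE1 (9, 4) D03) ⟨1, 2, 2, 2, 3, 4, 0, 1, 1, 0, 1, 1⟩ = true ∧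
      (Tree.leaf 171 17 16 6 1).ok 0 1 0 0 (UE1 (9, 4) D03) ⟨0, 1, 1, 6, 7, 8, 0, 1, 1, 0, 1, 1⟩ = true ∧
      (Tree.leaf 172 17 16 6 1).ok 0 1 0 0 (UE1 (9, 4) D03) ⟨0, 1, 1, 7, 8, 8, 0, 1, 1, 0, 1, 1⟩ = true) ∧
    ((Tree.leaf 155 16 16 6 6).ok 0 1 0 0 (GE 0 0 (D 0) (81, 99) (729, 999) (.q 49 99) p00 k00 k10) ⟨0, 1, 1, 0, 1, 1, 0, 1, 2, 0, 1, 2⟩ = true ∧
      (Tree.leaf 156 16 16 6 6).ok 0 1 0 0 (GE 0 0 (D 0) (81, 99) (729, 999) (.q 49 99) p00 k00 k10) ⟨0, 1, 1, 0, 1, 1, 1, 2, 2, 0, 1, 2⟩ = true ∧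
      (Tree.leaf 162 16 16 6 6).ok 0 1 0 0 (GE 0 0 (D 0) (81, 99) (729, 999) (.q 49 99) p00 k00 k10) ⟨0, 1, 2, 0, 1, 1, 0, 1, 1, 1, 2, 2⟩ = true ∧
      (Tree.leaf 170 16 16 6 6).ok 0 1 0 0 (GE 0 0 (D 0) (81, 99) (729, 999) (.q 49 99) p00 k00 k10) ⟨1, 2, 2, 0, 1, 1, 0, 1, 1, 1, 2, 2⟩ = true) ∧
    ((Tree.leaf 155 16 16 6 6).ok 0 1 0 0 (GE 0 0 (D 0) (81, 99) (729, 999) (tau1 (81, 99)) p00 k00 k10) ⟨0, 1, 1, 0, 1, 1, 0, 1, 2, 0, 1, 2⟩ = true ∧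
      (Tree.leaf 156 16 16 6 6).ok 0 1 0 0 (GE 0 0 (D 0) (81, 99) (729, 999) (tau1 (81, 99)) p00 k00 k10) ⟨0, 1, 1, 0, 1, 1, 1, 2, 2, 0, 1, 2⟩ = true ∧
      (Tree.leaf 162 16 16 6 6).ok 0 1 0 0 (GE 0 0 (D 0) (81, 99) (729, 999) (tau1 (81, 99)) p00 k00 k10) ⟨0, 1, 2, 0, 1, 1, 0, 1, 1, 1, 2, 2⟩ = true ∧
      (Tree.leaf 170 16 16 6 6).ok 0 1 0 0 (GE 0 0 (D 0) (81, 99) (729, 999) (tau1 (81, 99)) p00 k00 k10) ⟨1, 2, 2, 0, 1, 1, 0, 1, 1, 1, 2, 2⟩ = true) ∧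
    ((Tree.leaf 150 16 16 6 6).ok 0 1 0 0 (GE 0 1 (D 0) (81, 99) (729, 999) (.q 49 99) p01 k01 k11) ⟨0, 1, 1, 0, 1, 1, 0, 1, 1, 0, 1, 2⟩ = true ∧
      (Tree.leaf 162 16 16 6 6).ok 0 1 0 0 (GE 0 1 (D 0) (81, 99) (729, 999) (.q 49 99) p01 k01 k11) ⟨0, 1, 2, 0, 1, 1, 0, 1, 1, 1, 2, 2⟩ = true ∧
      (Tree.leaf 170 16 16 6 6).ok 0 1 0 0 (GE 0 1 (D 0) (81, 99) (729, 999) (.q 49 99) p01 k01 k11) ⟨1, 2, 2, 0, 1, 1, 0, 1, 1, 1, 2, 2⟩ = true) ∧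
    ((Tree.leaf 162 16 16 6 6).ok 0 1 0 0 (GE 0 1 (D 0) (81, 99) (729, 999) (tau1 (81, 99)) p01 k01 k11) ⟨0, 1, 2, 0, 1, 1, 0, 1, 1, 0, 1, 2⟩ = true ∧
      (Tree.leaf 162 16 16 6 6).ok 0 1 0 0 (GE 0 1 (D 0) (81, 99) (729, 999) (tau1 (81, 99)) p01 k01 k11) ⟨0, 1, 2, 0, 1, 1, 0, 1, 1, 1, 2, 2⟩ = true ∧
      (Tree.leaf 169 16 16 6 6).ok 0 1 0 0 (GE 0 1 (D 0) (81, 99) (729, 999) (tau1 (81, 99)) p01 k01 k11) ⟨1, 2, 2, 0, 1, 1, 0, 1, 1, 0, 1, 2⟩ = true ∧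
      (Tree.leaf 170 16 16 6 6).ok 0 1 0 0 (GE 0 1 (D 0) (81, 99) (729, 999) (tau1 (81, 99)) p01 k01 k11) ⟨1, 2, 2, 0, 1, 1, 0, 1, 1, 1, 2, 2⟩ = true) ∧
    ((Tree.leaf 150 16 16 6 6).ok 0 1 0 0 (GE 0 2 (D 0) (81, 99) (729, 999) (.q 49 99) p02 k02 k12) ⟨0, 1, 1, 0, 1, 1, 0, 1, 1, 0, 1, 2⟩ = true ∧
      (Tree.leaf 162 16 16 6 6).ok 0 1 0 0 (GE 0 2 (D 0) (81, 99) (729, 999) (.q 49 99) p02 k02 k12) ⟨0, 1, 2, 0, 1, 1, 0, 1, 1, 1, 2, 2⟩ = true ∧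
      (Tree.leaf 170 16 16 6 6).ok 0 1 0 0 (GE 0 2 (D 0) (81, 99) (729, 999) (.q 49 99) p02 k02 k12) ⟨1, 2, 2, 0, 1, 1, 0, 1, 1, 1, 2, 2⟩ = true) ∧
    ((Tree.leaf 150 16 16 6 6).ok 0 1 0 0 (GE 0 2 (D 0) (81, 99) (729, 999) (tau1 (81, 99)) p02 k02 k12) ⟨0, 1, 1, 0, 1, 1, 0, 1, 1, 0, 1, 2⟩ = true ∧
      (Tree.leaf 163 16 16 6 6).ok 0 1 0 0 (GE 0 2 (D 0) (81, 99) (729, 999) (tau1 (81, 99)) p02 k02 k12) ⟨0, 1, 2, 0, 1, 1, 0, 1, 1, 1, 2, 2⟩ = true ∧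
      (Tree.leaf 170 16 16 6 6).ok 0 1 0 0 (GE 0 2 (D 0) (81, 99) (729, 999) (tau1 (81, 99)) p02 k02 k12) ⟨1, 2, 2, 0, 1, 1, 0, 1, 1, 1, 2, 2⟩ = true) ∧
    ((Tree.leaf 163 16 16 6 6).ok 0 1 0 0 (GE 0 3 (D 0) (81, 99) (729, 999) (.q 49 99) p03 k03 k13) ⟨0, 1, 1, 0, 1, 2, 0, 1, 1, 0, 1, 2⟩ = true ∧
      (Tree.leaf 169 16 16 6 6).ok 0 1 0 0 (GE 0 3 (D 0) (81, 99) (729, 999) (.q 49 99) p03 k03 k13) ⟨0, 1, 1, 1, 2, 2, 0, 1, 1, 0, 1, 2⟩ = true ∧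
      (Tree.leaf 163 16 16 6 6).ok 0 1 0 0 (GE 0 3 (D 0) (81, 99) (729, 999) (.q 49 99) p03 k03 k13) ⟨0, 1, 2, 0, 1, 1, 0, 1, 1, 1, 2, 2⟩ = true ∧
      (Tree.leaf 170 16 16 6 6).ok 0 1 0 0 (GE 0 3 (D 0) (81, 99) (729, 999) (.q 49 99) p03 k03 k13) ⟨1, 2, 2, 0, 1, 1, 0, 1, 1, 1, 2, 2⟩ = true) ∧
    ((Tree.leaf 163 16 16 6 6).ok 0 1 0 0 (GE 0 3 (D 0) (81, 99) (729, 999) (tau1 (81, 99)) p03 k03 k13) ⟨0, 1, 1, 0, 1, 2, 0, 1, 1, 0, 1, 2⟩ = true ∧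
      (Tree.leaf 169 16 16 6 6).ok 0 1 0 0 (GE 0 3 (D 0) (81, 99) (729, 999) (tau1 (81, 99)) p03 k03 k13) ⟨0, 1, 1, 1, 2, 2, 0, 1, 1, 0, 1, 2⟩ = true ∧
      (Tree.leaf 163 16 16 6 6).ok 0 1 0 0 (GE 0 3 (D 0) (81, 99) (729, 999) (tau1 (81, 99)) p03 k03 k13) ⟨0, 1, 2, 0, 1, 1, 0, 1, 1, 1, 2, 2⟩ = true ∧
      (Tree.leaf 170 16 16 6 6).ok 0 1 0 0 (GE 0 3 (D 0) (81, 99) (729, 999) (tau1 (81, 99)) p03 k03 k13) ⟨1, 2, 2, 0, 1, 1, 0, 1, 1, 1, 2, 2⟩ = true) ∧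
    ((Tree.leaf 98 9 13 5 1).ok 0 1 0 0 (SEG D13 (0, 0) (sP (7, 8) (2, 8)) p10 p11 p12 p13) ⟨0, 1, 1, 0, 1, 2, 0, 1, 2, 0, 1, 1⟩ = true ∧
      (Tree.leaf 102 9 13 5 1).ok 0 1 0 0 (SEG D13 (0, 0) (sP (7, 8) (2, 8)) p10 p11 p12 p13) ⟨0, 1, 1, 1, 2, 2, 0, 1, 2, 0, 1, 1⟩ = true ∧
      (Tree.leaf 99 9 13 5 1).ok 0 1 0 0 (SEG D13 (0, 0) (sP (7, 8) (2, 8)) p10 p11 p12 p13) ⟨0, 1, 1, 0, 1, 2, 1, 2, 2, 0, 1, 1⟩ = true ∧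
      (Tree.leaf 103 9 13 5 1).ok 0 1 0 0 (SEG D13 (0, 0) (sP (7, 8) (2, 8)) p10 p11 p12 p13) ⟨0, 1, 1, 1, 2, 2, 1, 2, 2, 0, 1, 1⟩ = true) ∧
    ((Tree.leaf 51 13 1 5 1).ok 0 1 0 0 (RE D13 (0, 0)) ⟨0, 1, 1, 0, 1, 1, 0, 1, 1, 0, 1, 1⟩ = true) ∧
    ((Tree.leaf 147 14 13 5 1).ok 0 1 0 0 (UE0 (9, 9) D10) ⟨0, 1, 4, 0, 1, 2, 0, 1, 1, 0, 1, 1⟩ = true ∧
      (Tree.leaf 149 14 13 5 1).ok 0 1 0 0 (UE0 (9, 9) D10) ⟨1, 2, 4, 0, 1, 2, 0, 1, 1, 0, 1, 1⟩ = true ∧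
      (Tree.leaf 140 14 13 5 1).ok 0 1 0 0 (UE0 (9, 9) D10) ⟨1, 2, 2, 0, 1, 2, 0, 1, 1, 0, 1, 1⟩ = true ∧
      (Tree.leaf 129 14 13 5 1).ok 0 1 0 0 (UE0 (9, 9) D10) ⟨0, 1, 1, 1, 2, 2, 0, 1, 1, 0, 1, 1⟩ = true) ∧
    ((Tree.leaf 135 14 13 5 1).ok 0 1 0 0 (UE1 (9, 4) D10) ⟨0, 1, 4, 0, 1, 2, 0, 1, 1, 0, 1, 1⟩ = true ∧
      (Tree.leaf 140 14 13 5 1).ok 0 1 0 0 (UE1 (9, 4) D10) ⟨1, 2, 4, 0, 1, 2, 0, 1, 1, 0, 1, 1⟩ = true ∧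
      (Tree.leaf 139 14 13 5 1).ok 0 1 0 0 (UE1 (9, 4) D10) ⟨0, 1, 4, 1, 2, 2, 0, 1, 1, 0, 1, 1⟩ = true ∧
      (Tree.leaf 145 14 13 5 1).ok 0 1 0 0 (UE1 (9, 4) D10) ⟨1, 2, 4, 1, 2, 2, 0, 1, 1, 0, 1, 1⟩ = true ∧
      (Tree.leaf 133 14 13 5 1).ok 0 1 0 0 (UE1 (9, 4) D10) ⟨1, 2, 2, 0, 1, 2, 0, 1, 1, 0, 1, 1⟩ = true ∧
      (Tree.leaf 138 14 13 5 1).ok 0 1 0 0 (UE1 (9, 4) D10) ⟨1, 2, 2, 1, 2, 2, 0, 1, 1, 0, 1, 1⟩ = true) ∧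
    ((Tree.leaf 124 14 13 5 1).ok 0 1 0 0 (UE0 (9, 9) D11) ⟨0, 1, 1, 0, 1, 2, 0, 1, 1, 0, 1, 1⟩ = true ∧
      (Tree.leaf 129 14 13 5 1).ok 0 1 0 0 (UE0 (9, 9) D11) ⟨0, 1, 1, 1, 2, 2, 0, 1, 1, 0, 1, 1⟩ = true) ∧
    ((Tree.leaf 135 14 13 5 1).ok 0 1 0 0 (UE1 (9, 4) D11) ⟨0, 1, 4, 0, 1, 2, 0, 1, 1, 0, 1, 1⟩ = true ∧
      (Tree.leaf 140 14 13 5 1).ok 0 1 0 0 (UE1 (9, 4) D11) ⟨1, 2, 4, 0, 1, 2, 0, 1, 1, 0, 1, 1⟩ = true ∧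
      (Tree.leaf 133 14 13 5 1).ok 0 1 0 0 (UE1 (9, 4) D11) ⟨1, 2, 2, 0, 1, 2, 0, 1, 1, 0, 1, 1⟩ = true ∧
      (Tree.leaf 139 14 13 5 1).ok 0 1 0 0 (UE1 (9, 4) D11) ⟨0, 1, 4, 1, 2, 2, 0, 1, 1, 0, 1, 1⟩ = true ∧
      (Tree.leaf 145 14 13 5 1).ok 0 1 0 0 (UE1 (9, 4) D11) ⟨1, 2, 4, 1, 2, 2, 0, 1, 1, 0, 1, 1⟩ = true ∧
      (Tree.leaf 139 14 13 5 1).ok 0 1 0 0 (UE1 (9, 4) D11) ⟨1, 2, 2, 1, 2, 2, 0, 1, 1, 0, 1, 1⟩ = true) ∧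
    ((Tree.leaf 147 14 13 5 1).ok 0 1 0 0 (UE0 (9, 9) D12) ⟨0, 1, 4, 0, 1, 2, 0, 1, 1, 0, 1, 1⟩ = true ∧
      (Tree.leaf 149 14 13 5 1).ok 0 1 0 0 (UE0 (9, 9) D12) ⟨1, 2, 4, 0, 1, 2, 0, 1, 1, 0, 1, 1⟩ = true ∧
      (Tree.leaf 140 14 13 5 1).ok 0 1 0 0 (UE0 (9, 9) D12) ⟨1, 2, 2, 0, 1, 2, 0, 1, 1, 0, 1, 1⟩ = true ∧
      (Tree.leaf 129 14 13 5 1).ok 0 1 0 0 (UE0 (9, 9) D12) ⟨0, 1, 1, 1, 2, 2, 0, 1, 1, 0, 1, 1⟩ = true) ∧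
    ((Tree.leaf 135 14 13 5 1).ok 0 1 0 0 (UE1 (9, 4) D12) ⟨0, 1, 4, 0, 1, 2, 0, 1, 1, 0, 1, 1⟩ = true ∧
      (Tree.leaf 140 14 13 5 1).ok 0 1 0 0 (UE1 (9, 4) D12) ⟨1, 2, 4, 0, 1, 2, 0, 1, 1, 0, 1, 1⟩ = true ∧
      (Tree.leaf 133 14 13 5 1).ok 0 1 0 0 (UE1 (9, 4) D12) ⟨1, 2, 2, 0, 1, 2, 0, 1, 1, 0, 1, 1⟩ = true ∧
      (Tree.leaf 139 14 13 5 1).ok 0 1 0 0 (UE1 (9, 4) D12) ⟨0, 1, 2, 2, 3, 4, 0, 1, 1, 0, 1, 1⟩ = true ∧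
      (Tree.leaf 149 14 13 5 1).ok 0 1 0 0 (UE1 (9, 4) D12) ⟨1, 2, 2, 2, 3, 4, 0, 1, 1, 0, 1, 1⟩ = true ∧
      (Tree.leaf 142 14 13 5 1).ok 0 1 0 0 (UE1 (9, 4) D12) ⟨0, 1, 2, 3, 4, 4, 0, 1, 1, 0, 1, 1⟩ = true ∧
      (Tree.leaf 151 14 13 5 1).ok 0 1 0 0 (UE1 (9, 4) D12) ⟨1, 2, 2, 3, 4, 4, 0, 1, 1, 0, 1, 1⟩ = true) ∧
    ((Tree.leaf 124 14 13 5 1).ok 0 1 0 0 (UE0 (9, 9) D13) ⟨0, 1, 1, 0, 1, 2, 0, 1, 1, 0, 1, 1⟩ = true ∧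
      (Tree.leaf 129 14 13 5 1).ok 0 1 0 0 (UE0 (9, 9) D13) ⟨0, 1, 1, 1, 2, 2, 0, 1, 1, 0, 1, 1⟩ = true) ∧
    ((Tree.leaf 135 14 13 5 1).ok 0 1 0 0 (UE1 (9, 4) D13) ⟨0, 1, 4, 0, 1, 2, 0, 1, 1, 0, 1, 1⟩ = true ∧
      (Tree.leaf 140 14 13 5 1).ok 0 1 0 0 (UE1 (9, 4) D13) ⟨1, 2, 4, 0, 1, 2, 0, 1, 1, 0, 1, 1⟩ = true ∧
      (Tree.leaf 133 14 13 5 1).ok 0 1 0 0 (UE1 (9, 4) D13) ⟨1, 2, 2, 0, 1, 2, 0, 1, 1, 0, 1, 1⟩ = true ∧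
      (Tree.leaf 140 14 13 5 1).ok 0 1 0 0 (UE1 (9, 4) D13) ⟨0, 1, 2, 2, 3, 4, 0, 1, 1, 0, 1, 1⟩ = true ∧
      (Tree.leaf 149 14 13 5 1).ok 0 1 0 0 (UE1 (9, 4) D13) ⟨1, 2, 2, 2, 3, 4, 0, 1, 1, 0, 1, 1⟩ = true ∧
      (Tree.leaf 146 14 13 5 1).ok 0 1 0 0 (UE1 (9, 4) D13) ⟨0, 1, 1, 6, 7, 8, 0, 1, 1, 0, 1, 1⟩ = true ∧
      (Tree.leaf 147 14 13 5 1).ok 0 1 0 0 (UE1 (9, 4) D13) ⟨0, 1, 1, 7, 8, 8, 0, 1, 1, 0, 1, 1⟩ = true) ∧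
    ((Tree.leaf 149 14 14 6 6).ok 0 1 0 0 (GE 1 0 (D 1) (81, 99) (729, 999) (.q 49 99) p10 k00 k10) ⟨0, 1, 1, 0, 1, 2, 0, 1, 2, 0, 1, 1⟩ = true ∧
      (Tree.leaf 150 14 14 6 6).ok 0 1 0 0 (GE 1 0 (D 1) (81, 99) (729, 999) (.q 49 99) p10 k00 k10) ⟨0, 1, 1, 0, 1, 2, 1, 2, 2, 0, 1, 1⟩ = true ∧
      (Tree.leaf 150 14 14 6 6).ok 0 1 0 0 (GE 1 0 (D 1) (81, 99) (729, 999) (.q 49 99) p10 k00 k10) ⟨0, 1, 1, 1, 2, 2, 0, 1, 1, 0, 1, 1⟩ = true) ∧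
    ((Tree.leaf 149 14 14 6 6).ok 0 1 0 0 (GE 1 0 (D 1) (81, 99) (729, 999) (tau1 (81, 99)) p10 k00 k10) ⟨0, 1, 1, 0, 1, 2, 0, 1, 2, 0, 1, 1⟩ = true ∧
      (Tree.leaf 150 14 14 6 6).ok 0 1 0 0 (GE 1 0 (D 1) (81, 99) (729, 999) (tau1 (81, 99)) p10 k00 k10) ⟨0, 1, 1, 0, 1, 2, 1, 2, 2, 0, 1, 1⟩ = true ∧
      (Tree.leaf 150 14 14 6 6).ok 0 1 0 0 (GE 1 0 (D 1) (81, 99) (729, 999) (tau1 (81, 99)) p10 k00 k10) ⟨0, 1, 1, 1, 2, 2, 0, 1, 1, 0, 1, 1⟩ = true) ∧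
    ((Tree.leaf 149 14 14 6 6).ok 0 1 0 0 (GE 1 1 (D 1) (81, 99) (729, 999) (.q 49 99) p11 k01 k11) ⟨0, 1, 2, 0, 1, 1, 0, 1, 1, 0, 1, 2⟩ = true ∧
      (Tree.leaf 154 14 14 6 6).ok 0 1 0 0 (GE 1 1 (D 1) (81, 99) (729, 999) (.q 49 99) p11 k01 k11) ⟨1, 2, 2, 0, 1, 1, 0, 1, 1, 0, 1, 2⟩ = true ∧
      (Tree.leaf 149 14 14 6 6).ok 0 1 0 0 (GE 1 1 (D 1) (81, 99) (729, 999) (.q 49 99) p11 k01 k11) ⟨0, 1, 2, 0, 1, 1, 0, 1, 1, 1, 2, 2⟩ = true ∧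
      (Tree.leaf 155 14 14 6 6).ok 0 1 0 0 (GE 1 1 (D 1) (81, 99) (729, 999) (.q 49 99) p11 k01 k11) ⟨1, 2, 2, 0, 1, 1, 0, 1, 1, 1, 2, 2⟩ = true) ∧
    ((Tree.leaf 149 14 14 6 6).ok 0 1 0 0 (GE 1 1 (D 1) (81, 99) (729, 999) (tau1 (81, 99)) p11 k01 k11) ⟨0, 1, 2, 0, 1, 1, 0, 1, 1, 0, 1, 2⟩ = true ∧
      (Tree.leaf 154 14 14 6 6).ok 0 1 0 0 (GE 1 1 (D 1) (81, 99) (729, 999) (tau1 (81, 99)) p11 k01 k11) ⟨1, 2, 2, 0, 1, 1, 0, 1, 1, 0, 1, 2⟩ = true ∧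
      (Tree.leaf 149 14 14 6 6).ok 0 1 0 0 (GE 1 1 (D 1) (81, 99) (729, 999) (tau1 (81, 99)) p11 k01 k11) ⟨0, 1, 2, 0, 1, 1, 0, 1, 1, 1, 2, 2⟩ = true ∧
      (Tree.leaf 155 14 14 6 6).ok 0 1 0 0 (GE 1 1 (D 1) (81, 99) (729, 999) (tau1 (81, 99)) p11 k01 k11) ⟨1, 2, 2, 0, 1, 1, 0, 1, 1, 1, 2, 2⟩ = true) ∧
    ((Tree.leaf 156 14 14 6 6).ok 0 1 0 0 (GE 1 2 (D 1) (81, 99) (729, 999) (.q 49 99) p12 k02 k12) ⟨0, 1, 2, 0, 1, 2, 0, 1, 1, 0, 1, 1⟩ = true ∧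
      (Tree.leaf 159 14 14 6 6).ok 0 1 0 0 (GE 1 2 (D 1) (81, 99) (729, 999) (.q 49 99) p12 k02 k12) ⟨1, 2, 2, 0, 1, 2, 0, 1, 1, 0, 1, 1⟩ = true ∧
      (Tree.leaf 154 14 14 6 6).ok 0 1 0 0 (GE 1 2 (D 1) (81, 99) (729, 999) (.q 49 99) p12 k02 k12) ⟨0, 1, 1, 1, 2, 2, 0, 1, 1, 0, 1, 2⟩ = true ∧
      (Tree.leaf 155 14 14 6 6).ok 0 1 0 0 (GE 1 2 (D 1) (81, 99) (729, 999) (.q 49 99) p12 k02 k12) ⟨0, 1, 1, 1, 2, 2, 0, 1, 1, 1, 2, 2⟩ = true) ∧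
    ((Tree.leaf 149 14 14 6 6).ok 0 1 0 0 (GE 1 2 (D 1) (81, 99) (729, 999) (tau1 (81, 99)) p12 k02 k12) ⟨0, 1, 2, 0, 1, 1, 0, 1, 1, 0, 1, 2⟩ = true ∧
      (Tree.leaf 149 14 14 6 6).ok 0 1 0 0 (GE 1 2 (D 1) (81, 99) (729, 999) (tau1 (81, 99)) p12 k02 k12) ⟨0, 1, 2, 0, 1, 1, 0, 1, 1, 1, 2, 2⟩ = true ∧
      (Tree.leaf 150 14 14 6 6).ok 0 1 0 0 (GE 1 2 (D 1) (81, 99) (729, 999) (tau1 (81, 99)) p12 k02 k12) ⟨1, 2, 2, 0, 1, 1, 0, 1, 1, 0, 1, 1⟩ = true) ∧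
    ((Tree.leaf 149 14 14 6 6).ok 0 1 0 0 (GE 1 3 (D 1) (81, 99) (729, 999) (.q 49 99) p13 k03 k13) ⟨0, 1, 2, 0, 1, 1, 0, 1, 1, 0, 1, 2⟩ = true ∧
      (Tree.leaf 149 14 14 6 6).ok 0 1 0 0 (GE 1 3 (D 1) (81, 99) (729, 999) (.q 49 99) p13 k03 k13) ⟨0, 1, 2, 0, 1, 1, 0, 1, 1, 1, 2, 2⟩ = true ∧
      (Tree.leaf 154 14 14 6 6).ok 0 1 0 0 (GE 1 3 (D 1) (81, 99) (729, 999) (.q 49 99) p13 k03 k13) ⟨1, 2, 2, 0, 1, 1, 0, 1, 2, 0, 1, 1⟩ = true ∧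
      (Tree.leaf 156 14 14 6 6).ok 0 1 0 0 (GE 1 3 (D 1) (81, 99) (729, 999) (.q 49 99) p13 k03 k13) ⟨1, 2, 2, 0, 1, 1, 1, 2, 2, 0, 1, 1⟩ = true) ∧
    ((Tree.leaf 149 14 14 6 6).ok 0 1 0 0 (GE 1 3 (D 1) (81, 99) (729, 999) (tau1 (81, 99)) p13 k03 k13) ⟨0, 1, 2, 0, 1, 1, 0, 1, 1, 0, 1, 2⟩ = true ∧
      (Tree.leaf 149 14 14 6 6).ok 0 1 0 0 (GE 1 3 (D 1) (81, 99) (729, 999) (tau1 (81, 99)) p13 k03 k13) ⟨0, 1, 2, 0, 1, 1, 0, 1, 1, 1, 2, 2⟩ = true ∧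
      (Tree.leaf 154 14 14 6 6).ok 0 1 0 0 (GE 1 3 (D 1) (81, 99) (729, 999) (tau1 (81, 99)) p13 k03 k13) ⟨1, 2, 2, 0, 1, 1, 0, 1, 2, 0, 1, 1⟩ = true ∧
      (Tree.leaf 156 14 14 6 6).ok 0 1 0 0 (GE 1 3 (D 1) (81, 99) (729, 999) (tau1 (81, 99)) p13 k03 k13) ⟨1, 2, 2, 0, 1, 1, 1, 2, 2, 0, 1, 1⟩ = true) ∧
    ((Tree.leaf 78 9 10 5 1).ok 0 1 0 0 (SEG D23 (-87220, 4095) (sP (7, 8) (2, 8)) p20 p21 p22 p23) ⟨0, 1, 1, 0, 1, 1, 0, 1, 1, 0, 1, 1⟩ = true) ∧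
    ((Tree.leaf 43 10 1 4 1).ok 0 1 0 0 (RE D23 (-87220, 4095)) ⟨0, 1, 1, 0, 1, 1, 0, 1, 1, 0, 1, 1⟩ = true) ∧
    ((Tree.leaf 140 14 10 4 1).ok 0 1 0 0 (UE0 (9, 9) D20) ⟨0, 1, 8, 0, 1, 1, 0, 1, 1, 0, 1, 1⟩ = true ∧
      (Tree.leaf 141 14 10 4 1).ok 0 1 0 0 (UE0 (9, 9) D20) ⟨1, 2, 8, 0, 1, 1, 0, 1, 1, 0, 1, 1⟩ = true ∧
      (Tree.leaf 130 14 10 4 1).ok 0 1 0 0 (UE0 (9, 9) D20) ⟨1, 2, 4, 0, 1, 1, 0, 1, 1, 0, 1, 1⟩ = true ∧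
      (Tree.leaf 122 14 10 4 1).ok 0 1 0 0 (UE0 (9, 9) D20) ⟨1, 2, 2, 0, 1, 1, 0, 1, 1, 0, 1, 1⟩ = true) ∧
    ((Tree.leaf 105 14 10 4 1).ok 0 1 0 0 (UE1 (9, 4) D20) ⟨0, 1, 1, 0, 1, 2, 0, 1, 1, 0, 1, 1⟩ = true ∧
      (Tree.leaf 127 14 10 4 1).ok 0 1 0 0 (UE1 (9, 4) D20) ⟨0, 1, 4, 1, 2, 2, 0, 1, 1, 0, 1, 1⟩ = true ∧
      (Tree.leaf 134 14 10 4 1).ok 0 1 0 0 (UE1 (9, 4) D20) ⟨1, 2, 4, 1, 2, 2, 0, 1, 1, 0, 1, 1⟩ = true ∧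
      (Tree.leaf 128 14 10 4 1).ok 0 1 0 0 (UE1 (9, 4) D20) ⟨1, 2, 2, 1, 2, 2, 0, 1, 1, 0, 1, 1⟩ = true) ∧
    ((Tree.leaf 106 14 10 4 1).ok 0 1 0 0 (UE0 (9, 9) D21) ⟨0, 1, 1, 0, 1, 1, 0, 1, 1, 0, 1, 1⟩ = true) ∧
    ((Tree.leaf 99 14 10 4 1).ok 0 1 0 0 (UE1 (9, 4) D21) ⟨0, 1, 1, 0, 1, 1, 0, 1, 1, 0, 1, 1⟩ = true) ∧
    ((Tree.leaf 106 14 10 4 1).ok 0 1 0 0 (UE0 (9, 9) D22) ⟨0, 1, 1, 0, 1, 1, 0, 1, 1, 0, 1, 1⟩ = true) ∧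
    ((Tree.leaf 105 14 10 4 1).ok 0 1 0 0 (UE1 (9, 4) D22) ⟨0, 1, 1, 0, 1, 2, 0, 1, 1, 0, 1, 1⟩ = true ∧
      (Tree.leaf 118 14 10 4 1).ok 0 1 0 0 (UE1 (9, 4) D22) ⟨0, 1, 1, 2, 3, 4, 0, 1, 1, 0, 1, 1⟩ = true ∧
      (Tree.leaf 120 14 10 4 1).ok 0 1 0 0 (UE1 (9, 4) D22) ⟨0, 1, 1, 3, 4, 4, 0, 1, 1, 0, 1, 1⟩ = true) ∧
    ((Tree.leaf 141 14 10 4 1).ok 0 1 0 0 (UE0 (9, 9) D23) ⟨0, 1, 8, 0, 1, 1, 0, 1, 1, 0, 1, 1⟩ = true ∧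
      (Tree.leaf 142 14 10 4 1).ok 0 1 0 0 (UE0 (9, 9) D23) ⟨1, 2, 8, 0, 1, 1, 0, 1, 1, 0, 1, 1⟩ = true ∧
      (Tree.leaf 131 14 10 4 1).ok 0 1 0 0 (UE0 (9, 9) D23) ⟨1, 2, 4, 0, 1, 1, 0, 1, 1, 0, 1, 1⟩ = true ∧
      (Tree.leaf 122 14 10 4 1).ok 0 1 0 0 (UE0 (9, 9) D23) ⟨1, 2, 2, 0, 1, 1, 0, 1, 1, 0, 1, 1⟩ = true) ∧
    ((Tree.leaf 105 14 10 4 1).ok 0 1 0 0 (UE1 (9, 4) D23) ⟨0, 1, 1, 0, 1, 2, 0, 1, 1, 0, 1, 1⟩ = true ∧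
      (Tree.leaf 110 14 10 4 1).ok 0 1 0 0 (UE1 (9, 4) D23) ⟨0, 1, 1, 1, 2, 2, 0, 1, 1, 0, 1, 1⟩ = true) ∧
    ((Tree.leaf 133 14 14 6 6).ok 0 1 0 0 (GE 2 0 (D 2) (81, 99) (729, 999) (.q 49 99) p20 k00 k10) ⟨0, 1, 1, 0, 1, 1, 0, 1, 1, 0, 1, 1⟩ = true) ∧
    ((Tree.leaf 133 14 14 6 6).ok 0 1 0 0 (GE 2 0 (D 2) (81, 99) (729, 999) (tau1 (81, 99)) p20 k00 k10) ⟨0, 1, 1, 0, 1, 1, 0, 1, 1, 0, 1, 1⟩ = true) ∧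
    ((Tree.leaf 133 14 14 6 6).ok 0 1 0 0 (GE 2 1 (D 2) (81, 99) (729, 999) (.q 49 99) p21 k01 k11) ⟨0, 1, 1, 0, 1, 1, 0, 1, 1, 0, 1, 1⟩ = true) ∧
    ((Tree.leaf 133 14 14 6 6).ok 0 1 0 0 (GE 2 1 (D 2) (81, 99) (729, 999) (tau1 (81, 99)) p21 k01 k11) ⟨0, 1, 1, 0, 1, 1, 0, 1, 1, 0, 1, 1⟩ = true) ∧
    ((Tree.leaf 147 14 14 6 6).ok 0 1 0 0 (GE 2 2 (D 2) (81, 99) (729, 999) (.q 49 99) p22 k02 k12) ⟨0, 1, 2, 0, 1, 1, 0, 1, 2, 0, 1, 1⟩ = true ∧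
      (Tree.leaf 153 14 14 6 6).ok 0 1 0 0 (GE 2 2 (D 2) (81, 99) (729, 999) (.q 49 99) p22 k02 k12) ⟨1, 2, 2, 0, 1, 1, 0, 1, 2, 0, 1, 1⟩ = true ∧
      (Tree.leaf 138 14 14 6 6).ok 0 1 0 0 (GE 2 2 (D 2) (81, 99) (729, 999) (.q 49 99) p22 k02 k12) ⟨0, 1, 1, 0, 1, 1, 1, 2, 2, 0, 1, 1⟩ = true) ∧
    ((Tree.leaf 147 14 14 6 6).ok 0 1 0 0 (GE 2 2 (D 2) (81, 99) (729, 999) (tau1 (81, 99)) p22 k02 k12) ⟨0, 1, 2, 0, 1, 1, 0, 1, 2, 0, 1, 1⟩ = true ∧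
      (Tree.leaf 153 14 14 6 6).ok 0 1 0 0 (GE 2 2 (D 2) (81, 99) (729, 999) (tau1 (81, 99)) p22 k02 k12) ⟨1, 2, 2, 0, 1, 1, 0, 1, 2, 0, 1, 1⟩ = true ∧
      (Tree.leaf 138 14 14 6 6).ok 0 1 0 0 (GE 2 2 (D 2) (81, 99) (729, 999) (tau1 (81, 99)) p22 k02 k12) ⟨0, 1, 1, 0, 1, 1, 1, 2, 2, 0, 1, 1⟩ = true) ∧
    ((Tree.leaf 143 14 14 6 6).ok 0 1 0 0 (GE 2 3 (D 2) (81, 99) (729, 999) (.q 49 99) p23 k03 k13) ⟨0, 1, 2, 0, 1, 1, 0, 1, 1, 0, 1, 1⟩ = true ∧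
      (Tree.leaf 149 14 14 6 6).ok 0 1 0 0 (GE 2 3 (D 2) (81, 99) (729, 999) (.q 49 99) p23 k03 k13) ⟨1, 2, 2, 0, 1, 1, 0, 1, 1, 0, 1, 1⟩ = true) ∧
    ((Tree.leaf 133 14 14 6 6).ok 0 1 0 0 (GE 2 3 (D 2) (81, 99) (729, 999) (tau1 (81, 99)) p23 k03 k13) ⟨0, 1, 1, 0, 1, 1, 0, 1, 1, 0, 1, 1⟩ = true) :=
  ⟨⟨by decide +kernel, by decide +kernel⟩,
   by decide +kernel,
   ⟨by decide +kernel, by decide +kernel, by decide +kernel, by decide +kernel, by decide +kernel, by decide +kernel⟩,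
   ⟨by decide +kernel, by decide +kernel, by decide +kernel, by decide +kernel⟩,
   ⟨by decide +kernel, by decide +kernel, by decide +kernel, by decide +kernel⟩,
   ⟨by decide +kernel, by decide +kernel, by decide +kernel, by decide +kernel⟩,
   ⟨by decide +kernel, by decide +kernel, by decide +kernel⟩,
   ⟨by decide +kernel, by decide +kernel, by decide +kernel, by decide +kernel, by decide +kernel⟩,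
   ⟨by decide +kernel, by decide +kernel, by decide +kernel, by decide +kernel, by decide +kernel⟩,
   ⟨by decide +kernel, by decide +kernel, by decide +kernel, by decide +kernel, by decide +kernel⟩,
   ⟨by decide +kernel, by decide +kernel, by decide +kernel, by decide +kernel⟩,
   ⟨by decide +kernel, by decide +kernel, by decide +kernel, by decide +kernel⟩,
   ⟨by decide +kernel, by decide +kernel, by decide +kernel⟩,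
   ⟨by decide +kernel, by decide +kernel, by decide +kernel, by decide +kernel⟩,
   ⟨by decide +kernel, by decide +kernel, by decide +kernel⟩,
   ⟨by decide +kernel, by decide +kernel, by decide +kernel⟩,
   ⟨by decide +kernel, by decide +kernel, by decide +kernel, by decide +kernel⟩,
   ⟨by decide +kernel, by decide +kernel, by decide +kernel, by decide +kernel⟩,
   ⟨by decide +kernel, by decide +kernel, by decide +kernel, by decide +kernel⟩,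
   by decide +kernel,
   ⟨by decide +kernel, by decide +kernel, by decide +kernel, by decide +kernel⟩,
   ⟨by decide +kernel, by decide +kernel, by decide +kernel, by decide +kernel, by decide +kernel, by decide +kernel⟩,
   ⟨by decide +kernel, by decide +kernel⟩,
   ⟨by decide +kernel, by decide +kernel, by decide +kernel, by decide +kernel, by decide +kernel, by decide +kernel⟩,
   ⟨by decide +kernel, by decide +kernel, by decide +kernel, by decide +kernel⟩,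
   ⟨by decide +kernel, by decide +kernel, by decide +kernel, by decide +kernel, by decide +kernel, by decide +kernel, by decide +kernel⟩,
   ⟨by decide +kernel, by decide +kernel⟩,
   ⟨by decide +kernel, by decide +kernel, by decide +kernel, by decide +kernel, by decide +kernel, by decide +kernel, by decide +kernel⟩,
   ⟨by decide +kernel, by decide +kernel, by decide +kernel⟩,
   ⟨by decide +kernel, by decide +kernel, by decide +kernel⟩,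
   ⟨by decide +kernel, by decide +kernel, by decide +kernel, by decide +kernel⟩,
   ⟨by decide +kernel, by decide +kernel, by decide +kernel, by decide +kernel⟩,
   ⟨by decide +kernel, by decide +kernel, by decide +kernel, by decide +kernel⟩,
   ⟨by decide +kernel, by decide +kernel, by decide +kernel⟩,
   ⟨by decide +kernel, by decide +kernel, by decide +kernel, by decide +kernel⟩,
   ⟨by decide +kernel, by decide +kernel, by decide +kernel, by decide +kernel⟩,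
   by decide +kernel,
   by decide +kernel,
   ⟨by decide +kernel, by decide +kernel, by decide +kernel, by decide +kernel⟩,
   ⟨by decide +kernel, by decide +kernel, by decide +kernel, by decide +kernel⟩,
   by decide +kernel,
   by decide +kernel,
   by decide +kernel,
   ⟨by decide +kernel, by decide +kernel, by decide +kernel⟩,
   ⟨by decide +kernel, by decide +kernel, by decide +kernel, by decide +kernel⟩,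
   ⟨by decide +kernel, by decide +kernel⟩,
   by decide +kernel,
   by decide +kernel,
   by decide +kernel,
   by decide +kernel,
   ⟨by decide +kernel, by decide +kernel, by decide +kernel⟩,
   ⟨by decide +kernel, by decide +kernel, by decide +kernel⟩,
   ⟨by decide +kernel, by decide +kernel⟩,
   by decide +kernel⟩

def t_s0 : Tree := (.s2 (.leaf 92 9 16 6 1) (.leaf 92 9 16 6 1))
theorem s0 : t_s0.ok 0 1 0 0 (SEG D03 (0, 0) (sP (7, 8) (2, 8)) p00 p01 p02 p03) unitBx = true :=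
  (Tree.ok_s2 lv.1.1 lv.1.2)

def t_r0 : Tree := (.leaf 54 16 1 6 1)
theorem r0 : t_r0.ok 0 1 0 0 (RE D03 (0, 0)) unitBx = true :=
  lv.2.1

def t_u00 : Tree := (.s1 (.s0 (.s0 (.leaf 172 17 16 6 1) (.leaf 175 17 16 6 1)) (.leaf 163 17 16 6 1)) (.s0 (.s0 (.leaf 175 17 16 6 1) (.leaf 179 17 16 6 1)) (.leaf 169 17 16 6 1)))
theorem u00 : t_u00.ok 0 1 0 0 (UE0 (9, 9) D00) unitBx = true :=
  (Tree.ok_s1 (Tree.ok_s0 (Tree.ok_s0 lv.2.2.1.1 lv.2.2.1.2.1) lv.2.2.1.2.2.1) (Tree.ok_s0 (Tree.ok_s0 lv.2.2.1.2.2.2.1 lv.2.2.1.2.2.2.2.1) lv.2.2.1.2.2.2.2.2))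

def t_v00 : Tree := (.s1 (.leaf 134 17 16 6 1) (.s1 (.leaf 153 17 16 6 1) (.s2 (.leaf 160 17 16 6 1) (.leaf 162 17 16 6 1))))
theorem v00 : t_v00.ok 0 1 0 0 (UE1 (9, 4) D00) unitBx = true :=
  (Tree.ok_s1 lv.2.2.2.1.1 (Tree.ok_s1 lv.2.2.2.1.2.1 (Tree.ok_s2 lv.2.2.2.1.2.2.1 lv.2.2.2.1.2.2.2)))

def t_u01 : Tree := (.s0 (.s1 (.s0 (.leaf 172 17 16 6 1) (.leaf 175 17 16 6 1)) (.leaf 161 17 16 6 1)) (.leaf 150 17 16 6 1))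
theorem u01 : t_u01.ok 0 1 0 0 (UE0 (9, 9) D01) unitBx = true :=
  (Tree.ok_s0 (Tree.ok_s1 (Tree.ok_s0 lv.2.2.2.2.1.1 lv.2.2.2.2.1.2.1) lv.2.2.2.2.1.2.2.1) lv.2.2.2.2.1.2.2.2)

def t_v01 : Tree := (.s1 (.leaf 134 17 16 6 1) (.s1 (.leaf 153 17 16 6 1) (.s1 (.leaf 170 17 16 6 1) (.leaf 172 17 16 6 1))))
theorem v01 : t_v01.ok 0 1 0 0 (UE1 (9, 4) D01) unitBx = true :=
  (Tree.ok_s1 lv.2.2.2.2.2.1.1 (Tree.ok_s1 lv.2.2.2.2.2.1.2.1 (Tree.ok_s1 lv.2.2.2.2.2.1.2.2.1 lv.2.2.2.2.2.1.2.2.2)))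

def t_u02 : Tree := (.s0 (.s1 (.leaf 158 17 16 6 1) (.leaf 162 17 16 6 1)) (.leaf 151 17 16 6 1))
theorem u02 : t_u02.ok 0 1 0 0 (UE0 (9, 9) D02) unitBx = true :=
  (Tree.ok_s0 (Tree.ok_s1 lv.2.2.2.2.2.2.1.1 lv.2.2.2.2.2.2.1.2.1) lv.2.2.2.2.2.2.1.2.2)

def t_v02 : Tree := (.s1 (.leaf 134 17 16 6 1) (.s1 (.s0 (.leaf 163 17 16 6 1) (.leaf 174 17 16 6 1)) (.s2 (.leaf 161 17 16 6 1) (.leaf 163 17 16 6 1))))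
theorem v02 : t_v02.ok 0 1 0 0 (UE1 (9, 4) D02) unitBx = true :=
  (Tree.ok_s1 lv.2.2.2.2.2.2.2.1.1 (Tree.ok_s1 (Tree.ok_s0 lv.2.2.2.2.2.2.2.1.2.1 lv.2.2.2.2.2.2.2.1.2.2.1) (Tree.ok_s2 lv.2.2.2.2.2.2.2.1.2.2.2.1 lv.2.2.2.2.2.2.2.1.2.2.2.2)))

def t_u03 : Tree := (.s0 (.s1 (.s0 (.leaf 172 17 16 6 1) (.leaf 175 17 16 6 1)) (.s0 (.leaf 175 17 16 6 1) (.leaf 180 17 16 6 1))) (.leaf 151 17 16 6 1))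
theorem u03 : t_u03.ok 0 1 0 0 (UE0 (9, 9) D03) unitBx = true :=
  (Tree.ok_s0 (Tree.ok_s1 (Tree.ok_s0 lv.2.2.2.2.2.2.2.2.1.1 lv.2.2.2.2.2.2.2.2.1.2.1) (Tree.ok_s0 lv.2.2.2.2.2.2.2.2.1.2.2.1 lv.2.2.2.2.2.2.2.2.1.2.2.2.1)) lv.2.2.2.2.2.2.2.2.1.2.2.2.2)

def t_v03 : Tree := (.s1 (.leaf 134 17 16 6 1) (.s1 (.s0 (.leaf 163 17 16 6 1) (.leaf 174 17 16 6 1)) (.s1 (.leaf 171 17 16 6 1) (.leaf 172 17 16 6 1))))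
theorem v03 : t_v03.ok 0 1 0 0 (UE1 (9, 4) D03) unitBx = true :=
  (Tree.ok_s1 lv.2.2.2.2.2.2.2.2.2.1.1 (Tree.ok_s1 (Tree.ok_s0 lv.2.2.2.2.2.2.2.2.2.1.2.1 lv.2.2.2.2.2.2.2.2.2.1.2.2.1) (Tree.ok_s1 lv.2.2.2.2.2.2.2.2.2.1.2.2.2.1 lv.2.2.2.2.2.2.2.2.2.1.2.2.2.2)))

def t_h000 : Tree := (.s3 (.s2 (.leaf 155 16 16 6 6) (.leaf 156 16 16 6 6)) (.s0 (.leaf 162 16 16 6 6) (.leaf 170 16 16 6 6)))
theorem h000 : t_h000.ok 0 1 0 0 (GE 0 0 (D 0) (81, 99) (729, 999) (.q 49 99) p00 k00 k10) unitBx = true :=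
  (Tree.ok_s3 (Tree.ok_s2 lv.2.2.2.2.2.2.2.2.2.2.1.1 lv.2.2.2.2.2.2.2.2.2.2.1.2.1) (Tree.ok_s0 lv.2.2.2.2.2.2.2.2.2.2.1.2.2.1 lv.2.2.2.2.2.2.2.2.2.2.1.2.2.2))

def t_h001 : Tree := (.s3 (.s2 (.leaf 155 16 16 6 6) (.leaf 156 16 16 6 6)) (.s0 (.leaf 162 16 16 6 6) (.leaf 170 16 16 6 6)))
theorem h001 : t_h001.ok 0 1 0 0 (GE 0 0 (D 0) (81, 99) (729, 999) (tau1 (81, 99)) p00 k00 k10) unitBx = true :=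
  (Tree.ok_s3 (Tree.ok_s2 lv.2.2.2.2.2.2.2.2.2.2.2.1.1 lv.2.2.2.2.2.2.2.2.2.2.2.1.2.1) (Tree.ok_s0 lv.2.2.2.2.2.2.2.2.2.2.2.1.2.2.1 lv.2.2.2.2.2.2.2.2.2.2.2.1.2.2.2))

def t_h010 : Tree := (.s3 (.leaf 150 16 16 6 6) (.s0 (.leaf 162 16 16 6 6) (.leaf 170 16 16 6 6)))
theorem h010 : t_h010.ok 0 1 0 0 (GE 0 1 (D 0) (81, 99) (729, 999) (.q 49 99) p01 k01 k11) unitBx = true :=
  (Tree.ok_s3 lv.2.2.2.2.2.2.2.2.2.2.2.2.1.1 (Tree.ok_s0 lv.2.2.2.2.2.2.2.2.2.2.2.2.1.2.1 lv.2.2.2.2.2.2.2.2.2.2.2.2.1.2.2))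

def t_h011 : Tree := (.s0 (.s3 (.leaf 162 16 16 6 6) (.leaf 162 16 16 6 6)) (.s3 (.leaf 169 16 16 6 6) (.leaf 170 16 16 6 6)))
theorem h011 : t_h011.ok 0 1 0 0 (GE 0 1 (D 0) (81, 99) (729, 999) (tau1 (81, 99)) p01 k01 k11) unitBx = true :=
  (Tree.ok_s0 (Tree.ok_s3 lv.2.2.2.2.2.2.2.2.2.2.2.2.2.1.1 lv.2.2.2.2.2.2.2.2.2.2.2.2.2.1.2.1) (Tree.ok_s3 lv.2.2.2.2.2.2.2.2.2.2.2.2.2.1.2.2.1 lv.2.2.2.2.2.2.2.2.2.2.2.2.2.1.2.2.2))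

def t_h020 : Tree := (.s3 (.leaf 150 16 16 6 6) (.s0 (.leaf 162 16 16 6 6) (.leaf 170 16 16 6 6)))
theorem h020 : t_h020.ok 0 1 0 0 (GE 0 2 (D 0) (81, 99) (729, 999) (.q 49 99) p02 k02 k12) unitBx = true :=
  (Tree.ok_s3 lv.2.2.2.2.2.2.2.2.2.2.2.2.2.2.1.1 (Tree.ok_s0 lv.2.2.2.2.2.2.2.2.2.2.2.2.2.2.1.2.1 lv.2.2.2.2.2.2.2.2.2.2.2.2.2.2.1.2.2))

def t_h021 : Tree := (.s3 (.leaf 150 16 16 6 6) (.s0 (.leaf 163 16 16 6 6) (.leaf 170 16 16 6 6)))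
theorem h021 : t_h021.ok 0 1 0 0 (GE 0 2 (D 0) (81, 99) (729, 999) (tau1 (81, 99)) p02 k02 k12) unitBx = true :=
  (Tree.ok_s3 lv.2.2.2.2.2.2.2.2.2.2.2.2.2.2.2.1.1 (Tree.ok_s0 lv.2.2.2.2.2.2.2.2.2.2.2.2.2.2.2.1.2.1 lv.2.2.2.2.2.2.2.2.2.2.2.2.2.2.2.1.2.2))

def t_h030 : Tree := (.s3 (.s1 (.leaf 163 16 16 6 6) (.leaf 169 16 16 6 6)) (.s0 (.leaf 163 16 16 6 6) (.leaf 170 16 16 6 6)))
theorem h030 : t_h030.ok 0 1 0 0 (GE 0 3 (D 0) (81, 99) (729, 999) (.q 49 99) p03 k03 k13) unitBx = true :=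
  (Tree.ok_s3 (Tree.ok_s1 lv.2.2.2.2.2.2.2.2.2.2.2.2.2.2.2.2.1.1 lv.2.2.2.2.2.2.2.2.2.2.2.2.2.2.2.2.1.2.1) (Tree.ok_s0 lv.2.2.2.2.2.2.2.2.2.2.2.2.2.2.2.2.1.2.2.1 lv.2.2.2.2.2.2.2.2.2.2.2.2.2.2.2.2.1.2.2.2))

def t_h031 : Tree := (.s3 (.s1 (.leaf 163 16 16 6 6) (.leaf 169 16 16 6 6)) (.s0 (.leaf 163 16 16 6 6) (.leaf 170 16 16 6 6)))
theorem h031 : t_h031.ok 0 1 0 0 (GE 0 3 (D 0) (81, 99) (729, 999) (tau1 (81, 99)) p03 k03 k13) unitBx = true :=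
  (Tree.ok_s3 (Tree.ok_s1 lv.2.2.2.2.2.2.2.2.2.2.2.2.2.2.2.2.2.1.1 lv.2.2.2.2.2.2.2.2.2.2.2.2.2.2.2.2.2.1.2.1) (Tree.ok_s0 lv.2.2.2.2.2.2.2.2.2.2.2.2.2.2.2.2.2.1.2.2.1 lv.2.2.2.2.2.2.2.2.2.2.2.2.2.2.2.2.2.1.2.2.2))

def t_s1 : Tree := (.s2 (.s1 (.leaf 98 9 13 5 1) (.leaf 102 9 13 5 1)) (.s1 (.leaf 99 9 13 5 1) (.leaf 103 9 13 5 1)))
theorem s1 : t_s1.ok 0 1 0 0 (SEG D13 (0, 0) (sP (7, 8) (2, 8)) p10 p11 p12 p13) unitBx = true :=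
  (Tree.ok_s2 (Tree.ok_s1 lv.2.2.2.2.2.2.2.2.2.2.2.2.2.2.2.2.2.2.1.1 lv.2.2.2.2.2.2.2.2.2.2.2.2.2.2.2.2.2.2.1.2.1) (Tree.ok_s1 lv.2.2.2.2.2.2.2.2.2.2.2.2.2.2.2.2.2.2.1.2.2.1 lv.2.2.2.2.2.2.2.2.2.2.2.2.2.2.2.2.2.2.1.2.2.2))

def t_r1 : Tree := (.leaf 51 13 1 5 1)
theorem r1 : t_r1.ok 0 1 0 0 (RE D13 (0, 0)) unitBx = true :=
  lv.2.2.2.2.2.2.2.2.2.2.2.2.2.2.2.2.2.2.2.1

def t_u10 : Tree := (.s1 (.s0 (.s0 (.leaf 147 14 13 5 1) (.leaf 149 14 13 5 1)) (.leaf 140 14 13 5 1)) (.leaf 129 14 13 5 1))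
theorem u10 : t_u10.ok 0 1 0 0 (UE0 (9, 9) D10) unitBx = true :=
  (Tree.ok_s1 (Tree.ok_s0 (Tree.ok_s0 lv.2.2.2.2.2.2.2.2.2.2.2.2.2.2.2.2.2.2.2.2.1.1 lv.2.2.2.2.2.2.2.2.2.2.2.2.2.2.2.2.2.2.2.2.1.2.1) lv.2.2.2.2.2.2.2.2.2.2.2.2.2.2.2.2.2.2.2.2.1.2.2.1) lv.2.2.2.2.2.2.2.2.2.2.2.2.2.2.2.2.2.2.2.2.1.2.2.2)

def t_v10 : Tree := (.s0 (.s1 (.s0 (.leaf 135 14 13 5 1) (.leaf 140 14 13 5 1)) (.s0 (.leaf 139 14 13 5 1) (.leaf 145 14 13 5 1))) (.s1 (.leaf 133 14 13 5 1) (.leaf 138 14 13 5 1)))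
theorem v10 : t_v10.ok 0 1 0 0 (UE1 (9, 4) D10) unitBx = true :=
  (Tree.ok_s0 (Tree.ok_s1 (Tree.ok_s0 lv.2.2.2.2.2.2.2.2.2.2.2.2.2.2.2.2.2.2.2.2.2.1.1 lv.2.2.2.2.2.2.2.2.2.2.2.2.2.2.2.2.2.2.2.2.2.1.2.1) (Tree.ok_s0 lv.2.2.2.2.2.2.2.2.2.2.2.2.2.2.2.2.2.2.2.2.2.1.2.2.1 lv.2.2.2.2.2.2.2.2.2.2.2.2.2.2.2.2.2.2.2.2.2.1.2.2.2.1)) (Tree.ok_s1 lv.2.2.2.2.2.2.2.2.2.2.2.2.2.2.2.2.2.2.2.2.2.1.2.2.2.2.1 lv.2.2.2.2.2.2.2.2.2.2.2.2.2.2.2.2.2.2.2.2.2.1.2.2.2.2.2))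

def t_u11 : Tree := (.s1 (.leaf 124 14 13 5 1) (.leaf 129 14 13 5 1))
theorem u11 : t_u11.ok 0 1 0 0 (UE0 (9, 9) D11) unitBx = true :=
  (Tree.ok_s1 lv.2.2.2.2.2.2.2.2.2.2.2.2.2.2.2.2.2.2.2.2.2.2.1.1 lv.2.2.2.2.2.2.2.2.2.2.2.2.2.2.2.2.2.2.2.2.2.2.1.2)

def t_v11 : Tree := (.s1 (.s0 (.s0 (.leaf 135 14 13 5 1) (.leaf 140 14 13 5 1)) (.leaf 133 14 13 5 1)) (.s0 (.s0 (.leaf 139 14 13 5 1) (.leaf 145 14 13 5 1)) (.leaf 139 14 13 5 1)))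
theorem v11 : t_v11.ok 0 1 0 0 (UE1 (9, 4) D11) unitBx = true :=
  (Tree.ok_s1 (Tree.ok_s0 (Tree.ok_s0 lv.2.2.2.2.2.2.2.2.2.2.2.2.2.2.2.2.2.2.2.2.2.2.2.1.1 lv.2.2.2.2.2.2.2.2.2.2.2.2.2.2.2.2.2.2.2.2.2.2.2.1.2.1) lv.2.2.2.2.2.2.2.2.2.2.2.2.2.2.2.2.2.2.2.2.2.2.2.1.2.2.1) (Tree.ok_s0 (Tree.ok_s0 lv.2.2.2.2.2.2.2.2.2.2.2.2.2.2.2.2.2.2.2.2.2.2.2.1.2.2.2.1 lv.2.2.2.2.2.2.2.2.2.2.2.2.2.2.2.2.2.2.2.2.2.2.2.1.2.2.2.2.1) lv.2.2.2.2.2.2.2.2.2.2.2.2.2.2.2.2.2.2.2.2.2.2.2.1.2.2.2.2.2))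

def t_u12 : Tree := (.s1 (.s0 (.s0 (.leaf 147 14 13 5 1) (.leaf 149 14 13 5 1)) (.leaf 140 14 13 5 1)) (.leaf 129 14 13 5 1))
theorem u12 : t_u12.ok 0 1 0 0 (UE0 (9, 9) D12) unitBx = true :=
  (Tree.ok_s1 (Tree.ok_s0 (Tree.ok_s0 lv.2.2.2.2.2.2.2.2.2.2.2.2.2.2.2.2.2.2.2.2.2.2.2.2.1.1 lv.2.2.2.2.2.2.2.2.2.2.2.2.2.2.2.2.2.2.2.2.2.2.2.2.1.2.1) lv.2.2.2.2.2.2.2.2.2.2.2.2.2.2.2.2.2.2.2.2.2.2.2.2.1.2.2.1) lv.2.2.2.2.2.2.2.2.2.2.2.2.2.2.2.2.2.2.2.2.2.2.2.2.1.2.2.2)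

def t_v12 : Tree := (.s1 (.s0 (.s0 (.leaf 135 14 13 5 1) (.leaf 140 14 13 5 1)) (.leaf 133 14 13 5 1)) (.s1 (.s0 (.leaf 139 14 13 5 1) (.leaf 149 14 13 5 1)) (.s0 (.leaf 142 14 13 5 1) (.leaf 151 14 13 5 1))))
theorem v12 : t_v12.ok 0 1 0 0 (UE1 (9, 4) D12) unitBx = true :=
  (Tree.ok_s1 (Tree.ok_s0 (Tree.ok_s0 lv.2.2.2.2.2.2.2.2.2.2.2.2.2.2.2.2.2.2.2.2.2.2.2.2.2.1.1 lv.2.2.2.2.2.2.2.2.2.2.2.2.2.2.2.2.2.2.2.2.2.2.2.2.2.1.2.1) lv.2.2.2.2.2.2.2.2.2.2.2.2.2.2.2.2.2.2.2.2.2.2.2.2.2.1.2.2.1) (Tree.ok_s1 (Tree.ok_s0 lv.2.2.2.2.2.2.2.2.2.2.2.2.2.2.2.2.2.2.2.2.2.2.2.2.2.1.2.2.2.1 lv.2.2.2.2.2.2.2.2.2.2.2.2.2.2.2.2.2.2.2.2.2.2.2.2.2.1.2.2.2.2.1) (Tree.ok_s0 lv.2.2.2.2.2.2.2.2.2.2.2.2.2.2.2.2.2.2.2.2.2.2.2.2.2.1.2.2.2.2.2.1 lv.2.2.2.2.2.2.2.2.2.2.2.2.2.2.2.2.2.2.2.2.2.2.2.2.2.1.2.2.2.2.2.2)))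

def t_u13 : Tree := (.s1 (.leaf 124 14 13 5 1) (.leaf 129 14 13 5 1))
theorem u13 : t_u13.ok 0 1 0 0 (UE0 (9, 9) D13) unitBx = true :=
  (Tree.ok_s1 lv.2.2.2.2.2.2.2.2.2.2.2.2.2.2.2.2.2.2.2.2.2.2.2.2.2.2.1.1 lv.2.2.2.2.2.2.2.2.2.2.2.2.2.2.2.2.2.2.2.2.2.2.2.2.2.2.1.2)

def t_v13 : Tree := (.s1 (.s0 (.s0 (.leaf 135 14 13 5 1) (.leaf 140 14 13 5 1)) (.leaf 133 14 13 5 1)) (.s1 (.s0 (.leaf 140 14 13 5 1) (.leaf 149 14 13 5 1)) (.s1 (.leaf 146 14 13 5 1) (.leaf 147 14 13 5 1))))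
theorem v13 : t_v13.ok 0 1 0 0 (UE1 (9, 4) D13) unitBx = true :=
  (Tree.ok_s1 (Tree.ok_s0 (Tree.ok_s0 lv.2.2.2.2.2.2.2.2.2.2.2.2.2.2.2.2.2.2.2.2.2.2.2.2.2.2.2.1.1 lv.2.2.2.2.2.2.2.2.2.2.2.2.2.2.2.2.2.2.2.2.2.2.2.2.2.2.2.1.2.1) lv.2.2.2.2.2.2.2.2.2.2.2.2.2.2.2.2.2.2.2.2.2.2.2.2.2.2.2.1.2.2.1) (Tree.ok_s1 (Tree.ok_s0 lv.2.2.2.2.2.2.2.2.2.2.2.2.2.2.2.2.2.2.2.2.2.2.2.2.2.2.2.1.2.2.2.1 lv.2.2.2.2.2.2.2.2.2.2.2.2.2.2.2.2.2.2.2.2.2.2.2.2.2.2.2.1.2.2.2.2.1) (Tree.ok_s1 lv.2.2.2.2.2.2.2.2.2.2.2.2.2.2.2.2.2.2.2.2.2.2.2.2.2.2.2.1.2.2.2.2.2.1 lv.2.2.2.2.2.2.2.2.2.2.2.2.2.2.2.2.2.2.2.2.2.2.2.2.2.2.2.1.2.2.2.2.2.2)))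

def t_h100 : Tree := (.s1 (.s2 (.leaf 149 14 14 6 6) (.leaf 150 14 14 6 6)) (.leaf 150 14 14 6 6))
theorem h100 : t_h100.ok 0 1 0 0 (GE 1 0 (D 1) (81, 99) (729, 999) (.q 49 99) p10 k00 k10) unitBx = true :=
  (Tree.ok_s1 (Tree.ok_s2 lv.2.2.2.2.2.2.2.2.2.2.2.2.2.2.2.2.2.2.2.2.2.2.2.2.2.2.2.2.1.1 lv.2.2.2.2.2.2.2.2.2.2.2.2.2.2.2.2.2.2.2.2.2.2.2.2.2.2.2.2.1.2.1) lv.2.2.2.2.2.2.2.2.2.2.2.2.2.2.2.2.2.2.2.2.2.2.2.2.2.2.2.2.1.2.2)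

def t_h101 : Tree := (.s1 (.s2 (.leaf 149 14 14 6 6) (.leaf 150 14 14 6 6)) (.leaf 150 14 14 6 6))
theorem h101 : t_h101.ok 0 1 0 0 (GE 1 0 (D 1) (81, 99) (729, 999) (tau1 (81, 99)) p10 k00 k10) unitBx = true :=
  (Tree.ok_s1 (Tree.ok_s2 lv.2.2.2.2.2.2.2.2.2.2.2.2.2.2.2.2.2.2.2.2.2.2.2.2.2.2.2.2.2.1.1 lv.2.2.2.2.2.2.2.2.2.2.2.2.2.2.2.2.2.2.2.2.2.2.2.2.2.2.2.2.2.1.2.1) lv.2.2.2.2.2.2.2.2.2.2.2.2.2.2.2.2.2.2.2.2.2.2.2.2.2.2.2.2.2.1.2.2)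

def t_h110 : Tree := (.s3 (.s0 (.leaf 149 14 14 6 6) (.leaf 154 14 14 6 6)) (.s0 (.leaf 149 14 14 6 6) (.leaf 155 14 14 6 6)))
theorem h110 : t_h110.ok 0 1 0 0 (GE 1 1 (D 1) (81, 99) (729, 999) (.q 49 99) p11 k01 k11) unitBx = true :=
  (Tree.ok_s3 (Tree.ok_s0 lv.2.2.2.2.2.2.2.2.2.2.2.2.2.2.2.2.2.2.2.2.2.2.2.2.2.2.2.2.2.2.1.1 lv.2.2.2.2.2.2.2.2.2.2.2.2.2.2.2.2.2.2.2.2.2.2.2.2.2.2.2.2.2.2.1.2.1) (Tree.ok_s0 lv.2.2.2.2.2.2.2.2.2.2.2.2.2.2.2.2.2.2.2.2.2.2.2.2.2.2.2.2.2.2.1.2.2.1 lv.2.2.2.2.2.2.2.2.2.2.2.2.2.2.2.2.2.2.2.2.2.2.2.2.2.2.2.2.2.2.1.2.2.2))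

def t_h111 : Tree := (.s3 (.s0 (.leaf 149 14 14 6 6) (.leaf 154 14 14 6 6)) (.s0 (.leaf 149 14 14 6 6) (.leaf 155 14 14 6 6)))
theorem h111 : t_h111.ok 0 1 0 0 (GE 1 1 (D 1) (81, 99) (729, 999) (tau1 (81, 99)) p11 k01 k11) unitBx = true :=
  (Tree.ok_s3 (Tree.ok_s0 lv.2.2.2.2.2.2.2.2.2.2.2.2.2.2.2.2.2.2.2.2.2.2.2.2.2.2.2.2.2.2.2.1.1 lv.2.2.2.2.2.2.2.2.2.2.2.2.2.2.2.2.2.2.2.2.2.2.2.2.2.2.2.2.2.2.2.1.2.1) (Tree.ok_s0 lv.2.2.2.2.2.2.2.2.2.2.2.2.2.2.2.2.2.2.2.2.2.2.2.2.2.2.2.2.2.2.2.1.2.2.1 lv.2.2.2.2.2.2.2.2.2.2.2.2.2.2.2.2.2.2.2.2.2.2.2.2.2.2.2.2.2.2.2.1.2.2.2))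

def t_h120 : Tree := (.s1 (.s0 (.leaf 156 14 14 6 6) (.leaf 159 14 14 6 6)) (.s3 (.leaf 154 14 14 6 6) (.leaf 155 14 14 6 6)))
theorem h120 : t_h120.ok 0 1 0 0 (GE 1 2 (D 1) (81, 99) (729, 999) (.q 49 99) p12 k02 k12) unitBx = true :=
  (Tree.ok_s1 (Tree.ok_s0 lv.2.2.2.2.2.2.2.2.2.2.2.2.2.2.2.2.2.2.2.2.2.2.2.2.2.2.2.2.2.2.2.2.1.1 lv.2.2.2.2.2.2.2.2.2.2.2.2.2.2.2.2.2.2.2.2.2.2.2.2.2.2.2.2.2.2.2.2.1.2.1) (Tree.ok_s3 lv.2.2.2.2.2.2.2.2.2.2.2.2.2.2.2.2.2.2.2.2.2.2.2.2.2.2.2.2.2.2.2.2.1.2.2.1 lv.2.2.2.2.2.2.2.2.2.2.2.2.2.2.2.2.2.2.2.2.2.2.2.2.2.2.2.2.2.2.2.2.1.2.2.2))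

def t_h121 : Tree := (.s0 (.s3 (.leaf 149 14 14 6 6) (.leaf 149 14 14 6 6)) (.leaf 150 14 14 6 6))
theorem h121 : t_h121.ok 0 1 0 0 (GE 1 2 (D 1) (81, 99) (729, 999) (tau1 (81, 99)) p12 k02 k12) unitBx = true :=
  (Tree.ok_s0 (Tree.ok_s3 lv.2.2.2.2.2.2.2.2.2.2.2.2.2.2.2.2.2.2.2.2.2.2.2.2.2.2.2.2.2.2.2.2.2.1.1 lv.2.2.2.2.2.2.2.2.2.2.2.2.2.2.2.2.2.2.2.2.2.2.2.2.2.2.2.2.2.2.2.2.2.1.2.1) lv.2.2.2.2.2.2.2.2.2.2.2.2.2.2.2.2.2.2.2.2.2.2.2.2.2.2.2.2.2.2.2.2.2.1.2.2)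

def t_h130 : Tree := (.s0 (.s3 (.leaf 149 14 14 6 6) (.leaf 149 14 14 6 6)) (.s2 (.leaf 154 14 14 6 6) (.leaf 156 14 14 6 6)))
theorem h130 : t_h130.ok 0 1 0 0 (GE 1 3 (D 1) (81, 99) (729, 999) (.q 49 99) p13 k03 k13) unitBx = true :=
  (Tree.ok_s0 (Tree.ok_s3 lv.2.2.2.2.2.2.2.2.2.2.2.2.2.2.2.2.2.2.2.2.2.2.2.2.2.2.2.2.2.2.2.2.2.2.1.1 lv.2.2.2.2.2.2.2.2.2.2.2.2.2.2.2.2.2.2.2.2.2.2.2.2.2.2.2.2.2.2.2.2.2.2.1.2.1) (Tree.ok_s2 lv.2.2.2.2.2.2.2.2.2.2.2.2.2.2.2.2.2.2.2.2.2.2.2.2.2.2.2.2.2.2.2.2.2.2.1.2.2.1 lv.2.2.2.2.2.2.2.2.2.2.2.2.2.2.2.2.2.2.2.2.2.2.2.2.2.2.2.2.2.2.2.2.2.2.1.2.2.2))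

def t_h131 : Tree := (.s0 (.s3 (.leaf 149 14 14 6 6) (.leaf 149 14 14 6 6)) (.s2 (.leaf 154 14 14 6 6) (.leaf 156 14 14 6 6)))
theorem h131 : t_h131.ok 0 1 0 0 (GE 1 3 (D 1) (81, 99) (729, 999) (tau1 (81, 99)) p13 k03 k13) unitBx = true :=
  (Tree.ok_s0 (Tree.ok_s3 lv.2.2.2.2.2.2.2.2.2.2.2.2.2.2.2.2.2.2.2.2.2.2.2.2.2.2.2.2.2.2.2.2.2.2.2.1.1 lv.2.2.2.2.2.2.2.2.2.2.2.2.2.2.2.2.2.2.2.2.2.2.2.2.2.2.2.2.2.2.2.2.2.2.2.1.2.1) (Tree.ok_s2 lv.2.2.2.2.2.2.2.2.2.2.2.2.2.2.2.2.2.2.2.2.2.2.2.2.2.2.2.2.2.2.2.2.2.2.2.1.2.2.1 lv.2.2.2.2.2.2.2.2.2.2.2.2.2.2.2.2.2.2.2.2.2.2.2.2.2.2.2.2.2.2.2.2.2.2.2.1.2.2.2))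

def t_s2 : Tree := (.leaf 78 9 10 5 1)
theorem s2 : t_s2.ok 0 1 0 0 (SEG D23 (-87220, 4095) (sP (7, 8) (2, 8)) p20 p21 p22 p23) unitBx = true :=
  lv.2.2.2.2.2.2.2.2.2.2.2.2.2.2.2.2.2.2.2.2.2.2.2.2.2.2.2.2.2.2.2.2.2.2.2.2.1

def t_r2 : Tree := (.leaf 43 10 1 4 1)
theorem r2 : t_r2.ok 0 1 0 0 (RE D23 (-87220, 4095)) unitBx = true :=
  lv.2.2.2.2.2.2.2.2.2.2.2.2.2.2.2.2.2.2.2.2.2.2.2.2.2.2.2.2.2.2.2.2.2.2.2.2.2.1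

def t_u20 : Tree := (.s0 (.s0 (.s0 (.leaf 140 14 10 4 1) (.leaf 141 14 10 4 1)) (.leaf 130 14 10 4 1)) (.leaf 122 14 10 4 1))
theorem u20 : t_u20.ok 0 1 0 0 (UE0 (9, 9) D20) unitBx = true :=
  (Tree.ok_s0 (Tree.ok_s0 (Tree.ok_s0 lv.2.2.2.2.2.2.2.2.2.2.2.2.2.2.2.2.2.2.2.2.2.2.2.2.2.2.2.2.2.2.2.2.2.2.2.2.2.2.1.1 lv.2.2.2.2.2.2.2.2.2.2.2.2.2.2.2.2.2.2.2.2.2.2.2.2.2.2.2.2.2.2.2.2.2.2.2.2.2.2.1.2.1) lv.2.2.2.2.2.2.2.2.2.2.2.2.2.2.2.2.2.2.2.2.2.2.2.2.2.2.2.2.2.2.2.2.2.2.2.2.2.2.1.2.2.1) lv.2.2.2.2.2.2.2.2.2.2.2.2.2.2.2.2.2.2.2.2.2.2.2.2.2.2.2.2.2.2.2.2.2.2.2.2.2.2.1.2.2.2)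

def t_v20 : Tree := (.s1 (.leaf 105 14 10 4 1) (.s0 (.s0 (.leaf 127 14 10 4 1) (.leaf 134 14 10 4 1)) (.leaf 128 14 10 4 1)))
theorem v20 : t_v20.ok 0 1 0 0 (UE1 (9, 4) D20) unitBx = true :=
  (Tree.ok_s1 lv.2.2.2.2.2.2.2.2.2.2.2.2.2.2.2.2.2.2.2.2.2.2.2.2.2.2.2.2.2.2.2.2.2.2.2.2.2.2.2.1.1 (Tree.ok_s0 (Tree.ok_s0 lv.2.2.2.2.2.2.2.2.2.2.2.2.2.2.2.2.2.2.2.2.2.2.2.2.2.2.2.2.2.2.2.2.2.2.2.2.2.2.2.1.2.1 lv.2.2.2.2.2.2.2.2.2.2.2.2.2.2.2.2.2.2.2.2.2.2.2.2.2.2.2.2.2.2.2.2.2.2.2.2.2.2.2.1.2.2.1) lv.2.2.2.2.2.2.2.2.2.2.2.2.2.2.2.2.2.2.2.2.2.2.2.2.2.2.2.2.2.2.2.2.2.2.2.2.2.2.2.1.2.2.2))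

def t_u21 : Tree := (.leaf 106 14 10 4 1)
theorem u21 : t_u21.ok 0 1 0 0 (UE0 (9, 9) D21) unitBx = true :=
  lv.2.2.2.2.2.2.2.2.2.2.2.2.2.2.2.2.2.2.2.2.2.2.2.2.2.2.2.2.2.2.2.2.2.2.2.2.2.2.2.2.1

def t_v21 : Tree := (.leaf 99 14 10 4 1)
theorem v21 : t_v21.ok 0 1 0 0 (UE1 (9, 4) D21) unitBx = true :=
  lv.2.2.2.2.2.2.2.2.2.2.2.2.2.2.2.2.2.2.2.2.2.2.2.2.2.2.2.2.2.2.2.2.2.2.2.2.2.2.2.2.2.1

def t_u22 : Tree := (.leaf 106 14 10 4 1)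
theorem u22 : t_u22.ok 0 1 0 0 (UE0 (9, 9) D22) unitBx = true :=
  lv.2.2.2.2.2.2.2.2.2.2.2.2.2.2.2.2.2.2.2.2.2.2.2.2.2.2.2.2.2.2.2.2.2.2.2.2.2.2.2.2.2.2.1

def t_v22 : Tree := (.s1 (.leaf 105 14 10 4 1) (.s1 (.leaf 118 14 10 4 1) (.leaf 120 14 10 4 1)))
theorem v22 : t_v22.ok 0 1 0 0 (UE1 (9, 4) D22) unitBx = true :=
  (Tree.ok_s1 lv.2.2.2.2.2.2.2.2.2.2.2.2.2.2.2.2.2.2.2.2.2.2.2.2.2.2.2.2.2.2.2.2.2.2.2.2.2.2.2.2.2.2.2.1.1 (Tree.ok_s1 lv.2.2.2.2.2.2.2.2.2.2.2.2.2.2.2.2.2.2.2.2.2.2.2.2.2.2.2.2.2.2.2.2.2.2.2.2.2.2.2.2.2.2.2.1.2.1 lv.2.2.2.2.2.2.2.2.2.2.2.2.2.2.2.2.2.2.2.2.2.2.2.2.2.2.2.2.2.2.2.2.2.2.2.2.2.2.2.2.2.2.2.1.2.2))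

def t_u23 : Tree := (.s0 (.s0 (.s0 (.leaf 141 14 10 4 1) (.leaf 142 14 10 4 1)) (.leaf 131 14 10 4 1)) (.leaf 122 14 10 4 1))
theorem u23 : t_u23.ok 0 1 0 0 (UE0 (9, 9) D23) unitBx = true :=
  (Tree.ok_s0 (Tree.ok_s0 (Tree.ok_s0 lv.2.2.2.2.2.2.2.2.2.2.2.2.2.2.2.2.2.2.2.2.2.2.2.2.2.2.2.2.2.2.2.2.2.2.2.2.2.2.2.2.2.2.2.2.1.1 lv.2.2.2.2.2.2.2.2.2.2.2.2.2.2.2.2.2.2.2.2.2.2.2.2.2.2.2.2.2.2.2.2.2.2.2.2.2.2.2.2.2.2.2.2.1.2.1) lv.2.2.2.2.2.2.2.2.2.2.2.2.2.2.2.2.2.2.2.2.2.2.2.2.2.2.2.2.2.2.2.2.2.2.2.2.2.2.2.2.2.2.2.2.1.2.2.1) lv.2.2.2.2.2.2.2.2.2.2.2.2.2.2.2.2.2.2.2.2.2.2.2.2.2.2.2.2.2.2.2.2.2.2.2.2.2.2.2.2.2.2.2.2.1.2.2.2)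

def t_v23 : Tree := (.s1 (.leaf 105 14 10 4 1) (.leaf 110 14 10 4 1))
theorem v23 : t_v23.ok 0 1 0 0 (UE1 (9, 4) D23) unitBx = true :=
  (Tree.ok_s1 lv.2.2.2.2.2.2.2.2.2.2.2.2.2.2.2.2.2.2.2.2.2.2.2.2.2.2.2.2.2.2.2.2.2.2.2.2.2.2.2.2.2.2.2.2.2.1.1 lv.2.2.2.2.2.2.2.2.2.2.2.2.2.2.2.2.2.2.2.2.2.2.2.2.2.2.2.2.2.2.2.2.2.2.2.2.2.2.2.2.2.2.2.2.2.1.2)

def t_h200 : Tree := (.leaf 133 14 14 6 6)
theorem h200 : t_h200.ok 0 1 0 0 (GE 2 0 (D 2) (81, 99) (729, 999) (.q 49 99) p20 k00 k10) unitBx = true :=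
  lv.2.2.2.2.2.2.2.2.2.2.2.2.2.2.2.2.2.2.2.2.2.2.2.2.2.2.2.2.2.2.2.2.2.2.2.2.2.2.2.2.2.2.2.2.2.2.1

def t_h201 : Tree := (.leaf 133 14 14 6 6)
theorem h201 : t_h201.ok 0 1 0 0 (GE 2 0 (D 2) (81, 99) (729, 999) (tau1 (81, 99)) p20 k00 k10) unitBx = true :=
  lv.2.2.2.2.2.2.2.2.2.2.2.2.2.2.2.2.2.2.2.2.2.2.2.2.2.2.2.2.2.2.2.2.2.2.2.2.2.2.2.2.2.2.2.2.2.2.2.1

def t_h210 : Tree := (.leaf 133 14 14 6 6)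
theorem h210 : t_h210.ok 0 1 0 0 (GE 2 1 (D 2) (81, 99) (729, 999) (.q 49 99) p21 k01 k11) unitBx = true :=
  lv.2.2.2.2.2.2.2.2.2.2.2.2.2.2.2.2.2.2.2.2.2.2.2.2.2.2.2.2.2.2.2.2.2.2.2.2.2.2.2.2.2.2.2.2.2.2.2.2.1

def t_h211 : Tree := (.leaf 133 14 14 6 6)
theorem h211 : t_h211.ok 0 1 0 0 (GE 2 1 (D 2) (81, 99) (729, 999) (tau1 (81, 99)) p21 k01 k11) unitBx = true :=
  lv.2.2.2.2.2.2.2.2.2.2.2.2.2.2.2.2.2.2.2.2.2.2.2.2.2.2.2.2.2.2.2.2.2.2.2.2.2.2.2.2.2.2.2.2.2.2.2.2.2.1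

def t_h220 : Tree := (.s2 (.s0 (.leaf 147 14 14 6 6) (.leaf 153 14 14 6 6)) (.leaf 138 14 14 6 6))
theorem h220 : t_h220.ok 0 1 0 0 (GE 2 2 (D 2) (81, 99) (729, 999) (.q 49 99) p22 k02 k12) unitBx = true :=
  (Tree.ok_s2 (Tree.ok_s0 lv.2.2.2.2.2.2.2.2.2.2.2.2.2.2.2.2.2.2.2.2.2.2.2.2.2.2.2.2.2.2.2.2.2.2.2.2.2.2.2.2.2.2.2.2.2.2.2.2.2.2.1.1 lv.2.2.2.2.2.2.2.2.2.2.2.2.2.2.2.2.2.2.2.2.2.2.2.2.2.2.2.2.2.2.2.2.2.2.2.2.2.2.2.2.2.2.2.2.2.2.2.2.2.2.1.2.1) lv.2.2.2.2.2.2.2.2.2.2.2.2.2.2.2.2.2.2.2.2.2.2.2.2.2.2.2.2.2.2.2.2.2.2.2.2.2.2.2.2.2.2.2.2.2.2.2.2.2.2.1.2.2)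

def t_h221 : Tree := (.s2 (.s0 (.leaf 147 14 14 6 6) (.leaf 153 14 14 6 6)) (.leaf 138 14 14 6 6))
theorem h221 : t_h221.ok 0 1 0 0 (GE 2 2 (D 2) (81, 99) (729, 999) (tau1 (81, 99)) p22 k02 k12) unitBx = true :=
  (Tree.ok_s2 (Tree.ok_s0 lv.2.2.2.2.2.2.2.2.2.2.2.2.2.2.2.2.2.2.2.2.2.2.2.2.2.2.2.2.2.2.2.2.2.2.2.2.2.2.2.2.2.2.2.2.2.2.2.2.2.2.2.1.1 lv.2.2.2.2.2.2.2.2.2.2.2.2.2.2.2.2.2.2.2.2.2.2.2.2.2.2.2.2.2.2.2.2.2.2.2.2.2.2.2.2.2.2.2.2.2.2.2.2.2.2.2.1.2.1) lv.2.2.2.2.2.2.2.2.2.2.2.2.2.2.2.2.2.2.2.2.2.2.2.2.2.2.2.2.2.2.2.2.2.2.2.2.2.2.2.2.2.2.2.2.2.2.2.2.2.2.2.1.2.2)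

def t_h230 : Tree := (.s0 (.leaf 143 14 14 6 6) (.leaf 149 14 14 6 6))
theorem h230 : t_h230.ok 0 1 0 0 (GE 2 3 (D 2) (81, 99) (729, 999) (.q 49 99) p23 k03 k13) unitBx = true :=
  (Tree.ok_s0 lv.2.2.2.2.2.2.2.2.2.2.2.2.2.2.2.2.2.2.2.2.2.2.2.2.2.2.2.2.2.2.2.2.2.2.2.2.2.2.2.2.2.2.2.2.2.2.2.2.2.2.2.2.1.1 lv.2.2.2.2.2.2.2.2.2.2.2.2.2.2.2.2.2.2.2.2.2.2.2.2.2.2.2.2.2.2.2.2.2.2.2.2.2.2.2.2.2.2.2.2.2.2.2.2.2.2.2.2.1.2)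

def t_h231 : Tree := (.leaf 133 14 14 6 6)
theorem h231 : t_h231.ok 0 1 0 0 (GE 2 3 (D 2) (81, 99) (729, 999) (tau1 (81, 99)) p23 k03 k13) unitBx = true :=
  lv.2.2.2.2.2.2.2.2.2.2.2.2.2.2.2.2.2.2.2.2.2.2.2.2.2.2.2.2.2.2.2.2.2.2.2.2.2.2.2.2.2.2.2.2.2.2.2.2.2.2.2.2.2

/-! The certified family. -/

theorem cert : PoisCert (9 / 10) D psi hh (81, 99) (729, 999) (9, 9) (9, 4) (4, 4095) (7, 8) (2, 8)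
    (.q 49 99) w2 where
  hl0 := by norm_num
  hl1 := by norm_num
  hne := by norm_num
  e2 := by norm_num [cv]
  e3 := by norm_num [cv]
  hδ := by norm_num [cv]
  hta := by norm_num [cv]
  htb := by norm_num [cv]
  htb0 := by norm_num [cv]
  r1 := by norm_num [cv]
  r2 := by norm_num [cv]
  r3 := by norm_num [cv]
  r4 := by norm_num [cv]
  hc := by norm_num [cv]
  hc' := by norm_num [cv]
  htau := by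
    intro s ρ a b e h0 h1 h2 h3 h4
    simp only [PE.real_q, cv] at h0 ⊢
    push_cast at h0 ⊢
    nlinarith [mul_self_le_mul_self (by norm_num) h0]
  hU0 := by
    intro j k hj hk
    interval_cases j <;> interval_cases k
    exacts [box_zero _ _ u00, box_zero _ _ u01, box_zero _ _ u02, box_zero _ _ u03, box_zero _ _ u10, box_zero _ _ u11, box_zero _ _ u12, box_zero _ _ u13, box_zero _ _ u20, box_zero _ _ u21, box_zero _ _ u22, box_zero _ _ u23]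
  hU1 := by
    intro j k hj hk
    interval_cases j <;> interval_cases k
    exacts [box_zero _ _ v00, box_zero _ _ v01, box_zero _ _ v02, box_zero _ _ v03, box_zero _ _ v10, box_zero _ _ v11, box_zero _ _ v12, box_zero _ _ v13, box_zero _ _ v20, box_zero _ _ v21, box_zero _ _ v22, box_zero _ _ v23]
  hH0 := by
    intro j k hj hk
    interval_cases j <;> interval_cases k
    exacts [box_zero _ _ h000, box_zero _ _ h010, box_zero _ _ h020, box_zero _ _ h030, box_zero _ _ h100, box_zero _ _ h110, box_zero _ _ h120, box_zero _ _ h130, box_zero _ _ h200, box_zero _ _ h210, box_zero _ _ h220, box_zero _ _ h230]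
  hH1 := by
    intro j k hj hk
    interval_cases j <;> interval_cases k
    exacts [box_zero _ _ h001, box_zero _ _ h011, box_zero _ _ h021, box_zero _ _ h031, box_zero _ _ h101, box_zero _ _ h111, box_zero _ _ h121, box_zero _ _ h131, box_zero _ _ h201, box_zero _ _ h211, box_zero _ _ h221, box_zero _ _ h231]
  hS := by
    intro j hj
    interval_cases j
    exacts [box_zero _ _ s0, box_zero _ _ s1, box_zero _ _ s2]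
  hR := by
    intro j hj
    interval_cases j
    exacts [box_zero _ _ r0, box_zero _ _ r1, box_zero _ _ r2]
  hw2 := by
    intro j hj
    interval_cases j <;> norm_num [gR, wR, hr, cv, D, D00, D10, D20, w2]
  hψ0 := by
    intro j k hj hk
    interval_cases j <;> interval_cases k <;> simp [h2R, hr, psi, cv, p00, p01, p02, p03, p10, p11, p12, p13, p20, p21, p22, p23]

end Vale.Agent.P154.Q9
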