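import Vale.Agent.P154.Pois

/-! Data of a family of potentials for the Poisson tree. -/

namespace Vale.Agent.P154.Q95

def D00 : NP where
  A := [(3024, 8191), (-5989, 8191), (2822, 8191), (243, 8191), (-116, 8191), (16, 8191)]
  B := [(39202, 8191), (10616, 8191), (1200, 8191), (-258, 8191)]
  E := [(14248, 8191)]
  a0 := [(56474, 8191), (4627, 8191), (4022, 8191), (-15, 8191), (-116, 8191), (16, 8191)]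
  a1 := [(56474, 8191), (-9254, 8191), (-20110, 8191), (120, 8191), (1276, 8191), (-224, 8191)]
  a2 := [(231, 8191), (-96959, 8191), (154547, 8191), (61489, 8191)]
  a3 := [(23, 8191), (12239, 8191), (88954, 8191), (-44678, 8191)]
  a4 := [(25, 8191), (21460, 8191), (-88250, 8191), (73099, 8191)]
  b0 := [(-67698, 8191), (-10616, 8191), (-1200, 8191), (258, 8191)]
  b1 := [(67698, 8191), (42464, 8191), (8400, 8191), (-2580, 8191)]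
  b2 := [(-17287, 8191), (24593, 8191), (-227787, 8191)]
  b3 := [(54892, 8191), (-206983, 8191), (229637, 8191)]
  b4 := [(-30646, 8191), (96713, 8191), (-113166, 8191)]
  g0 := [(14248, 8191)]
  g1 := [(-42744, 8191)]
  g2 := [(18803, 8191), (45327, 8191)]

def D01 : NP where
  A := [(3024, 8191), (-6001, 8191), (2814, 8191), (309, 8191), (-176, 8191), (30, 8191)]
  B := [(39204, 8191), (10640, 8191), (1232, 8191), (-316, 8191)]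
  E := [(14231, 8191)]
  a0 := [(56459, 8191), (4639, 8191), (4046, 8191), (-7, 8191), (-176, 8191), (30, 8191)]
  a1 := [(56459, 8191), (-9278, 8191), (-20230, 8191), (56, 8191), (1936, 8191), (-420, 8191)]
  a2 := [(959, 8191), (-17048, 8191), (195092, 8191), (70062, 8191)]
  a3 := [(3429, 8191), (226851, 8191), (125689, 8191), (-305, 8191)]
  a4 := [(4013, 8191), (115891, 8191), (167673, 8191), (28118, 8191)]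
  b0 := [(-67666, 8191), (-10640, 8191), (-1232, 8191), (316, 8191)]
  b1 := [(67666, 8191), (42560, 8191), (8624, 8191), (-3160, 8191)]
  b2 := [(-36013, 8191), (-153201, 8191), (-279133, 8191)]
  b3 := [(28064, 8191), (-407389, 8191), (171478, 8191)]
  b4 := [(-16079, 8191), (45255, 8191), (-97067, 8191)]
  g0 := [(14231, 8191)]
  g1 := [(-42693, 8191)]
  g2 := [(41599, 8191), (139070, 8191)]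

def D02 : NP where
  A := [(3024, 8191), (-6015, 8191), (2877, 8191), (215, 8191), (-121, 8191), (20, 8191)]
  B := [(39204, 8191), (10666, 8191), (1151, 8191), (-261, 8191)]
  E := [(14221, 8191)]
  a0 := [(56449, 8191), (4651, 8191), (4028, 8191), (-46, 8191), (-121, 8191), (20, 8191)]
  a1 := [(56449, 8191), (-9302, 8191), (-20140, 8191), (368, 8191), (1331, 8191), (-280, 8191)]
  a2 := [(1069, 8191), (47013, 8191), (185665, 8191), (62600, 8191)]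
  a3 := [(5412, 8191), (211291, 8191), (362822, 8191), (430517, 8191)]
  a4 := [(8604, 8191), (-105631, 8191), (729707, 8191), (8916, 8191)]
  b0 := [(-67646, 8191), (-10666, 8191), (-1151, 8191), (261, 8191)]
  b1 := [(67646, 8191), (42664, 8191), (8057, 8191), (-2610, 8191)]
  b2 := [(-52607, 8191), (-285232, 8191), (-252683, 8191)]
  b3 := [(-12169, 8191), (-210492, 8191), (-628933, 8191)]
  b4 := [(6701, 8191), (7199, 8191), (96970, 8191)]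
  g0 := [(14221, 8191)]
  g1 := [(-42663, 8191)]
  g2 := [(63582, 8191), (193651, 8191)]

def D03 : NP where
  A := [(3024, 8191), (-6017, 8191), (2870, 8191), (226, 8191), (-114, 8191), (11, 8191)]
  B := [(39204, 8191), (10646, 8191), (1244, 8191), (-334, 8191)]
  E := [(14211, 8191)]
  a0 := [(56439, 8191), (4629, 8191), (4114, 8191), (-108, 8191), (-114, 8191), (11, 8191)]
  a1 := [(56439, 8191), (-9258, 8191), (-20570, 8191), (864, 8191), (1254, 8191), (-154, 8191)]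
  a2 := [(1874, 8191), (63226, 8191), (115655, 8191), (33361, 8191)]
  a3 := [(10039, 8191), (337240, 8191), (144760, 8191), (27595, 8191)]
  a4 := [(13729, 8191), (37184, 8191), (344413, 8191), (553, 8191)]
  b0 := [(-67626, 8191), (-10646, 8191), (-1244, 8191), (334, 8191)]
  b1 := [(67626, 8191), (42584, 8191), (8708, 8191), (-3340, 8191)]
  b2 := [(-63665, 8191), (-267455, 8191), (-138326, 8191)]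
  b3 := [(-33701, 8191), (-377497, 8191), (-45812, 8191)]
  b4 := [(22213, 8191), (-11441, 8191), (-27200, 8191)]
  g0 := [(14211, 8191)]
  g1 := [(-42633, 8191)]
  g2 := [(76697, 8191), (139559, 8191)]

def D10 : NP where
  A := [(313341, 8191), (-387263, 8191), (66882, 8191), (4455, 8191), (2585, 8191)]
  B := [(180930, 8191), (-196710, 8191), (143606, 8191)]
  E := [(321877, 8191)]
  a0 := [(816148, 8191), (-583973, 8191), (210488, 8191), (4455, 8191), (2585, 8191)]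
  a1 := [(816148, 8191), (1167946, 8191), (-1052440, 8191), (-35640, 8191), (-28435, 8191)]
  a2 := [(121872, 8191), (-758935, 8191), (156990, 8191), (-252614, 8191)]
  a3 := [(-132710, 8191), (-712674, 8191), (-698221, 8191), (296329, 8191)]
  a4 := [(78234, 8191), (118179, 8191), (518936, 8191), (757738, 8191)]
  b0 := [(-824684, 8191), (196710, 8191), (-143606, 8191)]
  b1 := [(824684, 8191), (-786840, 8191), (1005242, 8191)]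
  b2 := [(-17542, 8191), (611775, 8191), (-568769, 8191)]
  b3 := [(-471175, 8191), (-459565, 8191), (10196, 8191)]
  b4 := [(478824, 8191), (645781, 8191), (733105, 8191)]
  g0 := [(321877, 8191)]
  g1 := [(-965631, 8191)]
  g2 := [(817469, 8191), (696739, 8191)]

def D11 : NP where
  A := [(308524, 8191), (-389157, 8191), (78714, 8191), (-3618, 8191), (5537, 8191)]
  B := [(176206, 8191), (-165413, 8191), (144812, 8191)]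
  E := [(338202, 8191)]
  a0 := [(822932, 8191), (-554570, 8191), (223526, 8191), (-3618, 8191), (5537, 8191)]
  a1 := [(822932, 8191), (1109140, 8191), (-1117630, 8191), (28944, 8191), (-60907, 8191)]
  a2 := [(17176, 8191), (-819200, 8191), (136368, 8191), (-266008, 8191)]
  a3 := [(-40850, 8191), (-652233, 8191), (-739717, 8191), (435301, 8191)]
  a4 := [(61185, 8191), (51291, 8191), (349477, 8191), (750973, 8191)]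
  b0 := [(-852610, 8191), (165413, 8191), (-144812, 8191)]
  b1 := [(852610, 8191), (-661652, 8191), (1013684, 8191)]
  b2 := [(78003, 8191), (663758, 8191), (-659014, 8191)]
  b3 := [(-286527, 8191), (-614233, 8191), (-432029, 8191)]
  b4 := [(397902, 8191), (530359, 8191), (709258, 8191)]
  g0 := [(338202, 8191)]
  g1 := [(-1014606, 8191)]
  g2 := [(819200, 8191), (731948, 8191)]

def D12 : NP where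
  A := [(293449, 8191), (-352599, 8191), (35114, 8191), (24146, 8191), (-110, 8191)]
  B := [(176787, 8191), (-147929, 8191), (158401, 8191)]
  E := [(355857, 8191)]
  a0 := [(826093, 8191), (-500528, 8191), (193515, 8191), (24146, 8191), (-110, 8191)]
  a1 := [(826093, 8191), (1001056, 8191), (-967575, 8191), (-193168, 8191), (1210, 8191)]
  a2 := [(11734, 8191), (-819197, 8191), (253228, 8191), (-583533, 8191)]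
  a3 := [(-36996, 8191), (-759873, 8191), (-763539, 8191), (656779, 8191)]
  a4 := [(46763, 8191), (367314, 8191), (-394493, 8191), (694025, 8191)]
  b0 := [(-888501, 8191), (147929, 8191), (-158401, 8191)]
  b1 := [(888501, 8191), (-591716, 8191), (1108807, 8191)]
  b2 := [(110358, 8191), (322666, 8191), (-329994, 8191)]
  b3 := [(-86440, 8191), (-671730, 8191), (-598554, 8191)]
  b4 := [(213564, 8191), (520795, 8191), (566343, 8191)]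
  g0 := [(355857, 8191)]
  g1 := [(-1067571, 8191)]
  g2 := [(819200, 8191), (774237, 8191)]

def D13 : NP where
  A := [(277355, 8191), (-330505, 8191), (30338, 8191), (21889, 8191), (923, 8191)]
  B := [(217460, 8191), (-158441, 8191), (159599, 8191)]
  E := [(323132, 8191)]
  a0 := [(817947, 8191), (-488946, 8191), (189937, 8191), (21889, 8191), (923, 8191)]
  a1 := [(817947, 8191), (977892, 8191), (-949685, 8191), (-175112, 8191), (-10153, 8191)]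
  a2 := [(496, 8191), (-809500, 8191), (295236, 8191), (-333247, 8191)]
  a3 := [(-5002, 8191), (-347444, 8191), (-810297, 8191), (785594, 8191)]
  a4 := [(22883, 8191), (269224, 8191), (-487691, 8191), (781428, 8191)]
  b0 := [(-863724, 8191), (158441, 8191), (-159599, 8191)]
  b1 := [(863724, 8191), (-633764, 8191), (1117193, 8191)]
  b2 := [(-12341, 8191), (641254, 8191), (-759127, 8191)]
  b3 := [(-59706, 8191), (-801036, 8191), (-534434, 8191)]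
  b4 := [(40258, 8191), (315072, 8191), (685150, 8191)]
  g0 := [(323132, 8191)]
  g1 := [(-969396, 8191)]
  g2 := [(819200, 8191), (580731, 8191)]

def D20 : NP where
  A := [(-13585, 8191), (-234290, 8191), (-26227, 8191), (75828, 8191)]
  B := [(484967, 8191), (-103597, 8191), (241516, 8191)]
  E := [(-236426, 8191)]
  a0 := [(234956, 8191), (-337887, 8191), (215289, 8191), (75828, 8191)]
  a1 := [(234956, 8191), (675774, 8191), (-1076445, 8191), (-606624, 8191)]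
  a2 := [(370734, 8191), (-654014, 8191), (-470038, 8191), (537802, 8191)]
  a3 := [(-394882, 8191), (-297533, 8191), (168968, 8191), (678199, 8191)]
  a4 := [(113241, 8191), (120644, 8191), (332653, 8191), (727112, 8191)]
  b0 := [(-12115, 8191), (103597, 8191), (-241516, 8191)]
  b1 := [(12115, 8191), (-414388, 8191), (1690612, 8191)]
  b2 := [(-491839, 8191), (-612378, 8191), (261640, 8191)]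
  b3 := [(218199, 8191), (53421, 8191), (596942, 8191)]
  b4 := [(682675, 8191), (396473, 8191), (673090, 8191)]
  g0 := [(-236426, 8191)]
  g1 := [(709278, 8191)]
  g2 := [(-17058, 8191), (-179101, 8191)]

def D21 : NP where
  A := [(27795, 8191), (-393290, 8191), (181668, 8191), (-13503, 8191)]
  B := [(55870, 8191), (253462, 8191), (119193, 8191)]
  E := [(74079, 8191)]
  a0 := [(157744, 8191), (-139828, 8191), (300861, 8191), (-13503, 8191)]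
  a1 := [(157744, 8191), (279656, 8191), (-1504305, 8191), (108024, 8191)]
  a2 := [(265983, 8191), (-601083, 8191), (-490562, 8191), (497563, 8191)]
  a3 := [(-177430, 8191), (269050, 8191), (318055, 8191), (658618, 8191)]
  a4 := [(23573, 8191), (326366, 8191), (379629, 8191), (705015, 8191)]
  b0 := [(-204028, 8191), (-253462, 8191), (-119193, 8191)]
  b1 := [(204028, 8191), (1013848, 8191), (834351, 8191)]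
  b2 := [(30693, 8191), (-535993, 8191), (185349, 8191)]
  b3 := [(-286122, 8191), (401170, 8191), (597944, 8191)]
  b4 := [(438568, 8191), (477102, 8191), (658386, 8191)]
  g0 := [(74079, 8191)]
  g1 := [(-222237, 8191)]
  g2 := [(326027, 8191), (35362, 8191)]

def D22 : NP where
  A := [(-13608, 8191), (-298270, 8191), (113499, 8191), (1792, 8191)]
  B := [(226043, 8191), (47350, 8191), (100358, 8191)]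
  E := [(-4240, 8191)]
  a0 := [(208195, 8191), (-250920, 8191), (213857, 8191), (1792, 8191)]
  a1 := [(208195, 8191), (501840, 8191), (-1069285, 8191), (-14336, 8191)]
  a2 := [(235548, 8191), (-612335, 8191), (-320646, 8191), (542870, 8191)]
  a3 := [(-36356, 8191), (35126, 8191), (286818, 8191), (658744, 8191)]
  a4 := [(-43573, 8191), (-174755, 8191), (325838, 8191), (709123, 8191)]
  b0 := [(-217563, 8191), (-47350, 8191), (-100358, 8191)]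
  b1 := [(217563, 8191), (189400, 8191), (702506, 8191)]
  b2 := [(-324929, 8191), (-384935, 8191), (297247, 8191)]
  b3 := [(-224510, 8191), (270917, 8191), (583804, 8191)]
  b4 := [(482705, 8191), (246727, 8191), (646307, 8191)]
  g0 := [(-4240, 8191)]
  g1 := [(12720, 8191)]
  g2 := [(281518, 8191), (168626, 8191)]

def D23 : NP where
  A := [(-585, 8191), (-238286, 8191), (38028, 8191), (3324, 8191)]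
  B := [(274150, 8191), (-97780, 8191), (64606, 8191)]
  E := [(142598, 8191)]
  a0 := [(416163, 8191), (-336066, 8191), (102634, 8191), (3324, 8191)]
  a1 := [(416163, 8191), (672132, 8191), (-513170, 8191), (-26592, 8191)]
  a2 := [(121166, 8191), (-628465, 8191), (-424125, 8191), (468616, 8191)]
  a3 := [(-76573, 8191), (-247944, 8191), (-41034, 8191), (627546, 8191)]
  a4 := [(9782, 8191), (-44212, 8191), (247128, 8191), (692658, 8191)]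
  b0 := [(-559346, 8191), (97780, 8191), (-64606, 8191)]
  b1 := [(559346, 8191), (-391120, 8191), (452242, 8191)]
  b2 := [(-59380, 8191), (-87668, 8191), (143439, 8191)]
  b3 := [(-249906, 8191), (46598, 8191), (489010, 8191)]
  b4 := [(312269, 8191), (276136, 8191), (616239, 8191)]
  g0 := [(142598, 8191)]
  g1 := [(-427794, 8191)]
  g2 := [(566977, 8191), (277554, 8191)]

def p00 : List CL := [[(0, 8191), (50760, 8191), (4231, 8191), (4924, 8191), (1611, 8191)], [(0, 8191), (-10064, 8191), (-8372, 8191)], [(10022, 8191), (3766, 8191)]]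
def p01 : List CL := [[(0, 8191), (50760, 8191), (4262, 8191), (5567, 8191), (3938, 8191)], [(0, 8191), (-10638, 8191), (-12160, 8191)], [(11823, 8191), (3122, 8191)]]
def p02 : List CL := [[(0, 8191), (50760, 8191), (4563, 8191), (6343, 8191), (3439, 8191)], [(0, 8191), (-12402, 8191), (-11812, 8191)], [(13780, 8191), (1024, 8191)]]
def p03 : List CL := [[(0, 8191), (50760, 8191), (4567, 8191), (6203, 8191), (2258, 8191)], [(0, 8191), (-12315, 8191), (-10209, 8191)], [(13203, 8191), (975, 8191)]]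
def p10 : List CL := [[(0, 8191), (819200, 8191), (819200, 8191), (819200, 8191), (-55920, 8191)], [(-436743, 8191), (-819200, 8191), (-819200, 8191)], [(280475, 8191), (209021, 8191)]]
def p11 : List CL := [[(0, 8191), (818686, 8191), (786257, 8191), (798317, 8191), (-35594, 8191)], [(-418977, 8191), (-815801, 8191), (-819200, 8191)], [(273997, 8191), (233033, 8191)]]
def p12 : List CL := [[(0, 8191), (819200, 8191), (728767, 8191), (740010, 8191), (29727, 8191)], [(-399667, 8191), (-802219, 8191), (-819200, 8191)], [(347573, 8191), (175812, 8191)]]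
def p13 : List CL := [[(0, 8191), (819200, 8191), (676239, 8191), (764839, 8191), (-2153, 8191)], [(-381017, 8191), (-752784, 8191), (-817783, 8191)], [(293429, 8191), (211777, 8191)]]
def p20 : List CL := [[(0, 8191), (818414, 8191), (552501, 8191), (386864, 8191), (-38058, 8191)], [(-233792, 8191), (-784313, 8191), (-625617, 8191)], [(82746, 8191), (346187, 8191)]]
def p21 : List CL := [[(0, 8191), (658333, 8191), (167519, 8191), (579395, 8191), (239028, 8191)], [(-257328, 8191), (-596406, 8191), (-285522, 8191)], [(276198, 8191), (-327836, 8191)]]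
def p22 : List CL := [[(0, 8191), (593126, 8191), (529575, 8191), (476155, 8191), (219970, 8191)], [(-269206, 8191), (-643996, 8191), (-415327, 8191)], [(245958, 8191), (-168000, 8191)]]
def p23 : List CL := [[(0, 8191), (703483, 8191), (554522, 8191), (521619, 8191), (272596, 8191)], [(-351589, 8191), (-455238, 8191), (-167627, 8191)], [(5637, 8191), (-223719, 8191)]]
def k00 : List CL := [[(0, 8191), (1327, 8191), (243219, 8191), (-69552, 8191)], [(-112390, 8191), (-61852, 8191)], [(-41760, 8191)]]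
def k01 : List CL := [[(0, 8191), (-5739, 8191), (347075, 8191), (-103021, 8191)], [(-116898, 8191), (-152840, 8191)], [(4900, 8191)]]
def k02 : List CL := [[(0, 8191), (-9431, 8191), (374215, 8191), (-167765, 8191)], [(-121693, 8191), (-133687, 8191)], [(61710, 8191)]]
def k03 : List CL := [[(0, 8191), (-10235, 8191), (346093, 8191), (45034, 8191)], [(-118176, 8191), (-336200, 8191)], [(122058, 8191)]]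
def k10 : List CL := [[(-3583, 8191), (425409, 8191), (-772887, 8191), (-425119, 8191)], [(752945, 8191), (-214248, 8191)], [(-365906, 8191)]]
def k11 : List CL := [[(-3185, 8191), (262404, 8191), (-809801, 8191), (-241064, 8191)], [(279922, 8191), (-510490, 8191)], [(125398, 8191)]]
def k12 : List CL := [[(-1311, 8191), (-39911, 8191), (-806665, 8191), (-168628, 8191)], [(321319, 8191), (-484972, 8191)], [(261007, 8191)]]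
def k13 : List CL := [[(2038, 8191), (-396944, 8191), (-795816, 8191), (-368729, 8191)], [(650376, 8191), (-454864, 8191)], [(93676, 8191)]]

def D : ℕ → ℕ → NP
  | 0, 0 => D00
  | 0, 1 => D01
  | 0, 2 => D02
  | 0, 3 => D03
  | 1, 0 => D10
  | 1, 1 => D11
  | 1, 2 => D12
  | 1, 3 => D13
  | 2, 0 => D20
  | 2, 1 => D21
  | 2, 2 => D22
  | 2, 3 => D23
  | _, _ => D03

def psi : ℕ → ℕ → List CL
  | 0, 0 => p00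
  | 0, 1 => p01
  | 0, 2 => p02
  | 0, 3 => p03
  | 1, 0 => p10
  | 1, 1 => p11
  | 1, 2 => p12
  | 1, 3 => p13
  | 2, 0 => p20
  | 2, 1 => p21
  | 2, 2 => p22
  | 2, 3 => p23
  | _, _ => []

def hh : ℕ → ℕ → List CL
  | 0, 0 => k00
  | 0, 1 => k01
  | 0, 2 => k02
  | 0, 3 => k03
  | 1, 0 => k10
  | 1, 1 => k11
  | 1, 2 => k12
  | 1, 3 => k13
  | _, _ => []

def w2 : ℕ → ℤ × ℕ
  | 0 => (0, 0)
  | 1 => (0, 0)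
  | 2 => (-198266, 8191)
  | _ => (0, 0)

/-! Certificates. -/

/-- the leaves of all trees -/
theorem lv :
    ((Tree.leaf 96 9 16 6 1).ok 0 1 0 0 (SEG D03 (0, 0) (sP (18, 18) (1, 18)) p00 p01 p02 p03) ⟨0, 1, 1, 0, 1, 1, 0, 1, 1, 0, 1, 1⟩ = true) ∧
    ((Tree.leaf 54 16 1 6 1).ok 0 1 0 0 (RE D03 (0, 0)) ⟨0, 1, 1, 0, 1, 1, 0, 1, 1, 0, 1, 1⟩ = true) ∧
    ((Tree.leaf 188 17 16 6 1).ok 0 1 0 0 (UE0 (19, 19) D00) ⟨0, 1, 4, 0, 1, 2, 0, 1, 1, 0, 1, 1⟩ = true ∧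
      (Tree.leaf 191 17 16 6 1).ok 0 1 0 0 (UE0 (19, 19) D00) ⟨1, 2, 4, 0, 1, 2, 0, 1, 1, 0, 1, 1⟩ = true ∧
      (Tree.leaf 191 17 16 6 1).ok 0 1 0 0 (UE0 (19, 19) D00) ⟨0, 1, 4, 1, 2, 2, 0, 1, 1, 0, 1, 1⟩ = true ∧
      (Tree.leaf 196 17 16 6 1).ok 0 1 0 0 (UE0 (19, 19) D00) ⟨1, 2, 4, 1, 2, 2, 0, 1, 1, 0, 1, 1⟩ = true ∧
      (Tree.leaf 167 17 16 6 1).ok 0 1 0 0 (UE0 (19, 19) D00) ⟨1, 2, 2, 0, 1, 1, 0, 1, 1, 0, 1, 1⟩ = true) ∧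
    ((Tree.leaf 150 17 16 6 1).ok 0 1 0 0 (UE1 (19, 9) D00) ⟨0, 1, 1, 0, 1, 2, 0, 1, 1, 0, 1, 1⟩ = true ∧
      (Tree.leaf 169 17 16 6 1).ok 0 1 0 0 (UE1 (19, 9) D00) ⟨0, 1, 1, 2, 3, 4, 0, 1, 1, 0, 1, 1⟩ = true ∧
      (Tree.leaf 187 17 16 6 1).ok 0 1 0 0 (UE1 (19, 9) D00) ⟨0, 1, 1, 6, 7, 8, 0, 1, 1, 0, 1, 1⟩ = true ∧
      (Tree.leaf 189 17 16 6 1).ok 0 1 0 0 (UE1 (19, 9) D00) ⟨0, 1, 1, 7, 8, 8, 0, 1, 1, 0, 1, 1⟩ = true) ∧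
    ((Tree.leaf 188 17 16 6 1).ok 0 1 0 0 (UE0 (19, 19) D01) ⟨0, 1, 4, 0, 1, 2, 0, 1, 1, 0, 1, 1⟩ = true ∧
      (Tree.leaf 191 17 16 6 1).ok 0 1 0 0 (UE0 (19, 19) D01) ⟨1, 2, 4, 0, 1, 2, 0, 1, 1, 0, 1, 1⟩ = true ∧
      (Tree.leaf 192 17 16 6 1).ok 0 1 0 0 (UE0 (19, 19) D01) ⟨0, 1, 4, 1, 2, 2, 0, 1, 1, 0, 1, 1⟩ = true ∧
      (Tree.leaf 196 17 16 6 1).ok 0 1 0 0 (UE0 (19, 19) D01) ⟨1, 2, 4, 1, 2, 2, 0, 1, 1, 0, 1, 1⟩ = true ∧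
      (Tree.leaf 167 17 16 6 1).ok 0 1 0 0 (UE0 (19, 19) D01) ⟨1, 2, 2, 0, 1, 1, 0, 1, 1, 0, 1, 1⟩ = true) ∧
    ((Tree.leaf 150 17 16 6 1).ok 0 1 0 0 (UE1 (19, 9) D01) ⟨0, 1, 1, 0, 1, 2, 0, 1, 1, 0, 1, 1⟩ = true ∧
      (Tree.leaf 174 17 16 6 1).ok 0 1 0 0 (UE1 (19, 9) D01) ⟨0, 1, 1, 2, 3, 4, 0, 1, 2, 0, 1, 1⟩ = true ∧
      (Tree.leaf 178 17 16 6 1).ok 0 1 0 0 (UE1 (19, 9) D01) ⟨0, 1, 1, 3, 4, 4, 0, 1, 2, 0, 1, 1⟩ = true ∧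
      (Tree.leaf 175 17 16 6 1).ok 0 1 0 0 (UE1 (19, 9) D01) ⟨0, 1, 1, 2, 3, 4, 1, 2, 2, 0, 1, 1⟩ = true ∧
      (Tree.leaf 179 17 16 6 1).ok 0 1 0 0 (UE1 (19, 9) D01) ⟨0, 1, 1, 3, 4, 4, 1, 2, 2, 0, 1, 1⟩ = true) ∧
    ((Tree.leaf 188 17 16 6 1).ok 0 1 0 0 (UE0 (19, 19) D02) ⟨0, 1, 4, 0, 1, 2, 0, 1, 1, 0, 1, 1⟩ = true ∧
      (Tree.leaf 192 17 16 6 1).ok 0 1 0 0 (UE0 (19, 19) D02) ⟨0, 1, 4, 1, 2, 2, 0, 1, 1, 0, 1, 1⟩ = true ∧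
      (Tree.leaf 179 17 16 6 1).ok 0 1 0 0 (UE0 (19, 19) D02) ⟨1, 2, 4, 0, 1, 1, 0, 1, 1, 0, 1, 1⟩ = true ∧
      (Tree.leaf 168 17 16 6 1).ok 0 1 0 0 (UE0 (19, 19) D02) ⟨1, 2, 2, 0, 1, 1, 0, 1, 1, 0, 1, 1⟩ = true) ∧
    ((Tree.leaf 151 17 16 6 1).ok 0 1 0 0 (UE1 (19, 9) D02) ⟨0, 1, 1, 0, 1, 2, 0, 1, 1, 0, 1, 1⟩ = true ∧
      (Tree.leaf 180 17 16 6 1).ok 0 1 0 0 (UE1 (19, 9) D02) ⟨0, 1, 2, 2, 3, 4, 0, 1, 1, 0, 1, 1⟩ = true ∧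
      (Tree.leaf 191 17 16 6 1).ok 0 1 0 0 (UE1 (19, 9) D02) ⟨1, 2, 2, 2, 3, 4, 0, 1, 1, 0, 1, 1⟩ = true ∧
      (Tree.leaf 188 17 16 6 1).ok 0 1 0 0 (UE1 (19, 9) D02) ⟨0, 1, 1, 6, 7, 8, 0, 1, 1, 0, 1, 1⟩ = true ∧
      (Tree.leaf 189 17 16 6 1).ok 0 1 0 0 (UE1 (19, 9) D02) ⟨0, 1, 1, 7, 8, 8, 0, 1, 1, 0, 1, 1⟩ = true) ∧
    ((Tree.leaf 188 17 16 6 1).ok 0 1 0 0 (UE0 (19, 19) D03) ⟨0, 1, 4, 0, 1, 2, 0, 1, 1, 0, 1, 1⟩ = true ∧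
      (Tree.leaf 191 17 16 6 1).ok 0 1 0 0 (UE0 (19, 19) D03) ⟨1, 2, 4, 0, 1, 2, 0, 1, 1, 0, 1, 1⟩ = true ∧
      (Tree.leaf 191 17 16 6 1).ok 0 1 0 0 (UE0 (19, 19) D03) ⟨0, 1, 4, 1, 2, 2, 0, 1, 1, 0, 1, 1⟩ = true ∧
      (Tree.leaf 196 17 16 6 1).ok 0 1 0 0 (UE0 (19, 19) D03) ⟨1, 2, 4, 1, 2, 2, 0, 1, 1, 0, 1, 1⟩ = true ∧
      (Tree.leaf 167 17 16 6 1).ok 0 1 0 0 (UE0 (19, 19) D03) ⟨1, 2, 2, 0, 1, 1, 0, 1, 1, 0, 1, 1⟩ = true) ∧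
    ((Tree.leaf 150 17 16 6 1).ok 0 1 0 0 (UE1 (19, 9) D03) ⟨0, 1, 1, 0, 1, 2, 0, 1, 1, 0, 1, 1⟩ = true ∧
      (Tree.leaf 179 17 16 6 1).ok 0 1 0 0 (UE1 (19, 9) D03) ⟨0, 1, 2, 2, 3, 4, 0, 1, 1, 0, 1, 1⟩ = true ∧
      (Tree.leaf 189 17 16 6 1).ok 0 1 0 0 (UE1 (19, 9) D03) ⟨1, 2, 2, 2, 3, 4, 0, 1, 1, 0, 1, 1⟩ = true ∧
      (Tree.leaf 176 17 16 6 1).ok 0 1 0 0 (UE1 (19, 9) D03) ⟨0, 1, 1, 3, 4, 4, 0, 1, 2, 0, 1, 1⟩ = true ∧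
      (Tree.leaf 178 17 16 6 1).ok 0 1 0 0 (UE1 (19, 9) D03) ⟨0, 1, 1, 3, 4, 4, 1, 2, 2, 0, 1, 1⟩ = true) ∧
    ((Tree.leaf 166 16 16 6 6).ok 0 1 0 0 (GE 0 0 (D 0) (361, 399) (6859, 7999) (.q 81 99) p00 k00 k10) ⟨0, 1, 1, 0, 1, 1, 0, 1, 1, 0, 1, 2⟩ = true ∧
      (Tree.leaf 178 16 16 6 6).ok 0 1 0 0 (GE 0 0 (D 0) (361, 399) (6859, 7999) (.q 81 99) p00 k00 k10) ⟨0, 1, 2, 0, 1, 1, 0, 1, 1, 1, 2, 2⟩ = true ∧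
      (Tree.leaf 186 16 16 6 6).ok 0 1 0 0 (GE 0 0 (D 0) (361, 399) (6859, 7999) (.q 81 99) p00 k00 k10) ⟨1, 2, 2, 0, 1, 1, 0, 1, 1, 1, 2, 2⟩ = true) ∧
    ((Tree.leaf 166 16 16 6 6).ok 0 1 0 0 (GE 0 0 (D 0) (361, 399) (6859, 7999) (tau1 (361, 399)) p00 k00 k10) ⟨0, 1, 1, 0, 1, 1, 0, 1, 1, 0, 1, 2⟩ = true ∧
      (Tree.leaf 178 16 16 6 6).ok 0 1 0 0 (GE 0 0 (D 0) (361, 399) (6859, 7999) (tau1 (361, 399)) p00 k00 k10) ⟨0, 1, 2, 0, 1, 1, 0, 1, 1, 1, 2, 2⟩ = true ∧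
      (Tree.leaf 186 16 16 6 6).ok 0 1 0 0 (GE 0 0 (D 0) (361, 399) (6859, 7999) (tau1 (361, 399)) p00 k00 k10) ⟨1, 2, 2, 0, 1, 1, 0, 1, 1, 1, 2, 2⟩ = true) ∧
    ((Tree.leaf 186 16 16 6 6).ok 0 1 0 0 (GE 0 1 (D 0) (361, 399) (6859, 7999) (.q 81 99) p01 k01 k11) ⟨0, 1, 2, 0, 1, 2, 0, 1, 1, 0, 1, 1⟩ = true ∧
      (Tree.leaf 190 16 16 6 6).ok 0 1 0 0 (GE 0 1 (D 0) (361, 399) (6859, 7999) (.q 81 99) p01 k01 k11) ⟨0, 1, 2, 1, 2, 2, 0, 1, 1, 0, 1, 1⟩ = true ∧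
      (Tree.leaf 180 16 16 6 6).ok 0 1 0 0 (GE 0 1 (D 0) (361, 399) (6859, 7999) (.q 81 99) p01 k01 k11) ⟨1, 2, 2, 0, 1, 1, 0, 1, 1, 0, 1, 1⟩ = true) ∧
    ((Tree.leaf 186 16 16 6 6).ok 0 1 0 0 (GE 0 1 (D 0) (361, 399) (6859, 7999) (tau1 (361, 399)) p01 k01 k11) ⟨0, 1, 2, 0, 1, 2, 0, 1, 1, 0, 1, 1⟩ = true ∧
      (Tree.leaf 190 16 16 6 6).ok 0 1 0 0 (GE 0 1 (D 0) (361, 399) (6859, 7999) (tau1 (361, 399)) p01 k01 k11) ⟨0, 1, 2, 1, 2, 2, 0, 1, 1, 0, 1, 1⟩ = true ∧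
      (Tree.leaf 180 16 16 6 6).ok 0 1 0 0 (GE 0 1 (D 0) (361, 399) (6859, 7999) (tau1 (361, 399)) p01 k01 k11) ⟨1, 2, 2, 0, 1, 1, 0, 1, 1, 0, 1, 1⟩ = true) ∧
    ((Tree.leaf 186 16 16 6 6).ok 0 1 0 0 (GE 0 2 (D 0) (361, 399) (6859, 7999) (.q 81 99) p02 k02 k12) ⟨0, 1, 2, 0, 1, 2, 0, 1, 1, 0, 1, 1⟩ = true ∧
      (Tree.leaf 191 16 16 6 6).ok 0 1 0 0 (GE 0 2 (D 0) (361, 399) (6859, 7999) (.q 81 99) p02 k02 k12) ⟨0, 1, 2, 1, 2, 2, 0, 1, 1, 0, 1, 1⟩ = true ∧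
      (Tree.leaf 194 16 16 6 6).ok 0 1 0 0 (GE 0 2 (D 0) (361, 399) (6859, 7999) (.q 81 99) p02 k02 k12) ⟨2, 3, 4, 0, 1, 1, 0, 1, 1, 0, 1, 1⟩ = true ∧
      (Tree.leaf 198 16 16 6 6).ok 0 1 0 0 (GE 0 2 (D 0) (361, 399) (6859, 7999) (.q 81 99) p02 k02 k12) ⟨3, 4, 4, 0, 1, 1, 0, 1, 1, 0, 1, 1⟩ = true) ∧
    ((Tree.leaf 186 16 16 6 6).ok 0 1 0 0 (GE 0 2 (D 0) (361, 399) (6859, 7999) (tau1 (361, 399)) p02 k02 k12) ⟨0, 1, 2, 0, 1, 2, 0, 1, 1, 0, 1, 1⟩ = true ∧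
      (Tree.leaf 191 16 16 6 6).ok 0 1 0 0 (GE 0 2 (D 0) (361, 399) (6859, 7999) (tau1 (361, 399)) p02 k02 k12) ⟨0, 1, 2, 1, 2, 2, 0, 1, 1, 0, 1, 1⟩ = true ∧
      (Tree.leaf 181 16 16 6 6).ok 0 1 0 0 (GE 0 2 (D 0) (361, 399) (6859, 7999) (tau1 (361, 399)) p02 k02 k12) ⟨1, 2, 2, 0, 1, 1, 0, 1, 1, 0, 1, 1⟩ = true) ∧
    ((Tree.leaf 186 16 16 6 6).ok 0 1 0 0 (GE 0 3 (D 0) (361, 399) (6859, 7999) (.q 81 99) p03 k03 k13) ⟨0, 1, 4, 0, 1, 1, 0, 1, 1, 0, 1, 1⟩ = true ∧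
      (Tree.leaf 189 16 16 6 6).ok 0 1 0 0 (GE 0 3 (D 0) (361, 399) (6859, 7999) (.q 81 99) p03 k03 k13) ⟨1, 2, 4, 0, 1, 1, 0, 1, 1, 0, 1, 1⟩ = true ∧
      (Tree.leaf 184 16 16 6 6).ok 0 1 0 0 (GE 0 3 (D 0) (361, 399) (6859, 7999) (.q 81 99) p03 k03 k13) ⟨1, 2, 2, 0, 1, 1, 0, 1, 2, 0, 1, 1⟩ = true ∧
      (Tree.leaf 185 16 16 6 6).ok 0 1 0 0 (GE 0 3 (D 0) (361, 399) (6859, 7999) (.q 81 99) p03 k03 k13) ⟨1, 2, 2, 0, 1, 1, 1, 2, 2, 0, 1, 1⟩ = true) ∧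
    ((Tree.leaf 186 16 16 6 6).ok 0 1 0 0 (GE 0 3 (D 0) (361, 399) (6859, 7999) (tau1 (361, 399)) p03 k03 k13) ⟨0, 1, 4, 0, 1, 1, 0, 1, 1, 0, 1, 1⟩ = true ∧
      (Tree.leaf 189 16 16 6 6).ok 0 1 0 0 (GE 0 3 (D 0) (361, 399) (6859, 7999) (tau1 (361, 399)) p03 k03 k13) ⟨1, 2, 4, 0, 1, 1, 0, 1, 1, 0, 1, 1⟩ = true ∧
      (Tree.leaf 184 16 16 6 6).ok 0 1 0 0 (GE 0 3 (D 0) (361, 399) (6859, 7999) (tau1 (361, 399)) p03 k03 k13) ⟨1, 2, 2, 0, 1, 1, 0, 1, 2, 0, 1, 1⟩ = true ∧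
      (Tree.leaf 185 16 16 6 6).ok 0 1 0 0 (GE 0 3 (D 0) (361, 399) (6859, 7999) (tau1 (361, 399)) p03 k03 k13) ⟨1, 2, 2, 0, 1, 1, 1, 2, 2, 0, 1, 1⟩ = true) ∧
    ((Tree.leaf 108 9 13 5 1).ok 0 1 0 0 (SEG D13 (0, 0) (sP (18, 18) (1, 18)) p10 p11 p12 p13) ⟨0, 1, 1, 0, 1, 2, 0, 1, 2, 0, 1, 1⟩ = true ∧
      (Tree.leaf 111 9 13 5 1).ok 0 1 0 0 (SEG D13 (0, 0) (sP (18, 18) (1, 18)) p10 p11 p12 p13) ⟨0, 1, 1, 1, 2, 2, 0, 1, 2, 0, 1, 1⟩ = true ∧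
      (Tree.leaf 108 9 13 5 1).ok 0 1 0 0 (SEG D13 (0, 0) (sP (18, 18) (1, 18)) p10 p11 p12 p13) ⟨0, 1, 1, 0, 1, 2, 1, 2, 2, 0, 1, 1⟩ = true ∧
      (Tree.leaf 112 9 13 5 1).ok 0 1 0 0 (SEG D13 (0, 0) (sP (18, 18) (1, 18)) p10 p11 p12 p13) ⟨0, 1, 1, 1, 2, 2, 1, 2, 2, 0, 1, 1⟩ = true) ∧
    ((Tree.leaf 52 13 1 5 1).ok 0 1 0 0 (RE D13 (0, 0)) ⟨0, 1, 1, 0, 1, 1, 0, 1, 1, 0, 1, 1⟩ = true) ∧
    ((Tree.leaf 161 14 13 5 1).ok 0 1 0 0 (UE0 (19, 19) D10) ⟨0, 1, 4, 0, 1, 2, 0, 1, 1, 0, 1, 1⟩ = true ∧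
      (Tree.leaf 164 14 13 5 1).ok 0 1 0 0 (UE0 (19, 19) D10) ⟨0, 1, 4, 1, 2, 2, 0, 1, 1, 0, 1, 1⟩ = true ∧
      (Tree.leaf 153 14 13 5 1).ok 0 1 0 0 (UE0 (19, 19) D10) ⟨1, 2, 4, 0, 1, 1, 0, 1, 1, 0, 1, 1⟩ = true ∧
      (Tree.leaf 144 14 13 5 1).ok 0 1 0 0 (UE0 (19, 19) D10) ⟨1, 2, 2, 0, 1, 1, 0, 1, 1, 0, 1, 1⟩ = true) ∧
    ((Tree.leaf 149 14 13 5 1).ok 0 1 0 0 (UE1 (19, 9) D10) ⟨0, 1, 4, 0, 1, 2, 0, 1, 1, 0, 1, 1⟩ = true ∧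
      (Tree.leaf 154 14 13 5 1).ok 0 1 0 0 (UE1 (19, 9) D10) ⟨1, 2, 4, 0, 1, 2, 0, 1, 1, 0, 1, 1⟩ = true ∧
      (Tree.leaf 147 14 13 5 1).ok 0 1 0 0 (UE1 (19, 9) D10) ⟨1, 2, 2, 0, 1, 2, 0, 1, 1, 0, 1, 1⟩ = true ∧
      (Tree.leaf 153 14 13 5 1).ok 0 1 0 0 (UE1 (19, 9) D10) ⟨0, 1, 4, 1, 2, 2, 0, 1, 1, 0, 1, 1⟩ = true ∧
      (Tree.leaf 159 14 13 5 1).ok 0 1 0 0 (UE1 (19, 9) D10) ⟨1, 2, 4, 1, 2, 2, 0, 1, 1, 0, 1, 1⟩ = true ∧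
      (Tree.leaf 153 14 13 5 1).ok 0 1 0 0 (UE1 (19, 9) D10) ⟨1, 2, 2, 1, 2, 2, 0, 1, 1, 0, 1, 1⟩ = true) ∧
    ((Tree.leaf 161 14 13 5 1).ok 0 1 0 0 (UE0 (19, 19) D11) ⟨0, 1, 4, 0, 1, 2, 0, 1, 1, 0, 1, 1⟩ = true ∧
      (Tree.leaf 163 14 13 5 1).ok 0 1 0 0 (UE0 (19, 19) D11) ⟨1, 2, 4, 0, 1, 2, 0, 1, 1, 0, 1, 1⟩ = true ∧
      (Tree.leaf 154 14 13 5 1).ok 0 1 0 0 (UE0 (19, 19) D11) ⟨1, 2, 2, 0, 1, 2, 0, 1, 1, 0, 1, 1⟩ = true ∧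
      (Tree.leaf 143 14 13 5 1).ok 0 1 0 0 (UE0 (19, 19) D11) ⟨0, 1, 1, 1, 2, 2, 0, 1, 1, 0, 1, 1⟩ = true) ∧
    ((Tree.leaf 149 14 13 5 1).ok 0 1 0 0 (UE1 (19, 9) D11) ⟨0, 1, 4, 0, 1, 2, 0, 1, 1, 0, 1, 1⟩ = true ∧
      (Tree.leaf 154 14 13 5 1).ok 0 1 0 0 (UE1 (19, 9) D11) ⟨1, 2, 4, 0, 1, 2, 0, 1, 1, 0, 1, 1⟩ = true ∧
      (Tree.leaf 148 14 13 5 1).ok 0 1 0 0 (UE1 (19, 9) D11) ⟨1, 2, 2, 0, 1, 2, 0, 1, 1, 0, 1, 1⟩ = true ∧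
      (Tree.leaf 153 14 13 5 1).ok 0 1 0 0 (UE1 (19, 9) D11) ⟨0, 1, 4, 1, 2, 2, 0, 1, 1, 0, 1, 1⟩ = true ∧
      (Tree.leaf 159 14 13 5 1).ok 0 1 0 0 (UE1 (19, 9) D11) ⟨1, 2, 4, 1, 2, 2, 0, 1, 1, 0, 1, 1⟩ = true ∧
      (Tree.leaf 153 14 13 5 1).ok 0 1 0 0 (UE1 (19, 9) D11) ⟨1, 2, 2, 1, 2, 2, 0, 1, 1, 0, 1, 1⟩ = true) ∧
    ((Tree.leaf 149 14 13 5 1).ok 0 1 0 0 (UE0 (19, 19) D12) ⟨0, 1, 2, 0, 1, 2, 0, 1, 1, 0, 1, 1⟩ = true ∧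
      (Tree.leaf 154 14 13 5 1).ok 0 1 0 0 (UE0 (19, 19) D12) ⟨1, 2, 2, 0, 1, 2, 0, 1, 1, 0, 1, 1⟩ = true ∧
      (Tree.leaf 143 14 13 5 1).ok 0 1 0 0 (UE0 (19, 19) D12) ⟨0, 1, 1, 1, 2, 2, 0, 1, 1, 0, 1, 1⟩ = true) ∧
    ((Tree.leaf 149 14 13 5 1).ok 0 1 0 0 (UE1 (19, 9) D12) ⟨0, 1, 4, 0, 1, 2, 0, 1, 1, 0, 1, 1⟩ = true ∧
      (Tree.leaf 154 14 13 5 1).ok 0 1 0 0 (UE1 (19, 9) D12) ⟨1, 2, 4, 0, 1, 2, 0, 1, 1, 0, 1, 1⟩ = true ∧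
      (Tree.leaf 147 14 13 5 1).ok 0 1 0 0 (UE1 (19, 9) D12) ⟨1, 2, 2, 0, 1, 2, 0, 1, 1, 0, 1, 1⟩ = true ∧
      (Tree.leaf 153 14 13 5 1).ok 0 1 0 0 (UE1 (19, 9) D12) ⟨0, 1, 4, 1, 2, 2, 0, 1, 1, 0, 1, 1⟩ = true ∧
      (Tree.leaf 159 14 13 5 1).ok 0 1 0 0 (UE1 (19, 9) D12) ⟨1, 2, 4, 1, 2, 2, 0, 1, 1, 0, 1, 1⟩ = true ∧
      (Tree.leaf 153 14 13 5 1).ok 0 1 0 0 (UE1 (19, 9) D12) ⟨1, 2, 2, 1, 2, 2, 0, 1, 1, 0, 1, 1⟩ = true) ∧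
    ((Tree.leaf 161 14 13 5 1).ok 0 1 0 0 (UE0 (19, 19) D13) ⟨0, 1, 4, 0, 1, 2, 0, 1, 1, 0, 1, 1⟩ = true ∧
      (Tree.leaf 163 14 13 5 1).ok 0 1 0 0 (UE0 (19, 19) D13) ⟨1, 2, 4, 0, 1, 2, 0, 1, 1, 0, 1, 1⟩ = true ∧
      (Tree.leaf 154 14 13 5 1).ok 0 1 0 0 (UE0 (19, 19) D13) ⟨1, 2, 2, 0, 1, 2, 0, 1, 1, 0, 1, 1⟩ = true ∧
      (Tree.leaf 143 14 13 5 1).ok 0 1 0 0 (UE0 (19, 19) D13) ⟨0, 1, 1, 1, 2, 2, 0, 1, 1, 0, 1, 1⟩ = true) ∧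
    ((Tree.leaf 149 14 13 5 1).ok 0 1 0 0 (UE1 (19, 9) D13) ⟨0, 1, 4, 0, 1, 2, 0, 1, 1, 0, 1, 1⟩ = true ∧
      (Tree.leaf 154 14 13 5 1).ok 0 1 0 0 (UE1 (19, 9) D13) ⟨1, 2, 4, 0, 1, 2, 0, 1, 1, 0, 1, 1⟩ = true ∧
      (Tree.leaf 148 14 13 5 1).ok 0 1 0 0 (UE1 (19, 9) D13) ⟨1, 2, 2, 0, 1, 2, 0, 1, 1, 0, 1, 1⟩ = true ∧
      (Tree.leaf 153 14 13 5 1).ok 0 1 0 0 (UE1 (19, 9) D13) ⟨0, 1, 4, 1, 2, 2, 0, 1, 1, 0, 1, 1⟩ = true ∧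
      (Tree.leaf 159 14 13 5 1).ok 0 1 0 0 (UE1 (19, 9) D13) ⟨1, 2, 4, 1, 2, 2, 0, 1, 1, 0, 1, 1⟩ = true ∧
      (Tree.leaf 153 14 13 5 1).ok 0 1 0 0 (UE1 (19, 9) D13) ⟨1, 2, 2, 1, 2, 2, 0, 1, 1, 0, 1, 1⟩ = true) ∧
    ((Tree.leaf 170 14 14 6 6).ok 0 1 0 0 (GE 1 0 (D 1) (361, 399) (6859, 7999) (.q 81 99) p10 k00 k10) ⟨0, 1, 2, 0, 1, 2, 0, 1, 1, 0, 1, 1⟩ = true ∧
      (Tree.leaf 174 14 14 6 6).ok 0 1 0 0 (GE 1 0 (D 1) (361, 399) (6859, 7999) (.q 81 99) p10 k00 k10) ⟨1, 2, 2, 0, 1, 2, 0, 1, 1, 0, 1, 1⟩ = true ∧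
      (Tree.leaf 164 14 14 6 6).ok 0 1 0 0 (GE 1 0 (D 1) (361, 399) (6859, 7999) (.q 81 99) p10 k00 k10) ⟨0, 1, 1, 1, 2, 2, 0, 1, 1, 0, 1, 1⟩ = true) ∧
    ((Tree.leaf 170 14 14 6 6).ok 0 1 0 0 (GE 1 0 (D 1) (361, 399) (6859, 7999) (tau1 (361, 399)) p10 k00 k10) ⟨0, 1, 2, 0, 1, 2, 0, 1, 1, 0, 1, 1⟩ = true ∧
      (Tree.leaf 174 14 14 6 6).ok 0 1 0 0 (GE 1 0 (D 1) (361, 399) (6859, 7999) (tau1 (361, 399)) p10 k00 k10) ⟨1, 2, 2, 0, 1, 2, 0, 1, 1, 0, 1, 1⟩ = true ∧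
      (Tree.leaf 164 14 14 6 6).ok 0 1 0 0 (GE 1 0 (D 1) (361, 399) (6859, 7999) (tau1 (361, 399)) p10 k00 k10) ⟨0, 1, 1, 1, 2, 2, 0, 1, 1, 0, 1, 1⟩ = true) ∧
    ((Tree.leaf 170 14 14 6 6).ok 0 1 0 0 (GE 1 1 (D 1) (361, 399) (6859, 7999) (.q 81 99) p11 k01 k11) ⟨0, 1, 2, 0, 1, 2, 0, 1, 1, 0, 1, 1⟩ = true ∧
      (Tree.leaf 174 14 14 6 6).ok 0 1 0 0 (GE 1 1 (D 1) (361, 399) (6859, 7999) (.q 81 99) p11 k01 k11) ⟨1, 2, 2, 0, 1, 2, 0, 1, 1, 0, 1, 1⟩ = true ∧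
      (Tree.leaf 175 14 14 6 6).ok 0 1 0 0 (GE 1 1 (D 1) (361, 399) (6859, 7999) (.q 81 99) p11 k01 k11) ⟨0, 1, 1, 2, 3, 4, 0, 1, 1, 0, 1, 1⟩ = true ∧
      (Tree.leaf 179 14 14 6 6).ok 0 1 0 0 (GE 1 1 (D 1) (361, 399) (6859, 7999) (.q 81 99) p11 k01 k11) ⟨0, 1, 1, 3, 4, 4, 0, 1, 1, 0, 1, 1⟩ = true) ∧
    ((Tree.leaf 170 14 14 6 6).ok 0 1 0 0 (GE 1 1 (D 1) (361, 399) (6859, 7999) (tau1 (361, 399)) p11 k01 k11) ⟨0, 1, 2, 0, 1, 2, 0, 1, 1, 0, 1, 1⟩ = true ∧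
      (Tree.leaf 174 14 14 6 6).ok 0 1 0 0 (GE 1 1 (D 1) (361, 399) (6859, 7999) (tau1 (361, 399)) p11 k01 k11) ⟨1, 2, 2, 0, 1, 2, 0, 1, 1, 0, 1, 1⟩ = true ∧
      (Tree.leaf 175 14 14 6 6).ok 0 1 0 0 (GE 1 1 (D 1) (361, 399) (6859, 7999) (tau1 (361, 399)) p11 k01 k11) ⟨0, 1, 1, 2, 3, 4, 0, 1, 1, 0, 1, 1⟩ = true ∧
      (Tree.leaf 179 14 14 6 6).ok 0 1 0 0 (GE 1 1 (D 1) (361, 399) (6859, 7999) (tau1 (361, 399)) p11 k01 k11) ⟨0, 1, 1, 3, 4, 4, 0, 1, 1, 0, 1, 1⟩ = true) ∧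
    ((Tree.leaf 170 14 14 6 6).ok 0 1 0 0 (GE 1 2 (D 1) (361, 399) (6859, 7999) (.q 81 99) p12 k02 k12) ⟨0, 1, 2, 0, 1, 2, 0, 1, 1, 0, 1, 1⟩ = true ∧
      (Tree.leaf 174 14 14 6 6).ok 0 1 0 0 (GE 1 2 (D 1) (361, 399) (6859, 7999) (.q 81 99) p12 k02 k12) ⟨1, 2, 2, 0, 1, 2, 0, 1, 1, 0, 1, 1⟩ = true ∧
      (Tree.leaf 164 14 14 6 6).ok 0 1 0 0 (GE 1 2 (D 1) (361, 399) (6859, 7999) (.q 81 99) p12 k02 k12) ⟨0, 1, 1, 1, 2, 2, 0, 1, 1, 0, 1, 1⟩ = true) ∧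
    ((Tree.leaf 170 14 14 6 6).ok 0 1 0 0 (GE 1 2 (D 1) (361, 399) (6859, 7999) (tau1 (361, 399)) p12 k02 k12) ⟨0, 1, 2, 0, 1, 2, 0, 1, 1, 0, 1, 1⟩ = true ∧
      (Tree.leaf 174 14 14 6 6).ok 0 1 0 0 (GE 1 2 (D 1) (361, 399) (6859, 7999) (tau1 (361, 399)) p12 k02 k12) ⟨1, 2, 2, 0, 1, 2, 0, 1, 1, 0, 1, 1⟩ = true ∧
      (Tree.leaf 164 14 14 6 6).ok 0 1 0 0 (GE 1 2 (D 1) (361, 399) (6859, 7999) (tau1 (361, 399)) p12 k02 k12) ⟨0, 1, 1, 1, 2, 2, 0, 1, 1, 0, 1, 1⟩ = true) ∧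
    ((Tree.leaf 163 14 14 6 6).ok 0 1 0 0 (GE 1 3 (D 1) (361, 399) (6859, 7999) (.q 81 99) p13 k03 k13) ⟨0, 1, 1, 0, 1, 2, 0, 1, 2, 0, 1, 1⟩ = true ∧
      (Tree.leaf 169 14 14 6 6).ok 0 1 0 0 (GE 1 3 (D 1) (361, 399) (6859, 7999) (.q 81 99) p13 k03 k13) ⟨0, 1, 1, 1, 2, 2, 0, 1, 2, 0, 1, 1⟩ = true ∧
      (Tree.leaf 164 14 14 6 6).ok 0 1 0 0 (GE 1 3 (D 1) (361, 399) (6859, 7999) (.q 81 99) p13 k03 k13) ⟨0, 1, 1, 0, 1, 2, 1, 2, 2, 0, 1, 1⟩ = true ∧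
      (Tree.leaf 170 14 14 6 6).ok 0 1 0 0 (GE 1 3 (D 1) (361, 399) (6859, 7999) (.q 81 99) p13 k03 k13) ⟨0, 1, 1, 1, 2, 2, 1, 2, 2, 0, 1, 1⟩ = true) ∧
    ((Tree.leaf 163 14 14 6 6).ok 0 1 0 0 (GE 1 3 (D 1) (361, 399) (6859, 7999) (tau1 (361, 399)) p13 k03 k13) ⟨0, 1, 1, 0, 1, 2, 0, 1, 2, 0, 1, 1⟩ = true ∧
      (Tree.leaf 169 14 14 6 6).ok 0 1 0 0 (GE 1 3 (D 1) (361, 399) (6859, 7999) (tau1 (361, 399)) p13 k03 k13) ⟨0, 1, 1, 1, 2, 2, 0, 1, 2, 0, 1, 1⟩ = true ∧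
      (Tree.leaf 164 14 14 6 6).ok 0 1 0 0 (GE 1 3 (D 1) (361, 399) (6859, 7999) (tau1 (361, 399)) p13 k03 k13) ⟨0, 1, 1, 0, 1, 2, 1, 2, 2, 0, 1, 1⟩ = true ∧
      (Tree.leaf 170 14 14 6 6).ok 0 1 0 0 (GE 1 3 (D 1) (361, 399) (6859, 7999) (tau1 (361, 399)) p13 k03 k13) ⟨0, 1, 1, 1, 2, 2, 1, 2, 2, 0, 1, 1⟩ = true) ∧
    ((Tree.leaf 92 9 10 5 1).ok 0 1 0 0 (SEG D23 (-198266, 8191) (sP (18, 18) (1, 18)) p20 p21 p22 p23) ⟨0, 1, 1, 0, 1, 1, 0, 1, 2, 0, 1, 1⟩ = true ∧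
      (Tree.leaf 92 9 10 5 1).ok 0 1 0 0 (SEG D23 (-198266, 8191) (sP (18, 18) (1, 18)) p20 p21 p22 p23) ⟨0, 1, 1, 0, 1, 1, 1, 2, 2, 0, 1, 1⟩ = true) ∧
    ((Tree.leaf 44 10 1 4 1).ok 0 1 0 0 (RE D23 (-198266, 8191)) ⟨0, 1, 1, 0, 1, 1, 0, 1, 1, 0, 1, 1⟩ = true) ∧
    ((Tree.leaf 122 14 10 4 1).ok 0 1 0 0 (UE0 (19, 19) D20) ⟨0, 1, 1, 0, 1, 1, 0, 1, 1, 0, 1, 1⟩ = true) ∧
    ((Tree.leaf 120 14 10 4 1).ok 0 1 0 0 (UE1 (19, 9) D20) ⟨0, 1, 1, 0, 1, 2, 0, 1, 1, 0, 1, 1⟩ = true ∧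
      (Tree.leaf 133 14 10 4 1).ok 0 1 0 0 (UE1 (19, 9) D20) ⟨0, 1, 1, 2, 3, 4, 0, 1, 1, 0, 1, 1⟩ = true ∧
      (Tree.leaf 136 14 10 4 1).ok 0 1 0 0 (UE1 (19, 9) D20) ⟨0, 1, 1, 3, 4, 4, 0, 1, 1, 0, 1, 1⟩ = true) ∧
    ((Tree.leaf 121 14 10 4 1).ok 0 1 0 0 (UE0 (19, 19) D21) ⟨0, 1, 1, 0, 1, 1, 0, 1, 1, 0, 1, 1⟩ = true) ∧
    ((Tree.leaf 113 14 10 4 1).ok 0 1 0 0 (UE1 (19, 9) D21) ⟨0, 1, 1, 0, 1, 1, 0, 1, 1, 0, 1, 1⟩ = true) ∧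
    ((Tree.leaf 121 14 10 4 1).ok 0 1 0 0 (UE0 (19, 19) D22) ⟨0, 1, 1, 0, 1, 1, 0, 1, 1, 0, 1, 1⟩ = true) ∧
    ((Tree.leaf 120 14 10 4 1).ok 0 1 0 0 (UE1 (19, 9) D22) ⟨0, 1, 1, 0, 1, 2, 0, 1, 1, 0, 1, 1⟩ = true ∧
      (Tree.leaf 132 14 10 4 1).ok 0 1 0 0 (UE1 (19, 9) D22) ⟨0, 1, 2, 1, 2, 2, 0, 1, 1, 0, 1, 1⟩ = true ∧
      (Tree.leaf 143 14 10 4 1).ok 0 1 0 0 (UE1 (19, 9) D22) ⟨1, 2, 2, 1, 2, 2, 0, 1, 1, 0, 1, 1⟩ = true) ∧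
    ((Tree.leaf 150 14 10 4 1).ok 0 1 0 0 (UE0 (19, 19) D23) ⟨0, 1, 4, 0, 1, 2, 0, 1, 1, 0, 1, 1⟩ = true ∧
      (Tree.leaf 152 14 10 4 1).ok 0 1 0 0 (UE0 (19, 19) D23) ⟨1, 2, 4, 0, 1, 2, 0, 1, 1, 0, 1, 1⟩ = true ∧
      (Tree.leaf 141 14 10 4 1).ok 0 1 0 0 (UE0 (19, 19) D23) ⟨0, 1, 2, 1, 2, 2, 0, 1, 1, 0, 1, 1⟩ = true ∧
      (Tree.leaf 136 14 10 4 1).ok 0 1 0 0 (UE0 (19, 19) D23) ⟨1, 2, 2, 0, 1, 1, 0, 1, 1, 0, 1, 1⟩ = true) ∧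
    ((Tree.leaf 120 14 10 4 1).ok 0 1 0 0 (UE1 (19, 9) D23) ⟨0, 1, 1, 0, 1, 2, 0, 1, 1, 0, 1, 1⟩ = true ∧
      (Tree.leaf 132 14 10 4 1).ok 0 1 0 0 (UE1 (19, 9) D23) ⟨0, 1, 2, 1, 2, 2, 0, 1, 1, 0, 1, 1⟩ = true ∧
      (Tree.leaf 142 14 10 4 1).ok 0 1 0 0 (UE1 (19, 9) D23) ⟨1, 2, 2, 1, 2, 2, 0, 1, 1, 0, 1, 1⟩ = true) ∧
    ((Tree.leaf 170 14 14 6 6).ok 0 1 0 0 (GE 2 0 (D 2) (361, 399) (6859, 7999) (.q 81 99) p20 k00 k10) ⟨0, 1, 2, 0, 1, 2, 0, 1, 1, 0, 1, 1⟩ = true ∧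
      (Tree.leaf 173 14 14 6 6).ok 0 1 0 0 (GE 2 0 (D 2) (361, 399) (6859, 7999) (.q 81 99) p20 k00 k10) ⟨0, 1, 2, 1, 2, 2, 0, 1, 1, 0, 1, 1⟩ = true ∧
      (Tree.leaf 164 14 14 6 6).ok 0 1 0 0 (GE 2 0 (D 2) (361, 399) (6859, 7999) (.q 81 99) p20 k00 k10) ⟨1, 2, 2, 0, 1, 1, 0, 1, 1, 0, 1, 1⟩ = true) ∧
    ((Tree.leaf 170 14 14 6 6).ok 0 1 0 0 (GE 2 0 (D 2) (361, 399) (6859, 7999) (tau1 (361, 399)) p20 k00 k10) ⟨0, 1, 2, 0, 1, 2, 0, 1, 1, 0, 1, 1⟩ = true ∧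
      (Tree.leaf 173 14 14 6 6).ok 0 1 0 0 (GE 2 0 (D 2) (361, 399) (6859, 7999) (tau1 (361, 399)) p20 k00 k10) ⟨0, 1, 2, 1, 2, 2, 0, 1, 1, 0, 1, 1⟩ = true ∧
      (Tree.leaf 164 14 14 6 6).ok 0 1 0 0 (GE 2 0 (D 2) (361, 399) (6859, 7999) (tau1 (361, 399)) p20 k00 k10) ⟨1, 2, 2, 0, 1, 1, 0, 1, 1, 0, 1, 1⟩ = true) ∧
    ((Tree.leaf 157 14 14 6 6).ok 0 1 0 0 (GE 2 1 (D 2) (361, 399) (6859, 7999) (.q 81 99) p21 k01 k11) ⟨0, 1, 2, 0, 1, 1, 0, 1, 1, 0, 1, 1⟩ = true ∧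
      (Tree.leaf 164 14 14 6 6).ok 0 1 0 0 (GE 2 1 (D 2) (361, 399) (6859, 7999) (.q 81 99) p21 k01 k11) ⟨1, 2, 2, 0, 1, 1, 0, 1, 1, 0, 1, 1⟩ = true) ∧
    ((Tree.leaf 157 14 14 6 6).ok 0 1 0 0 (GE 2 1 (D 2) (361, 399) (6859, 7999) (tau1 (361, 399)) p21 k01 k11) ⟨0, 1, 2, 0, 1, 1, 0, 1, 1, 0, 1, 1⟩ = true ∧
      (Tree.leaf 164 14 14 6 6).ok 0 1 0 0 (GE 2 1 (D 2) (361, 399) (6859, 7999) (tau1 (361, 399)) p21 k01 k11) ⟨1, 2, 2, 0, 1, 1, 0, 1, 1, 0, 1, 1⟩ = true) ∧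
    ((Tree.leaf 169 14 14 6 6).ok 0 1 0 0 (GE 2 2 (D 2) (361, 399) (6859, 7999) (.q 81 99) p22 k02 k12) ⟨0, 1, 2, 0, 1, 2, 0, 1, 1, 0, 1, 1⟩ = true ∧
      (Tree.leaf 172 14 14 6 6).ok 0 1 0 0 (GE 2 2 (D 2) (361, 399) (6859, 7999) (.q 81 99) p22 k02 k12) ⟨0, 1, 2, 1, 2, 2, 0, 1, 1, 0, 1, 1⟩ = true ∧
      (Tree.leaf 164 14 14 6 6).ok 0 1 0 0 (GE 2 2 (D 2) (361, 399) (6859, 7999) (.q 81 99) p22 k02 k12) ⟨1, 2, 2, 0, 1, 1, 0, 1, 1, 0, 1, 1⟩ = true) ∧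
    ((Tree.leaf 169 14 14 6 6).ok 0 1 0 0 (GE 2 2 (D 2) (361, 399) (6859, 7999) (tau1 (361, 399)) p22 k02 k12) ⟨0, 1, 4, 0, 1, 1, 0, 1, 1, 0, 1, 1⟩ = true ∧
      (Tree.leaf 171 14 14 6 6).ok 0 1 0 0 (GE 2 2 (D 2) (361, 399) (6859, 7999) (tau1 (361, 399)) p22 k02 k12) ⟨1, 2, 4, 0, 1, 1, 0, 1, 1, 0, 1, 1⟩ = true ∧
      (Tree.leaf 164 14 14 6 6).ok 0 1 0 0 (GE 2 2 (D 2) (361, 399) (6859, 7999) (tau1 (361, 399)) p22 k02 k12) ⟨1, 2, 2, 0, 1, 1, 0, 1, 1, 0, 1, 1⟩ = true) ∧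
    ((Tree.leaf 169 14 14 6 6).ok 0 1 0 0 (GE 2 3 (D 2) (361, 399) (6859, 7999) (.q 81 99) p23 k03 k13) ⟨0, 1, 2, 0, 1, 2, 0, 1, 1, 0, 1, 1⟩ = true ∧
      (Tree.leaf 172 14 14 6 6).ok 0 1 0 0 (GE 2 3 (D 2) (361, 399) (6859, 7999) (.q 81 99) p23 k03 k13) ⟨0, 1, 2, 1, 2, 2, 0, 1, 1, 0, 1, 1⟩ = true ∧
      (Tree.leaf 164 14 14 6 6).ok 0 1 0 0 (GE 2 3 (D 2) (361, 399) (6859, 7999) (.q 81 99) p23 k03 k13) ⟨1, 2, 2, 0, 1, 1, 0, 1, 1, 0, 1, 1⟩ = true) ∧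
    ((Tree.leaf 169 14 14 6 6).ok 0 1 0 0 (GE 2 3 (D 2) (361, 399) (6859, 7999) (tau1 (361, 399)) p23 k03 k13) ⟨0, 1, 4, 0, 1, 1, 0, 1, 1, 0, 1, 1⟩ = true ∧
      (Tree.leaf 171 14 14 6 6).ok 0 1 0 0 (GE 2 3 (D 2) (361, 399) (6859, 7999) (tau1 (361, 399)) p23 k03 k13) ⟨1, 2, 4, 0, 1, 1, 0, 1, 1, 0, 1, 1⟩ = true ∧
      (Tree.leaf 164 14 14 6 6).ok 0 1 0 0 (GE 2 3 (D 2) (361, 399) (6859, 7999) (tau1 (361, 399)) p23 k03 k13) ⟨1, 2, 2, 0, 1, 1, 0, 1, 1, 0, 1, 1⟩ = true) :=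
  ⟨by decide +kernel,
   by decide +kernel,
   ⟨by decide +kernel, by decide +kernel, by decide +kernel, by decide +kernel, by decide +kernel⟩,
   ⟨by decide +kernel, by decide +kernel, by decide +kernel, by decide +kernel⟩,
   ⟨by decide +kernel, by decide +kernel, by decide +kernel, by decide +kernel, by decide +kernel⟩,
   ⟨by decide +kernel, by decide +kernel, by decide +kernel, by decide +kernel, by decide +kernel⟩,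
   ⟨by decide +kernel, by decide +kernel, by decide +kernel, by decide +kernel⟩,
   ⟨by decide +kernel, by decide +kernel, by decide +kernel, by decide +kernel, by decide +kernel⟩,
   ⟨by decide +kernel, by decide +kernel, by decide +kernel, by decide +kernel, by decide +kernel⟩,
   ⟨by decide +kernel, by decide +kernel, by decide +kernel, by decide +kernel, by decide +kernel⟩,
   ⟨by decide +kernel, by decide +kernel, by decide +kernel⟩,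
   ⟨by decide +kernel, by decide +kernel, by decide +kernel⟩,
   ⟨by decide +kernel, by decide +kernel, by decide +kernel⟩,
   ⟨by decide +kernel, by decide +kernel, by decide +kernel⟩,
   ⟨by decide +kernel, by decide +kernel, by decide +kernel, by decide +kernel⟩,
   ⟨by decide +kernel, by decide +kernel, by decide +kernel⟩,
   ⟨by decide +kernel, by decide +kernel, by decide +kernel, by decide +kernel⟩,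
   ⟨by decide +kernel, by decide +kernel, by decide +kernel, by decide +kernel⟩,
   ⟨by decide +kernel, by decide +kernel, by decide +kernel, by decide +kernel⟩,
   by decide +kernel,
   ⟨by decide +kernel, by decide +kernel, by decide +kernel, by decide +kernel⟩,
   ⟨by decide +kernel, by decide +kernel, by decide +kernel, by decide +kernel, by decide +kernel, by decide +kernel⟩,
   ⟨by decide +kernel, by decide +kernel, by decide +kernel, by decide +kernel⟩,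
   ⟨by decide +kernel, by decide +kernel, by decide +kernel, by decide +kernel, by decide +kernel, by decide +kernel⟩,
   ⟨by decide +kernel, by decide +kernel, by decide +kernel⟩,
   ⟨by decide +kernel, by decide +kernel, by decide +kernel, by decide +kernel, by decide +kernel, by decide +kernel⟩,
   ⟨by decide +kernel, by decide +kernel, by decide +kernel, by decide +kernel⟩,
   ⟨by decide +kernel, by decide +kernel, by decide +kernel, by decide +kernel, by decide +kernel, by decide +kernel⟩,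
   ⟨by decide +kernel, by decide +kernel, by decide +kernel⟩,
   ⟨by decide +kernel, by decide +kernel, by decide +kernel⟩,
   ⟨by decide +kernel, by decide +kernel, by decide +kernel, by decide +kernel⟩,
   ⟨by decide +kernel, by decide +kernel, by decide +kernel, by decide +kernel⟩,
   ⟨by decide +kernel, by decide +kernel, by decide +kernel⟩,
   ⟨by decide +kernel, by decide +kernel, by decide +kernel⟩,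
   ⟨by decide +kernel, by decide +kernel, by decide +kernel, by decide +kernel⟩,
   ⟨by decide +kernel, by decide +kernel, by decide +kernel, by decide +kernel⟩,
   ⟨by decide +kernel, by decide +kernel⟩,
   by decide +kernel,
   by decide +kernel,
   ⟨by decide +kernel, by decide +kernel, by decide +kernel⟩,
   by decide +kernel,
   by decide +kernel,
   by decide +kernel,
   ⟨by decide +kernel, by decide +kernel, by decide +kernel⟩,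
   ⟨by decide +kernel, by decide +kernel, by decide +kernel, by decide +kernel⟩,
   ⟨by decide +kernel, by decide +kernel, by decide +kernel⟩,
   ⟨by decide +kernel, by decide +kernel, by decide +kernel⟩,
   ⟨by decide +kernel, by decide +kernel, by decide +kernel⟩,
   ⟨by decide +kernel, by decide +kernel⟩,
   ⟨by decide +kernel, by decide +kernel⟩,
   ⟨by decide +kernel, by decide +kernel, by decide +kernel⟩,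
   ⟨by decide +kernel, by decide +kernel, by decide +kernel⟩,
   ⟨by decide +kernel, by decide +kernel, by decide +kernel⟩,
   ⟨by decide +kernel, by decide +kernel, by decide +kernel⟩⟩

def t_s0 : Tree := (.leaf 96 9 16 6 1)
theorem s0 : t_s0.ok 0 1 0 0 (SEG D03 (0, 0) (sP (18, 18) (1, 18)) p00 p01 p02 p03) unitBx = true :=
  lv.1

def t_r0 : Tree := (.leaf 54 16 1 6 1)
theorem r0 : t_r0.ok 0 1 0 0 (RE D03 (0, 0)) unitBx = true :=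
  lv.2.1

def t_u00 : Tree := (.s0 (.s1 (.s0 (.leaf 188 17 16 6 1) (.leaf 191 17 16 6 1)) (.s0 (.leaf 191 17 16 6 1) (.leaf 196 17 16 6 1))) (.leaf 167 17 16 6 1))
theorem u00 : t_u00.ok 0 1 0 0 (UE0 (19, 19) D00) unitBx = true :=
  (Tree.ok_s0 (Tree.ok_s1 (Tree.ok_s0 lv.2.2.1.1 lv.2.2.1.2.1) (Tree.ok_s0 lv.2.2.1.2.2.1 lv.2.2.1.2.2.2.1)) lv.2.2.1.2.2.2.2)

def t_v00 : Tree := (.s1 (.leaf 150 17 16 6 1) (.s1 (.leaf 169 17 16 6 1) (.s1 (.leaf 187 17 16 6 1) (.leaf 189 17 16 6 1))))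
theorem v00 : t_v00.ok 0 1 0 0 (UE1 (19, 9) D00) unitBx = true :=
  (Tree.ok_s1 lv.2.2.2.1.1 (Tree.ok_s1 lv.2.2.2.1.2.1 (Tree.ok_s1 lv.2.2.2.1.2.2.1 lv.2.2.2.1.2.2.2)))

def t_u01 : Tree := (.s0 (.s1 (.s0 (.leaf 188 17 16 6 1) (.leaf 191 17 16 6 1)) (.s0 (.leaf 192 17 16 6 1) (.leaf 196 17 16 6 1))) (.leaf 167 17 16 6 1))
theorem u01 : t_u01.ok 0 1 0 0 (UE0 (19, 19) D01) unitBx = true :=
  (Tree.ok_s0 (Tree.ok_s1 (Tree.ok_s0 lv.2.2.2.2.1.1 lv.2.2.2.2.1.2.1) (Tree.ok_s0 lv.2.2.2.2.1.2.2.1 lv.2.2.2.2.1.2.2.2.1)) lv.2.2.2.2.1.2.2.2.2)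

def t_v01 : Tree := (.s1 (.leaf 150 17 16 6 1) (.s2 (.s1 (.leaf 174 17 16 6 1) (.leaf 178 17 16 6 1)) (.s1 (.leaf 175 17 16 6 1) (.leaf 179 17 16 6 1))))
theorem v01 : t_v01.ok 0 1 0 0 (UE1 (19, 9) D01) unitBx = true :=
  (Tree.ok_s1 lv.2.2.2.2.2.1.1 (Tree.ok_s2 (Tree.ok_s1 lv.2.2.2.2.2.1.2.1 lv.2.2.2.2.2.1.2.2.1) (Tree.ok_s1 lv.2.2.2.2.2.1.2.2.2.1 lv.2.2.2.2.2.1.2.2.2.2)))

def t_u02 : Tree := (.s0 (.s0 (.s1 (.leaf 188 17 16 6 1) (.leaf 192 17 16 6 1)) (.leaf 179 17 16 6 1)) (.leaf 168 17 16 6 1))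
theorem u02 : t_u02.ok 0 1 0 0 (UE0 (19, 19) D02) unitBx = true :=
  (Tree.ok_s0 (Tree.ok_s0 (Tree.ok_s1 lv.2.2.2.2.2.2.1.1 lv.2.2.2.2.2.2.1.2.1) lv.2.2.2.2.2.2.1.2.2.1) lv.2.2.2.2.2.2.1.2.2.2)

def t_v02 : Tree := (.s1 (.leaf 151 17 16 6 1) (.s1 (.s0 (.leaf 180 17 16 6 1) (.leaf 191 17 16 6 1)) (.s1 (.leaf 188 17 16 6 1) (.leaf 189 17 16 6 1))))
theorem v02 : t_v02.ok 0 1 0 0 (UE1 (19, 9) D02) unitBx = true :=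
  (Tree.ok_s1 lv.2.2.2.2.2.2.2.1.1 (Tree.ok_s1 (Tree.ok_s0 lv.2.2.2.2.2.2.2.1.2.1 lv.2.2.2.2.2.2.2.1.2.2.1) (Tree.ok_s1 lv.2.2.2.2.2.2.2.1.2.2.2.1 lv.2.2.2.2.2.2.2.1.2.2.2.2)))

def t_u03 : Tree := (.s0 (.s1 (.s0 (.leaf 188 17 16 6 1) (.leaf 191 17 16 6 1)) (.s0 (.leaf 191 17 16 6 1) (.leaf 196 17 16 6 1))) (.leaf 167 17 16 6 1))
theorem u03 : t_u03.ok 0 1 0 0 (UE0 (19, 19) D03) unitBx = true :=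
  (Tree.ok_s0 (Tree.ok_s1 (Tree.ok_s0 lv.2.2.2.2.2.2.2.2.1.1 lv.2.2.2.2.2.2.2.2.1.2.1) (Tree.ok_s0 lv.2.2.2.2.2.2.2.2.1.2.2.1 lv.2.2.2.2.2.2.2.2.1.2.2.2.1)) lv.2.2.2.2.2.2.2.2.1.2.2.2.2)

def t_v03 : Tree := (.s1 (.leaf 150 17 16 6 1) (.s1 (.s0 (.leaf 179 17 16 6 1) (.leaf 189 17 16 6 1)) (.s2 (.leaf 176 17 16 6 1) (.leaf 178 17 16 6 1))))
theorem v03 : t_v03.ok 0 1 0 0 (UE1 (19, 9) D03) unitBx = true :=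
  (Tree.ok_s1 lv.2.2.2.2.2.2.2.2.2.1.1 (Tree.ok_s1 (Tree.ok_s0 lv.2.2.2.2.2.2.2.2.2.1.2.1 lv.2.2.2.2.2.2.2.2.2.1.2.2.1) (Tree.ok_s2 lv.2.2.2.2.2.2.2.2.2.1.2.2.2.1 lv.2.2.2.2.2.2.2.2.2.1.2.2.2.2)))

def t_h000 : Tree := (.s3 (.leaf 166 16 16 6 6) (.s0 (.leaf 178 16 16 6 6) (.leaf 186 16 16 6 6)))
theorem h000 : t_h000.ok 0 1 0 0 (GE 0 0 (D 0) (361, 399) (6859, 7999) (.q 81 99) p00 k00 k10) unitBx = true :=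
  (Tree.ok_s3 lv.2.2.2.2.2.2.2.2.2.2.1.1 (Tree.ok_s0 lv.2.2.2.2.2.2.2.2.2.2.1.2.1 lv.2.2.2.2.2.2.2.2.2.2.1.2.2))

def t_h001 : Tree := (.s3 (.leaf 166 16 16 6 6) (.s0 (.leaf 178 16 16 6 6) (.leaf 186 16 16 6 6)))
theorem h001 : t_h001.ok 0 1 0 0 (GE 0 0 (D 0) (361, 399) (6859, 7999) (tau1 (361, 399)) p00 k00 k10) unitBx = true :=
  (Tree.ok_s3 lv.2.2.2.2.2.2.2.2.2.2.2.1.1 (Tree.ok_s0 lv.2.2.2.2.2.2.2.2.2.2.2.1.2.1 lv.2.2.2.2.2.2.2.2.2.2.2.1.2.2))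

def t_h010 : Tree := (.s0 (.s1 (.leaf 186 16 16 6 6) (.leaf 190 16 16 6 6)) (.leaf 180 16 16 6 6))
theorem h010 : t_h010.ok 0 1 0 0 (GE 0 1 (D 0) (361, 399) (6859, 7999) (.q 81 99) p01 k01 k11) unitBx = true :=
  (Tree.ok_s0 (Tree.ok_s1 lv.2.2.2.2.2.2.2.2.2.2.2.2.1.1 lv.2.2.2.2.2.2.2.2.2.2.2.2.1.2.1) lv.2.2.2.2.2.2.2.2.2.2.2.2.1.2.2)

def t_h011 : Tree := (.s0 (.s1 (.leaf 186 16 16 6 6) (.leaf 190 16 16 6 6)) (.leaf 180 16 16 6 6))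
theorem h011 : t_h011.ok 0 1 0 0 (GE 0 1 (D 0) (361, 399) (6859, 7999) (tau1 (361, 399)) p01 k01 k11) unitBx = true :=
  (Tree.ok_s0 (Tree.ok_s1 lv.2.2.2.2.2.2.2.2.2.2.2.2.2.1.1 lv.2.2.2.2.2.2.2.2.2.2.2.2.2.1.2.1) lv.2.2.2.2.2.2.2.2.2.2.2.2.2.1.2.2)

def t_h020 : Tree := (.s0 (.s1 (.leaf 186 16 16 6 6) (.leaf 191 16 16 6 6)) (.s0 (.leaf 194 16 16 6 6) (.leaf 198 16 16 6 6)))
theorem h020 : t_h020.ok 0 1 0 0 (GE 0 2 (D 0) (361, 399) (6859, 7999) (.q 81 99) p02 k02 k12) unitBx = true :=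
  (Tree.ok_s0 (Tree.ok_s1 lv.2.2.2.2.2.2.2.2.2.2.2.2.2.2.1.1 lv.2.2.2.2.2.2.2.2.2.2.2.2.2.2.1.2.1) (Tree.ok_s0 lv.2.2.2.2.2.2.2.2.2.2.2.2.2.2.1.2.2.1 lv.2.2.2.2.2.2.2.2.2.2.2.2.2.2.1.2.2.2))

def t_h021 : Tree := (.s0 (.s1 (.leaf 186 16 16 6 6) (.leaf 191 16 16 6 6)) (.leaf 181 16 16 6 6))
theorem h021 : t_h021.ok 0 1 0 0 (GE 0 2 (D 0) (361, 399) (6859, 7999) (tau1 (361, 399)) p02 k02 k12) unitBx = true :=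
  (Tree.ok_s0 (Tree.ok_s1 lv.2.2.2.2.2.2.2.2.2.2.2.2.2.2.2.1.1 lv.2.2.2.2.2.2.2.2.2.2.2.2.2.2.2.1.2.1) lv.2.2.2.2.2.2.2.2.2.2.2.2.2.2.2.1.2.2)

def t_h030 : Tree := (.s0 (.s0 (.leaf 186 16 16 6 6) (.leaf 189 16 16 6 6)) (.s2 (.leaf 184 16 16 6 6) (.leaf 185 16 16 6 6)))
theorem h030 : t_h030.ok 0 1 0 0 (GE 0 3 (D 0) (361, 399) (6859, 7999) (.q 81 99) p03 k03 k13) unitBx = true :=
  (Tree.ok_s0 (Tree.ok_s0 lv.2.2.2.2.2.2.2.2.2.2.2.2.2.2.2.2.1.1 lv.2.2.2.2.2.2.2.2.2.2.2.2.2.2.2.2.1.2.1) (Tree.ok_s2 lv.2.2.2.2.2.2.2.2.2.2.2.2.2.2.2.2.1.2.2.1 lv.2.2.2.2.2.2.2.2.2.2.2.2.2.2.2.2.1.2.2.2))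

def t_h031 : Tree := (.s0 (.s0 (.leaf 186 16 16 6 6) (.leaf 189 16 16 6 6)) (.s2 (.leaf 184 16 16 6 6) (.leaf 185 16 16 6 6)))
theorem h031 : t_h031.ok 0 1 0 0 (GE 0 3 (D 0) (361, 399) (6859, 7999) (tau1 (361, 399)) p03 k03 k13) unitBx = true :=
  (Tree.ok_s0 (Tree.ok_s0 lv.2.2.2.2.2.2.2.2.2.2.2.2.2.2.2.2.2.1.1 lv.2.2.2.2.2.2.2.2.2.2.2.2.2.2.2.2.2.1.2.1) (Tree.ok_s2 lv.2.2.2.2.2.2.2.2.2.2.2.2.2.2.2.2.2.1.2.2.1 lv.2.2.2.2.2.2.2.2.2.2.2.2.2.2.2.2.2.1.2.2.2))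

def t_s1 : Tree := (.s2 (.s1 (.leaf 108 9 13 5 1) (.leaf 111 9 13 5 1)) (.s1 (.leaf 108 9 13 5 1) (.leaf 112 9 13 5 1)))
theorem s1 : t_s1.ok 0 1 0 0 (SEG D13 (0, 0) (sP (18, 18) (1, 18)) p10 p11 p12 p13) unitBx = true :=
  (Tree.ok_s2 (Tree.ok_s1 lv.2.2.2.2.2.2.2.2.2.2.2.2.2.2.2.2.2.2.1.1 lv.2.2.2.2.2.2.2.2.2.2.2.2.2.2.2.2.2.2.1.2.1) (Tree.ok_s1 lv.2.2.2.2.2.2.2.2.2.2.2.2.2.2.2.2.2.2.1.2.2.1 lv.2.2.2.2.2.2.2.2.2.2.2.2.2.2.2.2.2.2.1.2.2.2))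

def t_r1 : Tree := (.leaf 52 13 1 5 1)
theorem r1 : t_r1.ok 0 1 0 0 (RE D13 (0, 0)) unitBx = true :=
  lv.2.2.2.2.2.2.2.2.2.2.2.2.2.2.2.2.2.2.2.1

def t_u10 : Tree := (.s0 (.s0 (.s1 (.leaf 161 14 13 5 1) (.leaf 164 14 13 5 1)) (.leaf 153 14 13 5 1)) (.leaf 144 14 13 5 1))
theorem u10 : t_u10.ok 0 1 0 0 (UE0 (19, 19) D10) unitBx = true :=
  (Tree.ok_s0 (Tree.ok_s0 (Tree.ok_s1 lv.2.2.2.2.2.2.2.2.2.2.2.2.2.2.2.2.2.2.2.2.1.1 lv.2.2.2.2.2.2.2.2.2.2.2.2.2.2.2.2.2.2.2.2.1.2.1) lv.2.2.2.2.2.2.2.2.2.2.2.2.2.2.2.2.2.2.2.2.1.2.2.1) lv.2.2.2.2.2.2.2.2.2.2.2.2.2.2.2.2.2.2.2.2.1.2.2.2)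

def t_v10 : Tree := (.s1 (.s0 (.s0 (.leaf 149 14 13 5 1) (.leaf 154 14 13 5 1)) (.leaf 147 14 13 5 1)) (.s0 (.s0 (.leaf 153 14 13 5 1) (.leaf 159 14 13 5 1)) (.leaf 153 14 13 5 1)))
theorem v10 : t_v10.ok 0 1 0 0 (UE1 (19, 9) D10) unitBx = true :=
  (Tree.ok_s1 (Tree.ok_s0 (Tree.ok_s0 lv.2.2.2.2.2.2.2.2.2.2.2.2.2.2.2.2.2.2.2.2.2.1.1 lv.2.2.2.2.2.2.2.2.2.2.2.2.2.2.2.2.2.2.2.2.2.1.2.1) lv.2.2.2.2.2.2.2.2.2.2.2.2.2.2.2.2.2.2.2.2.2.1.2.2.1) (Tree.ok_s0 (Tree.ok_s0 lv.2.2.2.2.2.2.2.2.2.2.2.2.2.2.2.2.2.2.2.2.2.1.2.2.2.1 lv.2.2.2.2.2.2.2.2.2.2.2.2.2.2.2.2.2.2.2.2.2.1.2.2.2.2.1) lv.2.2.2.2.2.2.2.2.2.2.2.2.2.2.2.2.2.2.2.2.2.1.2.2.2.2.2))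

def t_u11 : Tree := (.s1 (.s0 (.s0 (.leaf 161 14 13 5 1) (.leaf 163 14 13 5 1)) (.leaf 154 14 13 5 1)) (.leaf 143 14 13 5 1))
theorem u11 : t_u11.ok 0 1 0 0 (UE0 (19, 19) D11) unitBx = true :=
  (Tree.ok_s1 (Tree.ok_s0 (Tree.ok_s0 lv.2.2.2.2.2.2.2.2.2.2.2.2.2.2.2.2.2.2.2.2.2.2.1.1 lv.2.2.2.2.2.2.2.2.2.2.2.2.2.2.2.2.2.2.2.2.2.2.1.2.1) lv.2.2.2.2.2.2.2.2.2.2.2.2.2.2.2.2.2.2.2.2.2.2.1.2.2.1) lv.2.2.2.2.2.2.2.2.2.2.2.2.2.2.2.2.2.2.2.2.2.2.1.2.2.2)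

def t_v11 : Tree := (.s1 (.s0 (.s0 (.leaf 149 14 13 5 1) (.leaf 154 14 13 5 1)) (.leaf 148 14 13 5 1)) (.s0 (.s0 (.leaf 153 14 13 5 1) (.leaf 159 14 13 5 1)) (.leaf 153 14 13 5 1)))
theorem v11 : t_v11.ok 0 1 0 0 (UE1 (19, 9) D11) unitBx = true :=
  (Tree.ok_s1 (Tree.ok_s0 (Tree.ok_s0 lv.2.2.2.2.2.2.2.2.2.2.2.2.2.2.2.2.2.2.2.2.2.2.2.1.1 lv.2.2.2.2.2.2.2.2.2.2.2.2.2.2.2.2.2.2.2.2.2.2.2.1.2.1) lv.2.2.2.2.2.2.2.2.2.2.2.2.2.2.2.2.2.2.2.2.2.2.2.1.2.2.1) (Tree.ok_s0 (Tree.ok_s0 lv.2.2.2.2.2.2.2.2.2.2.2.2.2.2.2.2.2.2.2.2.2.2.2.1.2.2.2.1 lv.2.2.2.2.2.2.2.2.2.2.2.2.2.2.2.2.2.2.2.2.2.2.2.1.2.2.2.2.1) lv.2.2.2.2.2.2.2.2.2.2.2.2.2.2.2.2.2.2.2.2.2.2.2.1.2.2.2.2.2))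

def t_u12 : Tree := (.s1 (.s0 (.leaf 149 14 13 5 1) (.leaf 154 14 13 5 1)) (.leaf 143 14 13 5 1))
theorem u12 : t_u12.ok 0 1 0 0 (UE0 (19, 19) D12) unitBx = true :=
  (Tree.ok_s1 (Tree.ok_s0 lv.2.2.2.2.2.2.2.2.2.2.2.2.2.2.2.2.2.2.2.2.2.2.2.2.1.1 lv.2.2.2.2.2.2.2.2.2.2.2.2.2.2.2.2.2.2.2.2.2.2.2.2.1.2.1) lv.2.2.2.2.2.2.2.2.2.2.2.2.2.2.2.2.2.2.2.2.2.2.2.2.1.2.2)

def t_v12 : Tree := (.s1 (.s0 (.s0 (.leaf 149 14 13 5 1) (.leaf 154 14 13 5 1)) (.leaf 147 14 13 5 1)) (.s0 (.s0 (.leaf 153 14 13 5 1) (.leaf 159 14 13 5 1)) (.leaf 153 14 13 5 1)))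
theorem v12 : t_v12.ok 0 1 0 0 (UE1 (19, 9) D12) unitBx = true :=
  (Tree.ok_s1 (Tree.ok_s0 (Tree.ok_s0 lv.2.2.2.2.2.2.2.2.2.2.2.2.2.2.2.2.2.2.2.2.2.2.2.2.2.1.1 lv.2.2.2.2.2.2.2.2.2.2.2.2.2.2.2.2.2.2.2.2.2.2.2.2.2.1.2.1) lv.2.2.2.2.2.2.2.2.2.2.2.2.2.2.2.2.2.2.2.2.2.2.2.2.2.1.2.2.1) (Tree.ok_s0 (Tree.ok_s0 lv.2.2.2.2.2.2.2.2.2.2.2.2.2.2.2.2.2.2.2.2.2.2.2.2.2.1.2.2.2.1 lv.2.2.2.2.2.2.2.2.2.2.2.2.2.2.2.2.2.2.2.2.2.2.2.2.2.1.2.2.2.2.1) lv.2.2.2.2.2.2.2.2.2.2.2.2.2.2.2.2.2.2.2.2.2.2.2.2.2.1.2.2.2.2.2))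

def t_u13 : Tree := (.s1 (.s0 (.s0 (.leaf 161 14 13 5 1) (.leaf 163 14 13 5 1)) (.leaf 154 14 13 5 1)) (.leaf 143 14 13 5 1))
theorem u13 : t_u13.ok 0 1 0 0 (UE0 (19, 19) D13) unitBx = true :=
  (Tree.ok_s1 (Tree.ok_s0 (Tree.ok_s0 lv.2.2.2.2.2.2.2.2.2.2.2.2.2.2.2.2.2.2.2.2.2.2.2.2.2.2.1.1 lv.2.2.2.2.2.2.2.2.2.2.2.2.2.2.2.2.2.2.2.2.2.2.2.2.2.2.1.2.1) lv.2.2.2.2.2.2.2.2.2.2.2.2.2.2.2.2.2.2.2.2.2.2.2.2.2.2.1.2.2.1) lv.2.2.2.2.2.2.2.2.2.2.2.2.2.2.2.2.2.2.2.2.2.2.2.2.2.2.1.2.2.2)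

def t_v13 : Tree := (.s1 (.s0 (.s0 (.leaf 149 14 13 5 1) (.leaf 154 14 13 5 1)) (.leaf 148 14 13 5 1)) (.s0 (.s0 (.leaf 153 14 13 5 1) (.leaf 159 14 13 5 1)) (.leaf 153 14 13 5 1)))
theorem v13 : t_v13.ok 0 1 0 0 (UE1 (19, 9) D13) unitBx = true :=
  (Tree.ok_s1 (Tree.ok_s0 (Tree.ok_s0 lv.2.2.2.2.2.2.2.2.2.2.2.2.2.2.2.2.2.2.2.2.2.2.2.2.2.2.2.1.1 lv.2.2.2.2.2.2.2.2.2.2.2.2.2.2.2.2.2.2.2.2.2.2.2.2.2.2.2.1.2.1) lv.2.2.2.2.2.2.2.2.2.2.2.2.2.2.2.2.2.2.2.2.2.2.2.2.2.2.2.1.2.2.1) (Tree.ok_s0 (Tree.ok_s0 lv.2.2.2.2.2.2.2.2.2.2.2.2.2.2.2.2.2.2.2.2.2.2.2.2.2.2.2.1.2.2.2.1 lv.2.2.2.2.2.2.2.2.2.2.2.2.2.2.2.2.2.2.2.2.2.2.2.2.2.2.2.1.2.2.2.2.1) lv.2.2.2.2.2.2.2.2.2.2.2.2.2.2.2.2.2.2.2.2.2.2.2.2.2.2.2.1.2.2.2.2.2))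

def t_h100 : Tree := (.s1 (.s0 (.leaf 170 14 14 6 6) (.leaf 174 14 14 6 6)) (.leaf 164 14 14 6 6))
theorem h100 : t_h100.ok 0 1 0 0 (GE 1 0 (D 1) (361, 399) (6859, 7999) (.q 81 99) p10 k00 k10) unitBx = true :=
  (Tree.ok_s1 (Tree.ok_s0 lv.2.2.2.2.2.2.2.2.2.2.2.2.2.2.2.2.2.2.2.2.2.2.2.2.2.2.2.2.1.1 lv.2.2.2.2.2.2.2.2.2.2.2.2.2.2.2.2.2.2.2.2.2.2.2.2.2.2.2.2.1.2.1) lv.2.2.2.2.2.2.2.2.2.2.2.2.2.2.2.2.2.2.2.2.2.2.2.2.2.2.2.2.1.2.2)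

def t_h101 : Tree := (.s1 (.s0 (.leaf 170 14 14 6 6) (.leaf 174 14 14 6 6)) (.leaf 164 14 14 6 6))
theorem h101 : t_h101.ok 0 1 0 0 (GE 1 0 (D 1) (361, 399) (6859, 7999) (tau1 (361, 399)) p10 k00 k10) unitBx = true :=
  (Tree.ok_s1 (Tree.ok_s0 lv.2.2.2.2.2.2.2.2.2.2.2.2.2.2.2.2.2.2.2.2.2.2.2.2.2.2.2.2.2.1.1 lv.2.2.2.2.2.2.2.2.2.2.2.2.2.2.2.2.2.2.2.2.2.2.2.2.2.2.2.2.2.1.2.1) lv.2.2.2.2.2.2.2.2.2.2.2.2.2.2.2.2.2.2.2.2.2.2.2.2.2.2.2.2.2.1.2.2)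

def t_h110 : Tree := (.s1 (.s0 (.leaf 170 14 14 6 6) (.leaf 174 14 14 6 6)) (.s1 (.leaf 175 14 14 6 6) (.leaf 179 14 14 6 6)))
theorem h110 : t_h110.ok 0 1 0 0 (GE 1 1 (D 1) (361, 399) (6859, 7999) (.q 81 99) p11 k01 k11) unitBx = true :=
  (Tree.ok_s1 (Tree.ok_s0 lv.2.2.2.2.2.2.2.2.2.2.2.2.2.2.2.2.2.2.2.2.2.2.2.2.2.2.2.2.2.2.1.1 lv.2.2.2.2.2.2.2.2.2.2.2.2.2.2.2.2.2.2.2.2.2.2.2.2.2.2.2.2.2.2.1.2.1) (Tree.ok_s1 lv.2.2.2.2.2.2.2.2.2.2.2.2.2.2.2.2.2.2.2.2.2.2.2.2.2.2.2.2.2.2.1.2.2.1 lv.2.2.2.2.2.2.2.2.2.2.2.2.2.2.2.2.2.2.2.2.2.2.2.2.2.2.2.2.2.2.1.2.2.2))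

def t_h111 : Tree := (.s1 (.s0 (.leaf 170 14 14 6 6) (.leaf 174 14 14 6 6)) (.s1 (.leaf 175 14 14 6 6) (.leaf 179 14 14 6 6)))
theorem h111 : t_h111.ok 0 1 0 0 (GE 1 1 (D 1) (361, 399) (6859, 7999) (tau1 (361, 399)) p11 k01 k11) unitBx = true :=
  (Tree.ok_s1 (Tree.ok_s0 lv.2.2.2.2.2.2.2.2.2.2.2.2.2.2.2.2.2.2.2.2.2.2.2.2.2.2.2.2.2.2.2.1.1 lv.2.2.2.2.2.2.2.2.2.2.2.2.2.2.2.2.2.2.2.2.2.2.2.2.2.2.2.2.2.2.2.1.2.1) (Tree.ok_s1 lv.2.2.2.2.2.2.2.2.2.2.2.2.2.2.2.2.2.2.2.2.2.2.2.2.2.2.2.2.2.2.2.1.2.2.1 lv.2.2.2.2.2.2.2.2.2.2.2.2.2.2.2.2.2.2.2.2.2.2.2.2.2.2.2.2.2.2.2.1.2.2.2))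

def t_h120 : Tree := (.s1 (.s0 (.leaf 170 14 14 6 6) (.leaf 174 14 14 6 6)) (.leaf 164 14 14 6 6))
theorem h120 : t_h120.ok 0 1 0 0 (GE 1 2 (D 1) (361, 399) (6859, 7999) (.q 81 99) p12 k02 k12) unitBx = true :=
  (Tree.ok_s1 (Tree.ok_s0 lv.2.2.2.2.2.2.2.2.2.2.2.2.2.2.2.2.2.2.2.2.2.2.2.2.2.2.2.2.2.2.2.2.1.1 lv.2.2.2.2.2.2.2.2.2.2.2.2.2.2.2.2.2.2.2.2.2.2.2.2.2.2.2.2.2.2.2.2.1.2.1) lv.2.2.2.2.2.2.2.2.2.2.2.2.2.2.2.2.2.2.2.2.2.2.2.2.2.2.2.2.2.2.2.2.1.2.2)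

def t_h121 : Tree := (.s1 (.s0 (.leaf 170 14 14 6 6) (.leaf 174 14 14 6 6)) (.leaf 164 14 14 6 6))
theorem h121 : t_h121.ok 0 1 0 0 (GE 1 2 (D 1) (361, 399) (6859, 7999) (tau1 (361, 399)) p12 k02 k12) unitBx = true :=
  (Tree.ok_s1 (Tree.ok_s0 lv.2.2.2.2.2.2.2.2.2.2.2.2.2.2.2.2.2.2.2.2.2.2.2.2.2.2.2.2.2.2.2.2.2.1.1 lv.2.2.2.2.2.2.2.2.2.2.2.2.2.2.2.2.2.2.2.2.2.2.2.2.2.2.2.2.2.2.2.2.2.1.2.1) lv.2.2.2.2.2.2.2.2.2.2.2.2.2.2.2.2.2.2.2.2.2.2.2.2.2.2.2.2.2.2.2.2.2.1.2.2)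

def t_h130 : Tree := (.s2 (.s1 (.leaf 163 14 14 6 6) (.leaf 169 14 14 6 6)) (.s1 (.leaf 164 14 14 6 6) (.leaf 170 14 14 6 6)))
theorem h130 : t_h130.ok 0 1 0 0 (GE 1 3 (D 1) (361, 399) (6859, 7999) (.q 81 99) p13 k03 k13) unitBx = true :=
  (Tree.ok_s2 (Tree.ok_s1 lv.2.2.2.2.2.2.2.2.2.2.2.2.2.2.2.2.2.2.2.2.2.2.2.2.2.2.2.2.2.2.2.2.2.2.1.1 lv.2.2.2.2.2.2.2.2.2.2.2.2.2.2.2.2.2.2.2.2.2.2.2.2.2.2.2.2.2.2.2.2.2.2.1.2.1) (Tree.ok_s1 lv.2.2.2.2.2.2.2.2.2.2.2.2.2.2.2.2.2.2.2.2.2.2.2.2.2.2.2.2.2.2.2.2.2.2.1.2.2.1 lv.2.2.2.2.2.2.2.2.2.2.2.2.2.2.2.2.2.2.2.2.2.2.2.2.2.2.2.2.2.2.2.2.2.2.1.2.2.2))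

def t_h131 : Tree := (.s2 (.s1 (.leaf 163 14 14 6 6) (.leaf 169 14 14 6 6)) (.s1 (.leaf 164 14 14 6 6) (.leaf 170 14 14 6 6)))
theorem h131 : t_h131.ok 0 1 0 0 (GE 1 3 (D 1) (361, 399) (6859, 7999) (tau1 (361, 399)) p13 k03 k13) unitBx = true :=
  (Tree.ok_s2 (Tree.ok_s1 lv.2.2.2.2.2.2.2.2.2.2.2.2.2.2.2.2.2.2.2.2.2.2.2.2.2.2.2.2.2.2.2.2.2.2.2.1.1 lv.2.2.2.2.2.2.2.2.2.2.2.2.2.2.2.2.2.2.2.2.2.2.2.2.2.2.2.2.2.2.2.2.2.2.2.1.2.1) (Tree.ok_s1 lv.2.2.2.2.2.2.2.2.2.2.2.2.2.2.2.2.2.2.2.2.2.2.2.2.2.2.2.2.2.2.2.2.2.2.2.1.2.2.1 lv.2.2.2.2.2.2.2.2.2.2.2.2.2.2.2.2.2.2.2.2.2.2.2.2.2.2.2.2.2.2.2.2.2.2.2.1.2.2.2))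

def t_s2 : Tree := (.s2 (.leaf 92 9 10 5 1) (.leaf 92 9 10 5 1))
theorem s2 : t_s2.ok 0 1 0 0 (SEG D23 (-198266, 8191) (sP (18, 18) (1, 18)) p20 p21 p22 p23) unitBx = true :=
  (Tree.ok_s2 lv.2.2.2.2.2.2.2.2.2.2.2.2.2.2.2.2.2.2.2.2.2.2.2.2.2.2.2.2.2.2.2.2.2.2.2.2.1.1 lv.2.2.2.2.2.2.2.2.2.2.2.2.2.2.2.2.2.2.2.2.2.2.2.2.2.2.2.2.2.2.2.2.2.2.2.2.1.2)

def t_r2 : Tree := (.leaf 44 10 1 4 1)
theorem r2 : t_r2.ok 0 1 0 0 (RE D23 (-198266, 8191)) unitBx = true :=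
  lv.2.2.2.2.2.2.2.2.2.2.2.2.2.2.2.2.2.2.2.2.2.2.2.2.2.2.2.2.2.2.2.2.2.2.2.2.2.1

def t_u20 : Tree := (.leaf 122 14 10 4 1)
theorem u20 : t_u20.ok 0 1 0 0 (UE0 (19, 19) D20) unitBx = true :=
  lv.2.2.2.2.2.2.2.2.2.2.2.2.2.2.2.2.2.2.2.2.2.2.2.2.2.2.2.2.2.2.2.2.2.2.2.2.2.2.1

def t_v20 : Tree := (.s1 (.leaf 120 14 10 4 1) (.s1 (.leaf 133 14 10 4 1) (.leaf 136 14 10 4 1)))
theorem v20 : t_v20.ok 0 1 0 0 (UE1 (19, 9) D20) unitBx = true :=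
  (Tree.ok_s1 lv.2.2.2.2.2.2.2.2.2.2.2.2.2.2.2.2.2.2.2.2.2.2.2.2.2.2.2.2.2.2.2.2.2.2.2.2.2.2.2.1.1 (Tree.ok_s1 lv.2.2.2.2.2.2.2.2.2.2.2.2.2.2.2.2.2.2.2.2.2.2.2.2.2.2.2.2.2.2.2.2.2.2.2.2.2.2.2.1.2.1 lv.2.2.2.2.2.2.2.2.2.2.2.2.2.2.2.2.2.2.2.2.2.2.2.2.2.2.2.2.2.2.2.2.2.2.2.2.2.2.2.1.2.2))

def t_u21 : Tree := (.leaf 121 14 10 4 1)
theorem u21 : t_u21.ok 0 1 0 0 (UE0 (19, 19) D21) unitBx = true :=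
  lv.2.2.2.2.2.2.2.2.2.2.2.2.2.2.2.2.2.2.2.2.2.2.2.2.2.2.2.2.2.2.2.2.2.2.2.2.2.2.2.2.1

def t_v21 : Tree := (.leaf 113 14 10 4 1)
theorem v21 : t_v21.ok 0 1 0 0 (UE1 (19, 9) D21) unitBx = true :=
  lv.2.2.2.2.2.2.2.2.2.2.2.2.2.2.2.2.2.2.2.2.2.2.2.2.2.2.2.2.2.2.2.2.2.2.2.2.2.2.2.2.2.1

def t_u22 : Tree := (.leaf 121 14 10 4 1)
theorem u22 : t_u22.ok 0 1 0 0 (UE0 (19, 19) D22) unitBx = true :=
  lv.2.2.2.2.2.2.2.2.2.2.2.2.2.2.2.2.2.2.2.2.2.2.2.2.2.2.2.2.2.2.2.2.2.2.2.2.2.2.2.2.2.2.1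

def t_v22 : Tree := (.s1 (.leaf 120 14 10 4 1) (.s0 (.leaf 132 14 10 4 1) (.leaf 143 14 10 4 1)))
theorem v22 : t_v22.ok 0 1 0 0 (UE1 (19, 9) D22) unitBx = true :=
  (Tree.ok_s1 lv.2.2.2.2.2.2.2.2.2.2.2.2.2.2.2.2.2.2.2.2.2.2.2.2.2.2.2.2.2.2.2.2.2.2.2.2.2.2.2.2.2.2.2.1.1 (Tree.ok_s0 lv.2.2.2.2.2.2.2.2.2.2.2.2.2.2.2.2.2.2.2.2.2.2.2.2.2.2.2.2.2.2.2.2.2.2.2.2.2.2.2.2.2.2.2.1.2.1 lv.2.2.2.2.2.2.2.2.2.2.2.2.2.2.2.2.2.2.2.2.2.2.2.2.2.2.2.2.2.2.2.2.2.2.2.2.2.2.2.2.2.2.2.1.2.2))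

def t_u23 : Tree := (.s0 (.s1 (.s0 (.leaf 150 14 10 4 1) (.leaf 152 14 10 4 1)) (.leaf 141 14 10 4 1)) (.leaf 136 14 10 4 1))
theorem u23 : t_u23.ok 0 1 0 0 (UE0 (19, 19) D23) unitBx = true :=
  (Tree.ok_s0 (Tree.ok_s1 (Tree.ok_s0 lv.2.2.2.2.2.2.2.2.2.2.2.2.2.2.2.2.2.2.2.2.2.2.2.2.2.2.2.2.2.2.2.2.2.2.2.2.2.2.2.2.2.2.2.2.1.1 lv.2.2.2.2.2.2.2.2.2.2.2.2.2.2.2.2.2.2.2.2.2.2.2.2.2.2.2.2.2.2.2.2.2.2.2.2.2.2.2.2.2.2.2.2.1.2.1) lv.2.2.2.2.2.2.2.2.2.2.2.2.2.2.2.2.2.2.2.2.2.2.2.2.2.2.2.2.2.2.2.2.2.2.2.2.2.2.2.2.2.2.2.2.1.2.2.1) lv.2.2.2.2.2.2.2.2.2.2.2.2.2.2.2.2.2.2.2.2.2.2.2.2.2.2.2.2.2.2.2.2.2.2.2.2.2.2.2.2.2.2.2.2.1.2.2.2)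

def t_v23 : Tree := (.s1 (.leaf 120 14 10 4 1) (.s0 (.leaf 132 14 10 4 1) (.leaf 142 14 10 4 1)))
theorem v23 : t_v23.ok 0 1 0 0 (UE1 (19, 9) D23) unitBx = true :=
  (Tree.ok_s1 lv.2.2.2.2.2.2.2.2.2.2.2.2.2.2.2.2.2.2.2.2.2.2.2.2.2.2.2.2.2.2.2.2.2.2.2.2.2.2.2.2.2.2.2.2.2.1.1 (Tree.ok_s0 lv.2.2.2.2.2.2.2.2.2.2.2.2.2.2.2.2.2.2.2.2.2.2.2.2.2.2.2.2.2.2.2.2.2.2.2.2.2.2.2.2.2.2.2.2.2.1.2.1 lv.2.2.2.2.2.2.2.2.2.2.2.2.2.2.2.2.2.2.2.2.2.2.2.2.2.2.2.2.2.2.2.2.2.2.2.2.2.2.2.2.2.2.2.2.2.1.2.2))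

def t_h200 : Tree := (.s0 (.s1 (.leaf 170 14 14 6 6) (.leaf 173 14 14 6 6)) (.leaf 164 14 14 6 6))
theorem h200 : t_h200.ok 0 1 0 0 (GE 2 0 (D 2) (361, 399) (6859, 7999) (.q 81 99) p20 k00 k10) unitBx = true :=
  (Tree.ok_s0 (Tree.ok_s1 lv.2.2.2.2.2.2.2.2.2.2.2.2.2.2.2.2.2.2.2.2.2.2.2.2.2.2.2.2.2.2.2.2.2.2.2.2.2.2.2.2.2.2.2.2.2.2.1.1 lv.2.2.2.2.2.2.2.2.2.2.2.2.2.2.2.2.2.2.2.2.2.2.2.2.2.2.2.2.2.2.2.2.2.2.2.2.2.2.2.2.2.2.2.2.2.2.1.2.1) lv.2.2.2.2.2.2.2.2.2.2.2.2.2.2.2.2.2.2.2.2.2.2.2.2.2.2.2.2.2.2.2.2.2.2.2.2.2.2.2.2.2.2.2.2.2.2.1.2.2)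

def t_h201 : Tree := (.s0 (.s1 (.leaf 170 14 14 6 6) (.leaf 173 14 14 6 6)) (.leaf 164 14 14 6 6))
theorem h201 : t_h201.ok 0 1 0 0 (GE 2 0 (D 2) (361, 399) (6859, 7999) (tau1 (361, 399)) p20 k00 k10) unitBx = true :=
  (Tree.ok_s0 (Tree.ok_s1 lv.2.2.2.2.2.2.2.2.2.2.2.2.2.2.2.2.2.2.2.2.2.2.2.2.2.2.2.2.2.2.2.2.2.2.2.2.2.2.2.2.2.2.2.2.2.2.2.1.1 lv.2.2.2.2.2.2.2.2.2.2.2.2.2.2.2.2.2.2.2.2.2.2.2.2.2.2.2.2.2.2.2.2.2.2.2.2.2.2.2.2.2.2.2.2.2.2.2.1.2.1) lv.2.2.2.2.2.2.2.2.2.2.2.2.2.2.2.2.2.2.2.2.2.2.2.2.2.2.2.2.2.2.2.2.2.2.2.2.2.2.2.2.2.2.2.2.2.2.2.1.2.2)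

def t_h210 : Tree := (.s0 (.leaf 157 14 14 6 6) (.leaf 164 14 14 6 6))
theorem h210 : t_h210.ok 0 1 0 0 (GE 2 1 (D 2) (361, 399) (6859, 7999) (.q 81 99) p21 k01 k11) unitBx = true :=
  (Tree.ok_s0 lv.2.2.2.2.2.2.2.2.2.2.2.2.2.2.2.2.2.2.2.2.2.2.2.2.2.2.2.2.2.2.2.2.2.2.2.2.2.2.2.2.2.2.2.2.2.2.2.2.1.1 lv.2.2.2.2.2.2.2.2.2.2.2.2.2.2.2.2.2.2.2.2.2.2.2.2.2.2.2.2.2.2.2.2.2.2.2.2.2.2.2.2.2.2.2.2.2.2.2.2.1.2)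

def t_h211 : Tree := (.s0 (.leaf 157 14 14 6 6) (.leaf 164 14 14 6 6))
theorem h211 : t_h211.ok 0 1 0 0 (GE 2 1 (D 2) (361, 399) (6859, 7999) (tau1 (361, 399)) p21 k01 k11) unitBx = true :=
  (Tree.ok_s0 lv.2.2.2.2.2.2.2.2.2.2.2.2.2.2.2.2.2.2.2.2.2.2.2.2.2.2.2.2.2.2.2.2.2.2.2.2.2.2.2.2.2.2.2.2.2.2.2.2.2.1.1 lv.2.2.2.2.2.2.2.2.2.2.2.2.2.2.2.2.2.2.2.2.2.2.2.2.2.2.2.2.2.2.2.2.2.2.2.2.2.2.2.2.2.2.2.2.2.2.2.2.2.1.2)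

def t_h220 : Tree := (.s0 (.s1 (.leaf 169 14 14 6 6) (.leaf 172 14 14 6 6)) (.leaf 164 14 14 6 6))
theorem h220 : t_h220.ok 0 1 0 0 (GE 2 2 (D 2) (361, 399) (6859, 7999) (.q 81 99) p22 k02 k12) unitBx = true :=
  (Tree.ok_s0 (Tree.ok_s1 lv.2.2.2.2.2.2.2.2.2.2.2.2.2.2.2.2.2.2.2.2.2.2.2.2.2.2.2.2.2.2.2.2.2.2.2.2.2.2.2.2.2.2.2.2.2.2.2.2.2.2.1.1 lv.2.2.2.2.2.2.2.2.2.2.2.2.2.2.2.2.2.2.2.2.2.2.2.2.2.2.2.2.2.2.2.2.2.2.2.2.2.2.2.2.2.2.2.2.2.2.2.2.2.2.1.2.1) lv.2.2.2.2.2.2.2.2.2.2.2.2.2.2.2.2.2.2.2.2.2.2.2.2.2.2.2.2.2.2.2.2.2.2.2.2.2.2.2.2.2.2.2.2.2.2.2.2.2.2.1.2.2)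

def t_h221 : Tree := (.s0 (.s0 (.leaf 169 14 14 6 6) (.leaf 171 14 14 6 6)) (.leaf 164 14 14 6 6))
theorem h221 : t_h221.ok 0 1 0 0 (GE 2 2 (D 2) (361, 399) (6859, 7999) (tau1 (361, 399)) p22 k02 k12) unitBx = true :=
  (Tree.ok_s0 (Tree.ok_s0 lv.2.2.2.2.2.2.2.2.2.2.2.2.2.2.2.2.2.2.2.2.2.2.2.2.2.2.2.2.2.2.2.2.2.2.2.2.2.2.2.2.2.2.2.2.2.2.2.2.2.2.2.1.1 lv.2.2.2.2.2.2.2.2.2.2.2.2.2.2.2.2.2.2.2.2.2.2.2.2.2.2.2.2.2.2.2.2.2.2.2.2.2.2.2.2.2.2.2.2.2.2.2.2.2.2.2.1.2.1) lv.2.2.2.2.2.2.2.2.2.2.2.2.2.2.2.2.2.2.2.2.2.2.2.2.2.2.2.2.2.2.2.2.2.2.2.2.2.2.2.2.2.2.2.2.2.2.2.2.2.2.2.1.2.2)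

def t_h230 : Tree := (.s0 (.s1 (.leaf 169 14 14 6 6) (.leaf 172 14 14 6 6)) (.leaf 164 14 14 6 6))
theorem h230 : t_h230.ok 0 1 0 0 (GE 2 3 (D 2) (361, 399) (6859, 7999) (.q 81 99) p23 k03 k13) unitBx = true :=
  (Tree.ok_s0 (Tree.ok_s1 lv.2.2.2.2.2.2.2.2.2.2.2.2.2.2.2.2.2.2.2.2.2.2.2.2.2.2.2.2.2.2.2.2.2.2.2.2.2.2.2.2.2.2.2.2.2.2.2.2.2.2.2.2.1.1 lv.2.2.2.2.2.2.2.2.2.2.2.2.2.2.2.2.2.2.2.2.2.2.2.2.2.2.2.2.2.2.2.2.2.2.2.2.2.2.2.2.2.2.2.2.2.2.2.2.2.2.2.2.1.2.1) lv.2.2.2.2.2.2.2.2.2.2.2.2.2.2.2.2.2.2.2.2.2.2.2.2.2.2.2.2.2.2.2.2.2.2.2.2.2.2.2.2.2.2.2.2.2.2.2.2.2.2.2.2.1.2.2)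

def t_h231 : Tree := (.s0 (.s0 (.leaf 169 14 14 6 6) (.leaf 171 14 14 6 6)) (.leaf 164 14 14 6 6))
theorem h231 : t_h231.ok 0 1 0 0 (GE 2 3 (D 2) (361, 399) (6859, 7999) (tau1 (361, 399)) p23 k03 k13) unitBx = true :=
  (Tree.ok_s0 (Tree.ok_s0 lv.2.2.2.2.2.2.2.2.2.2.2.2.2.2.2.2.2.2.2.2.2.2.2.2.2.2.2.2.2.2.2.2.2.2.2.2.2.2.2.2.2.2.2.2.2.2.2.2.2.2.2.2.2.1 lv.2.2.2.2.2.2.2.2.2.2.2.2.2.2.2.2.2.2.2.2.2.2.2.2.2.2.2.2.2.2.2.2.2.2.2.2.2.2.2.2.2.2.2.2.2.2.2.2.2.2.2.2.2.2.1) lv.2.2.2.2.2.2.2.2.2.2.2.2.2.2.2.2.2.2.2.2.2.2.2.2.2.2.2.2.2.2.2.2.2.2.2.2.2.2.2.2.2.2.2.2.2.2.2.2.2.2.2.2.2.2.2)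

/-! The certified family. -/

theorem cert : PoisCert (95 / 100) D psi hh (361, 399) (6859, 7999) (19, 19) (19, 9) (8, 8191) (18, 18) (1, 18)
    (.q 81 99) w2 where
  hl0 := by norm_num
  hl1 := by norm_num
  hne := by norm_num
  e2 := by norm_num [cv]
  e3 := by norm_num [cv]
  hδ := by norm_num [cv]
  hta := by norm_num [cv]
  htb := by norm_num [cv]
  htb0 := by norm_num [cv]
  r1 := by norm_num [cv]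
  r2 := by norm_num [cv]
  r3 := by norm_num [cv]
  r4 := by norm_num [cv]
  hc := by norm_num [cv]
  hc' := by norm_num [cv]
  htau := by
    intro s ρ a b e h0 h1 h2 h3 h4
    simp only [PE.real_q, cv] at h0 ⊢
    push_cast at h0 ⊢
    nlinarith [mul_self_le_mul_self (by norm_num) h0]
  hU0 := by
    intro j k hj hk
    interval_cases j <;> interval_cases k
    exacts [box_zero _ _ u00, box_zero _ _ u01, box_zero _ _ u02, box_zero _ _ u03, box_zero _ _ u10, box_zero _ _ u11, box_zero _ _ u12, box_zero _ _ u13, box_zero _ _ u20, box_zero _ _ u21, box_zero _ _ u22, box_zero _ _ u23]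
  hU1 := by
    intro j k hj hk
    interval_cases j <;> interval_cases k
    exacts [box_zero _ _ v00, box_zero _ _ v01, box_zero _ _ v02, box_zero _ _ v03, box_zero _ _ v10, box_zero _ _ v11, box_zero _ _ v12, box_zero _ _ v13, box_zero _ _ v20, box_zero _ _ v21, box_zero _ _ v22, box_zero _ _ v23]
  hH0 := by
    intro j k hj hk
    interval_cases j <;> interval_cases k
    exacts [box_zero _ _ h000, box_zero _ _ h010, box_zero _ _ h020, box_zero _ _ h030, box_zero _ _ h100, box_zero _ _ h110, box_zero _ _ h120, box_zero _ _ h130, box_zero _ _ h200, box_zero _ _ h210, box_zero _ _ h220, box_zero _ _ h230]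
  hH1 := by
    intro j k hj hk
    interval_cases j <;> interval_cases k
    exacts [box_zero _ _ h001, box_zero _ _ h011, box_zero _ _ h021, box_zero _ _ h031, box_zero _ _ h101, box_zero _ _ h111, box_zero _ _ h121, box_zero _ _ h131, box_zero _ _ h201, box_zero _ _ h211, box_zero _ _ h221, box_zero _ _ h231]
  hS := by
    intro j hj
    interval_cases j
    exacts [box_zero _ _ s0, box_zero _ _ s1, box_zero _ _ s2]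
  hR := by
    intro j hj
    interval_cases j
    exacts [box_zero _ _ r0, box_zero _ _ r1, box_zero _ _ r2]
  hw2 := by
    intro j hj
    interval_cases j <;> norm_num [gR, wR, hr, cv, D, D00, D10, D20, w2]
  hψ0 := by
    intro j k hj hk
    interval_cases j <;> interval_cases k <;> simp [h2R, hr, psi, cv, p00, p01, p02, p03, p10, p11, p12, p13, p20, p21, p22, p23]

end Vale.Agent.P154.Q95
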