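import Vale.Agent.P154.Pois

/-! Data of a family of potentials for the Poisson tree. -/

namespace Vale.Agent.P154.Q97

def D00 : NP where
  A := [(1741, 8191), (-3578, 8191), (1960, 8191), (-168, 8191), (63, 8191), (-18, 8191)]
  B := [(23112, 8191), (6698, 8191), (-30, 8191), (-50, 8191)]
  E := [(7876, 8191)]
  a0 := [(32729, 8191), (3120, 8191), (1930, 8191), (-218, 8191), (63, 8191), (-18, 8191)]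
  a1 := [(32729, 8191), (-6240, 8191), (-9650, 8191), (1744, 8191), (-693, 8191), (252, 8191)]
  a2 := [(79, 8191), (-41615, 8191), (33135, 8191), (14210, 8191)]
  a3 := [(166, 8191), (19387, 8191), (-19000, 8191), (-59035, 8191)]
  a4 := [(176, 8191), (2060, 8191), (21200, 8191), (41767, 8191)]
  b0 := [(-38864, 8191), (-6698, 8191), (30, 8191), (50, 8191)]
  b1 := [(38864, 8191), (26792, 8191), (-210, 8191), (-500, 8191)]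
  b2 := [(-12489, 8191), (10041, 8191), (-36541, 8191)]
  b3 := [(32737, 8191), (-77724, 8191), (105297, 8191)]
  b4 := [(-17285, 8191), (29221, 8191), (-48536, 8191)]
  g0 := [(7876, 8191)]
  g1 := [(-23628, 8191)]
  g2 := [(11956, 8191), (1509, 8191)]

def D01 : NP where
  A := [(1743, 8191), (-3589, 8191), (1977, 8191), (-160, 8191), (30, 8191), (-1, 8191)]
  B := [(23096, 8191), (6741, 8191), (-123, 8191), (16, 8191)]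
  E := [(7889, 8191)]
  a0 := [(32728, 8191), (3152, 8191), (1854, 8191), (-144, 8191), (30, 8191), (-1, 8191)]
  a1 := [(32728, 8191), (-6304, 8191), (-9270, 8191), (1152, 8191), (-330, 8191), (14, 8191)]
  a2 := [(218, 8191), (-28441, 8191), (103750, 8191), (27750, 8191)]
  a3 := [(979, 8191), (77735, 8191), (61826, 8191), (31639, 8191)]
  a4 := [(1260, 8191), (21019, 8191), (88729, 8191), (119440, 8191)]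
  b0 := [(-38874, 8191), (-6741, 8191), (123, 8191), (-16, 8191)]
  b1 := [(38874, 8191), (26964, 8191), (-861, 8191), (160, 8191)]
  b2 := [(-16283, 8191), (-54033, 8191), (-133081, 8191)]
  b3 := [(26541, 8191), (-182422, 8191), (55025, 8191)]
  b4 := [(-14271, 8191), (51161, 8191), (-48085, 8191)]
  g0 := [(7889, 8191)]
  g1 := [(-23667, 8191)]
  g2 := [(16892, 8191), (60861, 8191)]

def D02 : NP where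
  A := [(1741, 8191), (-3589, 8191), (1992, 8191), (-195, 8191), (65, 8191), (-14, 8191)]
  B := [(23103, 8191), (6730, 8191), (-98, 8191), (-5, 8191)]
  E := [(7880, 8191)]
  a0 := [(32724, 8191), (3141, 8191), (1894, 8191), (-200, 8191), (65, 8191), (-14, 8191)]
  a1 := [(32724, 8191), (-6282, 8191), (-9470, 8191), (1600, 8191), (-715, 8191), (196, 8191)]
  a2 := [(672, 8191), (25099, 8191), (57906, 8191), (8839, 8191)]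
  a3 := [(3328, 8191), (97271, 8191), (76496, 8191), (137559, 8191)]
  a4 := [(4396, 8191), (-67840, 8191), (273868, 8191), (-25829, 8191)]
  b0 := [(-38863, 8191), (-6730, 8191), (98, 8191), (5, 8191)]
  b1 := [(38863, 8191), (26920, 8191), (-686, 8191), (-50, 8191)]
  b2 := [(-31710, 8191), (-133514, 8191), (-51593, 8191)]
  b3 := [(-6094, 8191), (-54310, 8191), (-221035, 8191)]
  b4 := [(4897, 8191), (-5275, 8191), (38617, 8191)]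
  g0 := [(7880, 8191)]
  g1 := [(-23640, 8191)]
  g2 := [(36592, 8191), (65780, 8191)]

def D03 : NP where
  A := [(1740, 8191), (-3586, 8191), (1987, 8191), (-193, 8191), (69, 8191), (-17, 8191)]
  B := [(23100, 8191), (6724, 8191), (-83, 8191), (-11, 8191)]
  E := [(7882, 8191)]
  a0 := [(32722, 8191), (3138, 8191), (1904, 8191), (-204, 8191), (69, 8191), (-17, 8191)]
  a1 := [(32722, 8191), (-6276, 8191), (-9520, 8191), (1632, 8191), (-759, 8191), (238, 8191)]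
  a2 := [(1420, 8191), (10588, 8191), (92586, 8191), (39146, 8191)]
  a3 := [(7447, 8191), (155639, 8191), (55907, 8191), (-53742, 8191)]
  a4 := [(9982, 8191), (49878, 8191), (2975, 8191), (23662, 8191)]
  b0 := [(-38864, 8191), (-6724, 8191), (83, 8191), (11, 8191)]
  b1 := [(38864, 8191), (26896, 8191), (-581, 8191), (-110, 8191)]
  b2 := [(-35574, 8191), (-117769, 8191), (-132003, 8191)]
  b3 := [(-16037, 8191), (-213432, 8191), (114367, 8191)]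
  b4 := [(3258, 8191), (26695, 8191), (-46581, 8191)]
  g0 := [(7882, 8191)]
  g1 := [(-23646, 8191)]
  g2 := [(40387, 8191), (79945, 8191)]

def D10 : NP where
  A := [(311440, 8191), (-377963, 8191), (53297, 8191), (13546, 8191), (-320, 8191)]
  B := [(144700, 8191), (-144272, 8191), (122362, 8191)]
  E := [(344990, 8191)]
  a0 := [(801130, 8191), (-522235, 8191), (175659, 8191), (13546, 8191), (-320, 8191)]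
  a1 := [(801130, 8191), (1044470, 8191), (-878295, 8191), (-108368, 8191), (3520, 8191)]
  a2 := [(45692, 8191), (-733430, 8191), (278118, 8191), (-81055, 8191)]
  a3 := [(-127495, 8191), (-649586, 8191), (-660668, 8191), (342452, 8191)]
  a4 := [(113596, 8191), (506382, 8191), (560207, 8191), (753333, 8191)]
  b0 := [(-834680, 8191), (144272, 8191), (-122362, 8191)]
  b1 := [(834680, 8191), (-577088, 8191), (856534, 8191)]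
  b2 := [(182161, 8191), (264759, 8191), (-578283, 8191)]
  b3 := [(-481633, 8191), (-336359, 8191), (4452, 8191)]
  b4 := [(249496, 8191), (652820, 8191), (731236, 8191)]
  g0 := [(344990, 8191)]
  g1 := [(-1034970, 8191)]
  g2 := [(818223, 8191), (620733, 8191)]

def D11 : NP where
  A := [(302390, 8191), (-360685, 8191), (40020, 8191), (19339, 8191), (-1064, 8191)]
  B := [(157094, 8191), (-146166, 8191), (127094, 8191)]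
  E := [(346357, 8191)]
  a0 := [(805841, 8191), (-506851, 8191), (167114, 8191), (19339, 8191), (-1064, 8191)]
  a1 := [(805841, 8191), (1013702, 8191), (-835570, 8191), (-154712, 8191), (11704, 8191)]
  a2 := [(41710, 8191), (-780569, 8191), (318263, 8191), (-165813, 8191)]
  a3 := [(-86202, 8191), (-569461, 8191), (-692260, 8191), (321479, 8191)]
  a4 := [(83542, 8191), (424453, 8191), (378716, 8191), (757411, 8191)]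
  b0 := [(-849808, 8191), (146166, 8191), (-127094, 8191)]
  b1 := [(849808, 8191), (-584664, 8191), (889658, 8191)]
  b2 := [(139877, 8191), (241312, 8191), (-569729, 8191)]
  b3 := [(-419320, 8191), (-220733, 8191), (-466644, 8191)]
  b4 := [(238548, 8191), (618440, 8191), (723593, 8191)]
  g0 := [(346357, 8191)]
  g1 := [(-1039071, 8191)]
  g2 := [(819182, 8191), (724839, 8191)]

def D12 : NP where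
  A := [(299428, 8191), (-360551, 8191), (42885, 8191), (19265, 8191), (-1027, 8191)]
  B := [(149643, 8191), (-121160, 8191), (127196, 8191)]
  E := [(360143, 8191)]
  a0 := [(809214, 8191), (-481711, 8191), (170081, 8191), (19265, 8191), (-1027, 8191)]
  a1 := [(809214, 8191), (963422, 8191), (-850405, 8191), (-154120, 8191), (11297, 8191)]
  a2 := [(32018, 8191), (-819200, 8191), (535927, 8191), (-326395, 8191)]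
  a3 := [(-53843, 8191), (-675451, 8191), (-697755, 8191), (253409, 8191)]
  a4 := [(44709, 8191), (206753, 8191), (59999, 8191), (726435, 8191)]
  b0 := [(-869929, 8191), (121160, 8191), (-127196, 8191)]
  b1 := [(869929, 8191), (-484640, 8191), (890372, 8191)]
  b2 := [(148133, 8191), (81693, 8191), (-505329, 8191)]
  b3 := [(-143654, 8191), (-344613, 8191), (-514674, 8191)]
  b4 := [(31527, 8191), (575961, 8191), (650730, 8191)]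
  g0 := [(360143, 8191)]
  g1 := [(-1080429, 8191)]
  g2 := [(819200, 8191), (740404, 8191)]

def D13 : NP where
  A := [(293449, 8191), (-354642, 8191), (43299, 8191), (18817, 8191), (-923, 8191)]
  B := [(161145, 8191), (-114216, 8191), (126787, 8191)]
  E := [(347735, 8191)]
  a0 := [(802329, 8191), (-468858, 8191), (170086, 8191), (18817, 8191), (-923, 8191)]
  a1 := [(802329, 8191), (937716, 8191), (-850430, 8191), (-150536, 8191), (10153, 8191)]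
  a2 := [(12911, 8191), (-815941, 8191), (470702, 8191), (-236212, 8191)]
  a3 := [(-22444, 8191), (-567802, 8191), (-706873, 8191), (491946, 8191)]
  a4 := [(29768, 8191), (288971, 8191), (-86780, 8191), (745097, 8191)]
  b0 := [(-856615, 8191), (114216, 8191), (-126787, 8191)]
  b1 := [(856615, 8191), (-456864, 8191), (887509, 8191)]
  b2 := [(131330, 8191), (129277, 8191), (-634884, 8191)]
  b3 := [(-243390, 8191), (-287785, 8191), (-607869, 8191)]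
  b4 := [(57480, 8191), (531407, 8191), (671169, 8191)]
  g0 := [(347735, 8191)]
  g1 := [(-1043205, 8191)]
  g2 := [(819197, 8191), (733872, 8191)]

def D20 : NP where
  A := [(-15165, 8191), (-222146, 8191), (-60555, 8191), (86710, 8191)]
  B := [(437444, 8191), (-187241, 8191), (309153, 8191)]
  E := [(-176067, 8191)]
  a0 := [(246212, 8191), (-409387, 8191), (248598, 8191), (86710, 8191)]
  a1 := [(246212, 8191), (818774, 8191), (-1242990, 8191), (-693680, 8191)]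
  a2 := [(376485, 8191), (-579465, 8191), (-423578, 8191), (526983, 8191)]
  a3 := [(-345525, 8191), (-269872, 8191), (160381, 8191), (672310, 8191)]
  a4 := [(92032, 8191), (155871, 8191), (328902, 8191), (726632, 8191)]
  b0 := [(-85310, 8191), (187241, 8191), (-309153, 8191)]
  b1 := [(85310, 8191), (-748964, 8191), (2164071, 8191)]
  b2 := [(-341785, 8191), (-538705, 8191), (259791, 8191)]
  b3 := [(63580, 8191), (77852, 8191), (587085, 8191)]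
  b4 := [(672642, 8191), (396600, 8191), (670591, 8191)]
  g0 := [(-176067, 8191)]
  g1 := [(528201, 8191)]
  g2 := [(144139, 8191), (-20773, 8191)]

def D21 : NP where
  A := [(9218, 8191), (-374026, 8191), (191985, 8191), (-38157, 8191)]
  B := [(192318, 8191), (195872, 8191), (31396, 8191)]
  E := [(-46379, 8191)]
  a0 := [(155157, 8191), (-178154, 8191), (223381, 8191), (-38157, 8191)]
  a1 := [(155157, 8191), (356308, 8191), (-1116905, 8191), (305256, 8191)]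
  a2 := [(288657, 8191), (-518797, 8191), (-377917, 8191), (542649, 8191)]
  a3 := [(-185300, 8191), (750, 8191), (261044, 8191), (654402, 8191)]
  a4 := [(24533, 8191), (324652, 8191), (386323, 8191), (705419, 8191)]
  b0 := [(-99560, 8191), (-195872, 8191), (-31396, 8191)]
  b1 := [(99560, 8191), (783488, 8191), (219772, 8191)]
  b2 := [(24296, 8191), (-472951, 8191), (303821, 8191)]
  b3 := [(-359992, 8191), (311039, 8191), (590882, 8191)]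
  b4 := [(605945, 8191), (484636, 8191), (660049, 8191)]
  g0 := [(-46379, 8191)]
  g1 := [(139137, 8191)]
  g2 := [(38051, 8191), (191346, 8191)]

def D22 : NP where
  A := [(12094, 8191), (-361868, 8191), (173608, 8191), (-34523, 8191)]
  B := [(206148, 8191), (107009, 8191), (31267, 8191)]
  E := [(-4250, 8191)]
  a0 := [(213992, 8191), (-254859, 8191), (204875, 8191), (-34523, 8191)]
  a1 := [(213992, 8191), (509718, 8191), (-1024375, 8191), (276184, 8191)]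
  a2 := [(213167, 8191), (-536590, 8191), (-356338, 8191), (581668, 8191)]
  a3 := [(-83892, 8191), (118136, 8191), (299413, 8191), (664178, 8191)]
  a4 := [(-10895, 8191), (113061, 8191), (345477, 8191), (709770, 8191)]
  b0 := [(-197648, 8191), (-107009, 8191), (-31267, 8191)]
  b1 := [(197648, 8191), (428036, 8191), (218869, 8191)]
  b2 := [(-131616, 8191), (-451798, 8191), (354821, 8191)]
  b3 := [(-65840, 8191), (331933, 8191), (592359, 8191)]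
  b4 := [(294871, 8191), (375995, 8191), (647331, 8191)]
  g0 := [(-4250, 8191)]
  g1 := [(12750, 8191)]
  g2 := [(324168, 8191), (95432, 8191)]

def D23 : NP where
  A := [(-6099, 8191), (-234217, 8191), (31326, 8191), (-2019, 8191)]
  B := [(352079, 8191), (-156256, 8191), (53918, 8191)]
  E := [(36603, 8191)]
  a0 := [(382583, 8191), (-390473, 8191), (85244, 8191), (-2019, 8191)]
  a1 := [(382583, 8191), (780946, 8191), (-426220, 8191), (16152, 8191)]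
  a2 := [(188815, 8191), (-446330, 8191), (-412388, 8191), (543506, 8191)]
  a3 := [(-68317, 8191), (-196646, 8191), (98174, 8191), (641043, 8191)]
  a4 := [(-11592, 8191), (76898, 8191), (353541, 8191), (697570, 8191)]
  b0 := [(-425285, 8191), (156256, 8191), (-53918, 8191)]
  b1 := [(425285, 8191), (-625024, 8191), (377426, 8191)]
  b2 := [(-268404, 8191), (3907, 8191), (179022, 8191)]
  b3 := [(-155280, 8191), (282017, 8191), (539758, 8191)]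
  b4 := [(327610, 8191), (401682, 8191), (633276, 8191)]
  g0 := [(36603, 8191)]
  g1 := [(-109809, 8191)]
  g2 := [(391216, 8191), (403384, 8191)]

def p00 : List CL := [[(0, 8191), (29730, 8191), (3151, 8191), (752, 8191), (970, 8191)], [(0, 8191), (-6432, 8191), (-3017, 8191)], [(6206, 8191), (1877, 8191)]]
def p01 : List CL := [[(0, 8191), (29730, 8191), (3139, 8191), (1053, 8191), (332, 8191)], [(0, 8191), (-6735, 8191), (-2269, 8191)], [(6466, 8191), (717, 8191)]]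
def p02 : List CL := [[(0, 8191), (29730, 8191), (3142, 8191), (1254, 8191), (621, 8191)], [(0, 8191), (-6829, 8191), (-3185, 8191)], [(6833, 8191), (848, 8191)]]
def p03 : List CL := [[(0, 8191), (29730, 8191), (3143, 8191), (1278, 8191), (1539, 8191)], [(0, 8191), (-7084, 8191), (-4453, 8191)], [(7820, 8191), (431, 8191)]]
def p10 : List CL := [[(0, 8191), (819200, 8191), (819200, 8191), (799039, 8191), (-89600, 8191)], [(-450112, 8191), (-819200, 8191), (-819200, 8191)], [(230273, 8191), (309631, 8191)]]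
def p11 : List CL := [[(0, 8191), (819160, 8191), (796234, 8191), (695887, 8191), (-16859, 8191)], [(-440179, 8191), (-802189, 8191), (-778988, 8191)], [(313452, 8191), (216929, 8191)]]
def p12 : List CL := [[(0, 8191), (819200, 8191), (762299, 8191), (697350, 8191), (-16670, 8191)], [(-428948, 8191), (-787206, 8191), (-788445, 8191)], [(325400, 8191), (222636, 8191)]]
def p13 : List CL := [[(0, 8191), (819200, 8191), (730692, 8191), (677307, 8191), (28504, 8191)], [(-417693, 8191), (-771834, 8191), (-792886, 8191)], [(344009, 8191), (181238, 8191)]]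
def p20 : List CL := [[(0, 8191), (818523, 8191), (570448, 8191), (457871, 8191), (-217096, 8191)], [(-268128, 8191), (-769994, 8191), (-578955, 8191)], [(90450, 8191), (432630, 8191)]]
def p21 : List CL := [[(0, 8191), (741324, 8191), (133482, 8191), (577811, 8191), (64928, 8191)], [(-257755, 8191), (-634041, 8191), (-280072, 8191)], [(229217, 8191), (-104730, 8191)]]
def p22 : List CL := [[(0, 8191), (728998, 8191), (372133, 8191), (685835, 8191), (-184803, 8191)], [(-343270, 8191), (-585155, 8191), (-46675, 8191)], [(-61393, 8191), (-22454, 8191)]]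
def p23 : List CL := [[(0, 8191), (788689, 8191), (628130, 8191), (242395, 8191), (-61361, 8191)], [(-331273, 8191), (-633266, 8191), (-354621, 8191)], [(258177, 8191), (224659, 8191)]]
def k00 : List CL := [[(0, 8191), (752, 8191), (153388, 8191), (-5182, 8191)], [(-61995, 8191), (-104867, 8191)], [(-11350, 8191)]]
def k01 : List CL := [[(0, 8191), (-929, 8191), (195109, 8191), (-56394, 8191)], [(-66928, 8191), (-102644, 8191)], [(8815, 8191)]]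
def k02 : List CL := [[(0, 8191), (-2434, 8191), (211571, 8191), (-98167, 8191)], [(-69570, 8191), (-95184, 8191)], [(53998, 8191)]]
def k03 : List CL := [[(0, 8191), (-3701, 8191), (201132, 8191), (353, 8191)], [(-69847, 8191), (-90377, 8191)], [(3693, 8191)]]
def k10 : List CL := [[(-680, 8191), (122970, 8191), (-729664, 8191), (-292572, 8191)], [(748774, 8191), (77798, 8191)], [(-483976, 8191)]]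
def k11 : List CL := [[(-905, 8191), (77294, 8191), (-766725, 8191), (279301, 8191)], [(384961, 8191), (-150405, 8191)], [(-470526, 8191)]]
def k12 : List CL := [[(-409, 8191), (-56624, 8191), (-801043, 8191), (280238, 8191)], [(364958, 8191), (-532849, 8191)], [(-87284, 8191)]]
def k13 : List CL := [[(808, 8191), (-307314, 8191), (-797166, 8191), (431165, 8191)], [(513883, 8191), (-467660, 8191)], [(-468265, 8191)]]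

def D : ℕ → ℕ → NP
  | 0, 0 => D00
  | 0, 1 => D01
  | 0, 2 => D02
  | 0, 3 => D03
  | 1, 0 => D10
  | 1, 1 => D11
  | 1, 2 => D12
  | 1, 3 => D13
  | 2, 0 => D20
  | 2, 1 => D21
  | 2, 2 => D22
  | 2, 3 => D23
  | _, _ => D03

def psi : ℕ → ℕ → List CL
  | 0, 0 => p00
  | 0, 1 => p01
  | 0, 2 => p02
  | 0, 3 => p03
  | 1, 0 => p10
  | 1, 1 => p11
  | 1, 2 => p12
  | 1, 3 => p13
  | 2, 0 => p20
  | 2, 1 => p21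
  | 2, 2 => p22
  | 2, 3 => p23
  | _, _ => []

def hh : ℕ → ℕ → List CL
  | 0, 0 => k00
  | 0, 1 => k01
  | 0, 2 => k02
  | 0, 3 => k03
  | 1, 0 => k10
  | 1, 1 => k11
  | 1, 2 => k12
  | 1, 3 => k13
  | _, _ => []

def w2 : ℕ → ℤ × ℕ
  | 0 => (0, 0)
  | 1 => (0, 0)
  | 2 => (-211148, 8191)
  | _ => (0, 0)

/-! Certificates. -/

/-- the leaves of all trees -/
theorem lv :
    ((Tree.leaf 119 9 16 6 1).ok 0 1 0 0 (SEG D03 (0, 0) (sP (95, 96) (2, 96)) p00 p01 p02 p03) ⟨0, 1, 1, 0, 1, 1, 0, 1, 2, 0, 1, 1⟩ = true ∧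
      (Tree.leaf 119 9 16 6 1).ok 0 1 0 0 (SEG D03 (0, 0) (sP (95, 96) (2, 96)) p00 p01 p02 p03) ⟨0, 1, 1, 0, 1, 1, 1, 2, 2, 0, 1, 1⟩ = true) ∧
    ((Tree.leaf 53 16 1 6 1).ok 0 1 0 0 (RE D03 (0, 0)) ⟨0, 1, 1, 0, 1, 1, 0, 1, 1, 0, 1, 1⟩ = true) ∧
    ((Tree.leaf 224 17 16 6 1).ok 0 1 0 0 (UE0 (97, 99) D00) ⟨0, 1, 4, 0, 1, 2, 0, 1, 1, 0, 1, 1⟩ = true ∧
      (Tree.leaf 227 17 16 6 1).ok 0 1 0 0 (UE0 (97, 99) D00) ⟨1, 2, 4, 0, 1, 2, 0, 1, 1, 0, 1, 1⟩ = true ∧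
      (Tree.leaf 228 17 16 6 1).ok 0 1 0 0 (UE0 (97, 99) D00) ⟨0, 1, 4, 1, 2, 2, 0, 1, 1, 0, 1, 1⟩ = true ∧
      (Tree.leaf 232 17 16 6 1).ok 0 1 0 0 (UE0 (97, 99) D00) ⟨1, 2, 4, 1, 2, 2, 0, 1, 1, 0, 1, 1⟩ = true ∧
      (Tree.leaf 204 17 16 6 1).ok 0 1 0 0 (UE0 (97, 99) D00) ⟨1, 2, 2, 0, 1, 1, 0, 1, 1, 0, 1, 1⟩ = true) ∧
    ((Tree.leaf 209 17 16 6 1).ok 0 1 0 0 (UE1 (97, 49) D00) ⟨0, 1, 4, 0, 1, 2, 0, 1, 1, 0, 1, 1⟩ = true ∧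
      (Tree.leaf 216 17 16 6 1).ok 0 1 0 0 (UE1 (97, 49) D00) ⟨1, 2, 4, 0, 1, 2, 0, 1, 1, 0, 1, 1⟩ = true ∧
      (Tree.leaf 207 17 16 6 1).ok 0 1 0 0 (UE1 (97, 49) D00) ⟨1, 2, 2, 0, 1, 2, 0, 1, 1, 0, 1, 1⟩ = true ∧
      (Tree.leaf 206 17 16 6 1).ok 0 1 0 0 (UE1 (97, 49) D00) ⟨0, 1, 1, 2, 3, 4, 0, 1, 1, 0, 1, 1⟩ = true ∧
      (Tree.leaf 224 17 16 6 1).ok 0 1 0 0 (UE1 (97, 49) D00) ⟨0, 1, 1, 6, 7, 8, 0, 1, 1, 0, 1, 1⟩ = true ∧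
      (Tree.leaf 226 17 16 6 1).ok 0 1 0 0 (UE1 (97, 49) D00) ⟨0, 1, 1, 7, 8, 8, 0, 1, 1, 0, 1, 1⟩ = true) ∧
    ((Tree.leaf 224 17 16 6 1).ok 0 1 0 0 (UE0 (97, 99) D01) ⟨0, 1, 4, 0, 1, 2, 0, 1, 1, 0, 1, 1⟩ = true ∧
      (Tree.leaf 227 17 16 6 1).ok 0 1 0 0 (UE0 (97, 99) D01) ⟨1, 2, 4, 0, 1, 2, 0, 1, 1, 0, 1, 1⟩ = true ∧
      (Tree.leaf 227 17 16 6 1).ok 0 1 0 0 (UE0 (97, 99) D01) ⟨0, 1, 4, 1, 2, 2, 0, 1, 1, 0, 1, 1⟩ = true ∧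
      (Tree.leaf 232 17 16 6 1).ok 0 1 0 0 (UE0 (97, 99) D01) ⟨1, 2, 4, 1, 2, 2, 0, 1, 1, 0, 1, 1⟩ = true ∧
      (Tree.leaf 204 17 16 6 1).ok 0 1 0 0 (UE0 (97, 99) D01) ⟨1, 2, 2, 0, 1, 1, 0, 1, 1, 0, 1, 1⟩ = true) ∧
    ((Tree.leaf 187 17 16 6 1).ok 0 1 0 0 (UE1 (97, 49) D01) ⟨0, 1, 1, 0, 1, 2, 0, 1, 1, 0, 1, 1⟩ = true ∧
      (Tree.leaf 216 17 16 6 1).ok 0 1 0 0 (UE1 (97, 49) D01) ⟨0, 1, 2, 2, 3, 4, 0, 1, 1, 0, 1, 1⟩ = true ∧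
      (Tree.leaf 227 17 16 6 1).ok 0 1 0 0 (UE1 (97, 49) D01) ⟨1, 2, 2, 2, 3, 4, 0, 1, 1, 0, 1, 1⟩ = true ∧
      (Tree.leaf 223 17 16 6 1).ok 0 1 0 0 (UE1 (97, 49) D01) ⟨0, 1, 1, 6, 7, 8, 0, 1, 1, 0, 1, 1⟩ = true ∧
      (Tree.leaf 224 17 16 6 1).ok 0 1 0 0 (UE1 (97, 49) D01) ⟨0, 1, 1, 7, 8, 8, 0, 1, 1, 0, 1, 1⟩ = true) ∧
    ((Tree.leaf 224 17 16 6 1).ok 0 1 0 0 (UE0 (97, 99) D02) ⟨0, 1, 4, 0, 1, 2, 0, 1, 1, 0, 1, 1⟩ = true ∧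
      (Tree.leaf 228 17 16 6 1).ok 0 1 0 0 (UE0 (97, 99) D02) ⟨0, 1, 4, 1, 2, 2, 0, 1, 1, 0, 1, 1⟩ = true ∧
      (Tree.leaf 215 17 16 6 1).ok 0 1 0 0 (UE0 (97, 99) D02) ⟨1, 2, 4, 0, 1, 1, 0, 1, 1, 0, 1, 1⟩ = true ∧
      (Tree.leaf 204 17 16 6 1).ok 0 1 0 0 (UE0 (97, 99) D02) ⟨1, 2, 2, 0, 1, 1, 0, 1, 1, 0, 1, 1⟩ = true) ∧
    ((Tree.leaf 187 17 16 6 1).ok 0 1 0 0 (UE1 (97, 49) D02) ⟨0, 1, 1, 0, 1, 2, 0, 1, 1, 0, 1, 1⟩ = true ∧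
      (Tree.leaf 216 17 16 6 1).ok 0 1 0 0 (UE1 (97, 49) D02) ⟨0, 1, 2, 2, 3, 4, 0, 1, 1, 0, 1, 1⟩ = true ∧
      (Tree.leaf 227 17 16 6 1).ok 0 1 0 0 (UE1 (97, 49) D02) ⟨1, 2, 2, 2, 3, 4, 0, 1, 1, 0, 1, 1⟩ = true ∧
      (Tree.leaf 224 17 16 6 1).ok 0 1 0 0 (UE1 (97, 49) D02) ⟨0, 1, 1, 6, 7, 8, 0, 1, 1, 0, 1, 1⟩ = true ∧
      (Tree.leaf 226 17 16 6 1).ok 0 1 0 0 (UE1 (97, 49) D02) ⟨0, 1, 1, 7, 8, 8, 0, 1, 1, 0, 1, 1⟩ = true) ∧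
    ((Tree.leaf 224 17 16 6 1).ok 0 1 0 0 (UE0 (97, 99) D03) ⟨0, 1, 4, 0, 1, 2, 0, 1, 1, 0, 1, 1⟩ = true ∧
      (Tree.leaf 228 17 16 6 1).ok 0 1 0 0 (UE0 (97, 99) D03) ⟨1, 2, 4, 0, 1, 2, 0, 1, 1, 0, 1, 1⟩ = true ∧
      (Tree.leaf 228 17 16 6 1).ok 0 1 0 0 (UE0 (97, 99) D03) ⟨0, 1, 4, 1, 2, 2, 0, 1, 1, 0, 1, 1⟩ = true ∧
      (Tree.leaf 233 17 16 6 1).ok 0 1 0 0 (UE0 (97, 99) D03) ⟨1, 2, 4, 1, 2, 2, 0, 1, 1, 0, 1, 1⟩ = true ∧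
      (Tree.leaf 204 17 16 6 1).ok 0 1 0 0 (UE0 (97, 99) D03) ⟨1, 2, 2, 0, 1, 1, 0, 1, 1, 0, 1, 1⟩ = true) ∧
    ((Tree.leaf 187 17 16 6 1).ok 0 1 0 0 (UE1 (97, 49) D03) ⟨0, 1, 1, 0, 1, 2, 0, 1, 1, 0, 1, 1⟩ = true ∧
      (Tree.leaf 216 17 16 6 1).ok 0 1 0 0 (UE1 (97, 49) D03) ⟨0, 1, 2, 2, 3, 4, 0, 1, 1, 0, 1, 1⟩ = true ∧
      (Tree.leaf 227 17 16 6 1).ok 0 1 0 0 (UE1 (97, 49) D03) ⟨1, 2, 2, 2, 3, 4, 0, 1, 1, 0, 1, 1⟩ = true ∧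
      (Tree.leaf 224 17 16 6 1).ok 0 1 0 0 (UE1 (97, 49) D03) ⟨0, 1, 1, 6, 7, 8, 0, 1, 1, 0, 1, 1⟩ = true ∧
      (Tree.leaf 226 17 16 6 1).ok 0 1 0 0 (UE1 (97, 49) D03) ⟨0, 1, 1, 7, 8, 8, 0, 1, 1, 0, 1, 1⟩ = true) ∧
    ((Tree.leaf 199 16 16 6 6).ok 0 1 0 0 (GE 0 0 (D 0) (9409, 9999) (912673, 999999) (.q 361 399) p00 k00 k10) ⟨0, 1, 1, 0, 1, 1, 0, 1, 1, 0, 1, 2⟩ = true ∧
      (Tree.leaf 211 16 16 6 6).ok 0 1 0 0 (GE 0 0 (D 0) (9409, 9999) (912673, 999999) (.q 361 399) p00 k00 k10) ⟨0, 1, 2, 0, 1, 1, 0, 1, 1, 1, 2, 2⟩ = true ∧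
      (Tree.leaf 219 16 16 6 6).ok 0 1 0 0 (GE 0 0 (D 0) (9409, 9999) (912673, 999999) (.q 361 399) p00 k00 k10) ⟨1, 2, 2, 0, 1, 1, 0, 1, 1, 1, 2, 2⟩ = true) ∧
    ((Tree.leaf 199 16 16 6 6).ok 0 1 0 0 (GE 0 0 (D 0) (9409, 9999) (912673, 999999) (tau1 (9409, 9999)) p00 k00 k10) ⟨0, 1, 1, 0, 1, 1, 0, 1, 1, 0, 1, 2⟩ = true ∧
      (Tree.leaf 211 16 16 6 6).ok 0 1 0 0 (GE 0 0 (D 0) (9409, 9999) (912673, 999999) (tau1 (9409, 9999)) p00 k00 k10) ⟨0, 1, 2, 0, 1, 1, 0, 1, 1, 1, 2, 2⟩ = true ∧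
      (Tree.leaf 219 16 16 6 6).ok 0 1 0 0 (GE 0 0 (D 0) (9409, 9999) (912673, 999999) (tau1 (9409, 9999)) p00 k00 k10) ⟨1, 2, 2, 0, 1, 1, 0, 1, 1, 1, 2, 2⟩ = true) ∧
    ((Tree.leaf 212 16 16 6 6).ok 0 1 0 0 (GE 0 1 (D 0) (9409, 9999) (912673, 999999) (.q 361 399) p01 k01 k11) ⟨0, 1, 1, 0, 1, 2, 0, 1, 1, 0, 1, 2⟩ = true ∧
      (Tree.leaf 219 16 16 6 6).ok 0 1 0 0 (GE 0 1 (D 0) (9409, 9999) (912673, 999999) (.q 361 399) p01 k01 k11) ⟨0, 1, 1, 1, 2, 2, 0, 1, 1, 0, 1, 2⟩ = true ∧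
      (Tree.leaf 212 16 16 6 6).ok 0 1 0 0 (GE 0 1 (D 0) (9409, 9999) (912673, 999999) (.q 361 399) p01 k01 k11) ⟨0, 1, 2, 0, 1, 1, 0, 1, 1, 1, 2, 2⟩ = true ∧
      (Tree.leaf 220 16 16 6 6).ok 0 1 0 0 (GE 0 1 (D 0) (9409, 9999) (912673, 999999) (.q 361 399) p01 k01 k11) ⟨1, 2, 2, 0, 1, 1, 0, 1, 1, 1, 2, 2⟩ = true) ∧
    ((Tree.leaf 212 16 16 6 6).ok 0 1 0 0 (GE 0 1 (D 0) (9409, 9999) (912673, 999999) (tau1 (9409, 9999)) p01 k01 k11) ⟨0, 1, 1, 0, 1, 2, 0, 1, 1, 0, 1, 2⟩ = true ∧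
      (Tree.leaf 219 16 16 6 6).ok 0 1 0 0 (GE 0 1 (D 0) (9409, 9999) (912673, 999999) (tau1 (9409, 9999)) p01 k01 k11) ⟨0, 1, 1, 1, 2, 2, 0, 1, 1, 0, 1, 2⟩ = true ∧
      (Tree.leaf 212 16 16 6 6).ok 0 1 0 0 (GE 0 1 (D 0) (9409, 9999) (912673, 999999) (tau1 (9409, 9999)) p01 k01 k11) ⟨0, 1, 2, 0, 1, 1, 0, 1, 1, 1, 2, 2⟩ = true ∧
      (Tree.leaf 220 16 16 6 6).ok 0 1 0 0 (GE 0 1 (D 0) (9409, 9999) (912673, 999999) (tau1 (9409, 9999)) p01 k01 k11) ⟨1, 2, 2, 0, 1, 1, 0, 1, 1, 1, 2, 2⟩ = true) ∧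
    ((Tree.leaf 206 16 16 6 6).ok 0 1 0 0 (GE 0 2 (D 0) (9409, 9999) (912673, 999999) (.q 361 399) p02 k02 k12) ⟨0, 1, 2, 0, 1, 1, 0, 1, 1, 0, 1, 1⟩ = true ∧
      (Tree.leaf 214 16 16 6 6).ok 0 1 0 0 (GE 0 2 (D 0) (9409, 9999) (912673, 999999) (.q 361 399) p02 k02 k12) ⟨1, 2, 2, 0, 1, 1, 0, 1, 1, 0, 1, 1⟩ = true) ∧
    ((Tree.leaf 206 16 16 6 6).ok 0 1 0 0 (GE 0 2 (D 0) (9409, 9999) (912673, 999999) (tau1 (9409, 9999)) p02 k02 k12) ⟨0, 1, 2, 0, 1, 1, 0, 1, 1, 0, 1, 1⟩ = true ∧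
      (Tree.leaf 214 16 16 6 6).ok 0 1 0 0 (GE 0 2 (D 0) (9409, 9999) (912673, 999999) (tau1 (9409, 9999)) p02 k02 k12) ⟨1, 2, 2, 0, 1, 1, 0, 1, 1, 0, 1, 1⟩ = true) ∧
    ((Tree.leaf 211 16 16 6 6).ok 0 1 0 0 (GE 0 3 (D 0) (9409, 9999) (912673, 999999) (.q 361 399) p03 k03 k13) ⟨0, 1, 2, 0, 1, 1, 0, 1, 1, 0, 1, 2⟩ = true ∧
      (Tree.leaf 212 16 16 6 6).ok 0 1 0 0 (GE 0 3 (D 0) (9409, 9999) (912673, 999999) (.q 361 399) p03 k03 k13) ⟨0, 1, 2, 0, 1, 1, 0, 1, 1, 1, 2, 2⟩ = true ∧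
      (Tree.leaf 214 16 16 6 6).ok 0 1 0 0 (GE 0 3 (D 0) (9409, 9999) (912673, 999999) (.q 361 399) p03 k03 k13) ⟨1, 2, 2, 0, 1, 1, 0, 1, 1, 0, 1, 1⟩ = true) ∧
    ((Tree.leaf 211 16 16 6 6).ok 0 1 0 0 (GE 0 3 (D 0) (9409, 9999) (912673, 999999) (tau1 (9409, 9999)) p03 k03 k13) ⟨0, 1, 2, 0, 1, 1, 0, 1, 1, 0, 1, 2⟩ = true ∧
      (Tree.leaf 212 16 16 6 6).ok 0 1 0 0 (GE 0 3 (D 0) (9409, 9999) (912673, 999999) (tau1 (9409, 9999)) p03 k03 k13) ⟨0, 1, 2, 0, 1, 1, 0, 1, 1, 1, 2, 2⟩ = true ∧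
      (Tree.leaf 214 16 16 6 6).ok 0 1 0 0 (GE 0 3 (D 0) (9409, 9999) (912673, 999999) (tau1 (9409, 9999)) p03 k03 k13) ⟨1, 2, 2, 0, 1, 1, 0, 1, 1, 0, 1, 1⟩ = true) ∧
    ((Tree.leaf 127 9 13 5 1).ok 0 1 0 0 (SEG D13 (0, 0) (sP (95, 96) (2, 96)) p10 p11 p12 p13) ⟨0, 1, 1, 0, 1, 2, 0, 1, 2, 0, 1, 1⟩ = true ∧
      (Tree.leaf 130 9 13 5 1).ok 0 1 0 0 (SEG D13 (0, 0) (sP (95, 96) (2, 96)) p10 p11 p12 p13) ⟨0, 1, 1, 1, 2, 2, 0, 1, 2, 0, 1, 1⟩ = true ∧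
      (Tree.leaf 127 9 13 5 1).ok 0 1 0 0 (SEG D13 (0, 0) (sP (95, 96) (2, 96)) p10 p11 p12 p13) ⟨0, 1, 1, 0, 1, 2, 1, 2, 2, 0, 1, 1⟩ = true ∧
      (Tree.leaf 131 9 13 5 1).ok 0 1 0 0 (SEG D13 (0, 0) (sP (95, 96) (2, 96)) p10 p11 p12 p13) ⟨0, 1, 1, 1, 2, 2, 1, 2, 2, 0, 1, 1⟩ = true) ∧
    ((Tree.leaf 52 13 1 5 1).ok 0 1 0 0 (RE D13 (0, 0)) ⟨0, 1, 1, 0, 1, 1, 0, 1, 1, 0, 1, 1⟩ = true) ∧
    ((Tree.leaf 180 14 13 5 1).ok 0 1 0 0 (UE0 (97, 99) D10) ⟨0, 1, 4, 0, 1, 1, 0, 1, 1, 0, 1, 1⟩ = true ∧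
      (Tree.leaf 183 14 13 5 1).ok 0 1 0 0 (UE0 (97, 99) D10) ⟨1, 2, 4, 0, 1, 1, 0, 1, 1, 0, 1, 1⟩ = true ∧
      (Tree.leaf 174 14 13 5 1).ok 0 1 0 0 (UE0 (97, 99) D10) ⟨1, 2, 2, 0, 1, 1, 0, 1, 1, 0, 1, 1⟩ = true) ∧
    ((Tree.leaf 179 14 13 5 1).ok 0 1 0 0 (UE1 (97, 49) D10) ⟨0, 1, 4, 0, 1, 2, 0, 1, 1, 0, 1, 1⟩ = true ∧
      (Tree.leaf 184 14 13 5 1).ok 0 1 0 0 (UE1 (97, 49) D10) ⟨1, 2, 4, 0, 1, 2, 0, 1, 1, 0, 1, 1⟩ = true ∧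
      (Tree.leaf 182 14 13 5 1).ok 0 1 0 0 (UE1 (97, 49) D10) ⟨0, 1, 4, 1, 2, 2, 0, 1, 1, 0, 1, 1⟩ = true ∧
      (Tree.leaf 188 14 13 5 1).ok 0 1 0 0 (UE1 (97, 49) D10) ⟨1, 2, 4, 1, 2, 2, 0, 1, 1, 0, 1, 1⟩ = true ∧
      (Tree.leaf 168 14 13 5 1).ok 0 1 0 0 (UE1 (97, 49) D10) ⟨1, 2, 2, 0, 1, 1, 0, 1, 1, 0, 1, 1⟩ = true) ∧
    ((Tree.leaf 191 14 13 5 1).ok 0 1 0 0 (UE0 (97, 99) D11) ⟨0, 1, 4, 0, 1, 2, 0, 1, 1, 0, 1, 1⟩ = true ∧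
      (Tree.leaf 193 14 13 5 1).ok 0 1 0 0 (UE0 (97, 99) D11) ⟨1, 2, 4, 0, 1, 2, 0, 1, 1, 0, 1, 1⟩ = true ∧
      (Tree.leaf 183 14 13 5 1).ok 0 1 0 0 (UE0 (97, 99) D11) ⟨0, 1, 2, 1, 2, 2, 0, 1, 1, 0, 1, 1⟩ = true ∧
      (Tree.leaf 174 14 13 5 1).ok 0 1 0 0 (UE0 (97, 99) D11) ⟨1, 2, 2, 0, 1, 1, 0, 1, 1, 0, 1, 1⟩ = true) ∧
    ((Tree.leaf 179 14 13 5 1).ok 0 1 0 0 (UE1 (97, 49) D11) ⟨0, 1, 4, 0, 1, 2, 0, 1, 1, 0, 1, 1⟩ = true ∧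
      (Tree.leaf 184 14 13 5 1).ok 0 1 0 0 (UE1 (97, 49) D11) ⟨1, 2, 4, 0, 1, 2, 0, 1, 1, 0, 1, 1⟩ = true ∧
      (Tree.leaf 183 14 13 5 1).ok 0 1 0 0 (UE1 (97, 49) D11) ⟨0, 1, 4, 1, 2, 2, 0, 1, 1, 0, 1, 1⟩ = true ∧
      (Tree.leaf 189 14 13 5 1).ok 0 1 0 0 (UE1 (97, 49) D11) ⟨1, 2, 4, 1, 2, 2, 0, 1, 1, 0, 1, 1⟩ = true ∧
      (Tree.leaf 168 14 13 5 1).ok 0 1 0 0 (UE1 (97, 49) D11) ⟨1, 2, 2, 0, 1, 1, 0, 1, 1, 0, 1, 1⟩ = true) ∧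
    ((Tree.leaf 179 14 13 5 1).ok 0 1 0 0 (UE0 (97, 99) D12) ⟨0, 1, 2, 0, 1, 2, 0, 1, 1, 0, 1, 1⟩ = true ∧
      (Tree.leaf 184 14 13 5 1).ok 0 1 0 0 (UE0 (97, 99) D12) ⟨1, 2, 2, 0, 1, 2, 0, 1, 1, 0, 1, 1⟩ = true ∧
      (Tree.leaf 173 14 13 5 1).ok 0 1 0 0 (UE0 (97, 99) D12) ⟨0, 1, 1, 1, 2, 2, 0, 1, 1, 0, 1, 1⟩ = true) ∧
    ((Tree.leaf 179 14 13 5 1).ok 0 1 0 0 (UE1 (97, 49) D12) ⟨0, 1, 4, 0, 1, 2, 0, 1, 1, 0, 1, 1⟩ = true ∧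
      (Tree.leaf 184 14 13 5 1).ok 0 1 0 0 (UE1 (97, 49) D12) ⟨1, 2, 4, 0, 1, 2, 0, 1, 1, 0, 1, 1⟩ = true ∧
      (Tree.leaf 178 14 13 5 1).ok 0 1 0 0 (UE1 (97, 49) D12) ⟨1, 2, 2, 0, 1, 2, 0, 1, 1, 0, 1, 1⟩ = true ∧
      (Tree.leaf 183 14 13 5 1).ok 0 1 0 0 (UE1 (97, 49) D12) ⟨0, 1, 4, 1, 2, 2, 0, 1, 1, 0, 1, 1⟩ = true ∧
      (Tree.leaf 189 14 13 5 1).ok 0 1 0 0 (UE1 (97, 49) D12) ⟨1, 2, 4, 1, 2, 2, 0, 1, 1, 0, 1, 1⟩ = true ∧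
      (Tree.leaf 183 14 13 5 1).ok 0 1 0 0 (UE1 (97, 49) D12) ⟨1, 2, 2, 1, 2, 2, 0, 1, 1, 0, 1, 1⟩ = true) ∧
    ((Tree.leaf 179 14 13 5 1).ok 0 1 0 0 (UE0 (97, 99) D13) ⟨0, 1, 2, 0, 1, 2, 0, 1, 1, 0, 1, 1⟩ = true ∧
      (Tree.leaf 183 14 13 5 1).ok 0 1 0 0 (UE0 (97, 99) D13) ⟨0, 1, 2, 1, 2, 2, 0, 1, 1, 0, 1, 1⟩ = true ∧
      (Tree.leaf 174 14 13 5 1).ok 0 1 0 0 (UE0 (97, 99) D13) ⟨1, 2, 2, 0, 1, 1, 0, 1, 1, 0, 1, 1⟩ = true) ∧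
    ((Tree.leaf 179 14 13 5 1).ok 0 1 0 0 (UE1 (97, 49) D13) ⟨0, 1, 4, 0, 1, 2, 0, 1, 1, 0, 1, 1⟩ = true ∧
      (Tree.leaf 184 14 13 5 1).ok 0 1 0 0 (UE1 (97, 49) D13) ⟨1, 2, 4, 0, 1, 2, 0, 1, 1, 0, 1, 1⟩ = true ∧
      (Tree.leaf 178 14 13 5 1).ok 0 1 0 0 (UE1 (97, 49) D13) ⟨1, 2, 2, 0, 1, 2, 0, 1, 1, 0, 1, 1⟩ = true ∧
      (Tree.leaf 183 14 13 5 1).ok 0 1 0 0 (UE1 (97, 49) D13) ⟨0, 1, 4, 1, 2, 2, 0, 1, 1, 0, 1, 1⟩ = true ∧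
      (Tree.leaf 189 14 13 5 1).ok 0 1 0 0 (UE1 (97, 49) D13) ⟨1, 2, 4, 1, 2, 2, 0, 1, 1, 0, 1, 1⟩ = true ∧
      (Tree.leaf 183 14 13 5 1).ok 0 1 0 0 (UE1 (97, 49) D13) ⟨1, 2, 2, 1, 2, 2, 0, 1, 1, 0, 1, 1⟩ = true) ∧
    ((Tree.leaf 200 14 14 6 6).ok 0 1 0 0 (GE 1 0 (D 1) (9409, 9999) (912673, 999999) (.q 361 399) p10 k00 k10) ⟨0, 1, 2, 0, 1, 2, 0, 1, 1, 0, 1, 1⟩ = true ∧
      (Tree.leaf 204 14 14 6 6).ok 0 1 0 0 (GE 1 0 (D 1) (9409, 9999) (912673, 999999) (.q 361 399) p10 k00 k10) ⟨1, 2, 2, 0, 1, 2, 0, 1, 1, 0, 1, 1⟩ = true ∧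
      (Tree.leaf 205 14 14 6 6).ok 0 1 0 0 (GE 1 0 (D 1) (9409, 9999) (912673, 999999) (.q 361 399) p10 k00 k10) ⟨0, 1, 1, 2, 3, 4, 0, 1, 1, 0, 1, 1⟩ = true ∧
      (Tree.leaf 209 14 14 6 6).ok 0 1 0 0 (GE 1 0 (D 1) (9409, 9999) (912673, 999999) (.q 361 399) p10 k00 k10) ⟨0, 1, 1, 3, 4, 4, 0, 1, 1, 0, 1, 1⟩ = true) ∧
    ((Tree.leaf 200 14 14 6 6).ok 0 1 0 0 (GE 1 0 (D 1) (9409, 9999) (912673, 999999) (tau1 (9409, 9999)) p10 k00 k10) ⟨0, 1, 2, 0, 1, 2, 0, 1, 1, 0, 1, 1⟩ = true ∧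
      (Tree.leaf 204 14 14 6 6).ok 0 1 0 0 (GE 1 0 (D 1) (9409, 9999) (912673, 999999) (tau1 (9409, 9999)) p10 k00 k10) ⟨1, 2, 2, 0, 1, 2, 0, 1, 1, 0, 1, 1⟩ = true ∧
      (Tree.leaf 205 14 14 6 6).ok 0 1 0 0 (GE 1 0 (D 1) (9409, 9999) (912673, 999999) (tau1 (9409, 9999)) p10 k00 k10) ⟨0, 1, 1, 2, 3, 4, 0, 1, 1, 0, 1, 1⟩ = true ∧
      (Tree.leaf 209 14 14 6 6).ok 0 1 0 0 (GE 1 0 (D 1) (9409, 9999) (912673, 999999) (tau1 (9409, 9999)) p10 k00 k10) ⟨0, 1, 1, 3, 4, 4, 0, 1, 1, 0, 1, 1⟩ = true) ∧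
    ((Tree.leaf 193 14 14 6 6).ok 0 1 0 0 (GE 1 1 (D 1) (9409, 9999) (912673, 999999) (.q 361 399) p11 k01 k11) ⟨0, 1, 2, 0, 1, 1, 0, 1, 1, 0, 1, 2⟩ = true ∧
      (Tree.leaf 193 14 14 6 6).ok 0 1 0 0 (GE 1 1 (D 1) (9409, 9999) (912673, 999999) (.q 361 399) p11 k01 k11) ⟨0, 1, 2, 0, 1, 1, 0, 1, 1, 1, 2, 2⟩ = true ∧
      (Tree.leaf 194 14 14 6 6).ok 0 1 0 0 (GE 1 1 (D 1) (9409, 9999) (912673, 999999) (.q 361 399) p11 k01 k11) ⟨1, 2, 2, 0, 1, 1, 0, 1, 1, 0, 1, 1⟩ = true) ∧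
    ((Tree.leaf 193 14 14 6 6).ok 0 1 0 0 (GE 1 1 (D 1) (9409, 9999) (912673, 999999) (tau1 (9409, 9999)) p11 k01 k11) ⟨0, 1, 2, 0, 1, 1, 0, 1, 1, 0, 1, 2⟩ = true ∧
      (Tree.leaf 193 14 14 6 6).ok 0 1 0 0 (GE 1 1 (D 1) (9409, 9999) (912673, 999999) (tau1 (9409, 9999)) p11 k01 k11) ⟨0, 1, 2, 0, 1, 1, 0, 1, 1, 1, 2, 2⟩ = true ∧
      (Tree.leaf 194 14 14 6 6).ok 0 1 0 0 (GE 1 1 (D 1) (9409, 9999) (912673, 999999) (tau1 (9409, 9999)) p11 k01 k11) ⟨1, 2, 2, 0, 1, 1, 0, 1, 1, 0, 1, 1⟩ = true) ∧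
    ((Tree.leaf 187 14 14 6 6).ok 0 1 0 0 (GE 1 2 (D 1) (9409, 9999) (912673, 999999) (.q 361 399) p12 k02 k12) ⟨0, 1, 1, 0, 1, 1, 0, 1, 2, 0, 1, 2⟩ = true ∧
      (Tree.leaf 188 14 14 6 6).ok 0 1 0 0 (GE 1 2 (D 1) (9409, 9999) (912673, 999999) (.q 361 399) p12 k02 k12) ⟨0, 1, 1, 0, 1, 1, 0, 1, 2, 1, 2, 2⟩ = true ∧
      (Tree.leaf 188 14 14 6 6).ok 0 1 0 0 (GE 1 2 (D 1) (9409, 9999) (912673, 999999) (.q 361 399) p12 k02 k12) ⟨0, 1, 1, 0, 1, 1, 1, 2, 2, 0, 1, 2⟩ = true ∧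
      (Tree.leaf 189 14 14 6 6).ok 0 1 0 0 (GE 1 2 (D 1) (9409, 9999) (912673, 999999) (.q 361 399) p12 k02 k12) ⟨0, 1, 1, 0, 1, 1, 1, 2, 2, 1, 2, 2⟩ = true) ∧
    ((Tree.leaf 187 14 14 6 6).ok 0 1 0 0 (GE 1 2 (D 1) (9409, 9999) (912673, 999999) (tau1 (9409, 9999)) p12 k02 k12) ⟨0, 1, 1, 0, 1, 1, 0, 1, 2, 0, 1, 2⟩ = true ∧
      (Tree.leaf 188 14 14 6 6).ok 0 1 0 0 (GE 1 2 (D 1) (9409, 9999) (912673, 999999) (tau1 (9409, 9999)) p12 k02 k12) ⟨0, 1, 1, 0, 1, 1, 0, 1, 2, 1, 2, 2⟩ = true ∧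
      (Tree.leaf 188 14 14 6 6).ok 0 1 0 0 (GE 1 2 (D 1) (9409, 9999) (912673, 999999) (tau1 (9409, 9999)) p12 k02 k12) ⟨0, 1, 1, 0, 1, 1, 1, 2, 2, 0, 1, 2⟩ = true ∧
      (Tree.leaf 189 14 14 6 6).ok 0 1 0 0 (GE 1 2 (D 1) (9409, 9999) (912673, 999999) (tau1 (9409, 9999)) p12 k02 k12) ⟨0, 1, 1, 0, 1, 1, 1, 2, 2, 1, 2, 2⟩ = true) ∧
    ((Tree.leaf 193 14 14 6 6).ok 0 1 0 0 (GE 1 3 (D 1) (9409, 9999) (912673, 999999) (.q 361 399) p13 k03 k13) ⟨0, 1, 1, 0, 1, 2, 0, 1, 2, 0, 1, 1⟩ = true ∧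
      (Tree.leaf 199 14 14 6 6).ok 0 1 0 0 (GE 1 3 (D 1) (9409, 9999) (912673, 999999) (.q 361 399) p13 k03 k13) ⟨0, 1, 1, 1, 2, 2, 0, 1, 2, 0, 1, 1⟩ = true ∧
      (Tree.leaf 193 14 14 6 6).ok 0 1 0 0 (GE 1 3 (D 1) (9409, 9999) (912673, 999999) (.q 361 399) p13 k03 k13) ⟨0, 1, 2, 0, 1, 1, 1, 2, 2, 0, 1, 1⟩ = true ∧
      (Tree.leaf 200 14 14 6 6).ok 0 1 0 0 (GE 1 3 (D 1) (9409, 9999) (912673, 999999) (.q 361 399) p13 k03 k13) ⟨1, 2, 2, 0, 1, 1, 1, 2, 2, 0, 1, 1⟩ = true) ∧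
    ((Tree.leaf 193 14 14 6 6).ok 0 1 0 0 (GE 1 3 (D 1) (9409, 9999) (912673, 999999) (tau1 (9409, 9999)) p13 k03 k13) ⟨0, 1, 1, 0, 1, 2, 0, 1, 2, 0, 1, 1⟩ = true ∧
      (Tree.leaf 199 14 14 6 6).ok 0 1 0 0 (GE 1 3 (D 1) (9409, 9999) (912673, 999999) (tau1 (9409, 9999)) p13 k03 k13) ⟨0, 1, 1, 1, 2, 2, 0, 1, 2, 0, 1, 1⟩ = true ∧
      (Tree.leaf 193 14 14 6 6).ok 0 1 0 0 (GE 1 3 (D 1) (9409, 9999) (912673, 999999) (tau1 (9409, 9999)) p13 k03 k13) ⟨0, 1, 2, 0, 1, 1, 1, 2, 2, 0, 1, 1⟩ = true ∧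
      (Tree.leaf 200 14 14 6 6).ok 0 1 0 0 (GE 1 3 (D 1) (9409, 9999) (912673, 999999) (tau1 (9409, 9999)) p13 k03 k13) ⟨1, 2, 2, 0, 1, 1, 1, 2, 2, 0, 1, 1⟩ = true) ∧
    ((Tree.leaf 122 9 10 5 1).ok 0 1 0 0 (SEG D23 (-211148, 8191) (sP (95, 96) (2, 96)) p20 p21 p22 p23) ⟨0, 1, 1, 0, 1, 4, 0, 1, 1, 0, 1, 1⟩ = true ∧
      (Tree.leaf 123 9 10 5 1).ok 0 1 0 0 (SEG D23 (-211148, 8191) (sP (95, 96) (2, 96)) p20 p21 p22 p23) ⟨0, 1, 1, 1, 2, 4, 0, 1, 1, 0, 1, 1⟩ = true ∧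
      (Tree.leaf 117 9 10 5 1).ok 0 1 0 0 (SEG D23 (-211148, 8191) (sP (95, 96) (2, 96)) p20 p21 p22 p23) ⟨0, 1, 1, 1, 2, 2, 0, 1, 1, 0, 1, 1⟩ = true) ∧
    ((Tree.leaf 44 10 1 4 1).ok 0 1 0 0 (RE D23 (-211148, 8191)) ⟨0, 1, 1, 0, 1, 1, 0, 1, 1, 0, 1, 1⟩ = true) ∧
    ((Tree.leaf 152 14 10 4 1).ok 0 1 0 0 (UE0 (97, 99) D20) ⟨0, 1, 1, 0, 1, 1, 0, 1, 1, 0, 1, 1⟩ = true) ∧
    ((Tree.leaf 151 14 10 4 1).ok 0 1 0 0 (UE1 (97, 49) D20) ⟨0, 1, 1, 0, 1, 2, 0, 1, 1, 0, 1, 1⟩ = true ∧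
      (Tree.leaf 164 14 10 4 1).ok 0 1 0 0 (UE1 (97, 49) D20) ⟨0, 1, 1, 2, 3, 4, 0, 1, 1, 0, 1, 1⟩ = true ∧
      (Tree.leaf 166 14 10 4 1).ok 0 1 0 0 (UE1 (97, 49) D20) ⟨0, 1, 1, 3, 4, 4, 0, 1, 1, 0, 1, 1⟩ = true) ∧
    ((Tree.leaf 151 14 10 4 1).ok 0 1 0 0 (UE0 (97, 99) D21) ⟨0, 1, 1, 0, 1, 1, 0, 1, 1, 0, 1, 1⟩ = true) ∧
    ((Tree.leaf 150 14 10 4 1).ok 0 1 0 0 (UE1 (97, 49) D21) ⟨0, 1, 1, 0, 1, 2, 0, 1, 1, 0, 1, 1⟩ = true ∧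
      (Tree.leaf 156 14 10 4 1).ok 0 1 0 0 (UE1 (97, 49) D21) ⟨0, 1, 1, 1, 2, 2, 0, 1, 1, 0, 1, 1⟩ = true) ∧
    ((Tree.leaf 151 14 10 4 1).ok 0 1 0 0 (UE0 (97, 99) D22) ⟨0, 1, 1, 0, 1, 1, 0, 1, 1, 0, 1, 1⟩ = true) ∧
    ((Tree.leaf 150 14 10 4 1).ok 0 1 0 0 (UE1 (97, 49) D22) ⟨0, 1, 1, 0, 1, 2, 0, 1, 1, 0, 1, 1⟩ = true ∧
      (Tree.leaf 156 14 10 4 1).ok 0 1 0 0 (UE1 (97, 49) D22) ⟨0, 1, 1, 1, 2, 2, 0, 1, 1, 0, 1, 1⟩ = true) ∧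
    ((Tree.leaf 168 14 10 4 1).ok 0 1 0 0 (UE0 (97, 99) D23) ⟨0, 1, 2, 0, 1, 2, 0, 1, 1, 0, 1, 1⟩ = true ∧
      (Tree.leaf 174 14 10 4 1).ok 0 1 0 0 (UE0 (97, 99) D23) ⟨1, 2, 2, 0, 1, 2, 0, 1, 1, 0, 1, 1⟩ = true ∧
      (Tree.leaf 162 14 10 4 1).ok 0 1 0 0 (UE0 (97, 99) D23) ⟨0, 1, 1, 1, 2, 2, 0, 1, 1, 0, 1, 1⟩ = true) ∧
    ((Tree.leaf 150 14 10 4 1).ok 0 1 0 0 (UE1 (97, 49) D23) ⟨0, 1, 1, 0, 1, 2, 0, 1, 1, 0, 1, 1⟩ = true ∧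
      (Tree.leaf 162 14 10 4 1).ok 0 1 0 0 (UE1 (97, 49) D23) ⟨0, 1, 2, 1, 2, 2, 0, 1, 1, 0, 1, 1⟩ = true ∧
      (Tree.leaf 173 14 10 4 1).ok 0 1 0 0 (UE1 (97, 49) D23) ⟨1, 2, 2, 1, 2, 2, 0, 1, 1, 0, 1, 1⟩ = true) ∧
    ((Tree.leaf 200 14 14 6 6).ok 0 1 0 0 (GE 2 0 (D 2) (9409, 9999) (912673, 999999) (.q 361 399) p20 k00 k10) ⟨0, 1, 2, 0, 1, 2, 0, 1, 1, 0, 1, 1⟩ = true ∧
      (Tree.leaf 204 14 14 6 6).ok 0 1 0 0 (GE 2 0 (D 2) (9409, 9999) (912673, 999999) (.q 361 399) p20 k00 k10) ⟨0, 1, 2, 1, 2, 2, 0, 1, 1, 0, 1, 1⟩ = true ∧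
      (Tree.leaf 195 14 14 6 6).ok 0 1 0 0 (GE 2 0 (D 2) (9409, 9999) (912673, 999999) (.q 361 399) p20 k00 k10) ⟨1, 2, 2, 0, 1, 1, 0, 1, 1, 0, 1, 1⟩ = true) ∧
    ((Tree.leaf 200 14 14 6 6).ok 0 1 0 0 (GE 2 0 (D 2) (9409, 9999) (912673, 999999) (tau1 (9409, 9999)) p20 k00 k10) ⟨0, 1, 2, 0, 1, 2, 0, 1, 1, 0, 1, 1⟩ = true ∧
      (Tree.leaf 204 14 14 6 6).ok 0 1 0 0 (GE 2 0 (D 2) (9409, 9999) (912673, 999999) (tau1 (9409, 9999)) p20 k00 k10) ⟨0, 1, 2, 1, 2, 2, 0, 1, 1, 0, 1, 1⟩ = true ∧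
      (Tree.leaf 195 14 14 6 6).ok 0 1 0 0 (GE 2 0 (D 2) (9409, 9999) (912673, 999999) (tau1 (9409, 9999)) p20 k00 k10) ⟨1, 2, 2, 0, 1, 1, 0, 1, 1, 0, 1, 1⟩ = true) ∧
    ((Tree.leaf 188 14 14 6 6).ok 0 1 0 0 (GE 2 1 (D 2) (9409, 9999) (912673, 999999) (.q 361 399) p21 k01 k11) ⟨0, 1, 1, 0, 1, 2, 0, 1, 1, 0, 1, 1⟩ = true ∧
      (Tree.leaf 194 14 14 6 6).ok 0 1 0 0 (GE 2 1 (D 2) (9409, 9999) (912673, 999999) (.q 361 399) p21 k01 k11) ⟨0, 1, 1, 1, 2, 2, 0, 1, 1, 0, 1, 1⟩ = true) ∧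
    ((Tree.leaf 188 14 14 6 6).ok 0 1 0 0 (GE 2 1 (D 2) (9409, 9999) (912673, 999999) (tau1 (9409, 9999)) p21 k01 k11) ⟨0, 1, 1, 0, 1, 2, 0, 1, 1, 0, 1, 1⟩ = true ∧
      (Tree.leaf 194 14 14 6 6).ok 0 1 0 0 (GE 2 1 (D 2) (9409, 9999) (912673, 999999) (tau1 (9409, 9999)) p21 k01 k11) ⟨0, 1, 1, 1, 2, 2, 0, 1, 1, 0, 1, 1⟩ = true) ∧
    ((Tree.leaf 200 14 14 6 6).ok 0 1 0 0 (GE 2 2 (D 2) (9409, 9999) (912673, 999999) (.q 361 399) p22 k02 k12) ⟨0, 1, 4, 0, 1, 1, 0, 1, 1, 0, 1, 1⟩ = true ∧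
      (Tree.leaf 202 14 14 6 6).ok 0 1 0 0 (GE 2 2 (D 2) (9409, 9999) (912673, 999999) (.q 361 399) p22 k02 k12) ⟨1, 2, 4, 0, 1, 1, 0, 1, 1, 0, 1, 1⟩ = true ∧
      (Tree.leaf 194 14 14 6 6).ok 0 1 0 0 (GE 2 2 (D 2) (9409, 9999) (912673, 999999) (.q 361 399) p22 k02 k12) ⟨1, 2, 2, 0, 1, 1, 0, 1, 1, 0, 1, 1⟩ = true) ∧
    ((Tree.leaf 200 14 14 6 6).ok 0 1 0 0 (GE 2 2 (D 2) (9409, 9999) (912673, 999999) (tau1 (9409, 9999)) p22 k02 k12) ⟨0, 1, 4, 0, 1, 1, 0, 1, 1, 0, 1, 1⟩ = true ∧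
      (Tree.leaf 202 14 14 6 6).ok 0 1 0 0 (GE 2 2 (D 2) (9409, 9999) (912673, 999999) (tau1 (9409, 9999)) p22 k02 k12) ⟨1, 2, 4, 0, 1, 1, 0, 1, 1, 0, 1, 1⟩ = true ∧
      (Tree.leaf 194 14 14 6 6).ok 0 1 0 0 (GE 2 2 (D 2) (9409, 9999) (912673, 999999) (tau1 (9409, 9999)) p22 k02 k12) ⟨1, 2, 2, 0, 1, 1, 0, 1, 1, 0, 1, 1⟩ = true) ∧
    ((Tree.leaf 200 14 14 6 6).ok 0 1 0 0 (GE 2 3 (D 2) (9409, 9999) (912673, 999999) (.q 361 399) p23 k03 k13) ⟨0, 1, 4, 0, 1, 1, 0, 1, 1, 0, 1, 1⟩ = true ∧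
      (Tree.leaf 202 14 14 6 6).ok 0 1 0 0 (GE 2 3 (D 2) (9409, 9999) (912673, 999999) (.q 361 399) p23 k03 k13) ⟨1, 2, 4, 0, 1, 1, 0, 1, 1, 0, 1, 1⟩ = true ∧
      (Tree.leaf 194 14 14 6 6).ok 0 1 0 0 (GE 2 3 (D 2) (9409, 9999) (912673, 999999) (.q 361 399) p23 k03 k13) ⟨1, 2, 2, 0, 1, 1, 0, 1, 1, 0, 1, 1⟩ = true) ∧
    ((Tree.leaf 200 14 14 6 6).ok 0 1 0 0 (GE 2 3 (D 2) (9409, 9999) (912673, 999999) (tau1 (9409, 9999)) p23 k03 k13) ⟨0, 1, 4, 0, 1, 1, 0, 1, 1, 0, 1, 1⟩ = true ∧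
      (Tree.leaf 202 14 14 6 6).ok 0 1 0 0 (GE 2 3 (D 2) (9409, 9999) (912673, 999999) (tau1 (9409, 9999)) p23 k03 k13) ⟨1, 2, 4, 0, 1, 1, 0, 1, 1, 0, 1, 1⟩ = true ∧
      (Tree.leaf 194 14 14 6 6).ok 0 1 0 0 (GE 2 3 (D 2) (9409, 9999) (912673, 999999) (tau1 (9409, 9999)) p23 k03 k13) ⟨1, 2, 2, 0, 1, 1, 0, 1, 1, 0, 1, 1⟩ = true) :=
  ⟨⟨by decide +kernel, by decide +kernel⟩,
   by decide +kernel,
   ⟨by decide +kernel, by decide +kernel, by decide +kernel, by decide +kernel, by decide +kernel⟩,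
   ⟨by decide +kernel, by decide +kernel, by decide +kernel, by decide +kernel, by decide +kernel, by decide +kernel⟩,
   ⟨by decide +kernel, by decide +kernel, by decide +kernel, by decide +kernel, by decide +kernel⟩,
   ⟨by decide +kernel, by decide +kernel, by decide +kernel, by decide +kernel, by decide +kernel⟩,
   ⟨by decide +kernel, by decide +kernel, by decide +kernel, by decide +kernel⟩,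
   ⟨by decide +kernel, by decide +kernel, by decide +kernel, by decide +kernel, by decide +kernel⟩,
   ⟨by decide +kernel, by decide +kernel, by decide +kernel, by decide +kernel, by decide +kernel⟩,
   ⟨by decide +kernel, by decide +kernel, by decide +kernel, by decide +kernel, by decide +kernel⟩,
   ⟨by decide +kernel, by decide +kernel, by decide +kernel⟩,
   ⟨by decide +kernel, by decide +kernel, by decide +kernel⟩,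
   ⟨by decide +kernel, by decide +kernel, by decide +kernel, by decide +kernel⟩,
   ⟨by decide +kernel, by decide +kernel, by decide +kernel, by decide +kernel⟩,
   ⟨by decide +kernel, by decide +kernel⟩,
   ⟨by decide +kernel, by decide +kernel⟩,
   ⟨by decide +kernel, by decide +kernel, by decide +kernel⟩,
   ⟨by decide +kernel, by decide +kernel, by decide +kernel⟩,
   ⟨by decide +kernel, by decide +kernel, by decide +kernel, by decide +kernel⟩,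
   by decide +kernel,
   ⟨by decide +kernel, by decide +kernel, by decide +kernel⟩,
   ⟨by decide +kernel, by decide +kernel, by decide +kernel, by decide +kernel, by decide +kernel⟩,
   ⟨by decide +kernel, by decide +kernel, by decide +kernel, by decide +kernel⟩,
   ⟨by decide +kernel, by decide +kernel, by decide +kernel, by decide +kernel, by decide +kernel⟩,
   ⟨by decide +kernel, by decide +kernel, by decide +kernel⟩,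
   ⟨by decide +kernel, by decide +kernel, by decide +kernel, by decide +kernel, by decide +kernel, by decide +kernel⟩,
   ⟨by decide +kernel, by decide +kernel, by decide +kernel⟩,
   ⟨by decide +kernel, by decide +kernel, by decide +kernel, by decide +kernel, by decide +kernel, by decide +kernel⟩,
   ⟨by decide +kernel, by decide +kernel, by decide +kernel, by decide +kernel⟩,
   ⟨by decide +kernel, by decide +kernel, by decide +kernel, by decide +kernel⟩,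
   ⟨by decide +kernel, by decide +kernel, by decide +kernel⟩,
   ⟨by decide +kernel, by decide +kernel, by decide +kernel⟩,
   ⟨by decide +kernel, by decide +kernel, by decide +kernel, by decide +kernel⟩,
   ⟨by decide +kernel, by decide +kernel, by decide +kernel, by decide +kernel⟩,
   ⟨by decide +kernel, by decide +kernel, by decide +kernel, by decide +kernel⟩,
   ⟨by decide +kernel, by decide +kernel, by decide +kernel, by decide +kernel⟩,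
   ⟨by decide +kernel, by decide +kernel, by decide +kernel⟩,
   by decide +kernel,
   by decide +kernel,
   ⟨by decide +kernel, by decide +kernel, by decide +kernel⟩,
   by decide +kernel,
   ⟨by decide +kernel, by decide +kernel⟩,
   by decide +kernel,
   ⟨by decide +kernel, by decide +kernel⟩,
   ⟨by decide +kernel, by decide +kernel, by decide +kernel⟩,
   ⟨by decide +kernel, by decide +kernel, by decide +kernel⟩,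
   ⟨by decide +kernel, by decide +kernel, by decide +kernel⟩,
   ⟨by decide +kernel, by decide +kernel, by decide +kernel⟩,
   ⟨by decide +kernel, by decide +kernel⟩,
   ⟨by decide +kernel, by decide +kernel⟩,
   ⟨by decide +kernel, by decide +kernel, by decide +kernel⟩,
   ⟨by decide +kernel, by decide +kernel, by decide +kernel⟩,
   ⟨by decide +kernel, by decide +kernel, by decide +kernel⟩,
   ⟨by decide +kernel, by decide +kernel, by decide +kernel⟩⟩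

def t_s0 : Tree := (.s2 (.leaf 119 9 16 6 1) (.leaf 119 9 16 6 1))
theorem s0 : t_s0.ok 0 1 0 0 (SEG D03 (0, 0) (sP (95, 96) (2, 96)) p00 p01 p02 p03) unitBx = true :=
  (Tree.ok_s2 lv.1.1 lv.1.2)

def t_r0 : Tree := (.leaf 53 16 1 6 1)
theorem r0 : t_r0.ok 0 1 0 0 (RE D03 (0, 0)) unitBx = true :=
  lv.2.1

def t_u00 : Tree := (.s0 (.s1 (.s0 (.leaf 224 17 16 6 1) (.leaf 227 17 16 6 1)) (.s0 (.leaf 228 17 16 6 1) (.leaf 232 17 16 6 1))) (.leaf 204 17 16 6 1))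
theorem u00 : t_u00.ok 0 1 0 0 (UE0 (97, 99) D00) unitBx = true :=
  (Tree.ok_s0 (Tree.ok_s1 (Tree.ok_s0 lv.2.2.1.1 lv.2.2.1.2.1) (Tree.ok_s0 lv.2.2.1.2.2.1 lv.2.2.1.2.2.2.1)) lv.2.2.1.2.2.2.2)

def t_v00 : Tree := (.s1 (.s0 (.s0 (.leaf 209 17 16 6 1) (.leaf 216 17 16 6 1)) (.leaf 207 17 16 6 1)) (.s1 (.leaf 206 17 16 6 1) (.s1 (.leaf 224 17 16 6 1) (.leaf 226 17 16 6 1))))
theorem v00 : t_v00.ok 0 1 0 0 (UE1 (97, 49) D00) unitBx = true :=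
  (Tree.ok_s1 (Tree.ok_s0 (Tree.ok_s0 lv.2.2.2.1.1 lv.2.2.2.1.2.1) lv.2.2.2.1.2.2.1) (Tree.ok_s1 lv.2.2.2.1.2.2.2.1 (Tree.ok_s1 lv.2.2.2.1.2.2.2.2.1 lv.2.2.2.1.2.2.2.2.2)))

def t_u01 : Tree := (.s0 (.s1 (.s0 (.leaf 224 17 16 6 1) (.leaf 227 17 16 6 1)) (.s0 (.leaf 227 17 16 6 1) (.leaf 232 17 16 6 1))) (.leaf 204 17 16 6 1))
theorem u01 : t_u01.ok 0 1 0 0 (UE0 (97, 99) D01) unitBx = true :=
  (Tree.ok_s0 (Tree.ok_s1 (Tree.ok_s0 lv.2.2.2.2.1.1 lv.2.2.2.2.1.2.1) (Tree.ok_s0 lv.2.2.2.2.1.2.2.1 lv.2.2.2.2.1.2.2.2.1)) lv.2.2.2.2.1.2.2.2.2)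

def t_v01 : Tree := (.s1 (.leaf 187 17 16 6 1) (.s1 (.s0 (.leaf 216 17 16 6 1) (.leaf 227 17 16 6 1)) (.s1 (.leaf 223 17 16 6 1) (.leaf 224 17 16 6 1))))
theorem v01 : t_v01.ok 0 1 0 0 (UE1 (97, 49) D01) unitBx = true :=
  (Tree.ok_s1 lv.2.2.2.2.2.1.1 (Tree.ok_s1 (Tree.ok_s0 lv.2.2.2.2.2.1.2.1 lv.2.2.2.2.2.1.2.2.1) (Tree.ok_s1 lv.2.2.2.2.2.1.2.2.2.1 lv.2.2.2.2.2.1.2.2.2.2)))

def t_u02 : Tree := (.s0 (.s0 (.s1 (.leaf 224 17 16 6 1) (.leaf 228 17 16 6 1)) (.leaf 215 17 16 6 1)) (.leaf 204 17 16 6 1))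
theorem u02 : t_u02.ok 0 1 0 0 (UE0 (97, 99) D02) unitBx = true :=
  (Tree.ok_s0 (Tree.ok_s0 (Tree.ok_s1 lv.2.2.2.2.2.2.1.1 lv.2.2.2.2.2.2.1.2.1) lv.2.2.2.2.2.2.1.2.2.1) lv.2.2.2.2.2.2.1.2.2.2)

def t_v02 : Tree := (.s1 (.leaf 187 17 16 6 1) (.s1 (.s0 (.leaf 216 17 16 6 1) (.leaf 227 17 16 6 1)) (.s1 (.leaf 224 17 16 6 1) (.leaf 226 17 16 6 1))))
theorem v02 : t_v02.ok 0 1 0 0 (UE1 (97, 49) D02) unitBx = true :=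
  (Tree.ok_s1 lv.2.2.2.2.2.2.2.1.1 (Tree.ok_s1 (Tree.ok_s0 lv.2.2.2.2.2.2.2.1.2.1 lv.2.2.2.2.2.2.2.1.2.2.1) (Tree.ok_s1 lv.2.2.2.2.2.2.2.1.2.2.2.1 lv.2.2.2.2.2.2.2.1.2.2.2.2)))

def t_u03 : Tree := (.s0 (.s1 (.s0 (.leaf 224 17 16 6 1) (.leaf 228 17 16 6 1)) (.s0 (.leaf 228 17 16 6 1) (.leaf 233 17 16 6 1))) (.leaf 204 17 16 6 1))
theorem u03 : t_u03.ok 0 1 0 0 (UE0 (97, 99) D03) unitBx = true :=
  (Tree.ok_s0 (Tree.ok_s1 (Tree.ok_s0 lv.2.2.2.2.2.2.2.2.1.1 lv.2.2.2.2.2.2.2.2.1.2.1) (Tree.ok_s0 lv.2.2.2.2.2.2.2.2.1.2.2.1 lv.2.2.2.2.2.2.2.2.1.2.2.2.1)) lv.2.2.2.2.2.2.2.2.1.2.2.2.2)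

def t_v03 : Tree := (.s1 (.leaf 187 17 16 6 1) (.s1 (.s0 (.leaf 216 17 16 6 1) (.leaf 227 17 16 6 1)) (.s1 (.leaf 224 17 16 6 1) (.leaf 226 17 16 6 1))))
theorem v03 : t_v03.ok 0 1 0 0 (UE1 (97, 49) D03) unitBx = true :=
  (Tree.ok_s1 lv.2.2.2.2.2.2.2.2.2.1.1 (Tree.ok_s1 (Tree.ok_s0 lv.2.2.2.2.2.2.2.2.2.1.2.1 lv.2.2.2.2.2.2.2.2.2.1.2.2.1) (Tree.ok_s1 lv.2.2.2.2.2.2.2.2.2.1.2.2.2.1 lv.2.2.2.2.2.2.2.2.2.1.2.2.2.2)))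

def t_h000 : Tree := (.s3 (.leaf 199 16 16 6 6) (.s0 (.leaf 211 16 16 6 6) (.leaf 219 16 16 6 6)))
theorem h000 : t_h000.ok 0 1 0 0 (GE 0 0 (D 0) (9409, 9999) (912673, 999999) (.q 361 399) p00 k00 k10) unitBx = true :=
  (Tree.ok_s3 lv.2.2.2.2.2.2.2.2.2.2.1.1 (Tree.ok_s0 lv.2.2.2.2.2.2.2.2.2.2.1.2.1 lv.2.2.2.2.2.2.2.2.2.2.1.2.2))

def t_h001 : Tree := (.s3 (.leaf 199 16 16 6 6) (.s0 (.leaf 211 16 16 6 6) (.leaf 219 16 16 6 6)))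
theorem h001 : t_h001.ok 0 1 0 0 (GE 0 0 (D 0) (9409, 9999) (912673, 999999) (tau1 (9409, 9999)) p00 k00 k10) unitBx = true :=
  (Tree.ok_s3 lv.2.2.2.2.2.2.2.2.2.2.2.1.1 (Tree.ok_s0 lv.2.2.2.2.2.2.2.2.2.2.2.1.2.1 lv.2.2.2.2.2.2.2.2.2.2.2.1.2.2))

def t_h010 : Tree := (.s3 (.s1 (.leaf 212 16 16 6 6) (.leaf 219 16 16 6 6)) (.s0 (.leaf 212 16 16 6 6) (.leaf 220 16 16 6 6)))
theorem h010 : t_h010.ok 0 1 0 0 (GE 0 1 (D 0) (9409, 9999) (912673, 999999) (.q 361 399) p01 k01 k11) unitBx = true :=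
  (Tree.ok_s3 (Tree.ok_s1 lv.2.2.2.2.2.2.2.2.2.2.2.2.1.1 lv.2.2.2.2.2.2.2.2.2.2.2.2.1.2.1) (Tree.ok_s0 lv.2.2.2.2.2.2.2.2.2.2.2.2.1.2.2.1 lv.2.2.2.2.2.2.2.2.2.2.2.2.1.2.2.2))

def t_h011 : Tree := (.s3 (.s1 (.leaf 212 16 16 6 6) (.leaf 219 16 16 6 6)) (.s0 (.leaf 212 16 16 6 6) (.leaf 220 16 16 6 6)))
theorem h011 : t_h011.ok 0 1 0 0 (GE 0 1 (D 0) (9409, 9999) (912673, 999999) (tau1 (9409, 9999)) p01 k01 k11) unitBx = true :=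
  (Tree.ok_s3 (Tree.ok_s1 lv.2.2.2.2.2.2.2.2.2.2.2.2.2.1.1 lv.2.2.2.2.2.2.2.2.2.2.2.2.2.1.2.1) (Tree.ok_s0 lv.2.2.2.2.2.2.2.2.2.2.2.2.2.1.2.2.1 lv.2.2.2.2.2.2.2.2.2.2.2.2.2.1.2.2.2))

def t_h020 : Tree := (.s0 (.leaf 206 16 16 6 6) (.leaf 214 16 16 6 6))
theorem h020 : t_h020.ok 0 1 0 0 (GE 0 2 (D 0) (9409, 9999) (912673, 999999) (.q 361 399) p02 k02 k12) unitBx = true :=
  (Tree.ok_s0 lv.2.2.2.2.2.2.2.2.2.2.2.2.2.2.1.1 lv.2.2.2.2.2.2.2.2.2.2.2.2.2.2.1.2)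

def t_h021 : Tree := (.s0 (.leaf 206 16 16 6 6) (.leaf 214 16 16 6 6))
theorem h021 : t_h021.ok 0 1 0 0 (GE 0 2 (D 0) (9409, 9999) (912673, 999999) (tau1 (9409, 9999)) p02 k02 k12) unitBx = true :=
  (Tree.ok_s0 lv.2.2.2.2.2.2.2.2.2.2.2.2.2.2.2.1.1 lv.2.2.2.2.2.2.2.2.2.2.2.2.2.2.2.1.2)

def t_h030 : Tree := (.s0 (.s3 (.leaf 211 16 16 6 6) (.leaf 212 16 16 6 6)) (.leaf 214 16 16 6 6))
theorem h030 : t_h030.ok 0 1 0 0 (GE 0 3 (D 0) (9409, 9999) (912673, 999999) (.q 361 399) p03 k03 k13) unitBx = true :=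
  (Tree.ok_s0 (Tree.ok_s3 lv.2.2.2.2.2.2.2.2.2.2.2.2.2.2.2.2.1.1 lv.2.2.2.2.2.2.2.2.2.2.2.2.2.2.2.2.1.2.1) lv.2.2.2.2.2.2.2.2.2.2.2.2.2.2.2.2.1.2.2)

def t_h031 : Tree := (.s0 (.s3 (.leaf 211 16 16 6 6) (.leaf 212 16 16 6 6)) (.leaf 214 16 16 6 6))
theorem h031 : t_h031.ok 0 1 0 0 (GE 0 3 (D 0) (9409, 9999) (912673, 999999) (tau1 (9409, 9999)) p03 k03 k13) unitBx = true :=
  (Tree.ok_s0 (Tree.ok_s3 lv.2.2.2.2.2.2.2.2.2.2.2.2.2.2.2.2.2.1.1 lv.2.2.2.2.2.2.2.2.2.2.2.2.2.2.2.2.2.1.2.1) lv.2.2.2.2.2.2.2.2.2.2.2.2.2.2.2.2.2.1.2.2)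

def t_s1 : Tree := (.s2 (.s1 (.leaf 127 9 13 5 1) (.leaf 130 9 13 5 1)) (.s1 (.leaf 127 9 13 5 1) (.leaf 131 9 13 5 1)))
theorem s1 : t_s1.ok 0 1 0 0 (SEG D13 (0, 0) (sP (95, 96) (2, 96)) p10 p11 p12 p13) unitBx = true :=
  (Tree.ok_s2 (Tree.ok_s1 lv.2.2.2.2.2.2.2.2.2.2.2.2.2.2.2.2.2.2.1.1 lv.2.2.2.2.2.2.2.2.2.2.2.2.2.2.2.2.2.2.1.2.1) (Tree.ok_s1 lv.2.2.2.2.2.2.2.2.2.2.2.2.2.2.2.2.2.2.1.2.2.1 lv.2.2.2.2.2.2.2.2.2.2.2.2.2.2.2.2.2.2.1.2.2.2))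

def t_r1 : Tree := (.leaf 52 13 1 5 1)
theorem r1 : t_r1.ok 0 1 0 0 (RE D13 (0, 0)) unitBx = true :=
  lv.2.2.2.2.2.2.2.2.2.2.2.2.2.2.2.2.2.2.2.1

def t_u10 : Tree := (.s0 (.s0 (.leaf 180 14 13 5 1) (.leaf 183 14 13 5 1)) (.leaf 174 14 13 5 1))
theorem u10 : t_u10.ok 0 1 0 0 (UE0 (97, 99) D10) unitBx = true :=
  (Tree.ok_s0 (Tree.ok_s0 lv.2.2.2.2.2.2.2.2.2.2.2.2.2.2.2.2.2.2.2.2.1.1 lv.2.2.2.2.2.2.2.2.2.2.2.2.2.2.2.2.2.2.2.2.1.2.1) lv.2.2.2.2.2.2.2.2.2.2.2.2.2.2.2.2.2.2.2.2.1.2.2)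

def t_v10 : Tree := (.s0 (.s1 (.s0 (.leaf 179 14 13 5 1) (.leaf 184 14 13 5 1)) (.s0 (.leaf 182 14 13 5 1) (.leaf 188 14 13 5 1))) (.leaf 168 14 13 5 1))
theorem v10 : t_v10.ok 0 1 0 0 (UE1 (97, 49) D10) unitBx = true :=
  (Tree.ok_s0 (Tree.ok_s1 (Tree.ok_s0 lv.2.2.2.2.2.2.2.2.2.2.2.2.2.2.2.2.2.2.2.2.2.1.1 lv.2.2.2.2.2.2.2.2.2.2.2.2.2.2.2.2.2.2.2.2.2.1.2.1) (Tree.ok_s0 lv.2.2.2.2.2.2.2.2.2.2.2.2.2.2.2.2.2.2.2.2.2.1.2.2.1 lv.2.2.2.2.2.2.2.2.2.2.2.2.2.2.2.2.2.2.2.2.2.1.2.2.2.1)) lv.2.2.2.2.2.2.2.2.2.2.2.2.2.2.2.2.2.2.2.2.2.1.2.2.2.2)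

def t_u11 : Tree := (.s0 (.s1 (.s0 (.leaf 191 14 13 5 1) (.leaf 193 14 13 5 1)) (.leaf 183 14 13 5 1)) (.leaf 174 14 13 5 1))
theorem u11 : t_u11.ok 0 1 0 0 (UE0 (97, 99) D11) unitBx = true :=
  (Tree.ok_s0 (Tree.ok_s1 (Tree.ok_s0 lv.2.2.2.2.2.2.2.2.2.2.2.2.2.2.2.2.2.2.2.2.2.2.1.1 lv.2.2.2.2.2.2.2.2.2.2.2.2.2.2.2.2.2.2.2.2.2.2.1.2.1) lv.2.2.2.2.2.2.2.2.2.2.2.2.2.2.2.2.2.2.2.2.2.2.1.2.2.1) lv.2.2.2.2.2.2.2.2.2.2.2.2.2.2.2.2.2.2.2.2.2.2.1.2.2.2)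

def t_v11 : Tree := (.s0 (.s1 (.s0 (.leaf 179 14 13 5 1) (.leaf 184 14 13 5 1)) (.s0 (.leaf 183 14 13 5 1) (.leaf 189 14 13 5 1))) (.leaf 168 14 13 5 1))
theorem v11 : t_v11.ok 0 1 0 0 (UE1 (97, 49) D11) unitBx = true :=
  (Tree.ok_s0 (Tree.ok_s1 (Tree.ok_s0 lv.2.2.2.2.2.2.2.2.2.2.2.2.2.2.2.2.2.2.2.2.2.2.2.1.1 lv.2.2.2.2.2.2.2.2.2.2.2.2.2.2.2.2.2.2.2.2.2.2.2.1.2.1) (Tree.ok_s0 lv.2.2.2.2.2.2.2.2.2.2.2.2.2.2.2.2.2.2.2.2.2.2.2.1.2.2.1 lv.2.2.2.2.2.2.2.2.2.2.2.2.2.2.2.2.2.2.2.2.2.2.2.1.2.2.2.1)) lv.2.2.2.2.2.2.2.2.2.2.2.2.2.2.2.2.2.2.2.2.2.2.2.1.2.2.2.2)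

def t_u12 : Tree := (.s1 (.s0 (.leaf 179 14 13 5 1) (.leaf 184 14 13 5 1)) (.leaf 173 14 13 5 1))
theorem u12 : t_u12.ok 0 1 0 0 (UE0 (97, 99) D12) unitBx = true :=
  (Tree.ok_s1 (Tree.ok_s0 lv.2.2.2.2.2.2.2.2.2.2.2.2.2.2.2.2.2.2.2.2.2.2.2.2.1.1 lv.2.2.2.2.2.2.2.2.2.2.2.2.2.2.2.2.2.2.2.2.2.2.2.2.1.2.1) lv.2.2.2.2.2.2.2.2.2.2.2.2.2.2.2.2.2.2.2.2.2.2.2.2.1.2.2)

def t_v12 : Tree := (.s1 (.s0 (.s0 (.leaf 179 14 13 5 1) (.leaf 184 14 13 5 1)) (.leaf 178 14 13 5 1)) (.s0 (.s0 (.leaf 183 14 13 5 1) (.leaf 189 14 13 5 1)) (.leaf 183 14 13 5 1)))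
theorem v12 : t_v12.ok 0 1 0 0 (UE1 (97, 49) D12) unitBx = true :=
  (Tree.ok_s1 (Tree.ok_s0 (Tree.ok_s0 lv.2.2.2.2.2.2.2.2.2.2.2.2.2.2.2.2.2.2.2.2.2.2.2.2.2.1.1 lv.2.2.2.2.2.2.2.2.2.2.2.2.2.2.2.2.2.2.2.2.2.2.2.2.2.1.2.1) lv.2.2.2.2.2.2.2.2.2.2.2.2.2.2.2.2.2.2.2.2.2.2.2.2.2.1.2.2.1) (Tree.ok_s0 (Tree.ok_s0 lv.2.2.2.2.2.2.2.2.2.2.2.2.2.2.2.2.2.2.2.2.2.2.2.2.2.1.2.2.2.1 lv.2.2.2.2.2.2.2.2.2.2.2.2.2.2.2.2.2.2.2.2.2.2.2.2.2.1.2.2.2.2.1) lv.2.2.2.2.2.2.2.2.2.2.2.2.2.2.2.2.2.2.2.2.2.2.2.2.2.1.2.2.2.2.2))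

def t_u13 : Tree := (.s0 (.s1 (.leaf 179 14 13 5 1) (.leaf 183 14 13 5 1)) (.leaf 174 14 13 5 1))
theorem u13 : t_u13.ok 0 1 0 0 (UE0 (97, 99) D13) unitBx = true :=
  (Tree.ok_s0 (Tree.ok_s1 lv.2.2.2.2.2.2.2.2.2.2.2.2.2.2.2.2.2.2.2.2.2.2.2.2.2.2.1.1 lv.2.2.2.2.2.2.2.2.2.2.2.2.2.2.2.2.2.2.2.2.2.2.2.2.2.2.1.2.1) lv.2.2.2.2.2.2.2.2.2.2.2.2.2.2.2.2.2.2.2.2.2.2.2.2.2.2.1.2.2)

def t_v13 : Tree := (.s1 (.s0 (.s0 (.leaf 179 14 13 5 1) (.leaf 184 14 13 5 1)) (.leaf 178 14 13 5 1)) (.s0 (.s0 (.leaf 183 14 13 5 1) (.leaf 189 14 13 5 1)) (.leaf 183 14 13 5 1)))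
theorem v13 : t_v13.ok 0 1 0 0 (UE1 (97, 49) D13) unitBx = true :=
  (Tree.ok_s1 (Tree.ok_s0 (Tree.ok_s0 lv.2.2.2.2.2.2.2.2.2.2.2.2.2.2.2.2.2.2.2.2.2.2.2.2.2.2.2.1.1 lv.2.2.2.2.2.2.2.2.2.2.2.2.2.2.2.2.2.2.2.2.2.2.2.2.2.2.2.1.2.1) lv.2.2.2.2.2.2.2.2.2.2.2.2.2.2.2.2.2.2.2.2.2.2.2.2.2.2.2.1.2.2.1) (Tree.ok_s0 (Tree.ok_s0 lv.2.2.2.2.2.2.2.2.2.2.2.2.2.2.2.2.2.2.2.2.2.2.2.2.2.2.2.1.2.2.2.1 lv.2.2.2.2.2.2.2.2.2.2.2.2.2.2.2.2.2.2.2.2.2.2.2.2.2.2.2.1.2.2.2.2.1) lv.2.2.2.2.2.2.2.2.2.2.2.2.2.2.2.2.2.2.2.2.2.2.2.2.2.2.2.1.2.2.2.2.2))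

def t_h100 : Tree := (.s1 (.s0 (.leaf 200 14 14 6 6) (.leaf 204 14 14 6 6)) (.s1 (.leaf 205 14 14 6 6) (.leaf 209 14 14 6 6)))
theorem h100 : t_h100.ok 0 1 0 0 (GE 1 0 (D 1) (9409, 9999) (912673, 999999) (.q 361 399) p10 k00 k10) unitBx = true :=
  (Tree.ok_s1 (Tree.ok_s0 lv.2.2.2.2.2.2.2.2.2.2.2.2.2.2.2.2.2.2.2.2.2.2.2.2.2.2.2.2.1.1 lv.2.2.2.2.2.2.2.2.2.2.2.2.2.2.2.2.2.2.2.2.2.2.2.2.2.2.2.2.1.2.1) (Tree.ok_s1 lv.2.2.2.2.2.2.2.2.2.2.2.2.2.2.2.2.2.2.2.2.2.2.2.2.2.2.2.2.1.2.2.1 lv.2.2.2.2.2.2.2.2.2.2.2.2.2.2.2.2.2.2.2.2.2.2.2.2.2.2.2.2.1.2.2.2))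

def t_h101 : Tree := (.s1 (.s0 (.leaf 200 14 14 6 6) (.leaf 204 14 14 6 6)) (.s1 (.leaf 205 14 14 6 6) (.leaf 209 14 14 6 6)))
theorem h101 : t_h101.ok 0 1 0 0 (GE 1 0 (D 1) (9409, 9999) (912673, 999999) (tau1 (9409, 9999)) p10 k00 k10) unitBx = true :=
  (Tree.ok_s1 (Tree.ok_s0 lv.2.2.2.2.2.2.2.2.2.2.2.2.2.2.2.2.2.2.2.2.2.2.2.2.2.2.2.2.2.1.1 lv.2.2.2.2.2.2.2.2.2.2.2.2.2.2.2.2.2.2.2.2.2.2.2.2.2.2.2.2.2.1.2.1) (Tree.ok_s1 lv.2.2.2.2.2.2.2.2.2.2.2.2.2.2.2.2.2.2.2.2.2.2.2.2.2.2.2.2.2.1.2.2.1 lv.2.2.2.2.2.2.2.2.2.2.2.2.2.2.2.2.2.2.2.2.2.2.2.2.2.2.2.2.2.1.2.2.2))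

def t_h110 : Tree := (.s0 (.s3 (.leaf 193 14 14 6 6) (.leaf 193 14 14 6 6)) (.leaf 194 14 14 6 6))
theorem h110 : t_h110.ok 0 1 0 0 (GE 1 1 (D 1) (9409, 9999) (912673, 999999) (.q 361 399) p11 k01 k11) unitBx = true :=
  (Tree.ok_s0 (Tree.ok_s3 lv.2.2.2.2.2.2.2.2.2.2.2.2.2.2.2.2.2.2.2.2.2.2.2.2.2.2.2.2.2.2.1.1 lv.2.2.2.2.2.2.2.2.2.2.2.2.2.2.2.2.2.2.2.2.2.2.2.2.2.2.2.2.2.2.1.2.1) lv.2.2.2.2.2.2.2.2.2.2.2.2.2.2.2.2.2.2.2.2.2.2.2.2.2.2.2.2.2.2.1.2.2)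

def t_h111 : Tree := (.s0 (.s3 (.leaf 193 14 14 6 6) (.leaf 193 14 14 6 6)) (.leaf 194 14 14 6 6))
theorem h111 : t_h111.ok 0 1 0 0 (GE 1 1 (D 1) (9409, 9999) (912673, 999999) (tau1 (9409, 9999)) p11 k01 k11) unitBx = true :=
  (Tree.ok_s0 (Tree.ok_s3 lv.2.2.2.2.2.2.2.2.2.2.2.2.2.2.2.2.2.2.2.2.2.2.2.2.2.2.2.2.2.2.2.1.1 lv.2.2.2.2.2.2.2.2.2.2.2.2.2.2.2.2.2.2.2.2.2.2.2.2.2.2.2.2.2.2.2.1.2.1) lv.2.2.2.2.2.2.2.2.2.2.2.2.2.2.2.2.2.2.2.2.2.2.2.2.2.2.2.2.2.2.2.1.2.2)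

def t_h120 : Tree := (.s2 (.s3 (.leaf 187 14 14 6 6) (.leaf 188 14 14 6 6)) (.s3 (.leaf 188 14 14 6 6) (.leaf 189 14 14 6 6)))
theorem h120 : t_h120.ok 0 1 0 0 (GE 1 2 (D 1) (9409, 9999) (912673, 999999) (.q 361 399) p12 k02 k12) unitBx = true :=
  (Tree.ok_s2 (Tree.ok_s3 lv.2.2.2.2.2.2.2.2.2.2.2.2.2.2.2.2.2.2.2.2.2.2.2.2.2.2.2.2.2.2.2.2.1.1 lv.2.2.2.2.2.2.2.2.2.2.2.2.2.2.2.2.2.2.2.2.2.2.2.2.2.2.2.2.2.2.2.2.1.2.1) (Tree.ok_s3 lv.2.2.2.2.2.2.2.2.2.2.2.2.2.2.2.2.2.2.2.2.2.2.2.2.2.2.2.2.2.2.2.2.1.2.2.1 lv.2.2.2.2.2.2.2.2.2.2.2.2.2.2.2.2.2.2.2.2.2.2.2.2.2.2.2.2.2.2.2.2.1.2.2.2))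

def t_h121 : Tree := (.s2 (.s3 (.leaf 187 14 14 6 6) (.leaf 188 14 14 6 6)) (.s3 (.leaf 188 14 14 6 6) (.leaf 189 14 14 6 6)))
theorem h121 : t_h121.ok 0 1 0 0 (GE 1 2 (D 1) (9409, 9999) (912673, 999999) (tau1 (9409, 9999)) p12 k02 k12) unitBx = true :=
  (Tree.ok_s2 (Tree.ok_s3 lv.2.2.2.2.2.2.2.2.2.2.2.2.2.2.2.2.2.2.2.2.2.2.2.2.2.2.2.2.2.2.2.2.2.1.1 lv.2.2.2.2.2.2.2.2.2.2.2.2.2.2.2.2.2.2.2.2.2.2.2.2.2.2.2.2.2.2.2.2.2.1.2.1) (Tree.ok_s3 lv.2.2.2.2.2.2.2.2.2.2.2.2.2.2.2.2.2.2.2.2.2.2.2.2.2.2.2.2.2.2.2.2.2.1.2.2.1 lv.2.2.2.2.2.2.2.2.2.2.2.2.2.2.2.2.2.2.2.2.2.2.2.2.2.2.2.2.2.2.2.2.2.1.2.2.2))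

def t_h130 : Tree := (.s2 (.s1 (.leaf 193 14 14 6 6) (.leaf 199 14 14 6 6)) (.s0 (.leaf 193 14 14 6 6) (.leaf 200 14 14 6 6)))
theorem h130 : t_h130.ok 0 1 0 0 (GE 1 3 (D 1) (9409, 9999) (912673, 999999) (.q 361 399) p13 k03 k13) unitBx = true :=
  (Tree.ok_s2 (Tree.ok_s1 lv.2.2.2.2.2.2.2.2.2.2.2.2.2.2.2.2.2.2.2.2.2.2.2.2.2.2.2.2.2.2.2.2.2.2.1.1 lv.2.2.2.2.2.2.2.2.2.2.2.2.2.2.2.2.2.2.2.2.2.2.2.2.2.2.2.2.2.2.2.2.2.2.1.2.1) (Tree.ok_s0 lv.2.2.2.2.2.2.2.2.2.2.2.2.2.2.2.2.2.2.2.2.2.2.2.2.2.2.2.2.2.2.2.2.2.2.1.2.2.1 lv.2.2.2.2.2.2.2.2.2.2.2.2.2.2.2.2.2.2.2.2.2.2.2.2.2.2.2.2.2.2.2.2.2.2.1.2.2.2))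

def t_h131 : Tree := (.s2 (.s1 (.leaf 193 14 14 6 6) (.leaf 199 14 14 6 6)) (.s0 (.leaf 193 14 14 6 6) (.leaf 200 14 14 6 6)))
theorem h131 : t_h131.ok 0 1 0 0 (GE 1 3 (D 1) (9409, 9999) (912673, 999999) (tau1 (9409, 9999)) p13 k03 k13) unitBx = true :=
  (Tree.ok_s2 (Tree.ok_s1 lv.2.2.2.2.2.2.2.2.2.2.2.2.2.2.2.2.2.2.2.2.2.2.2.2.2.2.2.2.2.2.2.2.2.2.2.1.1 lv.2.2.2.2.2.2.2.2.2.2.2.2.2.2.2.2.2.2.2.2.2.2.2.2.2.2.2.2.2.2.2.2.2.2.2.1.2.1) (Tree.ok_s0 lv.2.2.2.2.2.2.2.2.2.2.2.2.2.2.2.2.2.2.2.2.2.2.2.2.2.2.2.2.2.2.2.2.2.2.2.1.2.2.1 lv.2.2.2.2.2.2.2.2.2.2.2.2.2.2.2.2.2.2.2.2.2.2.2.2.2.2.2.2.2.2.2.2.2.2.2.1.2.2.2))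

def t_s2 : Tree := (.s1 (.s1 (.leaf 122 9 10 5 1) (.leaf 123 9 10 5 1)) (.leaf 117 9 10 5 1))
theorem s2 : t_s2.ok 0 1 0 0 (SEG D23 (-211148, 8191) (sP (95, 96) (2, 96)) p20 p21 p22 p23) unitBx = true :=
  (Tree.ok_s1 (Tree.ok_s1 lv.2.2.2.2.2.2.2.2.2.2.2.2.2.2.2.2.2.2.2.2.2.2.2.2.2.2.2.2.2.2.2.2.2.2.2.2.1.1 lv.2.2.2.2.2.2.2.2.2.2.2.2.2.2.2.2.2.2.2.2.2.2.2.2.2.2.2.2.2.2.2.2.2.2.2.2.1.2.1) lv.2.2.2.2.2.2.2.2.2.2.2.2.2.2.2.2.2.2.2.2.2.2.2.2.2.2.2.2.2.2.2.2.2.2.2.2.1.2.2)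

def t_r2 : Tree := (.leaf 44 10 1 4 1)
theorem r2 : t_r2.ok 0 1 0 0 (RE D23 (-211148, 8191)) unitBx = true :=
  lv.2.2.2.2.2.2.2.2.2.2.2.2.2.2.2.2.2.2.2.2.2.2.2.2.2.2.2.2.2.2.2.2.2.2.2.2.2.1

def t_u20 : Tree := (.leaf 152 14 10 4 1)
theorem u20 : t_u20.ok 0 1 0 0 (UE0 (97, 99) D20) unitBx = true :=
  lv.2.2.2.2.2.2.2.2.2.2.2.2.2.2.2.2.2.2.2.2.2.2.2.2.2.2.2.2.2.2.2.2.2.2.2.2.2.2.1

def t_v20 : Tree := (.s1 (.leaf 151 14 10 4 1) (.s1 (.leaf 164 14 10 4 1) (.leaf 166 14 10 4 1)))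
theorem v20 : t_v20.ok 0 1 0 0 (UE1 (97, 49) D20) unitBx = true :=
  (Tree.ok_s1 lv.2.2.2.2.2.2.2.2.2.2.2.2.2.2.2.2.2.2.2.2.2.2.2.2.2.2.2.2.2.2.2.2.2.2.2.2.2.2.2.1.1 (Tree.ok_s1 lv.2.2.2.2.2.2.2.2.2.2.2.2.2.2.2.2.2.2.2.2.2.2.2.2.2.2.2.2.2.2.2.2.2.2.2.2.2.2.2.1.2.1 lv.2.2.2.2.2.2.2.2.2.2.2.2.2.2.2.2.2.2.2.2.2.2.2.2.2.2.2.2.2.2.2.2.2.2.2.2.2.2.2.1.2.2))

def t_u21 : Tree := (.leaf 151 14 10 4 1)
theorem u21 : t_u21.ok 0 1 0 0 (UE0 (97, 99) D21) unitBx = true :=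
  lv.2.2.2.2.2.2.2.2.2.2.2.2.2.2.2.2.2.2.2.2.2.2.2.2.2.2.2.2.2.2.2.2.2.2.2.2.2.2.2.2.1

def t_v21 : Tree := (.s1 (.leaf 150 14 10 4 1) (.leaf 156 14 10 4 1))
theorem v21 : t_v21.ok 0 1 0 0 (UE1 (97, 49) D21) unitBx = true :=
  (Tree.ok_s1 lv.2.2.2.2.2.2.2.2.2.2.2.2.2.2.2.2.2.2.2.2.2.2.2.2.2.2.2.2.2.2.2.2.2.2.2.2.2.2.2.2.2.1.1 lv.2.2.2.2.2.2.2.2.2.2.2.2.2.2.2.2.2.2.2.2.2.2.2.2.2.2.2.2.2.2.2.2.2.2.2.2.2.2.2.2.2.1.2)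

def t_u22 : Tree := (.leaf 151 14 10 4 1)
theorem u22 : t_u22.ok 0 1 0 0 (UE0 (97, 99) D22) unitBx = true :=
  lv.2.2.2.2.2.2.2.2.2.2.2.2.2.2.2.2.2.2.2.2.2.2.2.2.2.2.2.2.2.2.2.2.2.2.2.2.2.2.2.2.2.2.1

def t_v22 : Tree := (.s1 (.leaf 150 14 10 4 1) (.leaf 156 14 10 4 1))
theorem v22 : t_v22.ok 0 1 0 0 (UE1 (97, 49) D22) unitBx = true :=
  (Tree.ok_s1 lv.2.2.2.2.2.2.2.2.2.2.2.2.2.2.2.2.2.2.2.2.2.2.2.2.2.2.2.2.2.2.2.2.2.2.2.2.2.2.2.2.2.2.2.1.1 lv.2.2.2.2.2.2.2.2.2.2.2.2.2.2.2.2.2.2.2.2.2.2.2.2.2.2.2.2.2.2.2.2.2.2.2.2.2.2.2.2.2.2.2.1.2)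

def t_u23 : Tree := (.s1 (.s0 (.leaf 168 14 10 4 1) (.leaf 174 14 10 4 1)) (.leaf 162 14 10 4 1))
theorem u23 : t_u23.ok 0 1 0 0 (UE0 (97, 99) D23) unitBx = true :=
  (Tree.ok_s1 (Tree.ok_s0 lv.2.2.2.2.2.2.2.2.2.2.2.2.2.2.2.2.2.2.2.2.2.2.2.2.2.2.2.2.2.2.2.2.2.2.2.2.2.2.2.2.2.2.2.2.1.1 lv.2.2.2.2.2.2.2.2.2.2.2.2.2.2.2.2.2.2.2.2.2.2.2.2.2.2.2.2.2.2.2.2.2.2.2.2.2.2.2.2.2.2.2.2.1.2.1) lv.2.2.2.2.2.2.2.2.2.2.2.2.2.2.2.2.2.2.2.2.2.2.2.2.2.2.2.2.2.2.2.2.2.2.2.2.2.2.2.2.2.2.2.2.1.2.2)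

def t_v23 : Tree := (.s1 (.leaf 150 14 10 4 1) (.s0 (.leaf 162 14 10 4 1) (.leaf 173 14 10 4 1)))
theorem v23 : t_v23.ok 0 1 0 0 (UE1 (97, 49) D23) unitBx = true :=
  (Tree.ok_s1 lv.2.2.2.2.2.2.2.2.2.2.2.2.2.2.2.2.2.2.2.2.2.2.2.2.2.2.2.2.2.2.2.2.2.2.2.2.2.2.2.2.2.2.2.2.2.1.1 (Tree.ok_s0 lv.2.2.2.2.2.2.2.2.2.2.2.2.2.2.2.2.2.2.2.2.2.2.2.2.2.2.2.2.2.2.2.2.2.2.2.2.2.2.2.2.2.2.2.2.2.1.2.1 lv.2.2.2.2.2.2.2.2.2.2.2.2.2.2.2.2.2.2.2.2.2.2.2.2.2.2.2.2.2.2.2.2.2.2.2.2.2.2.2.2.2.2.2.2.2.1.2.2))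

def t_h200 : Tree := (.s0 (.s1 (.leaf 200 14 14 6 6) (.leaf 204 14 14 6 6)) (.leaf 195 14 14 6 6))
theorem h200 : t_h200.ok 0 1 0 0 (GE 2 0 (D 2) (9409, 9999) (912673, 999999) (.q 361 399) p20 k00 k10) unitBx = true :=
  (Tree.ok_s0 (Tree.ok_s1 lv.2.2.2.2.2.2.2.2.2.2.2.2.2.2.2.2.2.2.2.2.2.2.2.2.2.2.2.2.2.2.2.2.2.2.2.2.2.2.2.2.2.2.2.2.2.2.1.1 lv.2.2.2.2.2.2.2.2.2.2.2.2.2.2.2.2.2.2.2.2.2.2.2.2.2.2.2.2.2.2.2.2.2.2.2.2.2.2.2.2.2.2.2.2.2.2.1.2.1) lv.2.2.2.2.2.2.2.2.2.2.2.2.2.2.2.2.2.2.2.2.2.2.2.2.2.2.2.2.2.2.2.2.2.2.2.2.2.2.2.2.2.2.2.2.2.2.1.2.2)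

def t_h201 : Tree := (.s0 (.s1 (.leaf 200 14 14 6 6) (.leaf 204 14 14 6 6)) (.leaf 195 14 14 6 6))
theorem h201 : t_h201.ok 0 1 0 0 (GE 2 0 (D 2) (9409, 9999) (912673, 999999) (tau1 (9409, 9999)) p20 k00 k10) unitBx = true :=
  (Tree.ok_s0 (Tree.ok_s1 lv.2.2.2.2.2.2.2.2.2.2.2.2.2.2.2.2.2.2.2.2.2.2.2.2.2.2.2.2.2.2.2.2.2.2.2.2.2.2.2.2.2.2.2.2.2.2.2.1.1 lv.2.2.2.2.2.2.2.2.2.2.2.2.2.2.2.2.2.2.2.2.2.2.2.2.2.2.2.2.2.2.2.2.2.2.2.2.2.2.2.2.2.2.2.2.2.2.2.1.2.1) lv.2.2.2.2.2.2.2.2.2.2.2.2.2.2.2.2.2.2.2.2.2.2.2.2.2.2.2.2.2.2.2.2.2.2.2.2.2.2.2.2.2.2.2.2.2.2.2.1.2.2)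

def t_h210 : Tree := (.s1 (.leaf 188 14 14 6 6) (.leaf 194 14 14 6 6))
theorem h210 : t_h210.ok 0 1 0 0 (GE 2 1 (D 2) (9409, 9999) (912673, 999999) (.q 361 399) p21 k01 k11) unitBx = true :=
  (Tree.ok_s1 lv.2.2.2.2.2.2.2.2.2.2.2.2.2.2.2.2.2.2.2.2.2.2.2.2.2.2.2.2.2.2.2.2.2.2.2.2.2.2.2.2.2.2.2.2.2.2.2.2.1.1 lv.2.2.2.2.2.2.2.2.2.2.2.2.2.2.2.2.2.2.2.2.2.2.2.2.2.2.2.2.2.2.2.2.2.2.2.2.2.2.2.2.2.2.2.2.2.2.2.2.1.2)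

def t_h211 : Tree := (.s1 (.leaf 188 14 14 6 6) (.leaf 194 14 14 6 6))
theorem h211 : t_h211.ok 0 1 0 0 (GE 2 1 (D 2) (9409, 9999) (912673, 999999) (tau1 (9409, 9999)) p21 k01 k11) unitBx = true :=
  (Tree.ok_s1 lv.2.2.2.2.2.2.2.2.2.2.2.2.2.2.2.2.2.2.2.2.2.2.2.2.2.2.2.2.2.2.2.2.2.2.2.2.2.2.2.2.2.2.2.2.2.2.2.2.2.1.1 lv.2.2.2.2.2.2.2.2.2.2.2.2.2.2.2.2.2.2.2.2.2.2.2.2.2.2.2.2.2.2.2.2.2.2.2.2.2.2.2.2.2.2.2.2.2.2.2.2.2.1.2)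

def t_h220 : Tree := (.s0 (.s0 (.leaf 200 14 14 6 6) (.leaf 202 14 14 6 6)) (.leaf 194 14 14 6 6))
theorem h220 : t_h220.ok 0 1 0 0 (GE 2 2 (D 2) (9409, 9999) (912673, 999999) (.q 361 399) p22 k02 k12) unitBx = true :=
  (Tree.ok_s0 (Tree.ok_s0 lv.2.2.2.2.2.2.2.2.2.2.2.2.2.2.2.2.2.2.2.2.2.2.2.2.2.2.2.2.2.2.2.2.2.2.2.2.2.2.2.2.2.2.2.2.2.2.2.2.2.2.1.1 lv.2.2.2.2.2.2.2.2.2.2.2.2.2.2.2.2.2.2.2.2.2.2.2.2.2.2.2.2.2.2.2.2.2.2.2.2.2.2.2.2.2.2.2.2.2.2.2.2.2.2.1.2.1) lv.2.2.2.2.2.2.2.2.2.2.2.2.2.2.2.2.2.2.2.2.2.2.2.2.2.2.2.2.2.2.2.2.2.2.2.2.2.2.2.2.2.2.2.2.2.2.2.2.2.2.1.2.2)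

def t_h221 : Tree := (.s0 (.s0 (.leaf 200 14 14 6 6) (.leaf 202 14 14 6 6)) (.leaf 194 14 14 6 6))
theorem h221 : t_h221.ok 0 1 0 0 (GE 2 2 (D 2) (9409, 9999) (912673, 999999) (tau1 (9409, 9999)) p22 k02 k12) unitBx = true :=
  (Tree.ok_s0 (Tree.ok_s0 lv.2.2.2.2.2.2.2.2.2.2.2.2.2.2.2.2.2.2.2.2.2.2.2.2.2.2.2.2.2.2.2.2.2.2.2.2.2.2.2.2.2.2.2.2.2.2.2.2.2.2.2.1.1 lv.2.2.2.2.2.2.2.2.2.2.2.2.2.2.2.2.2.2.2.2.2.2.2.2.2.2.2.2.2.2.2.2.2.2.2.2.2.2.2.2.2.2.2.2.2.2.2.2.2.2.2.1.2.1) lv.2.2.2.2.2.2.2.2.2.2.2.2.2.2.2.2.2.2.2.2.2.2.2.2.2.2.2.2.2.2.2.2.2.2.2.2.2.2.2.2.2.2.2.2.2.2.2.2.2.2.2.1.2.2)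

def t_h230 : Tree := (.s0 (.s0 (.leaf 200 14 14 6 6) (.leaf 202 14 14 6 6)) (.leaf 194 14 14 6 6))
theorem h230 : t_h230.ok 0 1 0 0 (GE 2 3 (D 2) (9409, 9999) (912673, 999999) (.q 361 399) p23 k03 k13) unitBx = true :=
  (Tree.ok_s0 (Tree.ok_s0 lv.2.2.2.2.2.2.2.2.2.2.2.2.2.2.2.2.2.2.2.2.2.2.2.2.2.2.2.2.2.2.2.2.2.2.2.2.2.2.2.2.2.2.2.2.2.2.2.2.2.2.2.2.1.1 lv.2.2.2.2.2.2.2.2.2.2.2.2.2.2.2.2.2.2.2.2.2.2.2.2.2.2.2.2.2.2.2.2.2.2.2.2.2.2.2.2.2.2.2.2.2.2.2.2.2.2.2.2.1.2.1) lv.2.2.2.2.2.2.2.2.2.2.2.2.2.2.2.2.2.2.2.2.2.2.2.2.2.2.2.2.2.2.2.2.2.2.2.2.2.2.2.2.2.2.2.2.2.2.2.2.2.2.2.2.1.2.2)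

def t_h231 : Tree := (.s0 (.s0 (.leaf 200 14 14 6 6) (.leaf 202 14 14 6 6)) (.leaf 194 14 14 6 6))
theorem h231 : t_h231.ok 0 1 0 0 (GE 2 3 (D 2) (9409, 9999) (912673, 999999) (tau1 (9409, 9999)) p23 k03 k13) unitBx = true :=
  (Tree.ok_s0 (Tree.ok_s0 lv.2.2.2.2.2.2.2.2.2.2.2.2.2.2.2.2.2.2.2.2.2.2.2.2.2.2.2.2.2.2.2.2.2.2.2.2.2.2.2.2.2.2.2.2.2.2.2.2.2.2.2.2.2.1 lv.2.2.2.2.2.2.2.2.2.2.2.2.2.2.2.2.2.2.2.2.2.2.2.2.2.2.2.2.2.2.2.2.2.2.2.2.2.2.2.2.2.2.2.2.2.2.2.2.2.2.2.2.2.2.1) lv.2.2.2.2.2.2.2.2.2.2.2.2.2.2.2.2.2.2.2.2.2.2.2.2.2.2.2.2.2.2.2.2.2.2.2.2.2.2.2.2.2.2.2.2.2.2.2.2.2.2.2.2.2.2.2)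

/-! The certified family. -/

theorem cert : PoisCert (97 / 100) D psi hh (9409, 9999) (912673, 999999) (97, 99) (97, 49) (8, 8191) (95, 96) (2, 96)
    (.q 361 399) w2 where
  hl0 := by norm_num
  hl1 := by norm_num
  hne := by norm_num
  e2 := by norm_num [cv]
  e3 := by norm_num [cv]
  hδ := by norm_num [cv]
  hta := by norm_num [cv]
  htb := by norm_num [cv]
  htb0 := by norm_num [cv]
  r1 := by norm_num [cv]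
  r2 := by norm_num [cv]
  r3 := by norm_num [cv]
  r4 := by norm_num [cv]
  hc := by norm_num [cv]
  hc' := by norm_num [cv]
  htau := by
    intro s ρ a b e h0 h1 h2 h3 h4
    simp only [PE.real_q, cv] at h0 ⊢
    push_cast at h0 ⊢
    nlinarith [mul_self_le_mul_self (by norm_num) h0]
  hU0 := by
    intro j k hj hk
    interval_cases j <;> interval_cases k
    exacts [box_zero _ _ u00, box_zero _ _ u01, box_zero _ _ u02, box_zero _ _ u03, box_zero _ _ u10, box_zero _ _ u11, box_zero _ _ u12, box_zero _ _ u13, box_zero _ _ u20, box_zero _ _ u21, box_zero _ _ u22, box_zero _ _ u23]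
  hU1 := by
    intro j k hj hk
    interval_cases j <;> interval_cases k
    exacts [box_zero _ _ v00, box_zero _ _ v01, box_zero _ _ v02, box_zero _ _ v03, box_zero _ _ v10, box_zero _ _ v11, box_zero _ _ v12, box_zero _ _ v13, box_zero _ _ v20, box_zero _ _ v21, box_zero _ _ v22, box_zero _ _ v23]
  hH0 := by
    intro j k hj hk
    interval_cases j <;> interval_cases k
    exacts [box_zero _ _ h000, box_zero _ _ h010, box_zero _ _ h020, box_zero _ _ h030, box_zero _ _ h100, box_zero _ _ h110, box_zero _ _ h120, box_zero _ _ h130, box_zero _ _ h200, box_zero _ _ h210, box_zero _ _ h220, box_zero _ _ h230]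
  hH1 := by
    intro j k hj hk
    interval_cases j <;> interval_cases k
    exacts [box_zero _ _ h001, box_zero _ _ h011, box_zero _ _ h021, box_zero _ _ h031, box_zero _ _ h101, box_zero _ _ h111, box_zero _ _ h121, box_zero _ _ h131, box_zero _ _ h201, box_zero _ _ h211, box_zero _ _ h221, box_zero _ _ h231]
  hS := by
    intro j hj
    interval_cases j
    exacts [box_zero _ _ s0, box_zero _ _ s1, box_zero _ _ s2]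
  hR := by
    intro j hj
    interval_cases j
    exacts [box_zero _ _ r0, box_zero _ _ r1, box_zero _ _ r2]
  hw2 := by
    intro j hj
    interval_cases j <;> norm_num [gR, wR, hr, cv, D, D00, D10, D20, w2]
  hψ0 := by
    intro j k hj hk
    interval_cases j <;> interval_cases k <;> simp [h2R, hr, psi, cv, p00, p01, p02, p03, p10, p11, p12, p13, p20, p21, p22, p23]

end Vale.Agent.P154.Q97
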