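import Vale.Agent.P154.Pois

/-! Data of a family of potentials for the Poisson tree. -/

namespace Vale.Agent.P154.Q98

def D00 : NP where
  A := [(2443, 16383), (-5031, 16383), (2775, 16383), (-233, 16383), (50, 16383), (-4, 16383)]
  B := [(27620, 16383), (9966, 16383), (-410, 16383), (36, 16383)]
  E := [(11218, 16383)]
  a0 := [(41281, 16383), (4935, 16383), (2365, 16383), (-197, 16383), (50, 16383), (-4, 16383)]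
  a1 := [(41281, 16383), (-9870, 16383), (-11825, 16383), (1576, 16383), (-550, 16383), (56, 16383)]
  a2 := [(230, 16383), (-2437, 16383), (96148, 16383), (18658, 16383)]
  a3 := [(984, 16383), (106995, 16383), (112790, 16383), (73502, 16383)]
  a4 := [(1064, 16383), (-5974, 16383), (128215, 16383), (128961, 16383)]
  b0 := [(-50056, 16383), (-9966, 16383), (410, 16383), (-36, 16383)]
  b1 := [(50056, 16383), (39864, 16383), (-2870, 16383), (360, 16383)]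
  b2 := [(-30730, 16383), (-123438, 16383), (-98072, 16383)]
  b3 := [(4476, 16383), (-130959, 16383), (-116180, 16383)]
  b4 := [(78, 16383), (-2027, 16383), (-3099, 16383)]
  g0 := [(11218, 16383)]
  g1 := [(-33654, 16383)]
  g2 := [(41140, 16383), (71793, 16383)]

def D01 : NP where
  A := [(2441, 16383), (-5020, 16383), (2747, 16383), (-201, 16383), (36, 16383), (-3, 16383)]
  B := [(27621, 16383), (9946, 16383), (-374, 16383), (19, 16383)]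
  E := [(11219, 16383)]
  a0 := [(41281, 16383), (4926, 16383), (2373, 16383), (-182, 16383), (36, 16383), (-3, 16383)]
  a1 := [(41281, 16383), (-9852, 16383), (-11865, 16383), (1456, 16383), (-396, 16383), (42, 16383)]
  a2 := [(37, 16383), (-31454, 16383), (68252, 16383), (15827, 16383)]
  a3 := [(73, 16383), (76972, 16383), (-78507, 16383), (88287, 16383)]
  a4 := [(103, 16383), (-36713, 16383), (62684, 16383), (54291, 16383)]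
  b0 := [(-50059, 16383), (-9946, 16383), (374, 16383), (-19, 16383)]
  b1 := [(50059, 16383), (39784, 16383), (-2618, 16383), (190, 16383)]
  b2 := [(-30294, 16383), (-36120, 16383), (-61742, 16383)]
  b3 := [(6626, 16383), (-59952, 16383), (32160, 16383)]
  b4 := [(62, 16383), (4679, 16383), (17135, 16383)]
  g0 := [(11219, 16383)]
  g1 := [(-33657, 16383)]
  g2 := [(40961, 16383), (8192, 16383)]

def D02 : NP where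
  A := [(2440, 16383), (-5018, 16383), (2743, 16383), (-195, 16383), (33, 16383), (-3, 16383)]
  B := [(27620, 16383), (9943, 16383), (-365, 16383), (14, 16383)]
  E := [(11219, 16383)]
  a0 := [(41279, 16383), (4925, 16383), (2378, 16383), (-181, 16383), (33, 16383), (-3, 16383)]
  a1 := [(41279, 16383), (-9850, 16383), (-11890, 16383), (1448, 16383), (-363, 16383), (42, 16383)]
  a2 := [(743, 16383), (7799, 16383), (89318, 16383), (37004, 16383)]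
  a3 := [(3774, 16383), (135870, 16383), (45888, 16383), (-33106, 16383)]
  a4 := [(4934, 16383), (-11317, 16383), (67966, 16383), (12193, 16383)]
  b0 := [(-50058, 16383), (-9943, 16383), (365, 16383), (-14, 16383)]
  b1 := [(50058, 16383), (39772, 16383), (-2555, 16383), (140, 16383)]
  b2 := [(-37043, 16383), (-140102, 16383), (-114458, 16383)]
  b3 := [(-6065, 16383), (-173636, 16383), (54709, 16383)]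
  b4 := [(3437, 16383), (18313, 16383), (-26985, 16383)]
  g0 := [(11219, 16383)]
  g1 := [(-33657, 16383)]
  g2 := [(48723, 16383), (83621, 16383)]

def D03 : NP where
  A := [(2439, 16383), (-5017, 16383), (2743, 16383), (-195, 16383), (34, 16383), (-4, 16383)]
  B := [(27619, 16383), (9943, 16383), (-365, 16383), (15, 16383)]
  E := [(11218, 16383)]
  a0 := [(41276, 16383), (4926, 16383), (2378, 16383), (-180, 16383), (34, 16383), (-4, 16383)]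
  a1 := [(41276, 16383), (-9852, 16383), (-11890, 16383), (1440, 16383), (-374, 16383), (56, 16383)]
  a2 := [(2470, 16383), (52971, 16383), (100663, 16383), (23345, 16383)]
  a3 := [(11759, 16383), (194859, 16383), (-12012, 16383), (163670, 16383)]
  a4 := [(14182, 16383), (-50601, 16383), (172809, 16383), (-99152, 16383)]
  b0 := [(-50055, 16383), (-9943, 16383), (365, 16383), (-15, 16383)]
  b1 := [(50055, 16383), (39772, 16383), (-2555, 16383), (150, 16383)]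
  b2 := [(-51242, 16383), (-237455, 16383), (-107364, 16383)]
  b3 := [(-35130, 16383), (-116773, 16383), (-166712, 16383)]
  b4 := [(13989, 16383), (-3025, 16383), (102737, 16383)]
  g0 := [(11218, 16383)]
  g1 := [(-33654, 16383)]
  g2 := [(64602, 16383), (125440, 16383)]

def D10 : NP where
  A := [(634808, 16383), (-797345, 16383), (154572, 16383), (6630, 16383), (1335, 16383)]
  B := [(205090, 16383), (-133921, 16383), (178096, 16383)]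
  E := [(731047, 16383)]
  a0 := [(1570945, 16383), (-931266, 16383), (332668, 16383), (6630, 16383), (1335, 16383)]
  a1 := [(1570945, 16383), (1862532, 16383), (-1663340, 16383), (-53040, 16383), (-14685, 16383)]
  a2 := [(141406, 16383), (-1445629, 16383), (17447, 16383), (287382, 16383)]
  a3 := [(-259164, 16383), (-1282630, 16383), (-1309372, 16383), (689888, 16383)]
  a4 := [(183535, 16383), (590395, 16383), (952294, 16383), (1500958, 16383)]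
  b0 := [(-1667184, 16383), (133921, 16383), (-178096, 16383)]
  b1 := [(1667184, 16383), (-535684, 16383), (1246672, 16383)]
  b2 := [(472644, 16383), (278088, 16383), (-927966, 16383)]
  b3 := [(-871703, 16383), (-618820, 16383), (84141, 16383)]
  b4 := [(433798, 16383), (1211675, 16383), (1451323, 16383)]
  g0 := [(731047, 16383)]
  g1 := [(-2193141, 16383)]
  g2 := [(1637474, 16383), (1168614, 16383)]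

def D11 : NP where
  A := [(621483, 16383), (-771957, 16383), (135654, 16383), (14997, 16383), (-177, 16383)]
  B := [(231577, 16383), (-146996, 16383), (184392, 16383)]
  E := [(722979, 16383)]
  a0 := [(1576039, 16383), (-918953, 16383), (320046, 16383), (14997, 16383), (-177, 16383)]
  a1 := [(1576039, 16383), (1837906, 16383), (-1600230, 16383), (-119976, 16383), (1947, 16383)]
  a2 := [(84265, 16383), (-1521793, 16383), (218247, 16383), (-97081, 16383)]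
  a3 := [(-186609, 16383), (-1287200, 16383), (-1353347, 16383), (702881, 16383)]
  a4 := [(181513, 16383), (110238, 16383), (689795, 16383), (1515561, 16383)]
  b0 := [(-1677535, 16383), (146996, 16383), (-184392, 16383)]
  b1 := [(1677535, 16383), (-587984, 16383), (1290744, 16383)]
  b2 := [(464605, 16383), (276644, 16383), (-794814, 16383)]
  b3 := [(-994750, 16383), (-711553, 16383), (-26200, 16383)]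
  b4 := [(795683, 16383), (1098224, 16383), (1456448, 16383)]
  g0 := [(722979, 16383)]
  g1 := [(-2168937, 16383)]
  g2 := [(1638400, 16383), (1278703, 16383)]

def D12 : NP where
  A := [(613324, 16383), (-761158, 16383), (131332, 16383), (17167, 16383), (-665, 16383)]
  B := [(241507, 16383), (-138122, 16383), (185679, 16383)]
  E := [(727926, 16383)]
  a0 := [(1582757, 16383), (-899280, 16383), (317011, 16383), (17167, 16383), (-665, 16383)]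
  a1 := [(1582757, 16383), (1798560, 16383), (-1585055, 16383), (-137336, 16383), (7315, 16383)]
  a2 := [(72640, 16383), (-1614428, 16383), (776371, 16383), (-806652, 16383)]
  a3 := [(-116787, 16383), (-1108492, 16383), (-1415930, 16383), (336093, 16383)]
  a4 := [(113278, 16383), (842920, 16383), (-600166, 16383), (1522588, 16383)]
  b0 := [(-1697359, 16383), (138122, 16383), (-185679, 16383)]
  b1 := [(1697359, 16383), (-552488, 16383), (1299753, 16383)]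
  b2 := [(337283, 16383), (-89559, 16383), (-166250, 16383)]
  b3 := [(-211793, 16383), (-703122, 16383), (-1229099, 16383)]
  b4 := [(-67336, 16383), (1190335, 16383), (1376517, 16383)]
  g0 := [(727926, 16383)]
  g1 := [(-2183778, 16383)]
  g2 := [(1638400, 16383), (1342736, 16383)]

def D13 : NP where
  A := [(605222, 16383), (-752814, 16383), (131087, 16383), (17169, 16383), (-664, 16383)]
  B := [(255518, 16383), (-127867, 16383), (185677, 16383)]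
  E := [(710548, 16383)]
  a0 := [(1571288, 16383), (-880681, 16383), (316764, 16383), (17169, 16383), (-664, 16383)]
  a1 := [(1571288, 16383), (1761362, 16383), (-1583820, 16383), (-137352, 16383), (7304, 16383)]
  a2 := [(53330, 16383), (-1638397, 16383), (831223, 16383), (-625013, 16383)]
  a3 := [(-66748, 16383), (-1149734, 16383), (-1429893, 16383), (662093, 16383)]
  a4 := [(61487, 16383), (848132, 16383), (-722914, 16383), (1536728, 16383)]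
  b0 := [(-1676614, 16383), (127867, 16383), (-185677, 16383)]
  b1 := [(1676614, 16383), (-511468, 16383), (1299739, 16383)]
  b2 := [(301014, 16383), (-50406, 16383), (-547501, 16383)]
  b3 := [(-328532, 16383), (-594160, 16383), (-1257717, 16383)]
  b4 := [(23778, 16383), (1164152, 16383), (1382975, 16383)]
  g0 := [(710548, 16383)]
  g1 := [(-2131644, 16383)]
  g2 := [(1638400, 16383), (1397932, 16383)]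

def D20 : NP where
  A := [(-7418, 16383), (-686374, 16383), (369039, 16383), (-84667, 16383)]
  B := [(970742, 16383), (-161630, 16383), (161413, 16383)]
  E := [(-531005, 16383)]
  a0 := [(432319, 16383), (-848004, 16383), (530452, 16383), (-84667, 16383)]
  a1 := [(432319, 16383), (1696008, 16383), (-2652260, 16383), (677336, 16383)]
  a2 := [(689462, 16383), (-1065717, 16383), (-779461, 16383), (1066035, 16383)]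
  a3 := [(-722035, 16383), (-434724, 16383), (355740, 16383), (1340524, 16383)]
  a4 := [(209508, 16383), (347932, 16383), (663218, 16383), (1451576, 16383)]
  b0 := [(91268, 16383), (161630, 16383), (-161413, 16383)]
  b1 := [(-91268, 16383), (-646520, 16383), (1129891, 16383)]
  b2 := [(-365385, 16383), (-973565, 16383), (542334, 16383)]
  b3 := [(336630, 16383), (252802, 16383), (1174206, 16383)]
  b4 := [(1352904, 16383), (789361, 16383), (1339120, 16383)]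
  g0 := [(-531005, 16383)]
  g1 := [(1593015, 16383)]
  g2 := [(120975, 16383), (99120, 16383)]

def D21 : NP where
  A := [(-8620, 16383), (-674069, 16383), (305894, 16383), (-32513, 16383)]
  B := [(500274, 16383), (170121, 16383), (292368, 16383)]
  E := [(-199870, 16383)]
  a0 := [(291784, 16383), (-503948, 16383), (598262, 16383), (-32513, 16383)]
  a1 := [(291784, 16383), (1007896, 16383), (-2991310, 16383), (260104, 16383)]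
  a2 := [(567511, 16383), (-1018513, 16383), (-868680, 16383), (1056426, 16383)]
  a3 := [(-390790, 16383), (90638, 16383), (499653, 16383), (1304198, 16383)]
  a4 := [(62666, 16383), (754106, 16383), (771302, 16383), (1411776, 16383)]
  b0 := [(-100534, 16383), (-170121, 16383), (-292368, 16383)]
  b1 := [(100534, 16383), (680484, 16383), (2046576, 16383)]
  b2 := [(-41101, 16383), (-1017178, 16383), (463671, 16383)]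
  b3 := [(-901227, 16383), (643511, 16383), (1172062, 16383)]
  b4 := [(1265589, 16383), (995206, 16383), (1320627, 16383)]
  g0 := [(-199870, 16383)]
  g1 := [(599610, 16383)]
  g2 := [(49746, 16383), (169043, 16383)]

def D22 : NP where
  A := [(-6988, 16383), (-591788, 16383), (251017, 16383), (-61343, 16383)]
  B := [(652630, 16383), (-199793, 16383), (174777, 16383)]
  E := [(-264345, 16383)]
  a0 := [(381297, 16383), (-791581, 16383), (425794, 16383), (-61343, 16383)]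
  a1 := [(381297, 16383), (1583162, 16383), (-2128970, 16383), (490744, 16383)]
  a2 := [(481863, 16383), (-900289, 16383), (-747956, 16383), (1085194, 16383)]
  a3 := [(-138564, 16383), (452307, 16383), (515711, 16383), (1311854, 16383)]
  a4 := [(-49604, 16383), (543441, 16383), (667439, 16383), (1418303, 16383)]
  b0 := [(-123940, 16383), (199793, 16383), (-174777, 16383)]
  b1 := [(123940, 16383), (-799172, 16383), (1223439, 16383)]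
  b2 := [(-445000, 16383), (-570351, 16383), (576078, 16383)]
  b3 := [(-304380, 16383), (746935, 16383), (1150177, 16383)]
  b4 := [(1171265, 16383), (773041, 16383), (1285515, 16383)]
  g0 := [(-264345, 16383)]
  g1 := [(793035, 16383)]
  g2 := [(260292, 16383), (504006, 16383)]

def D23 : NP where
  A := [(23049, 16383), (-467133, 16383), (29817, 16383), (4930, 16383)]
  B := [(710249, 16383), (-478569, 16383), (181853, 16383)]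
  E := [(-24921, 16383)]
  a0 := [(708377, 16383), (-945702, 16383), (211670, 16383), (4930, 16383)]
  a1 := [(708377, 16383), (1891404, 16383), (-1058350, 16383), (-39440, 16383)]
  a2 := [(412520, 16383), (-825258, 16383), (-885649, 16383), (1163304, 16383)]
  a3 := [(-146017, 16383), (416337, 16383), (408555, 16383), (1303592, 16383)]
  a4 := [(-25874, 16383), (549118, 16383), (594892, 16383), (1385471, 16383)]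
  b0 := [(-660407, 16383), (478569, 16383), (-181853, 16383)]
  b1 := [(660407, 16383), (-1914276, 16383), (1272971, 16383)]
  b2 := [(-309378, 16383), (-281424, 16383), (686395, 16383)]
  b3 := [(-154848, 16383), (698793, 16383), (1125281, 16383)]
  b4 := [(728851, 16383), (744962, 16383), (1239811, 16383)]
  g0 := [(-24921, 16383)]
  g1 := [(74763, 16383)]
  g2 := [(459462, 16383), (880444, 16383)]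

def p00 : List CL := [[(0, 16383), (37212, 16383), (4354, 16383), (-332, 16383), (123, 16383)], [(0, 16383), (-9259, 16383), (-578, 16383)], [(8994, 16383), (443, 16383)]]
def p01 : List CL := [[(0, 16383), (37212, 16383), (4290, 16383), (-268, 16383), (372, 16383)], [(0, 16383), (-9121, 16383), (-1097, 16383)], [(8995, 16383), (677, 16383)]]
def p02 : List CL := [[(0, 16383), (37212, 16383), (4309, 16383), (5, 16383), (665, 16383)], [(0, 16383), (-9375, 16383), (-2104, 16383)], [(9411, 16383), (1177, 16383)]]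
def p03 : List CL := [[(0, 16383), (37212, 16383), (4329, 16383), (19, 16383), (847, 16383)], [(0, 16383), (-9652, 16383), (-2023, 16383)], [(10029, 16383), (184, 16383)]]
def p10 : List CL := [[(0, 16383), (1638400, 16383), (1638400, 16383), (1290241, 16383), (-7693, 16383)], [(-907433, 16383), (-1638400, 16383), (-1613963, 16383)], [(655132, 16383), (512569, 16383)]]
def p11 : List CL := [[(0, 16383), (1638400, 16383), (1606140, 16383), (1248774, 16383), (36386, 16383)], [(-894441, 16383), (-1602432, 16383), (-1627714, 16383)], [(689924, 16383), (477308, 16383)]]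
def p12 : List CL := [[(0, 16383), (1638167, 16383), (1572545, 16383), (1279634, 16383), (-34405, 16383)], [(-881324, 16383), (-1578542, 16383), (-1516117, 16383)], [(613298, 16383), (484998, 16383)]]
def p13 : List CL := [[(0, 16383), (1638400, 16383), (1524298, 16383), (1265078, 16383), (-26864, 16383)], [(-865906, 16383), (-1556855, 16383), (-1523138, 16383)], [(630319, 16383), (481398, 16383)]]
def p20 : List CL := [[(0, 16383), (1634489, 16383), (954225, 16383), (1054466, 16383), (193327, 16383)], [(-687456, 16383), (-1478378, 16383), (-1039118, 16383)], [(870824, 16383), (-560886, 16383)]]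
def p21 : List CL := [[(0, 16383), (1455618, 16383), (308134, 16383), (1152361, 16383), (294130, 16383)], [(-482913, 16383), (-1208420, 16383), (-379102, 16383)], [(236764, 16383), (-482109, 16383)]]
def p22 : List CL := [[(0, 16383), (1538756, 16383), (1028293, 16383), (705136, 16383), (373979, 16383)], [(-818264, 16383), (-1437349, 16383), (-1059165, 16383)], [(506252, 16383), (187771, 16383)]]
def p23 : List CL := [[(0, 16383), (1611096, 16383), (1234628, 16383), (942794, 16383), (510807, 16383)], [(-779803, 16383), (-1187129, 16383), (-503321, 16383)], [(-241252, 16383), (-92294, 16383)]]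
def k00 : List CL := [[(0, 16383), (519, 16383), (196511, 16383), (27872, 16383)], [(-79190, 16383), (-205245, 16383)], [(27284, 16383)]]
def k01 : List CL := [[(0, 16383), (372, 16383), (207860, 16383), (13749, 16383)], [(-80123, 16383), (-199158, 16383)], [(20205, 16383)]]
def k02 : List CL := [[(0, 16383), (-1201, 16383), (243366, 16383), (-50517, 16383)], [(-85096, 16383), (-174663, 16383)], [(64147, 16383)]]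
def k03 : List CL := [[(0, 16383), (-4148, 16383), (301891, 16383), (-92645, 16383)], [(-94302, 16383), (-140467, 16383)], [(98455, 16383)]]
def k10 : List CL := [[(-415, 16383), (-5123, 16383), (-935769, 16383), (55396, 16383)], [(1337931, 16383), (-261007, 16383)], [(-1118543, 16383)]]
def k11 : List CL := [[(-603, 16383), (-123758, 16383), (-1389886, 16383), (651356, 16383)], [(1109509, 16383), (-345275, 16383)], [(-1111958, 16383)]]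
def k12 : List CL := [[(-257, 16383), (-231451, 16383), (-1611918, 16383), (464273, 16383)], [(842309, 16383), (-328351, 16383)], [(-747487, 16383)]]
def k13 : List CL := [[(624, 16383), (-598502, 16383), (-1611990, 16383), (143551, 16383)], [(1021783, 16383), (-248045, 16383)], [(-874755, 16383)]]

def D : ℕ → ℕ → NP
  | 0, 0 => D00
  | 0, 1 => D01
  | 0, 2 => D02
  | 0, 3 => D03
  | 1, 0 => D10
  | 1, 1 => D11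
  | 1, 2 => D12
  | 1, 3 => D13
  | 2, 0 => D20
  | 2, 1 => D21
  | 2, 2 => D22
  | 2, 3 => D23
  | _, _ => D03

def psi : ℕ → ℕ → List CL
  | 0, 0 => p00
  | 0, 1 => p01
  | 0, 2 => p02
  | 0, 3 => p03
  | 1, 0 => p10
  | 1, 1 => p11
  | 1, 2 => p12
  | 1, 3 => p13
  | 2, 0 => p20
  | 2, 1 => p21
  | 2, 2 => p22
  | 2, 3 => p23
  | _, _ => []

def hh : ℕ → ℕ → List CL
  | 0, 0 => k00
  | 0, 1 => k01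
  | 0, 2 => k02
  | 0, 3 => k03
  | 1, 0 => k10
  | 1, 1 => k11
  | 1, 2 => k12
  | 1, 3 => k13
  | _, _ => []

def w2 : ℕ → ℤ × ℕ
  | 0 => (0, 0)
  | 1 => (0, 0)
  | 2 => (-409404, 16383)
  | _ => (0, 0)

/-! Certificates. -/

/-- the leaves of all trees -/
theorem lv :
    ((Tree.leaf 113 9 16 6 1).ok 0 1 0 0 (SEG D03 (0, 0) (sP (97, 97) (1, 97)) p00 p01 p02 p03) ⟨0, 1, 1, 0, 1, 1, 0, 1, 2, 0, 1, 1⟩ = true ∧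
      (Tree.leaf 119 9 16 6 1).ok 0 1 0 0 (SEG D03 (0, 0) (sP (97, 97) (1, 97)) p00 p01 p02 p03) ⟨0, 1, 1, 0, 1, 1, 2, 3, 4, 0, 1, 1⟩ = true ∧
      (Tree.leaf 119 9 16 6 1).ok 0 1 0 0 (SEG D03 (0, 0) (sP (97, 97) (1, 97)) p00 p01 p02 p03) ⟨0, 1, 1, 0, 1, 1, 3, 4, 4, 0, 1, 1⟩ = true) ∧
    ((Tree.leaf 53 16 1 6 1).ok 0 1 0 0 (RE D03 (0, 0)) ⟨0, 1, 1, 0, 1, 1, 0, 1, 1, 0, 1, 1⟩ = true) ∧
    ((Tree.leaf 209 17 16 6 1).ok 0 1 0 0 (UE0 (49, 49) D00) ⟨0, 1, 4, 0, 1, 2, 0, 1, 1, 0, 1, 1⟩ = true ∧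
      (Tree.leaf 212 17 16 6 1).ok 0 1 0 0 (UE0 (49, 49) D00) ⟨1, 2, 4, 0, 1, 2, 0, 1, 1, 0, 1, 1⟩ = true ∧
      (Tree.leaf 212 17 16 6 1).ok 0 1 0 0 (UE0 (49, 49) D00) ⟨0, 1, 4, 1, 2, 2, 0, 1, 1, 0, 1, 1⟩ = true ∧
      (Tree.leaf 216 17 16 6 1).ok 0 1 0 0 (UE0 (49, 49) D00) ⟨1, 2, 4, 1, 2, 2, 0, 1, 1, 0, 1, 1⟩ = true ∧
      (Tree.leaf 188 17 16 6 1).ok 0 1 0 0 (UE0 (49, 49) D00) ⟨1, 2, 2, 0, 1, 1, 0, 1, 1, 0, 1, 1⟩ = true) ∧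
    ((Tree.leaf 181 17 16 6 1).ok 0 1 0 0 (UE1 (49, 24) D00) ⟨0, 1, 2, 0, 1, 2, 0, 1, 1, 0, 1, 1⟩ = true ∧
      (Tree.leaf 192 17 16 6 1).ok 0 1 0 0 (UE1 (49, 24) D00) ⟨1, 2, 2, 0, 1, 2, 0, 1, 1, 0, 1, 1⟩ = true ∧
      (Tree.leaf 200 17 16 6 1).ok 0 1 0 0 (UE1 (49, 24) D00) ⟨0, 1, 2, 2, 3, 4, 0, 1, 1, 0, 1, 1⟩ = true ∧
      (Tree.leaf 211 17 16 6 1).ok 0 1 0 0 (UE1 (49, 24) D00) ⟨1, 2, 2, 2, 3, 4, 0, 1, 1, 0, 1, 1⟩ = true ∧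
      (Tree.leaf 208 17 16 6 1).ok 0 1 0 0 (UE1 (49, 24) D00) ⟨0, 1, 1, 6, 7, 8, 0, 1, 1, 0, 1, 1⟩ = true ∧
      (Tree.leaf 209 17 16 6 1).ok 0 1 0 0 (UE1 (49, 24) D00) ⟨0, 1, 1, 7, 8, 8, 0, 1, 1, 0, 1, 1⟩ = true) ∧
    ((Tree.leaf 209 17 16 6 1).ok 0 1 0 0 (UE0 (49, 49) D01) ⟨0, 1, 4, 0, 1, 2, 0, 1, 1, 0, 1, 1⟩ = true ∧
      (Tree.leaf 211 17 16 6 1).ok 0 1 0 0 (UE0 (49, 49) D01) ⟨1, 2, 4, 0, 1, 2, 0, 1, 1, 0, 1, 1⟩ = true ∧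
      (Tree.leaf 211 17 16 6 1).ok 0 1 0 0 (UE0 (49, 49) D01) ⟨0, 1, 4, 1, 2, 2, 0, 1, 1, 0, 1, 1⟩ = true ∧
      (Tree.leaf 216 17 16 6 1).ok 0 1 0 0 (UE0 (49, 49) D01) ⟨1, 2, 4, 1, 2, 2, 0, 1, 1, 0, 1, 1⟩ = true ∧
      (Tree.leaf 187 17 16 6 1).ok 0 1 0 0 (UE0 (49, 49) D01) ⟨1, 2, 2, 0, 1, 1, 0, 1, 1, 0, 1, 1⟩ = true) ∧
    ((Tree.leaf 171 17 16 6 1).ok 0 1 0 0 (UE1 (49, 24) D01) ⟨0, 1, 1, 0, 1, 2, 0, 1, 1, 0, 1, 1⟩ = true ∧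
      (Tree.leaf 199 17 16 6 1).ok 0 1 0 0 (UE1 (49, 24) D01) ⟨0, 1, 2, 2, 3, 4, 0, 1, 1, 0, 1, 1⟩ = true ∧
      (Tree.leaf 210 17 16 6 1).ok 0 1 0 0 (UE1 (49, 24) D01) ⟨1, 2, 2, 2, 3, 4, 0, 1, 1, 0, 1, 1⟩ = true ∧
      (Tree.leaf 207 17 16 6 1).ok 0 1 0 0 (UE1 (49, 24) D01) ⟨0, 1, 1, 6, 7, 8, 0, 1, 1, 0, 1, 1⟩ = true ∧
      (Tree.leaf 209 17 16 6 1).ok 0 1 0 0 (UE1 (49, 24) D01) ⟨0, 1, 1, 7, 8, 8, 0, 1, 1, 0, 1, 1⟩ = true) ∧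
    ((Tree.leaf 209 17 16 6 1).ok 0 1 0 0 (UE0 (49, 49) D02) ⟨0, 1, 4, 0, 1, 2, 0, 1, 1, 0, 1, 1⟩ = true ∧
      (Tree.leaf 212 17 16 6 1).ok 0 1 0 0 (UE0 (49, 49) D02) ⟨1, 2, 4, 0, 1, 2, 0, 1, 1, 0, 1, 1⟩ = true ∧
      (Tree.leaf 212 17 16 6 1).ok 0 1 0 0 (UE0 (49, 49) D02) ⟨0, 1, 4, 1, 2, 2, 0, 1, 1, 0, 1, 1⟩ = true ∧
      (Tree.leaf 216 17 16 6 1).ok 0 1 0 0 (UE0 (49, 49) D02) ⟨1, 2, 4, 1, 2, 2, 0, 1, 1, 0, 1, 1⟩ = true ∧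
      (Tree.leaf 187 17 16 6 1).ok 0 1 0 0 (UE0 (49, 49) D02) ⟨1, 2, 2, 0, 1, 1, 0, 1, 1, 0, 1, 1⟩ = true) ∧
    ((Tree.leaf 194 17 16 6 1).ok 0 1 0 0 (UE1 (49, 24) D02) ⟨0, 1, 4, 0, 1, 2, 0, 1, 1, 0, 1, 1⟩ = true ∧
      (Tree.leaf 198 17 16 6 1).ok 0 1 0 0 (UE1 (49, 24) D02) ⟨0, 1, 4, 1, 2, 2, 0, 1, 1, 0, 1, 1⟩ = true ∧
      (Tree.leaf 200 17 16 6 1).ok 0 1 0 0 (UE1 (49, 24) D02) ⟨1, 2, 4, 0, 1, 2, 0, 1, 1, 0, 1, 1⟩ = true ∧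
      (Tree.leaf 205 17 16 6 1).ok 0 1 0 0 (UE1 (49, 24) D02) ⟨1, 2, 4, 1, 2, 2, 0, 1, 1, 0, 1, 1⟩ = true ∧
      (Tree.leaf 191 17 16 6 1).ok 0 1 0 0 (UE1 (49, 24) D02) ⟨1, 2, 2, 0, 1, 2, 0, 1, 1, 0, 1, 1⟩ = true ∧
      (Tree.leaf 201 17 16 6 1).ok 0 1 0 0 (UE1 (49, 24) D02) ⟨1, 2, 2, 1, 2, 2, 0, 1, 2, 0, 1, 1⟩ = true ∧
      (Tree.leaf 202 17 16 6 1).ok 0 1 0 0 (UE1 (49, 24) D02) ⟨1, 2, 2, 1, 2, 2, 1, 2, 2, 0, 1, 1⟩ = true) ∧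
    ((Tree.leaf 209 17 16 6 1).ok 0 1 0 0 (UE0 (49, 49) D03) ⟨0, 1, 4, 0, 1, 2, 0, 1, 1, 0, 1, 1⟩ = true ∧
      (Tree.leaf 212 17 16 6 1).ok 0 1 0 0 (UE0 (49, 49) D03) ⟨0, 1, 4, 1, 2, 2, 0, 1, 1, 0, 1, 1⟩ = true ∧
      (Tree.leaf 199 17 16 6 1).ok 0 1 0 0 (UE0 (49, 49) D03) ⟨1, 2, 4, 0, 1, 1, 0, 1, 1, 0, 1, 1⟩ = true ∧
      (Tree.leaf 188 17 16 6 1).ok 0 1 0 0 (UE0 (49, 49) D03) ⟨1, 2, 2, 0, 1, 1, 0, 1, 1, 0, 1, 1⟩ = true) ∧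
    ((Tree.leaf 172 17 16 6 1).ok 0 1 0 0 (UE1 (49, 24) D03) ⟨0, 1, 1, 0, 1, 2, 0, 1, 1, 0, 1, 1⟩ = true ∧
      (Tree.leaf 181 17 16 6 1).ok 0 1 0 0 (UE1 (49, 24) D03) ⟨0, 1, 1, 1, 2, 2, 0, 1, 2, 0, 1, 1⟩ = true ∧
      (Tree.leaf 192 17 16 6 1).ok 0 1 0 0 (UE1 (49, 24) D03) ⟨0, 1, 2, 1, 2, 2, 1, 2, 2, 0, 1, 1⟩ = true ∧
      (Tree.leaf 203 17 16 6 1).ok 0 1 0 0 (UE1 (49, 24) D03) ⟨1, 2, 2, 1, 2, 2, 1, 2, 2, 0, 1, 1⟩ = true) ∧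
    ((Tree.leaf 196 16 16 6 6).ok 0 1 0 0 (GE 0 0 (D 0) (2401, 2499) (117649, 124999) (.q 9409 9999) p00 k00 k10) ⟨0, 1, 2, 0, 1, 1, 0, 1, 1, 0, 1, 2⟩ = true ∧
      (Tree.leaf 197 16 16 6 6).ok 0 1 0 0 (GE 0 0 (D 0) (2401, 2499) (117649, 124999) (.q 9409 9999) p00 k00 k10) ⟨0, 1, 2, 0, 1, 1, 0, 1, 1, 1, 2, 2⟩ = true ∧
      (Tree.leaf 200 16 16 6 6).ok 0 1 0 0 (GE 0 0 (D 0) (2401, 2499) (117649, 124999) (.q 9409 9999) p00 k00 k10) ⟨1, 2, 2, 0, 1, 1, 0, 1, 1, 0, 1, 1⟩ = true) ∧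
    ((Tree.leaf 196 16 16 6 6).ok 0 1 0 0 (GE 0 0 (D 0) (2401, 2499) (117649, 124999) (tau1 (2401, 2499)) p00 k00 k10) ⟨0, 1, 2, 0, 1, 1, 0, 1, 1, 0, 1, 2⟩ = true ∧
      (Tree.leaf 197 16 16 6 6).ok 0 1 0 0 (GE 0 0 (D 0) (2401, 2499) (117649, 124999) (tau1 (2401, 2499)) p00 k00 k10) ⟨0, 1, 2, 0, 1, 1, 0, 1, 1, 1, 2, 2⟩ = true ∧
      (Tree.leaf 200 16 16 6 6).ok 0 1 0 0 (GE 0 0 (D 0) (2401, 2499) (117649, 124999) (tau1 (2401, 2499)) p00 k00 k10) ⟨1, 2, 2, 0, 1, 1, 0, 1, 1, 0, 1, 1⟩ = true) ∧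
    ((Tree.leaf 196 16 16 6 6).ok 0 1 0 0 (GE 0 1 (D 0) (2401, 2499) (117649, 124999) (.q 9409 9999) p01 k01 k11) ⟨0, 1, 2, 0, 1, 1, 0, 1, 1, 0, 1, 2⟩ = true ∧
      (Tree.leaf 197 16 16 6 6).ok 0 1 0 0 (GE 0 1 (D 0) (2401, 2499) (117649, 124999) (.q 9409 9999) p01 k01 k11) ⟨0, 1, 2, 0, 1, 1, 0, 1, 1, 1, 2, 2⟩ = true ∧
      (Tree.leaf 199 16 16 6 6).ok 0 1 0 0 (GE 0 1 (D 0) (2401, 2499) (117649, 124999) (.q 9409 9999) p01 k01 k11) ⟨1, 2, 2, 0, 1, 1, 0, 1, 1, 0, 1, 1⟩ = true) ∧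
    ((Tree.leaf 196 16 16 6 6).ok 0 1 0 0 (GE 0 1 (D 0) (2401, 2499) (117649, 124999) (tau1 (2401, 2499)) p01 k01 k11) ⟨0, 1, 2, 0, 1, 1, 0, 1, 1, 0, 1, 2⟩ = true ∧
      (Tree.leaf 197 16 16 6 6).ok 0 1 0 0 (GE 0 1 (D 0) (2401, 2499) (117649, 124999) (tau1 (2401, 2499)) p01 k01 k11) ⟨0, 1, 2, 0, 1, 1, 0, 1, 1, 1, 2, 2⟩ = true ∧
      (Tree.leaf 199 16 16 6 6).ok 0 1 0 0 (GE 0 1 (D 0) (2401, 2499) (117649, 124999) (tau1 (2401, 2499)) p01 k01 k11) ⟨1, 2, 2, 0, 1, 1, 0, 1, 1, 0, 1, 1⟩ = true) ∧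
    ((Tree.leaf 197 16 16 6 6).ok 0 1 0 0 (GE 0 2 (D 0) (2401, 2499) (117649, 124999) (.q 9409 9999) p02 k02 k12) ⟨0, 1, 1, 0, 1, 2, 0, 1, 1, 0, 1, 2⟩ = true ∧
      (Tree.leaf 203 16 16 6 6).ok 0 1 0 0 (GE 0 2 (D 0) (2401, 2499) (117649, 124999) (.q 9409 9999) p02 k02 k12) ⟨0, 1, 1, 1, 2, 2, 0, 1, 1, 0, 1, 2⟩ = true ∧
      (Tree.leaf 197 16 16 6 6).ok 0 1 0 0 (GE 0 2 (D 0) (2401, 2499) (117649, 124999) (.q 9409 9999) p02 k02 k12) ⟨0, 1, 1, 0, 1, 2, 0, 1, 1, 1, 2, 2⟩ = true ∧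
      (Tree.leaf 205 16 16 6 6).ok 0 1 0 0 (GE 0 2 (D 0) (2401, 2499) (117649, 124999) (.q 9409 9999) p02 k02 k12) ⟨0, 1, 1, 1, 2, 2, 0, 1, 1, 1, 2, 2⟩ = true) ∧
    ((Tree.leaf 197 16 16 6 6).ok 0 1 0 0 (GE 0 2 (D 0) (2401, 2499) (117649, 124999) (tau1 (2401, 2499)) p02 k02 k12) ⟨0, 1, 1, 0, 1, 2, 0, 1, 1, 0, 1, 2⟩ = true ∧
      (Tree.leaf 203 16 16 6 6).ok 0 1 0 0 (GE 0 2 (D 0) (2401, 2499) (117649, 124999) (tau1 (2401, 2499)) p02 k02 k12) ⟨0, 1, 1, 1, 2, 2, 0, 1, 1, 0, 1, 2⟩ = true ∧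
      (Tree.leaf 197 16 16 6 6).ok 0 1 0 0 (GE 0 2 (D 0) (2401, 2499) (117649, 124999) (tau1 (2401, 2499)) p02 k02 k12) ⟨0, 1, 1, 0, 1, 2, 0, 1, 1, 1, 2, 2⟩ = true ∧
      (Tree.leaf 205 16 16 6 6).ok 0 1 0 0 (GE 0 2 (D 0) (2401, 2499) (117649, 124999) (tau1 (2401, 2499)) p02 k02 k12) ⟨0, 1, 1, 1, 2, 2, 0, 1, 1, 1, 2, 2⟩ = true) ∧
    ((Tree.leaf 197 16 16 6 6).ok 0 1 0 0 (GE 0 3 (D 0) (2401, 2499) (117649, 124999) (.q 9409 9999) p03 k03 k13) ⟨0, 1, 2, 0, 1, 1, 0, 1, 1, 0, 1, 2⟩ = true ∧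
      (Tree.leaf 197 16 16 6 6).ok 0 1 0 0 (GE 0 3 (D 0) (2401, 2499) (117649, 124999) (.q 9409 9999) p03 k03 k13) ⟨0, 1, 2, 0, 1, 1, 0, 1, 1, 1, 2, 2⟩ = true ∧
      (Tree.leaf 200 16 16 6 6).ok 0 1 0 0 (GE 0 3 (D 0) (2401, 2499) (117649, 124999) (.q 9409 9999) p03 k03 k13) ⟨1, 2, 2, 0, 1, 1, 0, 1, 1, 0, 1, 1⟩ = true) ∧
    ((Tree.leaf 197 16 16 6 6).ok 0 1 0 0 (GE 0 3 (D 0) (2401, 2499) (117649, 124999) (tau1 (2401, 2499)) p03 k03 k13) ⟨0, 1, 2, 0, 1, 1, 0, 1, 1, 0, 1, 2⟩ = true ∧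
      (Tree.leaf 197 16 16 6 6).ok 0 1 0 0 (GE 0 3 (D 0) (2401, 2499) (117649, 124999) (tau1 (2401, 2499)) p03 k03 k13) ⟨0, 1, 2, 0, 1, 1, 0, 1, 1, 1, 2, 2⟩ = true ∧
      (Tree.leaf 200 16 16 6 6).ok 0 1 0 0 (GE 0 3 (D 0) (2401, 2499) (117649, 124999) (tau1 (2401, 2499)) p03 k03 k13) ⟨1, 2, 2, 0, 1, 1, 0, 1, 1, 0, 1, 1⟩ = true) ∧
    ((Tree.leaf 118 9 13 5 1).ok 0 1 0 0 (SEG D13 (0, 0) (sP (97, 97) (1, 97)) p10 p11 p12 p13) ⟨0, 1, 1, 0, 1, 2, 0, 1, 1, 0, 1, 1⟩ = true ∧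
      (Tree.leaf 125 9 13 5 1).ok 0 1 0 0 (SEG D13 (0, 0) (sP (97, 97) (1, 97)) p10 p11 p12 p13) ⟨0, 1, 1, 1, 2, 2, 0, 1, 2, 0, 1, 1⟩ = true ∧
      (Tree.leaf 126 9 13 5 1).ok 0 1 0 0 (SEG D13 (0, 0) (sP (97, 97) (1, 97)) p10 p11 p12 p13) ⟨0, 1, 1, 1, 2, 2, 1, 2, 2, 0, 1, 1⟩ = true) ∧
    ((Tree.leaf 52 13 1 5 1).ok 0 1 0 0 (RE D13 (0, 0)) ⟨0, 1, 1, 0, 1, 1, 0, 1, 1, 0, 1, 1⟩ = true) ∧
    ((Tree.leaf 168 14 13 5 1).ok 0 1 0 0 (UE0 (49, 49) D10) ⟨0, 1, 4, 0, 1, 1, 0, 1, 1, 0, 1, 1⟩ = true ∧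
      (Tree.leaf 170 14 13 5 1).ok 0 1 0 0 (UE0 (49, 49) D10) ⟨1, 2, 4, 0, 1, 1, 0, 1, 1, 0, 1, 1⟩ = true ∧
      (Tree.leaf 162 14 13 5 1).ok 0 1 0 0 (UE0 (49, 49) D10) ⟨1, 2, 2, 0, 1, 1, 0, 1, 1, 0, 1, 1⟩ = true) ∧
    ((Tree.leaf 167 14 13 5 1).ok 0 1 0 0 (UE1 (49, 24) D10) ⟨0, 1, 4, 0, 1, 2, 0, 1, 1, 0, 1, 1⟩ = true ∧
      (Tree.leaf 172 14 13 5 1).ok 0 1 0 0 (UE1 (49, 24) D10) ⟨1, 2, 4, 0, 1, 2, 0, 1, 1, 0, 1, 1⟩ = true ∧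
      (Tree.leaf 166 14 13 5 1).ok 0 1 0 0 (UE1 (49, 24) D10) ⟨1, 2, 2, 0, 1, 2, 0, 1, 1, 0, 1, 1⟩ = true ∧
      (Tree.leaf 170 14 13 5 1).ok 0 1 0 0 (UE1 (49, 24) D10) ⟨0, 1, 4, 1, 2, 2, 0, 1, 1, 0, 1, 1⟩ = true ∧
      (Tree.leaf 176 14 13 5 1).ok 0 1 0 0 (UE1 (49, 24) D10) ⟨1, 2, 4, 1, 2, 2, 0, 1, 1, 0, 1, 1⟩ = true ∧
      (Tree.leaf 171 14 13 5 1).ok 0 1 0 0 (UE1 (49, 24) D10) ⟨1, 2, 2, 1, 2, 2, 0, 1, 1, 0, 1, 1⟩ = true) ∧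
    ((Tree.leaf 180 14 13 5 1).ok 0 1 0 0 (UE0 (49, 49) D11) ⟨0, 1, 8, 0, 1, 1, 0, 1, 1, 0, 1, 1⟩ = true ∧
      (Tree.leaf 181 14 13 5 1).ok 0 1 0 0 (UE0 (49, 49) D11) ⟨1, 2, 8, 0, 1, 1, 0, 1, 1, 0, 1, 1⟩ = true ∧
      (Tree.leaf 170 14 13 5 1).ok 0 1 0 0 (UE0 (49, 49) D11) ⟨1, 2, 4, 0, 1, 1, 0, 1, 1, 0, 1, 1⟩ = true ∧
      (Tree.leaf 162 14 13 5 1).ok 0 1 0 0 (UE0 (49, 49) D11) ⟨1, 2, 2, 0, 1, 1, 0, 1, 1, 0, 1, 1⟩ = true) ∧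
    ((Tree.leaf 167 14 13 5 1).ok 0 1 0 0 (UE1 (49, 24) D11) ⟨0, 1, 4, 0, 1, 2, 0, 1, 1, 0, 1, 1⟩ = true ∧
      (Tree.leaf 172 14 13 5 1).ok 0 1 0 0 (UE1 (49, 24) D11) ⟨1, 2, 4, 0, 1, 2, 0, 1, 1, 0, 1, 1⟩ = true ∧
      (Tree.leaf 166 14 13 5 1).ok 0 1 0 0 (UE1 (49, 24) D11) ⟨1, 2, 2, 0, 1, 2, 0, 1, 1, 0, 1, 1⟩ = true ∧
      (Tree.leaf 170 14 13 5 1).ok 0 1 0 0 (UE1 (49, 24) D11) ⟨0, 1, 4, 1, 2, 2, 0, 1, 1, 0, 1, 1⟩ = true ∧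
      (Tree.leaf 176 14 13 5 1).ok 0 1 0 0 (UE1 (49, 24) D11) ⟨1, 2, 4, 1, 2, 2, 0, 1, 1, 0, 1, 1⟩ = true ∧
      (Tree.leaf 171 14 13 5 1).ok 0 1 0 0 (UE1 (49, 24) D11) ⟨1, 2, 2, 1, 2, 2, 0, 1, 1, 0, 1, 1⟩ = true) ∧
    ((Tree.leaf 168 14 13 5 1).ok 0 1 0 0 (UE0 (49, 49) D12) ⟨0, 1, 4, 0, 1, 1, 0, 1, 1, 0, 1, 1⟩ = true ∧
      (Tree.leaf 171 14 13 5 1).ok 0 1 0 0 (UE0 (49, 49) D12) ⟨1, 2, 4, 0, 1, 1, 0, 1, 1, 0, 1, 1⟩ = true ∧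
      (Tree.leaf 162 14 13 5 1).ok 0 1 0 0 (UE0 (49, 49) D12) ⟨1, 2, 2, 0, 1, 1, 0, 1, 1, 0, 1, 1⟩ = true) ∧
    ((Tree.leaf 167 14 13 5 1).ok 0 1 0 0 (UE1 (49, 24) D12) ⟨0, 1, 4, 0, 1, 2, 0, 1, 1, 0, 1, 1⟩ = true ∧
      (Tree.leaf 172 14 13 5 1).ok 0 1 0 0 (UE1 (49, 24) D12) ⟨1, 2, 4, 0, 1, 2, 0, 1, 1, 0, 1, 1⟩ = true ∧
      (Tree.leaf 166 14 13 5 1).ok 0 1 0 0 (UE1 (49, 24) D12) ⟨1, 2, 2, 0, 1, 2, 0, 1, 1, 0, 1, 1⟩ = true ∧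
      (Tree.leaf 170 14 13 5 1).ok 0 1 0 0 (UE1 (49, 24) D12) ⟨0, 1, 4, 1, 2, 2, 0, 1, 1, 0, 1, 1⟩ = true ∧
      (Tree.leaf 177 14 13 5 1).ok 0 1 0 0 (UE1 (49, 24) D12) ⟨1, 2, 4, 1, 2, 2, 0, 1, 1, 0, 1, 1⟩ = true ∧
      (Tree.leaf 171 14 13 5 1).ok 0 1 0 0 (UE1 (49, 24) D12) ⟨1, 2, 2, 1, 2, 2, 0, 1, 1, 0, 1, 1⟩ = true) ∧
    ((Tree.leaf 168 14 13 5 1).ok 0 1 0 0 (UE0 (49, 49) D13) ⟨0, 1, 4, 0, 1, 1, 0, 1, 1, 0, 1, 1⟩ = true ∧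
      (Tree.leaf 171 14 13 5 1).ok 0 1 0 0 (UE0 (49, 49) D13) ⟨1, 2, 4, 0, 1, 1, 0, 1, 1, 0, 1, 1⟩ = true ∧
      (Tree.leaf 162 14 13 5 1).ok 0 1 0 0 (UE0 (49, 49) D13) ⟨1, 2, 2, 0, 1, 1, 0, 1, 1, 0, 1, 1⟩ = true) ∧
    ((Tree.leaf 167 14 13 5 1).ok 0 1 0 0 (UE1 (49, 24) D13) ⟨0, 1, 4, 0, 1, 2, 0, 1, 1, 0, 1, 1⟩ = true ∧
      (Tree.leaf 172 14 13 5 1).ok 0 1 0 0 (UE1 (49, 24) D13) ⟨1, 2, 4, 0, 1, 2, 0, 1, 1, 0, 1, 1⟩ = true ∧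
      (Tree.leaf 166 14 13 5 1).ok 0 1 0 0 (UE1 (49, 24) D13) ⟨1, 2, 2, 0, 1, 2, 0, 1, 1, 0, 1, 1⟩ = true ∧
      (Tree.leaf 170 14 13 5 1).ok 0 1 0 0 (UE1 (49, 24) D13) ⟨0, 1, 4, 1, 2, 2, 0, 1, 1, 0, 1, 1⟩ = true ∧
      (Tree.leaf 177 14 13 5 1).ok 0 1 0 0 (UE1 (49, 24) D13) ⟨1, 2, 4, 1, 2, 2, 0, 1, 1, 0, 1, 1⟩ = true ∧
      (Tree.leaf 171 14 13 5 1).ok 0 1 0 0 (UE1 (49, 24) D13) ⟨1, 2, 2, 1, 2, 2, 0, 1, 1, 0, 1, 1⟩ = true) ∧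
    ((Tree.leaf 181 14 14 6 6).ok 0 1 0 0 (GE 1 0 (D 1) (2401, 2499) (117649, 124999) (.q 9409 9999) p10 k00 k10) ⟨0, 1, 1, 0, 1, 2, 0, 1, 2, 0, 1, 1⟩ = true ∧
      (Tree.leaf 182 14 14 6 6).ok 0 1 0 0 (GE 1 0 (D 1) (2401, 2499) (117649, 124999) (.q 9409 9999) p10 k00 k10) ⟨0, 1, 1, 0, 1, 2, 1, 2, 2, 0, 1, 1⟩ = true ∧
      (Tree.leaf 182 14 14 6 6).ok 0 1 0 0 (GE 1 0 (D 1) (2401, 2499) (117649, 124999) (.q 9409 9999) p10 k00 k10) ⟨0, 1, 1, 1, 2, 2, 0, 1, 1, 0, 1, 1⟩ = true) ∧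
    ((Tree.leaf 181 14 14 6 6).ok 0 1 0 0 (GE 1 0 (D 1) (2401, 2499) (117649, 124999) (tau1 (2401, 2499)) p10 k00 k10) ⟨0, 1, 1, 0, 1, 2, 0, 1, 2, 0, 1, 1⟩ = true ∧
      (Tree.leaf 182 14 14 6 6).ok 0 1 0 0 (GE 1 0 (D 1) (2401, 2499) (117649, 124999) (tau1 (2401, 2499)) p10 k00 k10) ⟨0, 1, 1, 0, 1, 2, 1, 2, 2, 0, 1, 1⟩ = true ∧
      (Tree.leaf 182 14 14 6 6).ok 0 1 0 0 (GE 1 0 (D 1) (2401, 2499) (117649, 124999) (tau1 (2401, 2499)) p10 k00 k10) ⟨0, 1, 1, 1, 2, 2, 0, 1, 1, 0, 1, 1⟩ = true) ∧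
    ((Tree.leaf 181 14 14 6 6).ok 0 1 0 0 (GE 1 1 (D 1) (2401, 2499) (117649, 124999) (.q 9409 9999) p11 k01 k11) ⟨0, 1, 1, 0, 1, 2, 0, 1, 2, 0, 1, 1⟩ = true ∧
      (Tree.leaf 181 14 14 6 6).ok 0 1 0 0 (GE 1 1 (D 1) (2401, 2499) (117649, 124999) (.q 9409 9999) p11 k01 k11) ⟨0, 1, 1, 0, 1, 2, 1, 2, 2, 0, 1, 1⟩ = true ∧
      (Tree.leaf 186 14 14 6 6).ok 0 1 0 0 (GE 1 1 (D 1) (2401, 2499) (117649, 124999) (.q 9409 9999) p11 k01 k11) ⟨0, 1, 1, 1, 2, 2, 0, 1, 1, 0, 1, 2⟩ = true ∧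
      (Tree.leaf 188 14 14 6 6).ok 0 1 0 0 (GE 1 1 (D 1) (2401, 2499) (117649, 124999) (.q 9409 9999) p11 k01 k11) ⟨0, 1, 1, 1, 2, 2, 0, 1, 1, 1, 2, 2⟩ = true) ∧
    ((Tree.leaf 181 14 14 6 6).ok 0 1 0 0 (GE 1 1 (D 1) (2401, 2499) (117649, 124999) (tau1 (2401, 2499)) p11 k01 k11) ⟨0, 1, 1, 0, 1, 2, 0, 1, 2, 0, 1, 1⟩ = true ∧
      (Tree.leaf 181 14 14 6 6).ok 0 1 0 0 (GE 1 1 (D 1) (2401, 2499) (117649, 124999) (tau1 (2401, 2499)) p11 k01 k11) ⟨0, 1, 1, 0, 1, 2, 1, 2, 2, 0, 1, 1⟩ = true ∧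
      (Tree.leaf 186 14 14 6 6).ok 0 1 0 0 (GE 1 1 (D 1) (2401, 2499) (117649, 124999) (tau1 (2401, 2499)) p11 k01 k11) ⟨0, 1, 1, 1, 2, 2, 0, 1, 1, 0, 1, 2⟩ = true ∧
      (Tree.leaf 188 14 14 6 6).ok 0 1 0 0 (GE 1 1 (D 1) (2401, 2499) (117649, 124999) (tau1 (2401, 2499)) p11 k01 k11) ⟨0, 1, 1, 1, 2, 2, 0, 1, 1, 1, 2, 2⟩ = true) ∧
    ((Tree.leaf 181 14 14 6 6).ok 0 1 0 0 (GE 1 2 (D 1) (2401, 2499) (117649, 124999) (.q 9409 9999) p12 k02 k12) ⟨0, 1, 1, 0, 1, 2, 0, 1, 2, 0, 1, 1⟩ = true ∧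
      (Tree.leaf 187 14 14 6 6).ok 0 1 0 0 (GE 1 2 (D 1) (2401, 2499) (117649, 124999) (.q 9409 9999) p12 k02 k12) ⟨0, 1, 1, 1, 2, 2, 0, 1, 2, 0, 1, 1⟩ = true ∧
      (Tree.leaf 181 14 14 6 6).ok 0 1 0 0 (GE 1 2 (D 1) (2401, 2499) (117649, 124999) (.q 9409 9999) p12 k02 k12) ⟨0, 1, 1, 0, 1, 2, 1, 2, 2, 0, 1, 1⟩ = true ∧
      (Tree.leaf 188 14 14 6 6).ok 0 1 0 0 (GE 1 2 (D 1) (2401, 2499) (117649, 124999) (.q 9409 9999) p12 k02 k12) ⟨0, 1, 1, 1, 2, 2, 1, 2, 2, 0, 1, 1⟩ = true) ∧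
    ((Tree.leaf 181 14 14 6 6).ok 0 1 0 0 (GE 1 2 (D 1) (2401, 2499) (117649, 124999) (tau1 (2401, 2499)) p12 k02 k12) ⟨0, 1, 1, 0, 1, 2, 0, 1, 2, 0, 1, 1⟩ = true ∧
      (Tree.leaf 187 14 14 6 6).ok 0 1 0 0 (GE 1 2 (D 1) (2401, 2499) (117649, 124999) (tau1 (2401, 2499)) p12 k02 k12) ⟨0, 1, 1, 1, 2, 2, 0, 1, 2, 0, 1, 1⟩ = true ∧
      (Tree.leaf 181 14 14 6 6).ok 0 1 0 0 (GE 1 2 (D 1) (2401, 2499) (117649, 124999) (tau1 (2401, 2499)) p12 k02 k12) ⟨0, 1, 1, 0, 1, 2, 1, 2, 2, 0, 1, 1⟩ = true ∧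
      (Tree.leaf 188 14 14 6 6).ok 0 1 0 0 (GE 1 2 (D 1) (2401, 2499) (117649, 124999) (tau1 (2401, 2499)) p12 k02 k12) ⟨0, 1, 1, 1, 2, 2, 1, 2, 2, 0, 1, 1⟩ = true) ∧
    ((Tree.leaf 181 14 14 6 6).ok 0 1 0 0 (GE 1 3 (D 1) (2401, 2499) (117649, 124999) (.q 9409 9999) p13 k03 k13) ⟨0, 1, 2, 0, 1, 1, 0, 1, 2, 0, 1, 1⟩ = true ∧
      (Tree.leaf 187 14 14 6 6).ok 0 1 0 0 (GE 1 3 (D 1) (2401, 2499) (117649, 124999) (.q 9409 9999) p13 k03 k13) ⟨1, 2, 2, 0, 1, 1, 0, 1, 2, 0, 1, 1⟩ = true ∧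
      (Tree.leaf 182 14 14 6 6).ok 0 1 0 0 (GE 1 3 (D 1) (2401, 2499) (117649, 124999) (.q 9409 9999) p13 k03 k13) ⟨0, 1, 1, 0, 1, 2, 1, 2, 2, 0, 1, 1⟩ = true ∧
      (Tree.leaf 188 14 14 6 6).ok 0 1 0 0 (GE 1 3 (D 1) (2401, 2499) (117649, 124999) (.q 9409 9999) p13 k03 k13) ⟨0, 1, 1, 1, 2, 2, 1, 2, 2, 0, 1, 1⟩ = true) ∧
    ((Tree.leaf 181 14 14 6 6).ok 0 1 0 0 (GE 1 3 (D 1) (2401, 2499) (117649, 124999) (tau1 (2401, 2499)) p13 k03 k13) ⟨0, 1, 2, 0, 1, 1, 0, 1, 2, 0, 1, 1⟩ = true ∧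
      (Tree.leaf 187 14 14 6 6).ok 0 1 0 0 (GE 1 3 (D 1) (2401, 2499) (117649, 124999) (tau1 (2401, 2499)) p13 k03 k13) ⟨1, 2, 2, 0, 1, 1, 0, 1, 2, 0, 1, 1⟩ = true ∧
      (Tree.leaf 182 14 14 6 6).ok 0 1 0 0 (GE 1 3 (D 1) (2401, 2499) (117649, 124999) (tau1 (2401, 2499)) p13 k03 k13) ⟨0, 1, 1, 0, 1, 2, 1, 2, 2, 0, 1, 1⟩ = true ∧
      (Tree.leaf 188 14 14 6 6).ok 0 1 0 0 (GE 1 3 (D 1) (2401, 2499) (117649, 124999) (tau1 (2401, 2499)) p13 k03 k13) ⟨0, 1, 1, 1, 2, 2, 1, 2, 2, 0, 1, 1⟩ = true) ∧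
    ((Tree.leaf 122 9 10 5 1).ok 0 1 0 0 (SEG D23 (-409404, 16383) (sP (97, 97) (1, 97)) p20 p21 p22 p23) ⟨0, 1, 1, 0, 1, 4, 0, 1, 1, 0, 1, 1⟩ = true ∧
      (Tree.leaf 123 9 10 5 1).ok 0 1 0 0 (SEG D23 (-409404, 16383) (sP (97, 97) (1, 97)) p20 p21 p22 p23) ⟨0, 1, 1, 1, 2, 4, 0, 1, 1, 0, 1, 1⟩ = true ∧
      (Tree.leaf 118 9 10 5 1).ok 0 1 0 0 (SEG D23 (-409404, 16383) (sP (97, 97) (1, 97)) p20 p21 p22 p23) ⟨0, 1, 1, 1, 2, 2, 0, 1, 1, 0, 1, 1⟩ = true) ∧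
    ((Tree.leaf 45 10 1 4 1).ok 0 1 0 0 (RE D23 (-409404, 16383)) ⟨0, 1, 1, 0, 1, 1, 0, 1, 1, 0, 1, 1⟩ = true) ∧
    ((Tree.leaf 140 14 10 4 1).ok 0 1 0 0 (UE0 (49, 49) D20) ⟨0, 1, 1, 0, 1, 1, 0, 1, 1, 0, 1, 1⟩ = true) ∧
    ((Tree.leaf 139 14 10 4 1).ok 0 1 0 0 (UE1 (49, 24) D20) ⟨0, 1, 1, 0, 1, 2, 0, 1, 1, 0, 1, 1⟩ = true ∧
      (Tree.leaf 144 14 10 4 1).ok 0 1 0 0 (UE1 (49, 24) D20) ⟨0, 1, 1, 1, 2, 2, 0, 1, 1, 0, 1, 1⟩ = true) ∧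
    ((Tree.leaf 140 14 10 4 1).ok 0 1 0 0 (UE0 (49, 49) D21) ⟨0, 1, 1, 0, 1, 1, 0, 1, 1, 0, 1, 1⟩ = true) ∧
    ((Tree.leaf 139 14 10 4 1).ok 0 1 0 0 (UE1 (49, 24) D21) ⟨0, 1, 1, 0, 1, 2, 0, 1, 1, 0, 1, 1⟩ = true ∧
      (Tree.leaf 144 14 10 4 1).ok 0 1 0 0 (UE1 (49, 24) D21) ⟨0, 1, 1, 1, 2, 2, 0, 1, 1, 0, 1, 1⟩ = true) ∧
    ((Tree.leaf 139 14 10 4 1).ok 0 1 0 0 (UE0 (49, 49) D22) ⟨0, 1, 1, 0, 1, 1, 0, 1, 1, 0, 1, 1⟩ = true) ∧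
    ((Tree.leaf 139 14 10 4 1).ok 0 1 0 0 (UE1 (49, 24) D22) ⟨0, 1, 1, 0, 1, 2, 0, 1, 1, 0, 1, 1⟩ = true ∧
      (Tree.leaf 144 14 10 4 1).ok 0 1 0 0 (UE1 (49, 24) D22) ⟨0, 1, 1, 1, 2, 2, 0, 1, 1, 0, 1, 1⟩ = true) ∧
    ((Tree.leaf 156 14 10 4 1).ok 0 1 0 0 (UE0 (49, 49) D23) ⟨0, 1, 2, 0, 1, 2, 0, 1, 1, 0, 1, 1⟩ = true ∧
      (Tree.leaf 160 14 10 4 1).ok 0 1 0 0 (UE0 (49, 49) D23) ⟨0, 1, 2, 1, 2, 2, 0, 1, 1, 0, 1, 1⟩ = true ∧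
      (Tree.leaf 155 14 10 4 1).ok 0 1 0 0 (UE0 (49, 49) D23) ⟨1, 2, 2, 0, 1, 1, 0, 1, 1, 0, 1, 1⟩ = true) ∧
    ((Tree.leaf 138 14 10 4 1).ok 0 1 0 0 (UE1 (49, 24) D23) ⟨0, 1, 1, 0, 1, 2, 0, 1, 1, 0, 1, 1⟩ = true ∧
      (Tree.leaf 144 14 10 4 1).ok 0 1 0 0 (UE1 (49, 24) D23) ⟨0, 1, 1, 1, 2, 2, 0, 1, 1, 0, 1, 1⟩ = true) ∧
    ((Tree.leaf 188 14 14 6 6).ok 0 1 0 0 (GE 2 0 (D 2) (2401, 2499) (117649, 124999) (.q 9409 9999) p20 k00 k10) ⟨0, 1, 4, 0, 1, 1, 0, 1, 1, 0, 1, 1⟩ = true ∧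
      (Tree.leaf 190 14 14 6 6).ok 0 1 0 0 (GE 2 0 (D 2) (2401, 2499) (117649, 124999) (.q 9409 9999) p20 k00 k10) ⟨1, 2, 4, 0, 1, 1, 0, 1, 1, 0, 1, 1⟩ = true ∧
      (Tree.leaf 183 14 14 6 6).ok 0 1 0 0 (GE 2 0 (D 2) (2401, 2499) (117649, 124999) (.q 9409 9999) p20 k00 k10) ⟨1, 2, 2, 0, 1, 1, 0, 1, 1, 0, 1, 1⟩ = true) ∧
    ((Tree.leaf 188 14 14 6 6).ok 0 1 0 0 (GE 2 0 (D 2) (2401, 2499) (117649, 124999) (tau1 (2401, 2499)) p20 k00 k10) ⟨0, 1, 4, 0, 1, 1, 0, 1, 1, 0, 1, 1⟩ = true ∧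
      (Tree.leaf 190 14 14 6 6).ok 0 1 0 0 (GE 2 0 (D 2) (2401, 2499) (117649, 124999) (tau1 (2401, 2499)) p20 k00 k10) ⟨1, 2, 4, 0, 1, 1, 0, 1, 1, 0, 1, 1⟩ = true ∧
      (Tree.leaf 183 14 14 6 6).ok 0 1 0 0 (GE 2 0 (D 2) (2401, 2499) (117649, 124999) (tau1 (2401, 2499)) p20 k00 k10) ⟨1, 2, 2, 0, 1, 1, 0, 1, 1, 0, 1, 1⟩ = true) ∧
    ((Tree.leaf 176 14 14 6 6).ok 0 1 0 0 (GE 2 1 (D 2) (2401, 2499) (117649, 124999) (.q 9409 9999) p21 k01 k11) ⟨0, 1, 1, 0, 1, 2, 0, 1, 1, 0, 1, 1⟩ = true ∧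
      (Tree.leaf 182 14 14 6 6).ok 0 1 0 0 (GE 2 1 (D 2) (2401, 2499) (117649, 124999) (.q 9409 9999) p21 k01 k11) ⟨0, 1, 1, 1, 2, 2, 0, 1, 1, 0, 1, 1⟩ = true) ∧
    ((Tree.leaf 176 14 14 6 6).ok 0 1 0 0 (GE 2 1 (D 2) (2401, 2499) (117649, 124999) (tau1 (2401, 2499)) p21 k01 k11) ⟨0, 1, 1, 0, 1, 2, 0, 1, 1, 0, 1, 1⟩ = true ∧
      (Tree.leaf 182 14 14 6 6).ok 0 1 0 0 (GE 2 1 (D 2) (2401, 2499) (117649, 124999) (tau1 (2401, 2499)) p21 k01 k11) ⟨0, 1, 1, 1, 2, 2, 0, 1, 1, 0, 1, 1⟩ = true) ∧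
    ((Tree.leaf 180 14 14 6 6).ok 0 1 0 0 (GE 2 2 (D 2) (2401, 2499) (117649, 124999) (.q 9409 9999) p22 k02 k12) ⟨0, 1, 2, 0, 1, 1, 0, 1, 2, 0, 1, 1⟩ = true ∧
      (Tree.leaf 187 14 14 6 6).ok 0 1 0 0 (GE 2 2 (D 2) (2401, 2499) (117649, 124999) (.q 9409 9999) p22 k02 k12) ⟨1, 2, 2, 0, 1, 1, 0, 1, 2, 0, 1, 1⟩ = true ∧
      (Tree.leaf 181 14 14 6 6).ok 0 1 0 0 (GE 2 2 (D 2) (2401, 2499) (117649, 124999) (.q 9409 9999) p22 k02 k12) ⟨0, 1, 2, 0, 1, 1, 1, 2, 2, 0, 1, 1⟩ = true ∧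
      (Tree.leaf 188 14 14 6 6).ok 0 1 0 0 (GE 2 2 (D 2) (2401, 2499) (117649, 124999) (.q 9409 9999) p22 k02 k12) ⟨1, 2, 2, 0, 1, 1, 1, 2, 2, 0, 1, 1⟩ = true) ∧
    ((Tree.leaf 180 14 14 6 6).ok 0 1 0 0 (GE 2 2 (D 2) (2401, 2499) (117649, 124999) (tau1 (2401, 2499)) p22 k02 k12) ⟨0, 1, 2, 0, 1, 1, 0, 1, 2, 0, 1, 1⟩ = true ∧
      (Tree.leaf 187 14 14 6 6).ok 0 1 0 0 (GE 2 2 (D 2) (2401, 2499) (117649, 124999) (tau1 (2401, 2499)) p22 k02 k12) ⟨1, 2, 2, 0, 1, 1, 0, 1, 2, 0, 1, 1⟩ = true ∧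
      (Tree.leaf 181 14 14 6 6).ok 0 1 0 0 (GE 2 2 (D 2) (2401, 2499) (117649, 124999) (tau1 (2401, 2499)) p22 k02 k12) ⟨0, 1, 2, 0, 1, 1, 1, 2, 2, 0, 1, 1⟩ = true ∧
      (Tree.leaf 188 14 14 6 6).ok 0 1 0 0 (GE 2 2 (D 2) (2401, 2499) (117649, 124999) (tau1 (2401, 2499)) p22 k02 k12) ⟨1, 2, 2, 0, 1, 1, 1, 2, 2, 0, 1, 1⟩ = true) ∧
    ((Tree.leaf 176 14 14 6 6).ok 0 1 0 0 (GE 2 3 (D 2) (2401, 2499) (117649, 124999) (.q 9409 9999) p23 k03 k13) ⟨0, 1, 2, 0, 1, 1, 0, 1, 1, 0, 1, 1⟩ = true ∧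
      (Tree.leaf 183 14 14 6 6).ok 0 1 0 0 (GE 2 3 (D 2) (2401, 2499) (117649, 124999) (.q 9409 9999) p23 k03 k13) ⟨1, 2, 2, 0, 1, 1, 0, 1, 1, 0, 1, 1⟩ = true) ∧
    ((Tree.leaf 176 14 14 6 6).ok 0 1 0 0 (GE 2 3 (D 2) (2401, 2499) (117649, 124999) (tau1 (2401, 2499)) p23 k03 k13) ⟨0, 1, 2, 0, 1, 1, 0, 1, 1, 0, 1, 1⟩ = true ∧
      (Tree.leaf 183 14 14 6 6).ok 0 1 0 0 (GE 2 3 (D 2) (2401, 2499) (117649, 124999) (tau1 (2401, 2499)) p23 k03 k13) ⟨1, 2, 2, 0, 1, 1, 0, 1, 1, 0, 1, 1⟩ = true) :=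
  ⟨⟨by decide +kernel, by decide +kernel, by decide +kernel⟩,
   by decide +kernel,
   ⟨by decide +kernel, by decide +kernel, by decide +kernel, by decide +kernel, by decide +kernel⟩,
   ⟨by decide +kernel, by decide +kernel, by decide +kernel, by decide +kernel, by decide +kernel, by decide +kernel⟩,
   ⟨by decide +kernel, by decide +kernel, by decide +kernel, by decide +kernel, by decide +kernel⟩,
   ⟨by decide +kernel, by decide +kernel, by decide +kernel, by decide +kernel, by decide +kernel⟩,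
   ⟨by decide +kernel, by decide +kernel, by decide +kernel, by decide +kernel, by decide +kernel⟩,
   ⟨by decide +kernel, by decide +kernel, by decide +kernel, by decide +kernel, by decide +kernel, by decide +kernel, by decide +kernel⟩,
   ⟨by decide +kernel, by decide +kernel, by decide +kernel, by decide +kernel⟩,
   ⟨by decide +kernel, by decide +kernel, by decide +kernel, by decide +kernel⟩,
   ⟨by decide +kernel, by decide +kernel, by decide +kernel⟩,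
   ⟨by decide +kernel, by decide +kernel, by decide +kernel⟩,
   ⟨by decide +kernel, by decide +kernel, by decide +kernel⟩,
   ⟨by decide +kernel, by decide +kernel, by decide +kernel⟩,
   ⟨by decide +kernel, by decide +kernel, by decide +kernel, by decide +kernel⟩,
   ⟨by decide +kernel, by decide +kernel, by decide +kernel, by decide +kernel⟩,
   ⟨by decide +kernel, by decide +kernel, by decide +kernel⟩,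
   ⟨by decide +kernel, by decide +kernel, by decide +kernel⟩,
   ⟨by decide +kernel, by decide +kernel, by decide +kernel⟩,
   by decide +kernel,
   ⟨by decide +kernel, by decide +kernel, by decide +kernel⟩,
   ⟨by decide +kernel, by decide +kernel, by decide +kernel, by decide +kernel, by decide +kernel, by decide +kernel⟩,
   ⟨by decide +kernel, by decide +kernel, by decide +kernel, by decide +kernel⟩,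
   ⟨by decide +kernel, by decide +kernel, by decide +kernel, by decide +kernel, by decide +kernel, by decide +kernel⟩,
   ⟨by decide +kernel, by decide +kernel, by decide +kernel⟩,
   ⟨by decide +kernel, by decide +kernel, by decide +kernel, by decide +kernel, by decide +kernel, by decide +kernel⟩,
   ⟨by decide +kernel, by decide +kernel, by decide +kernel⟩,
   ⟨by decide +kernel, by decide +kernel, by decide +kernel, by decide +kernel, by decide +kernel, by decide +kernel⟩,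
   ⟨by decide +kernel, by decide +kernel, by decide +kernel⟩,
   ⟨by decide +kernel, by decide +kernel, by decide +kernel⟩,
   ⟨by decide +kernel, by decide +kernel, by decide +kernel, by decide +kernel⟩,
   ⟨by decide +kernel, by decide +kernel, by decide +kernel, by decide +kernel⟩,
   ⟨by decide +kernel, by decide +kernel, by decide +kernel, by decide +kernel⟩,
   ⟨by decide +kernel, by decide +kernel, by decide +kernel, by decide +kernel⟩,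
   ⟨by decide +kernel, by decide +kernel, by decide +kernel, by decide +kernel⟩,
   ⟨by decide +kernel, by decide +kernel, by decide +kernel, by decide +kernel⟩,
   ⟨by decide +kernel, by decide +kernel, by decide +kernel⟩,
   by decide +kernel,
   by decide +kernel,
   ⟨by decide +kernel, by decide +kernel⟩,
   by decide +kernel,
   ⟨by decide +kernel, by decide +kernel⟩,
   by decide +kernel,
   ⟨by decide +kernel, by decide +kernel⟩,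
   ⟨by decide +kernel, by decide +kernel, by decide +kernel⟩,
   ⟨by decide +kernel, by decide +kernel⟩,
   ⟨by decide +kernel, by decide +kernel, by decide +kernel⟩,
   ⟨by decide +kernel, by decide +kernel, by decide +kernel⟩,
   ⟨by decide +kernel, by decide +kernel⟩,
   ⟨by decide +kernel, by decide +kernel⟩,
   ⟨by decide +kernel, by decide +kernel, by decide +kernel, by decide +kernel⟩,
   ⟨by decide +kernel, by decide +kernel, by decide +kernel, by decide +kernel⟩,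
   ⟨by decide +kernel, by decide +kernel⟩,
   ⟨by decide +kernel, by decide +kernel⟩⟩

def t_s0 : Tree := (.s2 (.leaf 113 9 16 6 1) (.s2 (.leaf 119 9 16 6 1) (.leaf 119 9 16 6 1)))
theorem s0 : t_s0.ok 0 1 0 0 (SEG D03 (0, 0) (sP (97, 97) (1, 97)) p00 p01 p02 p03) unitBx = true :=
  (Tree.ok_s2 lv.1.1 (Tree.ok_s2 lv.1.2.1 lv.1.2.2))

def t_r0 : Tree := (.leaf 53 16 1 6 1)
theorem r0 : t_r0.ok 0 1 0 0 (RE D03 (0, 0)) unitBx = true :=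
  lv.2.1

def t_u00 : Tree := (.s0 (.s1 (.s0 (.leaf 209 17 16 6 1) (.leaf 212 17 16 6 1)) (.s0 (.leaf 212 17 16 6 1) (.leaf 216 17 16 6 1))) (.leaf 188 17 16 6 1))
theorem u00 : t_u00.ok 0 1 0 0 (UE0 (49, 49) D00) unitBx = true :=
  (Tree.ok_s0 (Tree.ok_s1 (Tree.ok_s0 lv.2.2.1.1 lv.2.2.1.2.1) (Tree.ok_s0 lv.2.2.1.2.2.1 lv.2.2.1.2.2.2.1)) lv.2.2.1.2.2.2.2)

def t_v00 : Tree := (.s1 (.s0 (.leaf 181 17 16 6 1) (.leaf 192 17 16 6 1)) (.s1 (.s0 (.leaf 200 17 16 6 1) (.leaf 211 17 16 6 1)) (.s1 (.leaf 208 17 16 6 1) (.leaf 209 17 16 6 1))))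
theorem v00 : t_v00.ok 0 1 0 0 (UE1 (49, 24) D00) unitBx = true :=
  (Tree.ok_s1 (Tree.ok_s0 lv.2.2.2.1.1 lv.2.2.2.1.2.1) (Tree.ok_s1 (Tree.ok_s0 lv.2.2.2.1.2.2.1 lv.2.2.2.1.2.2.2.1) (Tree.ok_s1 lv.2.2.2.1.2.2.2.2.1 lv.2.2.2.1.2.2.2.2.2)))

def t_u01 : Tree := (.s0 (.s1 (.s0 (.leaf 209 17 16 6 1) (.leaf 211 17 16 6 1)) (.s0 (.leaf 211 17 16 6 1) (.leaf 216 17 16 6 1))) (.leaf 187 17 16 6 1))
theorem u01 : t_u01.ok 0 1 0 0 (UE0 (49, 49) D01) unitBx = true :=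
  (Tree.ok_s0 (Tree.ok_s1 (Tree.ok_s0 lv.2.2.2.2.1.1 lv.2.2.2.2.1.2.1) (Tree.ok_s0 lv.2.2.2.2.1.2.2.1 lv.2.2.2.2.1.2.2.2.1)) lv.2.2.2.2.1.2.2.2.2)

def t_v01 : Tree := (.s1 (.leaf 171 17 16 6 1) (.s1 (.s0 (.leaf 199 17 16 6 1) (.leaf 210 17 16 6 1)) (.s1 (.leaf 207 17 16 6 1) (.leaf 209 17 16 6 1))))
theorem v01 : t_v01.ok 0 1 0 0 (UE1 (49, 24) D01) unitBx = true :=
  (Tree.ok_s1 lv.2.2.2.2.2.1.1 (Tree.ok_s1 (Tree.ok_s0 lv.2.2.2.2.2.1.2.1 lv.2.2.2.2.2.1.2.2.1) (Tree.ok_s1 lv.2.2.2.2.2.1.2.2.2.1 lv.2.2.2.2.2.1.2.2.2.2)))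

def t_u02 : Tree := (.s0 (.s1 (.s0 (.leaf 209 17 16 6 1) (.leaf 212 17 16 6 1)) (.s0 (.leaf 212 17 16 6 1) (.leaf 216 17 16 6 1))) (.leaf 187 17 16 6 1))
theorem u02 : t_u02.ok 0 1 0 0 (UE0 (49, 49) D02) unitBx = true :=
  (Tree.ok_s0 (Tree.ok_s1 (Tree.ok_s0 lv.2.2.2.2.2.2.1.1 lv.2.2.2.2.2.2.1.2.1) (Tree.ok_s0 lv.2.2.2.2.2.2.1.2.2.1 lv.2.2.2.2.2.2.1.2.2.2.1)) lv.2.2.2.2.2.2.1.2.2.2.2)

def t_v02 : Tree := (.s0 (.s0 (.s1 (.leaf 194 17 16 6 1) (.leaf 198 17 16 6 1)) (.s1 (.leaf 200 17 16 6 1) (.leaf 205 17 16 6 1))) (.s1 (.leaf 191 17 16 6 1) (.s2 (.leaf 201 17 16 6 1) (.leaf 202 17 16 6 1))))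
theorem v02 : t_v02.ok 0 1 0 0 (UE1 (49, 24) D02) unitBx = true :=
  (Tree.ok_s0 (Tree.ok_s0 (Tree.ok_s1 lv.2.2.2.2.2.2.2.1.1 lv.2.2.2.2.2.2.2.1.2.1) (Tree.ok_s1 lv.2.2.2.2.2.2.2.1.2.2.1 lv.2.2.2.2.2.2.2.1.2.2.2.1)) (Tree.ok_s1 lv.2.2.2.2.2.2.2.1.2.2.2.2.1 (Tree.ok_s2 lv.2.2.2.2.2.2.2.1.2.2.2.2.2.1 lv.2.2.2.2.2.2.2.1.2.2.2.2.2.2)))

def t_u03 : Tree := (.s0 (.s0 (.s1 (.leaf 209 17 16 6 1) (.leaf 212 17 16 6 1)) (.leaf 199 17 16 6 1)) (.leaf 188 17 16 6 1))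
theorem u03 : t_u03.ok 0 1 0 0 (UE0 (49, 49) D03) unitBx = true :=
  (Tree.ok_s0 (Tree.ok_s0 (Tree.ok_s1 lv.2.2.2.2.2.2.2.2.1.1 lv.2.2.2.2.2.2.2.2.1.2.1) lv.2.2.2.2.2.2.2.2.1.2.2.1) lv.2.2.2.2.2.2.2.2.1.2.2.2)

def t_v03 : Tree := (.s1 (.leaf 172 17 16 6 1) (.s2 (.leaf 181 17 16 6 1) (.s0 (.leaf 192 17 16 6 1) (.leaf 203 17 16 6 1))))
theorem v03 : t_v03.ok 0 1 0 0 (UE1 (49, 24) D03) unitBx = true :=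
  (Tree.ok_s1 lv.2.2.2.2.2.2.2.2.2.1.1 (Tree.ok_s2 lv.2.2.2.2.2.2.2.2.2.1.2.1 (Tree.ok_s0 lv.2.2.2.2.2.2.2.2.2.1.2.2.1 lv.2.2.2.2.2.2.2.2.2.1.2.2.2)))

def t_h000 : Tree := (.s0 (.s3 (.leaf 196 16 16 6 6) (.leaf 197 16 16 6 6)) (.leaf 200 16 16 6 6))
theorem h000 : t_h000.ok 0 1 0 0 (GE 0 0 (D 0) (2401, 2499) (117649, 124999) (.q 9409 9999) p00 k00 k10) unitBx = true :=
  (Tree.ok_s0 (Tree.ok_s3 lv.2.2.2.2.2.2.2.2.2.2.1.1 lv.2.2.2.2.2.2.2.2.2.2.1.2.1) lv.2.2.2.2.2.2.2.2.2.2.1.2.2)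

def t_h001 : Tree := (.s0 (.s3 (.leaf 196 16 16 6 6) (.leaf 197 16 16 6 6)) (.leaf 200 16 16 6 6))
theorem h001 : t_h001.ok 0 1 0 0 (GE 0 0 (D 0) (2401, 2499) (117649, 124999) (tau1 (2401, 2499)) p00 k00 k10) unitBx = true :=
  (Tree.ok_s0 (Tree.ok_s3 lv.2.2.2.2.2.2.2.2.2.2.2.1.1 lv.2.2.2.2.2.2.2.2.2.2.2.1.2.1) lv.2.2.2.2.2.2.2.2.2.2.2.1.2.2)

def t_h010 : Tree := (.s0 (.s3 (.leaf 196 16 16 6 6) (.leaf 197 16 16 6 6)) (.leaf 199 16 16 6 6))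
theorem h010 : t_h010.ok 0 1 0 0 (GE 0 1 (D 0) (2401, 2499) (117649, 124999) (.q 9409 9999) p01 k01 k11) unitBx = true :=
  (Tree.ok_s0 (Tree.ok_s3 lv.2.2.2.2.2.2.2.2.2.2.2.2.1.1 lv.2.2.2.2.2.2.2.2.2.2.2.2.1.2.1) lv.2.2.2.2.2.2.2.2.2.2.2.2.1.2.2)

def t_h011 : Tree := (.s0 (.s3 (.leaf 196 16 16 6 6) (.leaf 197 16 16 6 6)) (.leaf 199 16 16 6 6))
theorem h011 : t_h011.ok 0 1 0 0 (GE 0 1 (D 0) (2401, 2499) (117649, 124999) (tau1 (2401, 2499)) p01 k01 k11) unitBx = true :=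
  (Tree.ok_s0 (Tree.ok_s3 lv.2.2.2.2.2.2.2.2.2.2.2.2.2.1.1 lv.2.2.2.2.2.2.2.2.2.2.2.2.2.1.2.1) lv.2.2.2.2.2.2.2.2.2.2.2.2.2.1.2.2)

def t_h020 : Tree := (.s3 (.s1 (.leaf 197 16 16 6 6) (.leaf 203 16 16 6 6)) (.s1 (.leaf 197 16 16 6 6) (.leaf 205 16 16 6 6)))
theorem h020 : t_h020.ok 0 1 0 0 (GE 0 2 (D 0) (2401, 2499) (117649, 124999) (.q 9409 9999) p02 k02 k12) unitBx = true :=
  (Tree.ok_s3 (Tree.ok_s1 lv.2.2.2.2.2.2.2.2.2.2.2.2.2.2.1.1 lv.2.2.2.2.2.2.2.2.2.2.2.2.2.2.1.2.1) (Tree.ok_s1 lv.2.2.2.2.2.2.2.2.2.2.2.2.2.2.1.2.2.1 lv.2.2.2.2.2.2.2.2.2.2.2.2.2.2.1.2.2.2))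

def t_h021 : Tree := (.s3 (.s1 (.leaf 197 16 16 6 6) (.leaf 203 16 16 6 6)) (.s1 (.leaf 197 16 16 6 6) (.leaf 205 16 16 6 6)))
theorem h021 : t_h021.ok 0 1 0 0 (GE 0 2 (D 0) (2401, 2499) (117649, 124999) (tau1 (2401, 2499)) p02 k02 k12) unitBx = true :=
  (Tree.ok_s3 (Tree.ok_s1 lv.2.2.2.2.2.2.2.2.2.2.2.2.2.2.2.1.1 lv.2.2.2.2.2.2.2.2.2.2.2.2.2.2.2.1.2.1) (Tree.ok_s1 lv.2.2.2.2.2.2.2.2.2.2.2.2.2.2.2.1.2.2.1 lv.2.2.2.2.2.2.2.2.2.2.2.2.2.2.2.1.2.2.2))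

def t_h030 : Tree := (.s0 (.s3 (.leaf 197 16 16 6 6) (.leaf 197 16 16 6 6)) (.leaf 200 16 16 6 6))
theorem h030 : t_h030.ok 0 1 0 0 (GE 0 3 (D 0) (2401, 2499) (117649, 124999) (.q 9409 9999) p03 k03 k13) unitBx = true :=
  (Tree.ok_s0 (Tree.ok_s3 lv.2.2.2.2.2.2.2.2.2.2.2.2.2.2.2.2.1.1 lv.2.2.2.2.2.2.2.2.2.2.2.2.2.2.2.2.1.2.1) lv.2.2.2.2.2.2.2.2.2.2.2.2.2.2.2.2.1.2.2)

def t_h031 : Tree := (.s0 (.s3 (.leaf 197 16 16 6 6) (.leaf 197 16 16 6 6)) (.leaf 200 16 16 6 6))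
theorem h031 : t_h031.ok 0 1 0 0 (GE 0 3 (D 0) (2401, 2499) (117649, 124999) (tau1 (2401, 2499)) p03 k03 k13) unitBx = true :=
  (Tree.ok_s0 (Tree.ok_s3 lv.2.2.2.2.2.2.2.2.2.2.2.2.2.2.2.2.2.1.1 lv.2.2.2.2.2.2.2.2.2.2.2.2.2.2.2.2.2.1.2.1) lv.2.2.2.2.2.2.2.2.2.2.2.2.2.2.2.2.2.1.2.2)

def t_s1 : Tree := (.s1 (.leaf 118 9 13 5 1) (.s2 (.leaf 125 9 13 5 1) (.leaf 126 9 13 5 1)))
theorem s1 : t_s1.ok 0 1 0 0 (SEG D13 (0, 0) (sP (97, 97) (1, 97)) p10 p11 p12 p13) unitBx = true :=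
  (Tree.ok_s1 lv.2.2.2.2.2.2.2.2.2.2.2.2.2.2.2.2.2.2.1.1 (Tree.ok_s2 lv.2.2.2.2.2.2.2.2.2.2.2.2.2.2.2.2.2.2.1.2.1 lv.2.2.2.2.2.2.2.2.2.2.2.2.2.2.2.2.2.2.1.2.2))

def t_r1 : Tree := (.leaf 52 13 1 5 1)
theorem r1 : t_r1.ok 0 1 0 0 (RE D13 (0, 0)) unitBx = true :=
  lv.2.2.2.2.2.2.2.2.2.2.2.2.2.2.2.2.2.2.2.1

def t_u10 : Tree := (.s0 (.s0 (.leaf 168 14 13 5 1) (.leaf 170 14 13 5 1)) (.leaf 162 14 13 5 1))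
theorem u10 : t_u10.ok 0 1 0 0 (UE0 (49, 49) D10) unitBx = true :=
  (Tree.ok_s0 (Tree.ok_s0 lv.2.2.2.2.2.2.2.2.2.2.2.2.2.2.2.2.2.2.2.2.1.1 lv.2.2.2.2.2.2.2.2.2.2.2.2.2.2.2.2.2.2.2.2.1.2.1) lv.2.2.2.2.2.2.2.2.2.2.2.2.2.2.2.2.2.2.2.2.1.2.2)

def t_v10 : Tree := (.s1 (.s0 (.s0 (.leaf 167 14 13 5 1) (.leaf 172 14 13 5 1)) (.leaf 166 14 13 5 1)) (.s0 (.s0 (.leaf 170 14 13 5 1) (.leaf 176 14 13 5 1)) (.leaf 171 14 13 5 1)))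
theorem v10 : t_v10.ok 0 1 0 0 (UE1 (49, 24) D10) unitBx = true :=
  (Tree.ok_s1 (Tree.ok_s0 (Tree.ok_s0 lv.2.2.2.2.2.2.2.2.2.2.2.2.2.2.2.2.2.2.2.2.2.1.1 lv.2.2.2.2.2.2.2.2.2.2.2.2.2.2.2.2.2.2.2.2.2.1.2.1) lv.2.2.2.2.2.2.2.2.2.2.2.2.2.2.2.2.2.2.2.2.2.1.2.2.1) (Tree.ok_s0 (Tree.ok_s0 lv.2.2.2.2.2.2.2.2.2.2.2.2.2.2.2.2.2.2.2.2.2.1.2.2.2.1 lv.2.2.2.2.2.2.2.2.2.2.2.2.2.2.2.2.2.2.2.2.2.1.2.2.2.2.1) lv.2.2.2.2.2.2.2.2.2.2.2.2.2.2.2.2.2.2.2.2.2.1.2.2.2.2.2))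

def t_u11 : Tree := (.s0 (.s0 (.s0 (.leaf 180 14 13 5 1) (.leaf 181 14 13 5 1)) (.leaf 170 14 13 5 1)) (.leaf 162 14 13 5 1))
theorem u11 : t_u11.ok 0 1 0 0 (UE0 (49, 49) D11) unitBx = true :=
  (Tree.ok_s0 (Tree.ok_s0 (Tree.ok_s0 lv.2.2.2.2.2.2.2.2.2.2.2.2.2.2.2.2.2.2.2.2.2.2.1.1 lv.2.2.2.2.2.2.2.2.2.2.2.2.2.2.2.2.2.2.2.2.2.2.1.2.1) lv.2.2.2.2.2.2.2.2.2.2.2.2.2.2.2.2.2.2.2.2.2.2.1.2.2.1) lv.2.2.2.2.2.2.2.2.2.2.2.2.2.2.2.2.2.2.2.2.2.2.1.2.2.2)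

def t_v11 : Tree := (.s1 (.s0 (.s0 (.leaf 167 14 13 5 1) (.leaf 172 14 13 5 1)) (.leaf 166 14 13 5 1)) (.s0 (.s0 (.leaf 170 14 13 5 1) (.leaf 176 14 13 5 1)) (.leaf 171 14 13 5 1)))
theorem v11 : t_v11.ok 0 1 0 0 (UE1 (49, 24) D11) unitBx = true :=
  (Tree.ok_s1 (Tree.ok_s0 (Tree.ok_s0 lv.2.2.2.2.2.2.2.2.2.2.2.2.2.2.2.2.2.2.2.2.2.2.2.1.1 lv.2.2.2.2.2.2.2.2.2.2.2.2.2.2.2.2.2.2.2.2.2.2.2.1.2.1) lv.2.2.2.2.2.2.2.2.2.2.2.2.2.2.2.2.2.2.2.2.2.2.2.1.2.2.1) (Tree.ok_s0 (Tree.ok_s0 lv.2.2.2.2.2.2.2.2.2.2.2.2.2.2.2.2.2.2.2.2.2.2.2.1.2.2.2.1 lv.2.2.2.2.2.2.2.2.2.2.2.2.2.2.2.2.2.2.2.2.2.2.2.1.2.2.2.2.1) lv.2.2.2.2.2.2.2.2.2.2.2.2.2.2.2.2.2.2.2.2.2.2.2.1.2.2.2.2.2))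

def t_u12 : Tree := (.s0 (.s0 (.leaf 168 14 13 5 1) (.leaf 171 14 13 5 1)) (.leaf 162 14 13 5 1))
theorem u12 : t_u12.ok 0 1 0 0 (UE0 (49, 49) D12) unitBx = true :=
  (Tree.ok_s0 (Tree.ok_s0 lv.2.2.2.2.2.2.2.2.2.2.2.2.2.2.2.2.2.2.2.2.2.2.2.2.1.1 lv.2.2.2.2.2.2.2.2.2.2.2.2.2.2.2.2.2.2.2.2.2.2.2.2.1.2.1) lv.2.2.2.2.2.2.2.2.2.2.2.2.2.2.2.2.2.2.2.2.2.2.2.2.1.2.2)

def t_v12 : Tree := (.s1 (.s0 (.s0 (.leaf 167 14 13 5 1) (.leaf 172 14 13 5 1)) (.leaf 166 14 13 5 1)) (.s0 (.s0 (.leaf 170 14 13 5 1) (.leaf 177 14 13 5 1)) (.leaf 171 14 13 5 1)))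
theorem v12 : t_v12.ok 0 1 0 0 (UE1 (49, 24) D12) unitBx = true :=
  (Tree.ok_s1 (Tree.ok_s0 (Tree.ok_s0 lv.2.2.2.2.2.2.2.2.2.2.2.2.2.2.2.2.2.2.2.2.2.2.2.2.2.1.1 lv.2.2.2.2.2.2.2.2.2.2.2.2.2.2.2.2.2.2.2.2.2.2.2.2.2.1.2.1) lv.2.2.2.2.2.2.2.2.2.2.2.2.2.2.2.2.2.2.2.2.2.2.2.2.2.1.2.2.1) (Tree.ok_s0 (Tree.ok_s0 lv.2.2.2.2.2.2.2.2.2.2.2.2.2.2.2.2.2.2.2.2.2.2.2.2.2.1.2.2.2.1 lv.2.2.2.2.2.2.2.2.2.2.2.2.2.2.2.2.2.2.2.2.2.2.2.2.2.1.2.2.2.2.1) lv.2.2.2.2.2.2.2.2.2.2.2.2.2.2.2.2.2.2.2.2.2.2.2.2.2.1.2.2.2.2.2))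

def t_u13 : Tree := (.s0 (.s0 (.leaf 168 14 13 5 1) (.leaf 171 14 13 5 1)) (.leaf 162 14 13 5 1))
theorem u13 : t_u13.ok 0 1 0 0 (UE0 (49, 49) D13) unitBx = true :=
  (Tree.ok_s0 (Tree.ok_s0 lv.2.2.2.2.2.2.2.2.2.2.2.2.2.2.2.2.2.2.2.2.2.2.2.2.2.2.1.1 lv.2.2.2.2.2.2.2.2.2.2.2.2.2.2.2.2.2.2.2.2.2.2.2.2.2.2.1.2.1) lv.2.2.2.2.2.2.2.2.2.2.2.2.2.2.2.2.2.2.2.2.2.2.2.2.2.2.1.2.2)

def t_v13 : Tree := (.s1 (.s0 (.s0 (.leaf 167 14 13 5 1) (.leaf 172 14 13 5 1)) (.leaf 166 14 13 5 1)) (.s0 (.s0 (.leaf 170 14 13 5 1) (.leaf 177 14 13 5 1)) (.leaf 171 14 13 5 1)))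
theorem v13 : t_v13.ok 0 1 0 0 (UE1 (49, 24) D13) unitBx = true :=
  (Tree.ok_s1 (Tree.ok_s0 (Tree.ok_s0 lv.2.2.2.2.2.2.2.2.2.2.2.2.2.2.2.2.2.2.2.2.2.2.2.2.2.2.2.1.1 lv.2.2.2.2.2.2.2.2.2.2.2.2.2.2.2.2.2.2.2.2.2.2.2.2.2.2.2.1.2.1) lv.2.2.2.2.2.2.2.2.2.2.2.2.2.2.2.2.2.2.2.2.2.2.2.2.2.2.2.1.2.2.1) (Tree.ok_s0 (Tree.ok_s0 lv.2.2.2.2.2.2.2.2.2.2.2.2.2.2.2.2.2.2.2.2.2.2.2.2.2.2.2.1.2.2.2.1 lv.2.2.2.2.2.2.2.2.2.2.2.2.2.2.2.2.2.2.2.2.2.2.2.2.2.2.2.1.2.2.2.2.1) lv.2.2.2.2.2.2.2.2.2.2.2.2.2.2.2.2.2.2.2.2.2.2.2.2.2.2.2.1.2.2.2.2.2))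

def t_h100 : Tree := (.s1 (.s2 (.leaf 181 14 14 6 6) (.leaf 182 14 14 6 6)) (.leaf 182 14 14 6 6))
theorem h100 : t_h100.ok 0 1 0 0 (GE 1 0 (D 1) (2401, 2499) (117649, 124999) (.q 9409 9999) p10 k00 k10) unitBx = true :=
  (Tree.ok_s1 (Tree.ok_s2 lv.2.2.2.2.2.2.2.2.2.2.2.2.2.2.2.2.2.2.2.2.2.2.2.2.2.2.2.2.1.1 lv.2.2.2.2.2.2.2.2.2.2.2.2.2.2.2.2.2.2.2.2.2.2.2.2.2.2.2.2.1.2.1) lv.2.2.2.2.2.2.2.2.2.2.2.2.2.2.2.2.2.2.2.2.2.2.2.2.2.2.2.2.1.2.2)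

def t_h101 : Tree := (.s1 (.s2 (.leaf 181 14 14 6 6) (.leaf 182 14 14 6 6)) (.leaf 182 14 14 6 6))
theorem h101 : t_h101.ok 0 1 0 0 (GE 1 0 (D 1) (2401, 2499) (117649, 124999) (tau1 (2401, 2499)) p10 k00 k10) unitBx = true :=
  (Tree.ok_s1 (Tree.ok_s2 lv.2.2.2.2.2.2.2.2.2.2.2.2.2.2.2.2.2.2.2.2.2.2.2.2.2.2.2.2.2.1.1 lv.2.2.2.2.2.2.2.2.2.2.2.2.2.2.2.2.2.2.2.2.2.2.2.2.2.2.2.2.2.1.2.1) lv.2.2.2.2.2.2.2.2.2.2.2.2.2.2.2.2.2.2.2.2.2.2.2.2.2.2.2.2.2.1.2.2)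

def t_h110 : Tree := (.s1 (.s2 (.leaf 181 14 14 6 6) (.leaf 181 14 14 6 6)) (.s3 (.leaf 186 14 14 6 6) (.leaf 188 14 14 6 6)))
theorem h110 : t_h110.ok 0 1 0 0 (GE 1 1 (D 1) (2401, 2499) (117649, 124999) (.q 9409 9999) p11 k01 k11) unitBx = true :=
  (Tree.ok_s1 (Tree.ok_s2 lv.2.2.2.2.2.2.2.2.2.2.2.2.2.2.2.2.2.2.2.2.2.2.2.2.2.2.2.2.2.2.1.1 lv.2.2.2.2.2.2.2.2.2.2.2.2.2.2.2.2.2.2.2.2.2.2.2.2.2.2.2.2.2.2.1.2.1) (Tree.ok_s3 lv.2.2.2.2.2.2.2.2.2.2.2.2.2.2.2.2.2.2.2.2.2.2.2.2.2.2.2.2.2.2.1.2.2.1 lv.2.2.2.2.2.2.2.2.2.2.2.2.2.2.2.2.2.2.2.2.2.2.2.2.2.2.2.2.2.2.1.2.2.2))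

def t_h111 : Tree := (.s1 (.s2 (.leaf 181 14 14 6 6) (.leaf 181 14 14 6 6)) (.s3 (.leaf 186 14 14 6 6) (.leaf 188 14 14 6 6)))
theorem h111 : t_h111.ok 0 1 0 0 (GE 1 1 (D 1) (2401, 2499) (117649, 124999) (tau1 (2401, 2499)) p11 k01 k11) unitBx = true :=
  (Tree.ok_s1 (Tree.ok_s2 lv.2.2.2.2.2.2.2.2.2.2.2.2.2.2.2.2.2.2.2.2.2.2.2.2.2.2.2.2.2.2.2.1.1 lv.2.2.2.2.2.2.2.2.2.2.2.2.2.2.2.2.2.2.2.2.2.2.2.2.2.2.2.2.2.2.2.1.2.1) (Tree.ok_s3 lv.2.2.2.2.2.2.2.2.2.2.2.2.2.2.2.2.2.2.2.2.2.2.2.2.2.2.2.2.2.2.2.1.2.2.1 lv.2.2.2.2.2.2.2.2.2.2.2.2.2.2.2.2.2.2.2.2.2.2.2.2.2.2.2.2.2.2.2.1.2.2.2))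

def t_h120 : Tree := (.s2 (.s1 (.leaf 181 14 14 6 6) (.leaf 187 14 14 6 6)) (.s1 (.leaf 181 14 14 6 6) (.leaf 188 14 14 6 6)))
theorem h120 : t_h120.ok 0 1 0 0 (GE 1 2 (D 1) (2401, 2499) (117649, 124999) (.q 9409 9999) p12 k02 k12) unitBx = true :=
  (Tree.ok_s2 (Tree.ok_s1 lv.2.2.2.2.2.2.2.2.2.2.2.2.2.2.2.2.2.2.2.2.2.2.2.2.2.2.2.2.2.2.2.2.1.1 lv.2.2.2.2.2.2.2.2.2.2.2.2.2.2.2.2.2.2.2.2.2.2.2.2.2.2.2.2.2.2.2.2.1.2.1) (Tree.ok_s1 lv.2.2.2.2.2.2.2.2.2.2.2.2.2.2.2.2.2.2.2.2.2.2.2.2.2.2.2.2.2.2.2.2.1.2.2.1 lv.2.2.2.2.2.2.2.2.2.2.2.2.2.2.2.2.2.2.2.2.2.2.2.2.2.2.2.2.2.2.2.2.1.2.2.2))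

def t_h121 : Tree := (.s2 (.s1 (.leaf 181 14 14 6 6) (.leaf 187 14 14 6 6)) (.s1 (.leaf 181 14 14 6 6) (.leaf 188 14 14 6 6)))
theorem h121 : t_h121.ok 0 1 0 0 (GE 1 2 (D 1) (2401, 2499) (117649, 124999) (tau1 (2401, 2499)) p12 k02 k12) unitBx = true :=
  (Tree.ok_s2 (Tree.ok_s1 lv.2.2.2.2.2.2.2.2.2.2.2.2.2.2.2.2.2.2.2.2.2.2.2.2.2.2.2.2.2.2.2.2.2.1.1 lv.2.2.2.2.2.2.2.2.2.2.2.2.2.2.2.2.2.2.2.2.2.2.2.2.2.2.2.2.2.2.2.2.2.1.2.1) (Tree.ok_s1 lv.2.2.2.2.2.2.2.2.2.2.2.2.2.2.2.2.2.2.2.2.2.2.2.2.2.2.2.2.2.2.2.2.2.1.2.2.1 lv.2.2.2.2.2.2.2.2.2.2.2.2.2.2.2.2.2.2.2.2.2.2.2.2.2.2.2.2.2.2.2.2.2.1.2.2.2))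

def t_h130 : Tree := (.s2 (.s0 (.leaf 181 14 14 6 6) (.leaf 187 14 14 6 6)) (.s1 (.leaf 182 14 14 6 6) (.leaf 188 14 14 6 6)))
theorem h130 : t_h130.ok 0 1 0 0 (GE 1 3 (D 1) (2401, 2499) (117649, 124999) (.q 9409 9999) p13 k03 k13) unitBx = true :=
  (Tree.ok_s2 (Tree.ok_s0 lv.2.2.2.2.2.2.2.2.2.2.2.2.2.2.2.2.2.2.2.2.2.2.2.2.2.2.2.2.2.2.2.2.2.2.1.1 lv.2.2.2.2.2.2.2.2.2.2.2.2.2.2.2.2.2.2.2.2.2.2.2.2.2.2.2.2.2.2.2.2.2.2.1.2.1) (Tree.ok_s1 lv.2.2.2.2.2.2.2.2.2.2.2.2.2.2.2.2.2.2.2.2.2.2.2.2.2.2.2.2.2.2.2.2.2.2.1.2.2.1 lv.2.2.2.2.2.2.2.2.2.2.2.2.2.2.2.2.2.2.2.2.2.2.2.2.2.2.2.2.2.2.2.2.2.2.1.2.2.2))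

def t_h131 : Tree := (.s2 (.s0 (.leaf 181 14 14 6 6) (.leaf 187 14 14 6 6)) (.s1 (.leaf 182 14 14 6 6) (.leaf 188 14 14 6 6)))
theorem h131 : t_h131.ok 0 1 0 0 (GE 1 3 (D 1) (2401, 2499) (117649, 124999) (tau1 (2401, 2499)) p13 k03 k13) unitBx = true :=
  (Tree.ok_s2 (Tree.ok_s0 lv.2.2.2.2.2.2.2.2.2.2.2.2.2.2.2.2.2.2.2.2.2.2.2.2.2.2.2.2.2.2.2.2.2.2.2.1.1 lv.2.2.2.2.2.2.2.2.2.2.2.2.2.2.2.2.2.2.2.2.2.2.2.2.2.2.2.2.2.2.2.2.2.2.2.1.2.1) (Tree.ok_s1 lv.2.2.2.2.2.2.2.2.2.2.2.2.2.2.2.2.2.2.2.2.2.2.2.2.2.2.2.2.2.2.2.2.2.2.2.1.2.2.1 lv.2.2.2.2.2.2.2.2.2.2.2.2.2.2.2.2.2.2.2.2.2.2.2.2.2.2.2.2.2.2.2.2.2.2.2.1.2.2.2))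

def t_s2 : Tree := (.s1 (.s1 (.leaf 122 9 10 5 1) (.leaf 123 9 10 5 1)) (.leaf 118 9 10 5 1))
theorem s2 : t_s2.ok 0 1 0 0 (SEG D23 (-409404, 16383) (sP (97, 97) (1, 97)) p20 p21 p22 p23) unitBx = true :=
  (Tree.ok_s1 (Tree.ok_s1 lv.2.2.2.2.2.2.2.2.2.2.2.2.2.2.2.2.2.2.2.2.2.2.2.2.2.2.2.2.2.2.2.2.2.2.2.2.1.1 lv.2.2.2.2.2.2.2.2.2.2.2.2.2.2.2.2.2.2.2.2.2.2.2.2.2.2.2.2.2.2.2.2.2.2.2.2.1.2.1) lv.2.2.2.2.2.2.2.2.2.2.2.2.2.2.2.2.2.2.2.2.2.2.2.2.2.2.2.2.2.2.2.2.2.2.2.2.1.2.2)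

def t_r2 : Tree := (.leaf 45 10 1 4 1)
theorem r2 : t_r2.ok 0 1 0 0 (RE D23 (-409404, 16383)) unitBx = true :=
  lv.2.2.2.2.2.2.2.2.2.2.2.2.2.2.2.2.2.2.2.2.2.2.2.2.2.2.2.2.2.2.2.2.2.2.2.2.2.1

def t_u20 : Tree := (.leaf 140 14 10 4 1)
theorem u20 : t_u20.ok 0 1 0 0 (UE0 (49, 49) D20) unitBx = true :=
  lv.2.2.2.2.2.2.2.2.2.2.2.2.2.2.2.2.2.2.2.2.2.2.2.2.2.2.2.2.2.2.2.2.2.2.2.2.2.2.1

def t_v20 : Tree := (.s1 (.leaf 139 14 10 4 1) (.leaf 144 14 10 4 1))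
theorem v20 : t_v20.ok 0 1 0 0 (UE1 (49, 24) D20) unitBx = true :=
  (Tree.ok_s1 lv.2.2.2.2.2.2.2.2.2.2.2.2.2.2.2.2.2.2.2.2.2.2.2.2.2.2.2.2.2.2.2.2.2.2.2.2.2.2.2.1.1 lv.2.2.2.2.2.2.2.2.2.2.2.2.2.2.2.2.2.2.2.2.2.2.2.2.2.2.2.2.2.2.2.2.2.2.2.2.2.2.2.1.2)

def t_u21 : Tree := (.leaf 140 14 10 4 1)
theorem u21 : t_u21.ok 0 1 0 0 (UE0 (49, 49) D21) unitBx = true :=
  lv.2.2.2.2.2.2.2.2.2.2.2.2.2.2.2.2.2.2.2.2.2.2.2.2.2.2.2.2.2.2.2.2.2.2.2.2.2.2.2.2.1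

def t_v21 : Tree := (.s1 (.leaf 139 14 10 4 1) (.leaf 144 14 10 4 1))
theorem v21 : t_v21.ok 0 1 0 0 (UE1 (49, 24) D21) unitBx = true :=
  (Tree.ok_s1 lv.2.2.2.2.2.2.2.2.2.2.2.2.2.2.2.2.2.2.2.2.2.2.2.2.2.2.2.2.2.2.2.2.2.2.2.2.2.2.2.2.2.1.1 lv.2.2.2.2.2.2.2.2.2.2.2.2.2.2.2.2.2.2.2.2.2.2.2.2.2.2.2.2.2.2.2.2.2.2.2.2.2.2.2.2.2.1.2)

def t_u22 : Tree := (.leaf 139 14 10 4 1)
theorem u22 : t_u22.ok 0 1 0 0 (UE0 (49, 49) D22) unitBx = true :=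
  lv.2.2.2.2.2.2.2.2.2.2.2.2.2.2.2.2.2.2.2.2.2.2.2.2.2.2.2.2.2.2.2.2.2.2.2.2.2.2.2.2.2.2.1

def t_v22 : Tree := (.s1 (.leaf 139 14 10 4 1) (.leaf 144 14 10 4 1))
theorem v22 : t_v22.ok 0 1 0 0 (UE1 (49, 24) D22) unitBx = true :=
  (Tree.ok_s1 lv.2.2.2.2.2.2.2.2.2.2.2.2.2.2.2.2.2.2.2.2.2.2.2.2.2.2.2.2.2.2.2.2.2.2.2.2.2.2.2.2.2.2.2.1.1 lv.2.2.2.2.2.2.2.2.2.2.2.2.2.2.2.2.2.2.2.2.2.2.2.2.2.2.2.2.2.2.2.2.2.2.2.2.2.2.2.2.2.2.2.1.2)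

def t_u23 : Tree := (.s0 (.s1 (.leaf 156 14 10 4 1) (.leaf 160 14 10 4 1)) (.leaf 155 14 10 4 1))
theorem u23 : t_u23.ok 0 1 0 0 (UE0 (49, 49) D23) unitBx = true :=
  (Tree.ok_s0 (Tree.ok_s1 lv.2.2.2.2.2.2.2.2.2.2.2.2.2.2.2.2.2.2.2.2.2.2.2.2.2.2.2.2.2.2.2.2.2.2.2.2.2.2.2.2.2.2.2.2.1.1 lv.2.2.2.2.2.2.2.2.2.2.2.2.2.2.2.2.2.2.2.2.2.2.2.2.2.2.2.2.2.2.2.2.2.2.2.2.2.2.2.2.2.2.2.2.1.2.1) lv.2.2.2.2.2.2.2.2.2.2.2.2.2.2.2.2.2.2.2.2.2.2.2.2.2.2.2.2.2.2.2.2.2.2.2.2.2.2.2.2.2.2.2.2.1.2.2)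

def t_v23 : Tree := (.s1 (.leaf 138 14 10 4 1) (.leaf 144 14 10 4 1))
theorem v23 : t_v23.ok 0 1 0 0 (UE1 (49, 24) D23) unitBx = true :=
  (Tree.ok_s1 lv.2.2.2.2.2.2.2.2.2.2.2.2.2.2.2.2.2.2.2.2.2.2.2.2.2.2.2.2.2.2.2.2.2.2.2.2.2.2.2.2.2.2.2.2.2.1.1 lv.2.2.2.2.2.2.2.2.2.2.2.2.2.2.2.2.2.2.2.2.2.2.2.2.2.2.2.2.2.2.2.2.2.2.2.2.2.2.2.2.2.2.2.2.2.1.2)

def t_h200 : Tree := (.s0 (.s0 (.leaf 188 14 14 6 6) (.leaf 190 14 14 6 6)) (.leaf 183 14 14 6 6))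
theorem h200 : t_h200.ok 0 1 0 0 (GE 2 0 (D 2) (2401, 2499) (117649, 124999) (.q 9409 9999) p20 k00 k10) unitBx = true :=
  (Tree.ok_s0 (Tree.ok_s0 lv.2.2.2.2.2.2.2.2.2.2.2.2.2.2.2.2.2.2.2.2.2.2.2.2.2.2.2.2.2.2.2.2.2.2.2.2.2.2.2.2.2.2.2.2.2.2.1.1 lv.2.2.2.2.2.2.2.2.2.2.2.2.2.2.2.2.2.2.2.2.2.2.2.2.2.2.2.2.2.2.2.2.2.2.2.2.2.2.2.2.2.2.2.2.2.2.1.2.1) lv.2.2.2.2.2.2.2.2.2.2.2.2.2.2.2.2.2.2.2.2.2.2.2.2.2.2.2.2.2.2.2.2.2.2.2.2.2.2.2.2.2.2.2.2.2.2.1.2.2)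

def t_h201 : Tree := (.s0 (.s0 (.leaf 188 14 14 6 6) (.leaf 190 14 14 6 6)) (.leaf 183 14 14 6 6))
theorem h201 : t_h201.ok 0 1 0 0 (GE 2 0 (D 2) (2401, 2499) (117649, 124999) (tau1 (2401, 2499)) p20 k00 k10) unitBx = true :=
  (Tree.ok_s0 (Tree.ok_s0 lv.2.2.2.2.2.2.2.2.2.2.2.2.2.2.2.2.2.2.2.2.2.2.2.2.2.2.2.2.2.2.2.2.2.2.2.2.2.2.2.2.2.2.2.2.2.2.2.1.1 lv.2.2.2.2.2.2.2.2.2.2.2.2.2.2.2.2.2.2.2.2.2.2.2.2.2.2.2.2.2.2.2.2.2.2.2.2.2.2.2.2.2.2.2.2.2.2.2.1.2.1) lv.2.2.2.2.2.2.2.2.2.2.2.2.2.2.2.2.2.2.2.2.2.2.2.2.2.2.2.2.2.2.2.2.2.2.2.2.2.2.2.2.2.2.2.2.2.2.2.1.2.2)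

def t_h210 : Tree := (.s1 (.leaf 176 14 14 6 6) (.leaf 182 14 14 6 6))
theorem h210 : t_h210.ok 0 1 0 0 (GE 2 1 (D 2) (2401, 2499) (117649, 124999) (.q 9409 9999) p21 k01 k11) unitBx = true :=
  (Tree.ok_s1 lv.2.2.2.2.2.2.2.2.2.2.2.2.2.2.2.2.2.2.2.2.2.2.2.2.2.2.2.2.2.2.2.2.2.2.2.2.2.2.2.2.2.2.2.2.2.2.2.2.1.1 lv.2.2.2.2.2.2.2.2.2.2.2.2.2.2.2.2.2.2.2.2.2.2.2.2.2.2.2.2.2.2.2.2.2.2.2.2.2.2.2.2.2.2.2.2.2.2.2.2.1.2)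

def t_h211 : Tree := (.s1 (.leaf 176 14 14 6 6) (.leaf 182 14 14 6 6))
theorem h211 : t_h211.ok 0 1 0 0 (GE 2 1 (D 2) (2401, 2499) (117649, 124999) (tau1 (2401, 2499)) p21 k01 k11) unitBx = true :=
  (Tree.ok_s1 lv.2.2.2.2.2.2.2.2.2.2.2.2.2.2.2.2.2.2.2.2.2.2.2.2.2.2.2.2.2.2.2.2.2.2.2.2.2.2.2.2.2.2.2.2.2.2.2.2.2.1.1 lv.2.2.2.2.2.2.2.2.2.2.2.2.2.2.2.2.2.2.2.2.2.2.2.2.2.2.2.2.2.2.2.2.2.2.2.2.2.2.2.2.2.2.2.2.2.2.2.2.2.1.2)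

def t_h220 : Tree := (.s2 (.s0 (.leaf 180 14 14 6 6) (.leaf 187 14 14 6 6)) (.s0 (.leaf 181 14 14 6 6) (.leaf 188 14 14 6 6)))
theorem h220 : t_h220.ok 0 1 0 0 (GE 2 2 (D 2) (2401, 2499) (117649, 124999) (.q 9409 9999) p22 k02 k12) unitBx = true :=
  (Tree.ok_s2 (Tree.ok_s0 lv.2.2.2.2.2.2.2.2.2.2.2.2.2.2.2.2.2.2.2.2.2.2.2.2.2.2.2.2.2.2.2.2.2.2.2.2.2.2.2.2.2.2.2.2.2.2.2.2.2.2.1.1 lv.2.2.2.2.2.2.2.2.2.2.2.2.2.2.2.2.2.2.2.2.2.2.2.2.2.2.2.2.2.2.2.2.2.2.2.2.2.2.2.2.2.2.2.2.2.2.2.2.2.2.1.2.1) (Tree.ok_s0 lv.2.2.2.2.2.2.2.2.2.2.2.2.2.2.2.2.2.2.2.2.2.2.2.2.2.2.2.2.2.2.2.2.2.2.2.2.2.2.2.2.2.2.2.2.2.2.2.2.2.2.1.2.2.1 lv.2.2.2.2.2.2.2.2.2.2.2.2.2.2.2.2.2.2.2.2.2.2.2.2.2.2.2.2.2.2.2.2.2.2.2.2.2.2.2.2.2.2.2.2.2.2.2.2.2.2.1.2.2.2))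

def t_h221 : Tree := (.s2 (.s0 (.leaf 180 14 14 6 6) (.leaf 187 14 14 6 6)) (.s0 (.leaf 181 14 14 6 6) (.leaf 188 14 14 6 6)))
theorem h221 : t_h221.ok 0 1 0 0 (GE 2 2 (D 2) (2401, 2499) (117649, 124999) (tau1 (2401, 2499)) p22 k02 k12) unitBx = true :=
  (Tree.ok_s2 (Tree.ok_s0 lv.2.2.2.2.2.2.2.2.2.2.2.2.2.2.2.2.2.2.2.2.2.2.2.2.2.2.2.2.2.2.2.2.2.2.2.2.2.2.2.2.2.2.2.2.2.2.2.2.2.2.2.1.1 lv.2.2.2.2.2.2.2.2.2.2.2.2.2.2.2.2.2.2.2.2.2.2.2.2.2.2.2.2.2.2.2.2.2.2.2.2.2.2.2.2.2.2.2.2.2.2.2.2.2.2.2.1.2.1) (Tree.ok_s0 lv.2.2.2.2.2.2.2.2.2.2.2.2.2.2.2.2.2.2.2.2.2.2.2.2.2.2.2.2.2.2.2.2.2.2.2.2.2.2.2.2.2.2.2.2.2.2.2.2.2.2.2.1.2.2.1 lv.2.2.2.2.2.2.2.2.2.2.2.2.2.2.2.2.2.2.2.2.2.2.2.2.2.2.2.2.2.2.2.2.2.2.2.2.2.2.2.2.2.2.2.2.2.2.2.2.2.2.2.1.2.2.2))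

def t_h230 : Tree := (.s0 (.leaf 176 14 14 6 6) (.leaf 183 14 14 6 6))
theorem h230 : t_h230.ok 0 1 0 0 (GE 2 3 (D 2) (2401, 2499) (117649, 124999) (.q 9409 9999) p23 k03 k13) unitBx = true :=
  (Tree.ok_s0 lv.2.2.2.2.2.2.2.2.2.2.2.2.2.2.2.2.2.2.2.2.2.2.2.2.2.2.2.2.2.2.2.2.2.2.2.2.2.2.2.2.2.2.2.2.2.2.2.2.2.2.2.2.1.1 lv.2.2.2.2.2.2.2.2.2.2.2.2.2.2.2.2.2.2.2.2.2.2.2.2.2.2.2.2.2.2.2.2.2.2.2.2.2.2.2.2.2.2.2.2.2.2.2.2.2.2.2.2.1.2)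

def t_h231 : Tree := (.s0 (.leaf 176 14 14 6 6) (.leaf 183 14 14 6 6))
theorem h231 : t_h231.ok 0 1 0 0 (GE 2 3 (D 2) (2401, 2499) (117649, 124999) (tau1 (2401, 2499)) p23 k03 k13) unitBx = true :=
  (Tree.ok_s0 lv.2.2.2.2.2.2.2.2.2.2.2.2.2.2.2.2.2.2.2.2.2.2.2.2.2.2.2.2.2.2.2.2.2.2.2.2.2.2.2.2.2.2.2.2.2.2.2.2.2.2.2.2.2.1 lv.2.2.2.2.2.2.2.2.2.2.2.2.2.2.2.2.2.2.2.2.2.2.2.2.2.2.2.2.2.2.2.2.2.2.2.2.2.2.2.2.2.2.2.2.2.2.2.2.2.2.2.2.2.2)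

/-! The certified family. -/

theorem cert : PoisCert (98 / 100) D psi hh (2401, 2499) (117649, 124999) (49, 49) (49, 24) (16, 16383) (97, 97) (1, 97)
    (.q 9409 9999) w2 where
  hl0 := by norm_num
  hl1 := by norm_num
  hne := by norm_num
  e2 := by norm_num [cv]
  e3 := by norm_num [cv]
  hδ := by norm_num [cv]
  hta := by norm_num [cv]
  htb := by norm_num [cv]
  htb0 := by norm_num [cv]
  r1 := by norm_num [cv]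
  r2 := by norm_num [cv]
  r3 := by norm_num [cv]
  r4 := by norm_num [cv]
  hc := by norm_num [cv]
  hc' := by norm_num [cv]
  htau := by
    intro s ρ a b e h0 h1 h2 h3 h4
    simp only [PE.real_q, cv] at h0 ⊢
    push_cast at h0 ⊢
    nlinarith [mul_self_le_mul_self (by norm_num) h0]
  hU0 := by
    intro j k hj hk
    interval_cases j <;> interval_cases k
    exacts [box_zero _ _ u00, box_zero _ _ u01, box_zero _ _ u02, box_zero _ _ u03, box_zero _ _ u10, box_zero _ _ u11, box_zero _ _ u12, box_zero _ _ u13, box_zero _ _ u20, box_zero _ _ u21, box_zero _ _ u22, box_zero _ _ u23]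
  hU1 := by
    intro j k hj hk
    interval_cases j <;> interval_cases k
    exacts [box_zero _ _ v00, box_zero _ _ v01, box_zero _ _ v02, box_zero _ _ v03, box_zero _ _ v10, box_zero _ _ v11, box_zero _ _ v12, box_zero _ _ v13, box_zero _ _ v20, box_zero _ _ v21, box_zero _ _ v22, box_zero _ _ v23]
  hH0 := by
    intro j k hj hk
    interval_cases j <;> interval_cases k
    exacts [box_zero _ _ h000, box_zero _ _ h010, box_zero _ _ h020, box_zero _ _ h030, box_zero _ _ h100, box_zero _ _ h110, box_zero _ _ h120, box_zero _ _ h130, box_zero _ _ h200, box_zero _ _ h210, box_zero _ _ h220, box_zero _ _ h230]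
  hH1 := by
    intro j k hj hk
    interval_cases j <;> interval_cases k
    exacts [box_zero _ _ h001, box_zero _ _ h011, box_zero _ _ h021, box_zero _ _ h031, box_zero _ _ h101, box_zero _ _ h111, box_zero _ _ h121, box_zero _ _ h131, box_zero _ _ h201, box_zero _ _ h211, box_zero _ _ h221, box_zero _ _ h231]
  hS := by
    intro j hj
    interval_cases j
    exacts [box_zero _ _ s0, box_zero _ _ s1, box_zero _ _ s2]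
  hR := by
    intro j hj
    interval_cases j
    exacts [box_zero _ _ r0, box_zero _ _ r1, box_zero _ _ r2]
  hw2 := by
    intro j hj
    interval_cases j <;> norm_num [gR, wR, hr, cv, D, D00, D10, D20, w2]
  hψ0 := by
    intro j k hj hk
    interval_cases j <;> interval_cases k <;> simp [h2R, hr, psi, cv, p00, p01, p02, p03, p10, p11, p12, p13, p20, p21, p22, p23]

end Vale.Agent.P154.Q98
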