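import Vale.Agent.P154.Pois

/-! Data of a family of potentials for the Poisson tree. -/

namespace Vale.Agent.P154.QN

def D00 : NP where
  A := [(3883, 4095), (-7529, 4095), (4391, 4095), (-1860, 4095), (1248, 4095), (-133, 4095)]
  B := [(22726, 4095), (9046, 4095), (-915, 4095), (3451, 4095)]
  E := [(13664, 4095)]
  a0 := [(40273, 4095), (1517, 4095), (3476, 4095), (1591, 4095), (1248, 4095), (-133, 4095)]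
  a1 := [(40273, 4095), (-3034, 4095), (-17380, 4095), (-12728, 4095), (-13728, 4095), (1862, 4095)]
  a2 := [(1416, 4095), (-156249, 4095), (59489, 4095), (18659, 4095)]
  a3 := [(6431, 4095), (13951, 4095), (-85733, 4095), (-149766, 4095)]
  a4 := [(7310, 4095), (74927, 4095), (-61373, 4095), (-84213, 4095)]
  b0 := [(-50054, 4095), (-9046, 4095), (915, 4095), (-3451, 4095)]
  b1 := [(50054, 4095), (36184, 4095), (-6405, 4095), (34510, 4095)]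
  b2 := [(-26784, 4095), (316485, 4095), (-82310, 4095)]
  b3 := [(-12740, 4095), (-38598, 4095), (409600, 4095)]
  b4 := [(-54140, 4095), (409600, 4095), (-231628, 4095)]
  g0 := [(13664, 4095)]
  g1 := [(-40992, 4095)]
  g2 := [(49169, 4095), (-216829, 4095)]

def D01 : NP where
  A := [(1589, 4095), (-3540, 4095), (3371, 4095), (-2444, 4095), (990, 4095), (34, 4095)]
  B := [(27425, 4095), (7433, 4095), (-3713, 4095), (3163, 4095)]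
  E := [(11242, 4095)]
  a0 := [(40256, 4095), (3893, 4095), (-342, 4095), (719, 4095), (990, 4095), (34, 4095)]
  a1 := [(40256, 4095), (-7786, 4095), (1710, 4095), (-5752, 4095), (-10890, 4095), (-476, 4095)]
  a2 := [(753, 4095), (-121896, 4095), (-44997, 4095), (-20751, 4095)]
  a3 := [(3150, 4095), (21600, 4095), (-237711, 4095), (-152539, 4095)]
  a4 := [(3305, 4095), (85257, 4095), (-409600, 4095), (132912, 4095)]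
  b0 := [(-49909, 4095), (-7433, 4095), (3713, 4095), (-3163, 4095)]
  b1 := [(49909, 4095), (29732, 4095), (-25991, 4095), (31630, 4095)]
  b2 := [(-29485, 4095), (295762, 4095), (80514, 4095)]
  b3 := [(3173, 4095), (2697, 4095), (397614, 4095)]
  b4 := [(-52484, 4095), (409600, 4095), (-199053, 4095)]
  g0 := [(11242, 4095)]
  g1 := [(-33726, 4095)]
  g2 := [(39261, 4095), (-224240, 4095)]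

def D02 : NP where
  A := [(566, 4095), (-1442, 4095), (1647, 4095), (-1233, 4095), (463, 4095), (-1, 4095)]
  B := [(29835, 4095), (5247, 4095), (-1950, 4095), (1176, 4095)]
  E := [(9799, 4095)]
  a0 := [(40200, 4095), (3805, 4095), (-303, 4095), (-57, 4095), (463, 4095), (-1, 4095)]
  a1 := [(40200, 4095), (-7610, 4095), (1515, 4095), (456, 4095), (-5093, 4095), (14, 4095)]
  a2 := [(175, 4095), (-74033, 4095), (-21453, 4095), (884, 4095)]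
  a3 := [(0, 4095), (80691, 4095), (-193035, 4095), (-98053, 4095)]
  a4 := [(0, 4095), (155714, 4095), (-409600, 4095), (17998, 4095)]
  b0 := [(-49433, 4095), (-5247, 4095), (1950, 4095), (-1176, 4095)]
  b1 := [(49433, 4095), (20988, 4095), (-13650, 4095), (11760, 4095)]
  b2 := [(-30199, 4095), (151887, 4095), (20097, 4095)]
  b3 := [(14518, 4095), (-156215, 4095), (373561, 4095)]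
  b4 := [(-54320, 4095), (267822, 4095), (-132689, 4095)]
  g0 := [(9799, 4095)]
  g1 := [(-29397, 4095)]
  g2 := [(33146, 4095), (-97999, 4095)]

def D03 : NP where
  A := [(546, 4095), (-1304, 4095), (1240, 4095), (-834, 4095), (434, 4095), (-82, 4095)]
  B := [(29935, 4095), (4804, 4095), (-874, 4095), (443, 4095)]
  E := [(9655, 4095)]
  a0 := [(40136, 4095), (3500, 4095), (366, 4095), (-391, 4095), (434, 4095), (-82, 4095)]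
  a1 := [(40136, 4095), (-7000, 4095), (-1830, 4095), (3128, 4095), (-4774, 4095), (1148, 4095)]
  a2 := [(175, 4095), (-41699, 4095), (40193, 4095), (18907, 4095)]
  a3 := [(0, 4095), (92650, 4095), (85210, 4095), (-190973, 4095)]
  a4 := [(0, 4095), (127906, 4095), (-409600, 4095), (214892, 4095)]
  b0 := [(-49245, 4095), (-4804, 4095), (874, 4095), (-443, 4095)]
  b1 := [(49245, 4095), (19216, 4095), (-6118, 4095), (4430, 4095)]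
  b2 := [(-28621, 4095), (20979, 4095), (-70659, 4095)]
  b3 := [(22455, 4095), (-327110, 4095), (333086, 4095)]
  b4 := [(-79841, 4095), (355743, 4095), (-253440, 4095)]
  g0 := [(9655, 4095)]
  g1 := [(-28965, 4095)]
  g2 := [(32659, 4095), (11575, 4095)]

def D10 : NP where
  A := [(13339, 4095), (-17783, 4095), (5102, 4095), (-1583, 4095), (925, 4095)]
  B := [(31860, 4095), (-12569, 4095), (12362, 4095)]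
  E := [(17130, 4095)]
  a0 := [(62329, 4095), (-30352, 4095), (17464, 4095), (-1583, 4095), (925, 4095)]
  a1 := [(62329, 4095), (60704, 4095), (-87320, 4095), (12664, 4095), (-10175, 4095)]
  a2 := [(160, 4095), (-147759, 4095), (182972, 4095), (97252, 4095)]
  a3 := [(1562, 4095), (-14757, 4095), (-165372, 4095), (116271, 4095)]
  a4 := [(20214, 4095), (409600, 4095), (-42188, 4095), (-409600, 4095)]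
  b0 := [(-66120, 4095), (12569, 4095), (-12362, 4095)]
  b1 := [(66120, 4095), (-50276, 4095), (86534, 4095)]
  b2 := [(-33951, 4095), (251124, 4095), (-409600, 4095)]
  b3 := [(-662, 4095), (-206414, 4095), (409600, 4095)]
  b4 := [(-91919, 4095), (-298823, 4095), (294458, 4095)]
  g0 := [(17130, 4095)]
  g1 := [(-51390, 4095)]
  g2 := [(59917, 4095), (-8543, 4095)]

def D11 : NP where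
  A := [(11946, 4095), (-15967, 4095), (3433, 4095), (-829, 4095), (1417, 4095)]
  B := [(28975, 4095), (-10933, 4095), (16795, 4095)]
  E := [(21936, 4095)]
  a0 := [(62857, 4095), (-26900, 4095), (20228, 4095), (-829, 4095), (1417, 4095)]
  a1 := [(62857, 4095), (53800, 4095), (-101140, 4095), (6632, 4095), (-15587, 4095)]
  a2 := [(171, 4095), (-122542, 4095), (150764, 4095), (124036, 4095)]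
  a3 := [(22, 4095), (54439, 4095), (-61993, 4095), (42830, 4095)]
  a4 := [(1221, 4095), (239964, 4095), (-132994, 4095), (-409600, 4095)]
  b0 := [(-72847, 4095), (10933, 4095), (-16795, 4095)]
  b1 := [(72847, 4095), (-43732, 4095), (117565, 4095)]
  b2 := [(-30003, 4095), (206937, 4095), (-409600, 4095)]
  b3 := [(-3476, 4095), (-318396, 4095), (409600, 4095)]
  b4 := [(-102155, 4095), (9638, 4095), (409600, 4095)]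
  g0 := [(21936, 4095)]
  g1 := [(-65808, 4095)]
  g2 := [(74567, 4095), (-8015, 4095)]

def D12 : NP where
  A := [(6828, 4095), (-10268, 4095), (3525, 4095), (-225, 4095), (140, 4095)]
  B := [(37429, 4095), (2310, 4095), (5879, 4095)]
  E := [(24244, 4095)]
  a0 := [(68501, 4095), (-7958, 4095), (9404, 4095), (-225, 4095), (140, 4095)]
  a1 := [(68501, 4095), (15916, 4095), (-47020, 4095), (1800, 4095), (-1540, 4095)]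
  a2 := [(193, 4095), (-118608, 4095), (140145, 4095), (20931, 4095)]
  a3 := [(148, 4095), (132751, 4095), (-119157, 4095), (75579, 4095)]
  a4 := [(198, 4095), (234684, 4095), (-205673, 4095), (-313602, 4095)]
  b0 := [(-85917, 4095), (-2310, 4095), (-5879, 4095)]
  b1 := [(85917, 4095), (9240, 4095), (41153, 4095)]
  b2 := [(-38416, 4095), (123716, 4095), (-217985, 4095)]
  b3 := [(-948, 4095), (-409600, 4095), (409600, 4095)]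
  b4 := [(-108687, 4095), (238716, 4095), (-6565, 4095)]
  g0 := [(24244, 4095)]
  g1 := [(-72732, 4095)]
  g2 := [(82095, 4095), (-1543, 4095)]

def D13 : NP where
  A := [(488, 4095), (-3064, 4095), (3902, 4095), (-2092, 4095), (766, 4095)]
  B := [(50141, 4095), (12830, 4095), (-652, 4095)]
  E := [(23501, 4095)]
  a0 := [(74130, 4095), (9766, 4095), (3250, 4095), (-2092, 4095), (766, 4095)]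
  a1 := [(74130, 4095), (-19532, 4095), (-16250, 4095), (16736, 4095), (-8426, 4095)]
  a2 := [(175, 4095), (-66897, 4095), (20076, 4095), (57657, 4095)]
  a3 := [(0, 4095), (140240, 4095), (24709, 4095), (-171300, 4095)]
  a4 := [(0, 4095), (121162, 4095), (-78284, 4095), (159339, 4095)]
  b0 := [(-97143, 4095), (-12830, 4095), (652, 4095)]
  b1 := [(97143, 4095), (51320, 4095), (-4564, 4095)]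
  b2 := [(-50585, 4095), (35525, 4095), (-86728, 4095)]
  b3 := [(19843, 4095), (-409600, 4095), (409600, 4095)]
  b4 := [(-132267, 4095), (409600, 4095), (-389986, 4095)]
  g0 := [(23501, 4095)]
  g1 := [(-70503, 4095)]
  g2 := [(79499, 4095), (-1023, 4095)]

def D20 : NP where
  A := [(3884, 4095), (-50517, 4095), (17001, 4095), (-1528, 4095)]
  B := [(79239, 4095), (-25755, 4095), (29643, 4095)]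
  E := [(38885, 4095)]
  a0 := [(122008, 4095), (-76272, 4095), (46644, 4095), (-1528, 4095)]
  a1 := [(122008, 4095), (152544, 4095), (-233220, 4095), (12224, 4095)]
  a2 := [(3096, 4095), (-248631, 4095), (389387, 4095), (-116994, 4095)]
  a3 := [(22112, 4095), (125880, 4095), (-409600, 4095), (344300, 4095)]
  a4 := [(41880, 4095), (148599, 4095), (409600, 4095), (-243534, 4095)]
  b0 := [(-157009, 4095), (25755, 4095), (-29643, 4095)]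
  b1 := [(157009, 4095), (-103020, 4095), (207501, 4095)]
  b2 := [(-91113, 4095), (409600, 4095), (-409600, 4095)]
  b3 := [(-21279, 4095), (-291251, 4095), (342327, 4095)]
  b4 := [(-183803, 4095), (379010, 4095), (-94765, 4095)]
  g0 := [(38885, 4095)]
  g1 := [(-116655, 4095)]
  g2 := [(140332, 4095), (-134398, 4095)]

def D21 : NP where
  A := [(12218, 4095), (-58696, 4095), (20697, 4095), (-2057, 4095)]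
  B := [(89209, 4095), (-23243, 4095), (31624, 4095)]
  E := [(61077, 4095)]
  a0 := [(162504, 4095), (-81939, 4095), (52321, 4095), (-2057, 4095)]
  a1 := [(162504, 4095), (163878, 4095), (-261605, 4095), (16456, 4095)]
  a2 := [(6893, 4095), (-278902, 4095), (393746, 4095), (-118477, 4095)]
  a3 := [(57438, 4095), (86409, 4095), (-278752, 4095), (362714, 4095)]
  a4 := [(130543, 4095), (222336, 4095), (409600, 4095), (-409600, 4095)]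
  b0 := [(-211363, 4095), (23243, 4095), (-31624, 4095)]
  b1 := [(211363, 4095), (-92972, 4095), (221368, 4095)]
  b2 := [(-117884, 4095), (409600, 4095), (-409600, 4095)]
  b3 := [(-117494, 4095), (-307770, 4095), (152154, 4095)]
  b4 := [(-265974, 4095), (300306, 4095), (180759, 4095)]
  g0 := [(61077, 4095)]
  g1 := [(-183231, 4095)]
  g2 := [(230702, 4095), (-119060, 4095)]

def D22 : NP where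
  A := [(13877, 4095), (-63139, 4095), (22052, 4095), (-1045, 4095)]
  B := [(75581, 4095), (-468, 4095), (32552, 4095)]
  E := [(97197, 4095)]
  a0 := [(186655, 4095), (-63607, 4095), (54604, 4095), (-1045, 4095)]
  a1 := [(186655, 4095), (127214, 4095), (-273020, 4095), (8360, 4095)]
  a2 := [(6273, 4095), (-349627, 4095), (409600, 4095), (-108943, 4095)]
  a3 := [(62720, 4095), (-15199, 4095), (252668, 4095), (408068, 4095)]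
  a4 := [(178183, 4095), (346453, 4095), (409600, 4095), (-126218, 4095)]
  b0 := [(-269975, 4095), (468, 4095), (-32552, 4095)]
  b1 := [(269975, 4095), (-1872, 4095), (227864, 4095)]
  b2 := [(-124870, 4095), (409600, 4095), (-409600, 4095)]
  b3 := [(-222473, 4095), (-206178, 4095), (-390472, 4095)]
  b4 := [(-409600, 4095), (409600, 4095), (409600, 4095)]
  g0 := [(97197, 4095)]
  g1 := [(-291591, 4095)]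
  g2 := [(378831, 4095), (-186232, 4095)]

def D23 : NP where
  A := [(-29885, 4095), (-10978, 4095), (14648, 4095), (-4362, 4095)]
  B := [(143818, 4095), (49782, 4095), (556, 4095)]
  E := [(97824, 4095)]
  a0 := [(211757, 4095), (38804, 4095), (15204, 4095), (-4362, 4095)]
  a1 := [(211757, 4095), (-77608, 4095), (-76020, 4095), (34896, 4095)]
  a2 := [(603, 4095), (-105523, 4095), (212166, 4095), (-138674, 4095)]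
  a3 := [(5020, 4095), (260208, 4095), (-27311, 4095), (409600, 4095)]
  a4 := [(11411, 4095), (281382, 4095), (-333766, 4095), (339308, 4095)]
  b0 := [(-339466, 4095), (-49782, 4095), (-556, 4095)]
  b1 := [(339466, 4095), (199128, 4095), (3892, 4095)]
  b2 := [(-149178, 4095), (-140445, 4095), (-85745, 4095)]
  b3 := [(-31181, 4095), (-409559, 4095), (40332, 4095)]
  b4 := [(-409600, 4095), (402139, 4095), (239817, 4095)]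
  g0 := [(97824, 4095)]
  g1 := [(-293472, 4095)]
  g2 := [(332991, 4095), (-4201, 4095)]

def p00 : List CL := [[(0, 4095), (34308, 4095), (1408, 4095), (904, 4095), (-750, 4095)], [(0, 4095), (3535, 4095), (-4477, 4095)], [(1054, 4095), (3320, 4095)]]
def p01 : List CL := [[(0, 4095), (34308, 4095), (774, 4095), (3520, 4095), (-7686, 4095)], [(0, 4095), (1580, 4095), (2787, 4095)], [(830, 4095), (3974, 4095)]]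
def p02 : List CL := [[(0, 4095), (34308, 4095), (1158, 4095), (-2047, 4095), (5285, 4095)], [(0, 4095), (3660, 4095), (-4900, 4095)], [(4236, 4095), (-1238, 4095)]]
def p03 : List CL := [[(0, 4095), (34308, 4095), (900, 4095), (1442, 4095), (964, 4095)], [(0, 4095), (2692, 4095), (-1660, 4095)], [(1026, 4095), (556, 4095)]]
def p10 : List CL := [[(0, 4095), (62957, 4095), (6834, 4095), (3071, 4095), (-5720, 4095)], [(8012, 4095), (-1686, 4095), (15198, 4095)], [(1570, 4095), (-4460, 4095)]]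
def p11 : List CL := [[(0, 4095), (56858, 4095), (225, 4095), (8765, 4095), (-688, 4095)], [(7318, 4095), (3309, 4095), (-4555, 4095)], [(-513, 4095), (4721, 4095)]]
def p12 : List CL := [[(0, 4095), (54445, 4095), (7585, 4095), (-9734, 4095), (14946, 4095)], [(3220, 4095), (-4493, 4095), (-1701, 4095)], [(16386, 4095), (-10357, 4095)]]
def p13 : List CL := [[(0, 4095), (55410, 4095), (3490, 4095), (-5263, 4095), (139, 4095)], [(-960, 4095), (-2629, 4095), (16409, 4095)], [(3226, 4095), (-5285, 4095)]]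
def p20 : List CL := [[(0, 4095), (157454, 4095), (29799, 4095), (-47848, 4095), (16146, 4095)], [(20397, 4095), (-5098, 4095), (65873, 4095)], [(5555, 4095), (-27544, 4095)]]
def p21 : List CL := [[(0, 4095), (171697, 4095), (22374, 4095), (14761, 4095), (-30874, 4095)], [(22808, 4095), (-10945, 4095), (52325, 4095)], [(-15661, 4095), (12296, 4095)]]
def p22 : List CL := [[(0, 4095), (172180, 4095), (18743, 4095), (10700, 4095), (2211, 4095)], [(19539, 4095), (-2363, 4095), (5811, 4095)], [(11853, 4095), (-926, 4095)]]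
def p23 : List CL := [[(0, 4095), (177756, 4095), (-33413, 4095), (230012, 4095), (-5970, 4095)], [(48034, 4095), (-147092, 4095), (-234645, 4095)], [(225704, 4095), (17687, 4095)]]
def k00 : List CL := [[(0, 4095), (29426, 4095), (-79633, 4095), (212406, 4095)], [(-31407, 4095), (-72376, 4095)], [(-67957, 4095)]]
def k01 : List CL := [[(0, 4095), (-2422, 4095), (61459, 4095), (124614, 4095)], [(-30904, 4095), (-179960, 4095)], [(830, 4095)]]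
def k02 : List CL := [[(0, 4095), (-23435, 4095), (159002, 4095), (29063, 4095)], [(-50739, 4095), (-175112, 4095)], [(27156, 4095)]]
def k03 : List CL := [[(0, 4095), (-25115, 4095), (170212, 4095), (29561, 4095)], [(-60412, 4095), (-170844, 4095)], [(22585, 4095)]]
def k10 : List CL := [[(-10554, 4095), (-65412, 4095), (-95365, 4095), (-6, 4095)], [(23506, 4095), (38872, 4095)], [(-13116, 4095)]]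
def k11 : List CL := [[(-3075, 4095), (-34159, 4095), (-22588, 4095), (-39, 4095)], [(939, 4095), (4387, 4095)], [(-34848, 4095)]]
def k12 : List CL := [[(2572, 4095), (-31740, 4095), (227725, 4095), (16727, 4095)], [(-56878, 4095), (-261833, 4095)], [(29559, 4095)]]
def k13 : List CL := [[(4921, 4095), (-2095, 4095), (409600, 4095), (109511, 4095)], [(-195807, 4095), (-409600, 4095)], [(7582, 4095)]]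

def D : ℕ → ℕ → NP
  | 0, 0 => D00
  | 0, 1 => D01
  | 0, 2 => D02
  | 0, 3 => D03
  | 1, 0 => D10
  | 1, 1 => D11
  | 1, 2 => D12
  | 1, 3 => D13
  | 2, 0 => D20
  | 2, 1 => D21
  | 2, 2 => D22
  | 2, 3 => D23
  | _, _ => D03

def psi : ℕ → ℕ → List CL
  | 0, 0 => p00
  | 0, 1 => p01
  | 0, 2 => p02
  | 0, 3 => p03
  | 1, 0 => p10
  | 1, 1 => p11
  | 1, 2 => p12
  | 1, 3 => p13
  | 2, 0 => p20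
  | 2, 1 => p21
  | 2, 2 => p22
  | 2, 3 => p23
  | _, _ => []

def hh : ℕ → ℕ → List CL
  | 0, 0 => k00
  | 0, 1 => k01
  | 0, 2 => k02
  | 0, 3 => k03
  | 1, 0 => k10
  | 1, 1 => k11
  | 1, 2 => k12
  | 1, 3 => k13
  | _, _ => []

def w2 : ℕ → ℤ × ℕ
  | 0 => (0, 0)
  | 1 => (0, 0)
  | 2 => (-31156, 4095)
  | _ => (0, 0)

/-! Certificates. -/

/-- the leaves of all trees -/
theorem lv :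
    ((Tree.leaf 60 9 16 6 1).ok 0 1 0 0 (SEG D03 (0, 0) (sP (0, 0) (1, 0)) p00 p01 p02 p03) ⟨0, 1, 1, 0, 1, 1, 0, 1, 1, 0, 1, 1⟩ = true) ∧
    ((Tree.leaf 53 16 1 6 1).ok 0 1 0 0 (RE D03 (0, 0)) ⟨0, 1, 1, 0, 1, 1, 0, 1, 1, 0, 1, 1⟩ = true) ∧
    ((Tree.leaf 193 17 16 6 1).ok 0 1 0 0 (UE0 (22, 24) D00) ⟨0, 1, 4, 0, 1, 2, 0, 1, 1, 0, 1, 1⟩ = true ∧
      (Tree.leaf 197 17 16 6 1).ok 0 1 0 0 (UE0 (22, 24) D00) ⟨1, 2, 4, 0, 1, 2, 0, 1, 1, 0, 1, 1⟩ = true ∧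
      (Tree.leaf 185 17 16 6 1).ok 0 1 0 0 (UE0 (22, 24) D00) ⟨1, 2, 2, 0, 1, 2, 0, 1, 1, 0, 1, 1⟩ = true ∧
      (Tree.leaf 189 17 16 6 1).ok 0 1 0 0 (UE0 (22, 24) D00) ⟨0, 1, 2, 1, 2, 2, 0, 1, 2, 0, 1, 1⟩ = true ∧
      (Tree.leaf 191 17 16 6 1).ok 0 1 0 0 (UE0 (22, 24) D00) ⟨0, 1, 2, 1, 2, 2, 1, 2, 2, 0, 1, 1⟩ = true ∧
      (Tree.leaf 192 17 16 6 1).ok 0 1 0 0 (UE0 (22, 24) D00) ⟨1, 2, 2, 1, 2, 2, 0, 1, 1, 0, 1, 1⟩ = true) ∧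
    ((Tree.leaf 177 17 16 6 1).ok 0 1 0 0 (UE1 (11, 24) D00) ⟨0, 1, 1, 0, 1, 4, 0, 1, 1, 0, 1, 1⟩ = true ∧
      (Tree.leaf 179 17 16 6 1).ok 0 1 0 0 (UE1 (11, 24) D00) ⟨0, 1, 1, 1, 2, 4, 0, 1, 1, 0, 1, 1⟩ = true ∧
      (Tree.leaf 187 17 16 6 1).ok 0 1 0 0 (UE1 (11, 24) D00) ⟨0, 1, 1, 2, 3, 4, 0, 1, 2, 0, 1, 1⟩ = true ∧
      (Tree.leaf 190 17 16 6 1).ok 0 1 0 0 (UE1 (11, 24) D00) ⟨0, 1, 1, 3, 4, 4, 0, 1, 2, 0, 1, 1⟩ = true ∧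
      (Tree.leaf 188 17 16 6 1).ok 0 1 0 0 (UE1 (11, 24) D00) ⟨0, 1, 1, 2, 3, 4, 1, 2, 2, 0, 1, 1⟩ = true ∧
      (Tree.leaf 191 17 16 6 1).ok 0 1 0 0 (UE1 (11, 24) D00) ⟨0, 1, 1, 3, 4, 4, 1, 2, 2, 0, 1, 1⟩ = true) ∧
    ((Tree.leaf 193 17 16 6 1).ok 0 1 0 0 (UE0 (22, 24) D01) ⟨0, 1, 4, 0, 1, 2, 0, 1, 1, 0, 1, 1⟩ = true ∧
      (Tree.leaf 197 17 16 6 1).ok 0 1 0 0 (UE0 (22, 24) D01) ⟨1, 2, 4, 0, 1, 2, 0, 1, 1, 0, 1, 1⟩ = true ∧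
      (Tree.leaf 185 17 16 6 1).ok 0 1 0 0 (UE0 (22, 24) D01) ⟨1, 2, 2, 0, 1, 2, 0, 1, 1, 0, 1, 1⟩ = true ∧
      (Tree.leaf 198 17 16 6 1).ok 0 1 0 0 (UE0 (22, 24) D01) ⟨0, 1, 4, 1, 2, 2, 0, 1, 1, 0, 1, 1⟩ = true ∧
      (Tree.leaf 202 17 16 6 1).ok 0 1 0 0 (UE0 (22, 24) D01) ⟨1, 2, 4, 1, 2, 2, 0, 1, 1, 0, 1, 1⟩ = true ∧
      (Tree.leaf 206 17 16 6 1).ok 0 1 0 0 (UE0 (22, 24) D01) ⟨2, 3, 4, 1, 2, 2, 0, 1, 1, 0, 1, 1⟩ = true ∧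
      (Tree.leaf 209 17 16 6 1).ok 0 1 0 0 (UE0 (22, 24) D01) ⟨3, 4, 4, 1, 2, 2, 0, 1, 1, 0, 1, 1⟩ = true) ∧
    ((Tree.leaf 163 17 16 6 1).ok 0 1 0 0 (UE1 (11, 24) D01) ⟨0, 1, 1, 0, 1, 2, 0, 1, 1, 0, 1, 1⟩ = true ∧
      (Tree.leaf 186 17 16 6 1).ok 0 1 0 0 (UE1 (11, 24) D01) ⟨0, 1, 1, 2, 3, 4, 0, 1, 2, 0, 1, 1⟩ = true ∧
      (Tree.leaf 189 17 16 6 1).ok 0 1 0 0 (UE1 (11, 24) D01) ⟨0, 1, 1, 3, 4, 4, 0, 1, 2, 0, 1, 1⟩ = true ∧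
      (Tree.leaf 187 17 16 6 1).ok 0 1 0 0 (UE1 (11, 24) D01) ⟨0, 1, 1, 2, 3, 4, 1, 2, 2, 0, 1, 1⟩ = true ∧
      (Tree.leaf 191 17 16 6 1).ok 0 1 0 0 (UE1 (11, 24) D01) ⟨0, 1, 1, 3, 4, 4, 1, 2, 2, 0, 1, 1⟩ = true) ∧
    ((Tree.leaf 178 17 16 6 1).ok 0 1 0 0 (UE0 (22, 24) D02) ⟨0, 1, 2, 0, 1, 2, 0, 1, 1, 0, 1, 1⟩ = true ∧
      (Tree.leaf 197 17 16 6 1).ok 0 1 0 0 (UE0 (22, 24) D02) ⟨0, 1, 4, 1, 2, 2, 0, 1, 1, 0, 1, 1⟩ = true ∧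
      (Tree.leaf 201 17 16 6 1).ok 0 1 0 0 (UE0 (22, 24) D02) ⟨1, 2, 4, 1, 2, 2, 0, 1, 1, 0, 1, 1⟩ = true ∧
      (Tree.leaf 172 17 16 6 1).ok 0 1 0 0 (UE0 (22, 24) D02) ⟨1, 2, 2, 0, 1, 1, 0, 1, 1, 0, 1, 1⟩ = true) ∧
    ((Tree.leaf 162 17 16 6 1).ok 0 1 0 0 (UE1 (11, 24) D02) ⟨0, 1, 1, 0, 1, 2, 0, 1, 1, 0, 1, 1⟩ = true ∧
      (Tree.leaf 185 17 16 6 1).ok 0 1 0 0 (UE1 (11, 24) D02) ⟨0, 1, 1, 2, 3, 4, 0, 1, 2, 0, 1, 1⟩ = true ∧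
      (Tree.leaf 188 17 16 6 1).ok 0 1 0 0 (UE1 (11, 24) D02) ⟨0, 1, 1, 3, 4, 4, 0, 1, 2, 0, 1, 1⟩ = true ∧
      (Tree.leaf 186 17 16 6 1).ok 0 1 0 0 (UE1 (11, 24) D02) ⟨0, 1, 1, 2, 3, 4, 1, 2, 2, 0, 1, 1⟩ = true ∧
      (Tree.leaf 189 17 16 6 1).ok 0 1 0 0 (UE1 (11, 24) D02) ⟨0, 1, 1, 3, 4, 4, 1, 2, 2, 0, 1, 1⟩ = true) ∧
    ((Tree.leaf 178 17 16 6 1).ok 0 1 0 0 (UE0 (22, 24) D03) ⟨0, 1, 2, 0, 1, 2, 0, 1, 1, 0, 1, 1⟩ = true ∧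
      (Tree.leaf 184 17 16 6 1).ok 0 1 0 0 (UE0 (22, 24) D03) ⟨0, 1, 2, 1, 2, 2, 0, 1, 1, 0, 1, 1⟩ = true ∧
      (Tree.leaf 173 17 16 6 1).ok 0 1 0 0 (UE0 (22, 24) D03) ⟨1, 2, 2, 0, 1, 1, 0, 1, 1, 0, 1, 1⟩ = true) ∧
    ((Tree.leaf 177 17 16 6 1).ok 0 1 0 0 (UE1 (11, 24) D03) ⟨0, 1, 2, 0, 1, 2, 0, 1, 1, 0, 1, 1⟩ = true ∧
      (Tree.leaf 195 17 16 6 1).ok 0 1 0 0 (UE1 (11, 24) D03) ⟨2, 3, 4, 0, 1, 2, 0, 1, 1, 0, 1, 1⟩ = true ∧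
      (Tree.leaf 197 17 16 6 1).ok 0 1 0 0 (UE1 (11, 24) D03) ⟨3, 4, 4, 0, 1, 2, 0, 1, 1, 0, 1, 1⟩ = true ∧
      (Tree.leaf 195 17 16 6 1).ok 0 1 0 0 (UE1 (11, 24) D03) ⟨0, 1, 2, 2, 3, 4, 0, 1, 1, 0, 1, 1⟩ = true ∧
      (Tree.leaf 199 17 16 6 1).ok 0 1 0 0 (UE1 (11, 24) D03) ⟨1, 2, 2, 2, 3, 4, 0, 1, 1, 0, 1, 1⟩ = true ∧
      (Tree.leaf 189 17 16 6 1).ok 0 1 0 0 (UE1 (11, 24) D03) ⟨0, 1, 1, 3, 4, 4, 0, 1, 2, 0, 1, 1⟩ = true ∧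
      (Tree.leaf 190 17 16 6 1).ok 0 1 0 0 (UE1 (11, 24) D03) ⟨0, 1, 1, 3, 4, 4, 1, 2, 2, 0, 1, 1⟩ = true) ∧
    ((Tree.leaf 190 16 16 6 6).ok 0 1 0 0 (GE 0 0 (D 0) (121, 624) (-1331, 15624) (tau0 (121, 624)) p00 k00 k10) ⟨0, 1, 2, 0, 1, 2, 0, 1, 1, 0, 1, 1⟩ = true ∧
      (Tree.leaf 191 16 16 6 6).ok 0 1 0 0 (GE 0 0 (D 0) (121, 624) (-1331, 15624) (tau0 (121, 624)) p00 k00 k10) ⟨0, 1, 2, 1, 2, 2, 0, 1, 1, 0, 1, 1⟩ = true ∧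
      (Tree.leaf 185 16 16 6 6).ok 0 1 0 0 (GE 0 0 (D 0) (121, 624) (-1331, 15624) (tau0 (121, 624)) p00 k00 k10) ⟨1, 2, 2, 0, 1, 1, 0, 1, 2, 0, 1, 1⟩ = true ∧
      (Tree.leaf 186 16 16 6 6).ok 0 1 0 0 (GE 0 0 (D 0) (121, 624) (-1331, 15624) (tau0 (121, 624)) p00 k00 k10) ⟨1, 2, 2, 0, 1, 1, 1, 2, 2, 0, 1, 1⟩ = true) ∧
    ((Tree.leaf 190 16 16 6 6).ok 0 1 0 0 (GE 0 0 (D 0) (121, 624) (-1331, 15624) (tau1 (121, 624)) p00 k00 k10) ⟨0, 1, 2, 0, 1, 2, 0, 1, 1, 0, 1, 1⟩ = true ∧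
      (Tree.leaf 191 16 16 6 6).ok 0 1 0 0 (GE 0 0 (D 0) (121, 624) (-1331, 15624) (tau1 (121, 624)) p00 k00 k10) ⟨0, 1, 2, 1, 2, 2, 0, 1, 1, 0, 1, 1⟩ = true ∧
      (Tree.leaf 185 16 16 6 6).ok 0 1 0 0 (GE 0 0 (D 0) (121, 624) (-1331, 15624) (tau1 (121, 624)) p00 k00 k10) ⟨1, 2, 2, 0, 1, 1, 0, 1, 2, 0, 1, 1⟩ = true ∧
      (Tree.leaf 187 16 16 6 6).ok 0 1 0 0 (GE 0 0 (D 0) (121, 624) (-1331, 15624) (tau1 (121, 624)) p00 k00 k10) ⟨1, 2, 2, 0, 1, 1, 1, 2, 2, 0, 1, 1⟩ = true) ∧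
    ((Tree.leaf 180 16 16 6 6).ok 0 1 0 0 (GE 0 1 (D 0) (121, 624) (-1331, 15624) (tau0 (121, 624)) p01 k01 k11) ⟨0, 1, 2, 0, 1, 1, 0, 1, 2, 0, 1, 1⟩ = true ∧
      (Tree.leaf 185 16 16 6 6).ok 0 1 0 0 (GE 0 1 (D 0) (121, 624) (-1331, 15624) (tau0 (121, 624)) p01 k01 k11) ⟨1, 2, 2, 0, 1, 1, 0, 1, 2, 0, 1, 1⟩ = true ∧
      (Tree.leaf 195 16 16 6 6).ok 0 1 0 0 (GE 0 1 (D 0) (121, 624) (-1331, 15624) (tau0 (121, 624)) p01 k01 k11) ⟨0, 1, 4, 0, 1, 1, 1, 2, 2, 0, 1, 1⟩ = true ∧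
      (Tree.leaf 196 16 16 6 6).ok 0 1 0 0 (GE 0 1 (D 0) (121, 624) (-1331, 15624) (tau0 (121, 624)) p01 k01 k11) ⟨1, 2, 4, 0, 1, 1, 1, 2, 2, 0, 1, 1⟩ = true ∧
      (Tree.leaf 186 16 16 6 6).ok 0 1 0 0 (GE 0 1 (D 0) (121, 624) (-1331, 15624) (tau0 (121, 624)) p01 k01 k11) ⟨1, 2, 2, 0, 1, 1, 1, 2, 2, 0, 1, 1⟩ = true) ∧
    ((Tree.leaf 180 16 16 6 6).ok 0 1 0 0 (GE 0 1 (D 0) (121, 624) (-1331, 15624) (tau1 (121, 624)) p01 k01 k11) ⟨0, 1, 2, 0, 1, 1, 0, 1, 2, 0, 1, 1⟩ = true ∧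
      (Tree.leaf 185 16 16 6 6).ok 0 1 0 0 (GE 0 1 (D 0) (121, 624) (-1331, 15624) (tau1 (121, 624)) p01 k01 k11) ⟨1, 2, 2, 0, 1, 1, 0, 1, 2, 0, 1, 1⟩ = true ∧
      (Tree.leaf 180 16 16 6 6).ok 0 1 0 0 (GE 0 1 (D 0) (121, 624) (-1331, 15624) (tau1 (121, 624)) p01 k01 k11) ⟨0, 1, 2, 0, 1, 1, 1, 2, 2, 0, 1, 1⟩ = true ∧
      (Tree.leaf 186 16 16 6 6).ok 0 1 0 0 (GE 0 1 (D 0) (121, 624) (-1331, 15624) (tau1 (121, 624)) p01 k01 k11) ⟨1, 2, 2, 0, 1, 1, 1, 2, 2, 0, 1, 1⟩ = true) ∧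
    ((Tree.leaf 194 16 16 6 6).ok 0 1 0 0 (GE 0 2 (D 0) (121, 624) (-1331, 15624) (tau0 (121, 624)) p02 k02 k12) ⟨0, 1, 4, 0, 1, 1, 0, 1, 1, 0, 1, 2⟩ = true ∧
      (Tree.leaf 195 16 16 6 6).ok 0 1 0 0 (GE 0 2 (D 0) (121, 624) (-1331, 15624) (tau0 (121, 624)) p02 k02 k12) ⟨1, 2, 4, 0, 1, 1, 0, 1, 1, 0, 1, 2⟩ = true ∧
      (Tree.leaf 184 16 16 6 6).ok 0 1 0 0 (GE 0 2 (D 0) (121, 624) (-1331, 15624) (tau0 (121, 624)) p02 k02 k12) ⟨1, 2, 2, 0, 1, 1, 0, 1, 1, 0, 1, 2⟩ = true ∧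
      (Tree.leaf 180 16 16 6 6).ok 0 1 0 0 (GE 0 2 (D 0) (121, 624) (-1331, 15624) (tau0 (121, 624)) p02 k02 k12) ⟨0, 1, 2, 0, 1, 1, 0, 1, 1, 1, 2, 2⟩ = true ∧
      (Tree.leaf 185 16 16 6 6).ok 0 1 0 0 (GE 0 2 (D 0) (121, 624) (-1331, 15624) (tau0 (121, 624)) p02 k02 k12) ⟨1, 2, 2, 0, 1, 1, 0, 1, 1, 1, 2, 2⟩ = true) ∧
    ((Tree.leaf 180 16 16 6 6).ok 0 1 0 0 (GE 0 2 (D 0) (121, 624) (-1331, 15624) (tau1 (121, 624)) p02 k02 k12) ⟨0, 1, 2, 0, 1, 1, 0, 1, 1, 0, 1, 2⟩ = true ∧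
      (Tree.leaf 185 16 16 6 6).ok 0 1 0 0 (GE 0 2 (D 0) (121, 624) (-1331, 15624) (tau1 (121, 624)) p02 k02 k12) ⟨1, 2, 2, 0, 1, 1, 0, 1, 1, 0, 1, 2⟩ = true ∧
      (Tree.leaf 180 16 16 6 6).ok 0 1 0 0 (GE 0 2 (D 0) (121, 624) (-1331, 15624) (tau1 (121, 624)) p02 k02 k12) ⟨0, 1, 2, 0, 1, 1, 0, 1, 1, 1, 2, 2⟩ = true ∧
      (Tree.leaf 185 16 16 6 6).ok 0 1 0 0 (GE 0 2 (D 0) (121, 624) (-1331, 15624) (tau1 (121, 624)) p02 k02 k12) ⟨1, 2, 2, 0, 1, 1, 0, 1, 1, 1, 2, 2⟩ = true) ∧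
    ((Tree.leaf 189 16 16 6 6).ok 0 1 0 0 (GE 0 3 (D 0) (121, 624) (-1331, 15624) (tau0 (121, 624)) p03 k03 k13) ⟨0, 1, 2, 0, 1, 2, 0, 1, 1, 0, 1, 1⟩ = true ∧
      (Tree.leaf 190 16 16 6 6).ok 0 1 0 0 (GE 0 3 (D 0) (121, 624) (-1331, 15624) (tau0 (121, 624)) p03 k03 k13) ⟨0, 1, 2, 1, 2, 2, 0, 1, 1, 0, 1, 1⟩ = true ∧
      (Tree.leaf 184 16 16 6 6).ok 0 1 0 0 (GE 0 3 (D 0) (121, 624) (-1331, 15624) (tau0 (121, 624)) p03 k03 k13) ⟨1, 2, 2, 0, 1, 1, 0, 1, 2, 0, 1, 1⟩ = true ∧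
      (Tree.leaf 186 16 16 6 6).ok 0 1 0 0 (GE 0 3 (D 0) (121, 624) (-1331, 15624) (tau0 (121, 624)) p03 k03 k13) ⟨1, 2, 2, 0, 1, 1, 1, 2, 2, 0, 1, 1⟩ = true) ∧
    ((Tree.leaf 189 16 16 6 6).ok 0 1 0 0 (GE 0 3 (D 0) (121, 624) (-1331, 15624) (tau1 (121, 624)) p03 k03 k13) ⟨0, 1, 2, 0, 1, 2, 0, 1, 1, 0, 1, 1⟩ = true ∧
      (Tree.leaf 190 16 16 6 6).ok 0 1 0 0 (GE 0 3 (D 0) (121, 624) (-1331, 15624) (tau1 (121, 624)) p03 k03 k13) ⟨0, 1, 2, 1, 2, 2, 0, 1, 1, 0, 1, 1⟩ = true ∧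
      (Tree.leaf 184 16 16 6 6).ok 0 1 0 0 (GE 0 3 (D 0) (121, 624) (-1331, 15624) (tau1 (121, 624)) p03 k03 k13) ⟨1, 2, 2, 0, 1, 1, 0, 1, 2, 0, 1, 1⟩ = true ∧
      (Tree.leaf 186 16 16 6 6).ok 0 1 0 0 (GE 0 3 (D 0) (121, 624) (-1331, 15624) (tau1 (121, 624)) p03 k03 k13) ⟨1, 2, 2, 0, 1, 1, 1, 2, 2, 0, 1, 1⟩ = true) ∧
    ((Tree.leaf 67 9 13 5 1).ok 0 1 0 0 (SEG D13 (0, 0) (sP (0, 0) (1, 0)) p10 p11 p12 p13) ⟨0, 1, 1, 0, 1, 2, 0, 1, 2, 0, 1, 1⟩ = true ∧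
      (Tree.leaf 72 9 13 5 1).ok 0 1 0 0 (SEG D13 (0, 0) (sP (0, 0) (1, 0)) p10 p11 p12 p13) ⟨0, 1, 1, 1, 2, 2, 0, 1, 2, 0, 1, 1⟩ = true ∧
      (Tree.leaf 67 9 13 5 1).ok 0 1 0 0 (SEG D13 (0, 0) (sP (0, 0) (1, 0)) p10 p11 p12 p13) ⟨0, 1, 1, 0, 1, 2, 1, 2, 2, 0, 1, 1⟩ = true ∧
      (Tree.leaf 73 9 13 5 1).ok 0 1 0 0 (SEG D13 (0, 0) (sP (0, 0) (1, 0)) p10 p11 p12 p13) ⟨0, 1, 1, 1, 2, 2, 1, 2, 2, 0, 1, 1⟩ = true) ∧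
    ((Tree.leaf 47 13 1 5 1).ok 0 1 0 0 (RE D13 (0, 0)) ⟨0, 1, 1, 0, 1, 1, 0, 1, 1, 0, 1, 1⟩ = true) ∧
    ((Tree.leaf 161 14 13 5 1).ok 0 1 0 0 (UE0 (22, 24) D10) ⟨0, 1, 4, 0, 1, 2, 0, 1, 1, 0, 1, 1⟩ = true ∧
      (Tree.leaf 164 14 13 5 1).ok 0 1 0 0 (UE0 (22, 24) D10) ⟨1, 2, 4, 0, 1, 2, 0, 1, 1, 0, 1, 1⟩ = true ∧
      (Tree.leaf 156 14 13 5 1).ok 0 1 0 0 (UE0 (22, 24) D10) ⟨1, 2, 2, 0, 1, 2, 0, 1, 1, 0, 1, 1⟩ = true ∧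
      (Tree.leaf 148 14 13 5 1).ok 0 1 0 0 (UE0 (22, 24) D10) ⟨0, 1, 1, 1, 2, 2, 0, 1, 2, 0, 1, 1⟩ = true ∧
      (Tree.leaf 149 14 13 5 1).ok 0 1 0 0 (UE0 (22, 24) D10) ⟨0, 1, 1, 1, 2, 2, 1, 2, 2, 0, 1, 1⟩ = true) ∧
    ((Tree.leaf 161 14 13 5 1).ok 0 1 0 0 (UE1 (11, 24) D10) ⟨0, 1, 4, 0, 1, 2, 0, 1, 1, 0, 1, 1⟩ = true ∧
      (Tree.leaf 162 14 13 5 1).ok 0 1 0 0 (UE1 (11, 24) D10) ⟨1, 2, 4, 0, 1, 2, 0, 1, 1, 0, 1, 1⟩ = true ∧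
      (Tree.leaf 151 14 13 5 1).ok 0 1 0 0 (UE1 (11, 24) D10) ⟨1, 2, 2, 0, 1, 2, 0, 1, 1, 0, 1, 1⟩ = true ∧
      (Tree.leaf 163 14 13 5 1).ok 0 1 0 0 (UE1 (11, 24) D10) ⟨0, 1, 2, 2, 3, 4, 0, 1, 1, 0, 1, 1⟩ = true ∧
      (Tree.leaf 167 14 13 5 1).ok 0 1 0 0 (UE1 (11, 24) D10) ⟨1, 2, 2, 2, 3, 4, 0, 1, 1, 0, 1, 1⟩ = true ∧
      (Tree.leaf 154 14 13 5 1).ok 0 1 0 0 (UE1 (11, 24) D10) ⟨0, 1, 1, 3, 4, 4, 0, 1, 1, 0, 1, 1⟩ = true) ∧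
    ((Tree.leaf 161 14 13 5 1).ok 0 1 0 0 (UE0 (22, 24) D11) ⟨0, 1, 4, 0, 1, 2, 0, 1, 1, 0, 1, 1⟩ = true ∧
      (Tree.leaf 164 14 13 5 1).ok 0 1 0 0 (UE0 (22, 24) D11) ⟨1, 2, 4, 0, 1, 2, 0, 1, 1, 0, 1, 1⟩ = true ∧
      (Tree.leaf 156 14 13 5 1).ok 0 1 0 0 (UE0 (22, 24) D11) ⟨1, 2, 2, 0, 1, 2, 0, 1, 1, 0, 1, 1⟩ = true ∧
      (Tree.leaf 158 14 13 5 1).ok 0 1 0 0 (UE0 (22, 24) D11) ⟨0, 1, 2, 1, 2, 2, 0, 1, 2, 0, 1, 1⟩ = true ∧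
      (Tree.leaf 159 14 13 5 1).ok 0 1 0 0 (UE0 (22, 24) D11) ⟨0, 1, 2, 1, 2, 2, 1, 2, 2, 0, 1, 1⟩ = true ∧
      (Tree.leaf 161 14 13 5 1).ok 0 1 0 0 (UE0 (22, 24) D11) ⟨1, 2, 2, 1, 2, 2, 0, 1, 1, 0, 1, 1⟩ = true) ∧
    ((Tree.leaf 161 14 13 5 1).ok 0 1 0 0 (UE1 (11, 24) D11) ⟨0, 1, 4, 0, 1, 2, 0, 1, 1, 0, 1, 1⟩ = true ∧
      (Tree.leaf 162 14 13 5 1).ok 0 1 0 0 (UE1 (11, 24) D11) ⟨1, 2, 4, 0, 1, 2, 0, 1, 1, 0, 1, 1⟩ = true ∧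
      (Tree.leaf 151 14 13 5 1).ok 0 1 0 0 (UE1 (11, 24) D11) ⟨1, 2, 2, 0, 1, 2, 0, 1, 1, 0, 1, 1⟩ = true ∧
      (Tree.leaf 156 14 13 5 1).ok 0 1 0 0 (UE1 (11, 24) D11) ⟨0, 1, 1, 2, 3, 4, 0, 1, 2, 0, 1, 1⟩ = true ∧
      (Tree.leaf 156 14 13 5 1).ok 0 1 0 0 (UE1 (11, 24) D11) ⟨0, 1, 1, 2, 3, 4, 1, 2, 2, 0, 1, 1⟩ = true ∧
      (Tree.leaf 166 14 13 5 1).ok 0 1 0 0 (UE1 (11, 24) D11) ⟨0, 1, 1, 6, 7, 8, 0, 1, 1, 0, 1, 1⟩ = true ∧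
      (Tree.leaf 168 14 13 5 1).ok 0 1 0 0 (UE1 (11, 24) D11) ⟨0, 1, 1, 7, 8, 8, 0, 1, 1, 0, 1, 1⟩ = true) ∧
    ((Tree.leaf 161 14 13 5 1).ok 0 1 0 0 (UE0 (22, 24) D12) ⟨0, 1, 4, 0, 1, 2, 0, 1, 1, 0, 1, 1⟩ = true ∧
      (Tree.leaf 163 14 13 5 1).ok 0 1 0 0 (UE0 (22, 24) D12) ⟨1, 2, 4, 0, 1, 2, 0, 1, 1, 0, 1, 1⟩ = true ∧
      (Tree.leaf 153 14 13 5 1).ok 0 1 0 0 (UE0 (22, 24) D12) ⟨0, 1, 2, 1, 2, 2, 0, 1, 1, 0, 1, 1⟩ = true ∧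
      (Tree.leaf 145 14 13 5 1).ok 0 1 0 0 (UE0 (22, 24) D12) ⟨1, 2, 2, 0, 1, 1, 0, 1, 1, 0, 1, 1⟩ = true) ∧
    ((Tree.leaf 136 14 13 5 1).ok 0 1 0 0 (UE1 (11, 24) D12) ⟨0, 1, 1, 0, 1, 2, 0, 1, 1, 0, 1, 1⟩ = true ∧
      (Tree.leaf 162 14 13 5 1).ok 0 1 0 0 (UE1 (11, 24) D12) ⟨0, 1, 2, 2, 3, 4, 0, 1, 1, 0, 1, 1⟩ = true ∧
      (Tree.leaf 165 14 13 5 1).ok 0 1 0 0 (UE1 (11, 24) D12) ⟨1, 2, 2, 2, 3, 4, 0, 1, 1, 0, 1, 1⟩ = true ∧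
      (Tree.leaf 164 14 13 5 1).ok 0 1 0 0 (UE1 (11, 24) D12) ⟨0, 1, 1, 6, 7, 8, 0, 1, 1, 0, 1, 1⟩ = true ∧
      (Tree.leaf 165 14 13 5 1).ok 0 1 0 0 (UE1 (11, 24) D12) ⟨0, 1, 1, 7, 8, 8, 0, 1, 1, 0, 1, 1⟩ = true) ∧
    ((Tree.leaf 161 14 13 5 1).ok 0 1 0 0 (UE0 (22, 24) D13) ⟨0, 1, 4, 0, 1, 2, 0, 1, 1, 0, 1, 1⟩ = true ∧
      (Tree.leaf 163 14 13 5 1).ok 0 1 0 0 (UE0 (22, 24) D13) ⟨1, 2, 4, 0, 1, 2, 0, 1, 1, 0, 1, 1⟩ = true ∧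
      (Tree.leaf 157 14 13 5 1).ok 0 1 0 0 (UE0 (22, 24) D13) ⟨0, 1, 2, 1, 2, 2, 0, 1, 2, 0, 1, 1⟩ = true ∧
      (Tree.leaf 158 14 13 5 1).ok 0 1 0 0 (UE0 (22, 24) D13) ⟨0, 1, 2, 1, 2, 2, 1, 2, 2, 0, 1, 1⟩ = true ∧
      (Tree.leaf 145 14 13 5 1).ok 0 1 0 0 (UE0 (22, 24) D13) ⟨1, 2, 2, 0, 1, 1, 0, 1, 1, 0, 1, 1⟩ = true) ∧
    ((Tree.leaf 136 14 13 5 1).ok 0 1 0 0 (UE1 (11, 24) D13) ⟨0, 1, 1, 0, 1, 2, 0, 1, 1, 0, 1, 1⟩ = true ∧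
      (Tree.leaf 154 14 13 5 1).ok 0 1 0 0 (UE1 (11, 24) D13) ⟨0, 1, 1, 2, 3, 4, 0, 1, 2, 0, 1, 1⟩ = true ∧
      (Tree.leaf 155 14 13 5 1).ok 0 1 0 0 (UE1 (11, 24) D13) ⟨0, 1, 1, 2, 3, 4, 1, 2, 2, 0, 1, 1⟩ = true ∧
      (Tree.leaf 165 14 13 5 1).ok 0 1 0 0 (UE1 (11, 24) D13) ⟨0, 1, 1, 6, 7, 8, 0, 1, 1, 0, 1, 1⟩ = true ∧
      (Tree.leaf 167 14 13 5 1).ok 0 1 0 0 (UE1 (11, 24) D13) ⟨0, 1, 1, 7, 8, 8, 0, 1, 1, 0, 1, 1⟩ = true) ∧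
    ((Tree.leaf 169 14 14 6 6).ok 0 1 0 0 (GE 1 0 (D 1) (121, 624) (-1331, 15624) (tau0 (121, 624)) p10 k00 k10) ⟨0, 1, 2, 0, 1, 2, 0, 1, 1, 0, 1, 1⟩ = true ∧
      (Tree.leaf 170 14 14 6 6).ok 0 1 0 0 (GE 1 0 (D 1) (121, 624) (-1331, 15624) (tau0 (121, 624)) p10 k00 k10) ⟨0, 1, 2, 1, 2, 2, 0, 1, 1, 0, 1, 1⟩ = true ∧
      (Tree.leaf 166 14 14 6 6).ok 0 1 0 0 (GE 1 0 (D 1) (121, 624) (-1331, 15624) (tau0 (121, 624)) p10 k00 k10) ⟨1, 2, 2, 0, 1, 1, 0, 1, 2, 0, 1, 1⟩ = true ∧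
      (Tree.leaf 179 14 14 6 6).ok 0 1 0 0 (GE 1 0 (D 1) (121, 624) (-1331, 15624) (tau0 (121, 624)) p10 k00 k10) ⟨2, 3, 4, 0, 1, 1, 1, 2, 2, 0, 1, 1⟩ = true ∧
      (Tree.leaf 182 14 14 6 6).ok 0 1 0 0 (GE 1 0 (D 1) (121, 624) (-1331, 15624) (tau0 (121, 624)) p10 k00 k10) ⟨3, 4, 4, 0, 1, 1, 1, 2, 2, 0, 1, 1⟩ = true) ∧
    ((Tree.leaf 169 14 14 6 6).ok 0 1 0 0 (GE 1 0 (D 1) (121, 624) (-1331, 15624) (tau1 (121, 624)) p10 k00 k10) ⟨0, 1, 4, 0, 1, 1, 0, 1, 1, 0, 1, 1⟩ = true ∧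
      (Tree.leaf 171 14 14 6 6).ok 0 1 0 0 (GE 1 0 (D 1) (121, 624) (-1331, 15624) (tau1 (121, 624)) p10 k00 k10) ⟨1, 2, 4, 0, 1, 1, 0, 1, 1, 0, 1, 1⟩ = true ∧
      (Tree.leaf 162 14 14 6 6).ok 0 1 0 0 (GE 1 0 (D 1) (121, 624) (-1331, 15624) (tau1 (121, 624)) p10 k00 k10) ⟨1, 2, 2, 0, 1, 1, 0, 1, 1, 0, 1, 1⟩ = true) ∧
    ((Tree.leaf 169 14 14 6 6).ok 0 1 0 0 (GE 1 1 (D 1) (121, 624) (-1331, 15624) (tau0 (121, 624)) p11 k01 k11) ⟨0, 1, 4, 0, 1, 1, 0, 1, 1, 0, 1, 1⟩ = true ∧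
      (Tree.leaf 183 14 14 6 6).ok 0 1 0 0 (GE 1 1 (D 1) (121, 624) (-1331, 15624) (tau0 (121, 624)) p11 k01 k11) ⟨1, 2, 4, 0, 1, 2, 0, 1, 1, 0, 1, 1⟩ = true ∧
      (Tree.leaf 185 14 14 6 6).ok 0 1 0 0 (GE 1 1 (D 1) (121, 624) (-1331, 15624) (tau0 (121, 624)) p11 k01 k11) ⟨1, 2, 4, 1, 2, 2, 0, 1, 1, 0, 1, 1⟩ = true ∧
      (Tree.leaf 166 14 14 6 6).ok 0 1 0 0 (GE 1 1 (D 1) (121, 624) (-1331, 15624) (tau0 (121, 624)) p11 k01 k11) ⟨1, 2, 2, 0, 1, 1, 0, 1, 2, 0, 1, 1⟩ = true ∧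
      (Tree.leaf 167 14 14 6 6).ok 0 1 0 0 (GE 1 1 (D 1) (121, 624) (-1331, 15624) (tau0 (121, 624)) p11 k01 k11) ⟨1, 2, 2, 0, 1, 1, 1, 2, 2, 0, 1, 1⟩ = true) ∧
    ((Tree.leaf 169 14 14 6 6).ok 0 1 0 0 (GE 1 1 (D 1) (121, 624) (-1331, 15624) (tau1 (121, 624)) p11 k01 k11) ⟨0, 1, 4, 0, 1, 1, 0, 1, 1, 0, 1, 1⟩ = true ∧
      (Tree.leaf 171 14 14 6 6).ok 0 1 0 0 (GE 1 1 (D 1) (121, 624) (-1331, 15624) (tau1 (121, 624)) p11 k01 k11) ⟨1, 2, 4, 0, 1, 1, 0, 1, 1, 0, 1, 1⟩ = true ∧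
      (Tree.leaf 166 14 14 6 6).ok 0 1 0 0 (GE 1 1 (D 1) (121, 624) (-1331, 15624) (tau1 (121, 624)) p11 k01 k11) ⟨1, 2, 2, 0, 1, 1, 0, 1, 2, 0, 1, 1⟩ = true ∧
      (Tree.leaf 167 14 14 6 6).ok 0 1 0 0 (GE 1 1 (D 1) (121, 624) (-1331, 15624) (tau1 (121, 624)) p11 k01 k11) ⟨1, 2, 2, 0, 1, 1, 1, 2, 2, 0, 1, 1⟩ = true) ∧
    ((Tree.leaf 174 14 14 6 6).ok 0 1 0 0 (GE 1 2 (D 1) (121, 624) (-1331, 15624) (tau0 (121, 624)) p12 k02 k12) ⟨0, 1, 4, 0, 1, 1, 0, 1, 1, 0, 1, 2⟩ = true ∧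
      (Tree.leaf 175 14 14 6 6).ok 0 1 0 0 (GE 1 2 (D 1) (121, 624) (-1331, 15624) (tau0 (121, 624)) p12 k02 k12) ⟨1, 2, 4, 0, 1, 1, 0, 1, 1, 0, 1, 2⟩ = true ∧
      (Tree.leaf 161 14 14 6 6).ok 0 1 0 0 (GE 1 2 (D 1) (121, 624) (-1331, 15624) (tau0 (121, 624)) p12 k02 k12) ⟨0, 1, 2, 0, 1, 1, 0, 1, 1, 1, 2, 2⟩ = true ∧
      (Tree.leaf 177 14 14 6 6).ok 0 1 0 0 (GE 1 2 (D 1) (121, 624) (-1331, 15624) (tau0 (121, 624)) p12 k02 k12) ⟨1, 2, 2, 0, 1, 2, 0, 1, 1, 0, 1, 2⟩ = true ∧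
      (Tree.leaf 181 14 14 6 6).ok 0 1 0 0 (GE 1 2 (D 1) (121, 624) (-1331, 15624) (tau0 (121, 624)) p12 k02 k12) ⟨1, 2, 2, 1, 2, 2, 0, 1, 1, 0, 1, 2⟩ = true ∧
      (Tree.leaf 166 14 14 6 6).ok 0 1 0 0 (GE 1 2 (D 1) (121, 624) (-1331, 15624) (tau0 (121, 624)) p12 k02 k12) ⟨1, 2, 2, 0, 1, 1, 0, 1, 1, 1, 2, 2⟩ = true) ∧
    ((Tree.leaf 161 14 14 6 6).ok 0 1 0 0 (GE 1 2 (D 1) (121, 624) (-1331, 15624) (tau1 (121, 624)) p12 k02 k12) ⟨0, 1, 2, 0, 1, 1, 0, 1, 1, 0, 1, 2⟩ = true ∧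
      (Tree.leaf 161 14 14 6 6).ok 0 1 0 0 (GE 1 2 (D 1) (121, 624) (-1331, 15624) (tau1 (121, 624)) p12 k02 k12) ⟨0, 1, 2, 0, 1, 1, 0, 1, 1, 1, 2, 2⟩ = true ∧
      (Tree.leaf 166 14 14 6 6).ok 0 1 0 0 (GE 1 2 (D 1) (121, 624) (-1331, 15624) (tau1 (121, 624)) p12 k02 k12) ⟨1, 2, 2, 0, 1, 1, 0, 1, 1, 0, 1, 2⟩ = true ∧
      (Tree.leaf 166 14 14 6 6).ok 0 1 0 0 (GE 1 2 (D 1) (121, 624) (-1331, 15624) (tau1 (121, 624)) p12 k02 k12) ⟨1, 2, 2, 0, 1, 1, 0, 1, 1, 1, 2, 2⟩ = true) ∧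
    ((Tree.leaf 169 14 14 6 6).ok 0 1 0 0 (GE 1 3 (D 1) (121, 624) (-1331, 15624) (tau0 (121, 624)) p13 k03 k13) ⟨0, 1, 4, 0, 1, 1, 0, 1, 1, 0, 1, 1⟩ = true ∧
      (Tree.leaf 182 14 14 6 6).ok 0 1 0 0 (GE 1 3 (D 1) (121, 624) (-1331, 15624) (tau0 (121, 624)) p13 k03 k13) ⟨1, 2, 4, 0, 1, 2, 0, 1, 1, 0, 1, 1⟩ = true ∧
      (Tree.leaf 184 14 14 6 6).ok 0 1 0 0 (GE 1 3 (D 1) (121, 624) (-1331, 15624) (tau0 (121, 624)) p13 k03 k13) ⟨1, 2, 4, 1, 2, 2, 0, 1, 1, 0, 1, 1⟩ = true ∧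
      (Tree.leaf 177 14 14 6 6).ok 0 1 0 0 (GE 1 3 (D 1) (121, 624) (-1331, 15624) (tau0 (121, 624)) p13 k03 k13) ⟨1, 2, 2, 0, 1, 2, 0, 1, 2, 0, 1, 1⟩ = true ∧
      (Tree.leaf 180 14 14 6 6).ok 0 1 0 0 (GE 1 3 (D 1) (121, 624) (-1331, 15624) (tau0 (121, 624)) p13 k03 k13) ⟨1, 2, 2, 1, 2, 2, 0, 1, 2, 0, 1, 1⟩ = true ∧
      (Tree.leaf 178 14 14 6 6).ok 0 1 0 0 (GE 1 3 (D 1) (121, 624) (-1331, 15624) (tau0 (121, 624)) p13 k03 k13) ⟨1, 2, 2, 0, 1, 2, 1, 2, 2, 0, 1, 1⟩ = true ∧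
      (Tree.leaf 182 14 14 6 6).ok 0 1 0 0 (GE 1 3 (D 1) (121, 624) (-1331, 15624) (tau0 (121, 624)) p13 k03 k13) ⟨1, 2, 2, 1, 2, 2, 1, 2, 2, 0, 1, 1⟩ = true) ∧
    ((Tree.leaf 156 14 14 6 6).ok 0 1 0 0 (GE 1 3 (D 1) (121, 624) (-1331, 15624) (tau1 (121, 624)) p13 k03 k13) ⟨0, 1, 2, 0, 1, 1, 0, 1, 1, 0, 1, 1⟩ = true ∧
      (Tree.leaf 165 14 14 6 6).ok 0 1 0 0 (GE 1 3 (D 1) (121, 624) (-1331, 15624) (tau1 (121, 624)) p13 k03 k13) ⟨1, 2, 2, 0, 1, 1, 0, 1, 2, 0, 1, 1⟩ = true ∧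
      (Tree.leaf 167 14 14 6 6).ok 0 1 0 0 (GE 1 3 (D 1) (121, 624) (-1331, 15624) (tau1 (121, 624)) p13 k03 k13) ⟨1, 2, 2, 0, 1, 1, 1, 2, 2, 0, 1, 1⟩ = true) ∧
    ((Tree.leaf 57 9 10 5 1).ok 0 1 0 0 (SEG D23 (-31156, 4095) (sP (0, 0) (1, 0)) p20 p21 p22 p23) ⟨0, 1, 1, 0, 1, 2, 0, 1, 1, 0, 1, 1⟩ = true ∧
      (Tree.leaf 60 9 10 5 1).ok 0 1 0 0 (SEG D23 (-31156, 4095) (sP (0, 0) (1, 0)) p20 p21 p22 p23) ⟨0, 1, 1, 1, 2, 2, 0, 1, 1, 0, 1, 1⟩ = true) ∧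
    ((Tree.leaf 42 10 1 4 1).ok 0 1 0 0 (RE D23 (-31156, 4095)) ⟨0, 1, 1, 0, 1, 1, 0, 1, 1, 0, 1, 1⟩ = true) ∧
    ((Tree.leaf 152 14 10 4 1).ok 0 1 0 0 (UE0 (22, 24) D20) ⟨0, 1, 4, 0, 1, 2, 0, 1, 1, 0, 1, 1⟩ = true ∧
      (Tree.leaf 155 14 10 4 1).ok 0 1 0 0 (UE0 (22, 24) D20) ⟨1, 2, 4, 0, 1, 2, 0, 1, 1, 0, 1, 1⟩ = true ∧
      (Tree.leaf 147 14 10 4 1).ok 0 1 0 0 (UE0 (22, 24) D20) ⟨0, 1, 2, 1, 2, 2, 0, 1, 2, 0, 1, 1⟩ = true ∧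
      (Tree.leaf 148 14 10 4 1).ok 0 1 0 0 (UE0 (22, 24) D20) ⟨0, 1, 2, 1, 2, 2, 1, 2, 2, 0, 1, 1⟩ = true ∧
      (Tree.leaf 139 14 10 4 1).ok 0 1 0 0 (UE0 (22, 24) D20) ⟨1, 2, 2, 0, 1, 1, 0, 1, 1, 0, 1, 1⟩ = true) ∧
    ((Tree.leaf 139 14 10 4 1).ok 0 1 0 0 (UE1 (11, 24) D20) ⟨0, 1, 2, 0, 1, 2, 0, 1, 1, 0, 1, 1⟩ = true ∧
      (Tree.leaf 142 14 10 4 1).ok 0 1 0 0 (UE1 (11, 24) D20) ⟨1, 2, 2, 0, 1, 2, 0, 1, 1, 0, 1, 1⟩ = true ∧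
      (Tree.leaf 151 14 10 4 1).ok 0 1 0 0 (UE1 (11, 24) D20) ⟨0, 1, 2, 2, 3, 4, 0, 1, 1, 0, 1, 1⟩ = true ∧
      (Tree.leaf 152 14 10 4 1).ok 0 1 0 0 (UE1 (11, 24) D20) ⟨0, 1, 2, 3, 4, 4, 0, 1, 1, 0, 1, 1⟩ = true ∧
      (Tree.leaf 146 14 10 4 1).ok 0 1 0 0 (UE1 (11, 24) D20) ⟨1, 2, 2, 1, 2, 2, 0, 1, 1, 0, 1, 1⟩ = true) ∧
    ((Tree.leaf 153 14 10 4 1).ok 0 1 0 0 (UE0 (22, 24) D21) ⟨0, 1, 4, 0, 1, 2, 0, 1, 1, 0, 1, 1⟩ = true ∧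
      (Tree.leaf 155 14 10 4 1).ok 0 1 0 0 (UE0 (22, 24) D21) ⟨1, 2, 4, 0, 1, 2, 0, 1, 1, 0, 1, 1⟩ = true ∧
      (Tree.leaf 146 14 10 4 1).ok 0 1 0 0 (UE0 (22, 24) D21) ⟨1, 2, 2, 0, 1, 2, 0, 1, 1, 0, 1, 1⟩ = true ∧
      (Tree.leaf 147 14 10 4 1).ok 0 1 0 0 (UE0 (22, 24) D21) ⟨0, 1, 2, 1, 2, 2, 0, 1, 2, 0, 1, 1⟩ = true ∧
      (Tree.leaf 148 14 10 4 1).ok 0 1 0 0 (UE0 (22, 24) D21) ⟨0, 1, 2, 1, 2, 2, 1, 2, 2, 0, 1, 1⟩ = true ∧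
      (Tree.leaf 151 14 10 4 1).ok 0 1 0 0 (UE0 (22, 24) D21) ⟨1, 2, 2, 1, 2, 2, 0, 1, 1, 0, 1, 1⟩ = true) ∧
    ((Tree.leaf 142 14 10 4 1).ok 0 1 0 0 (UE1 (11, 24) D21) ⟨0, 1, 2, 0, 1, 2, 0, 1, 2, 0, 1, 1⟩ = true ∧
      (Tree.leaf 145 14 10 4 1).ok 0 1 0 0 (UE1 (11, 24) D21) ⟨1, 2, 2, 0, 1, 2, 0, 1, 2, 0, 1, 1⟩ = true ∧
      (Tree.leaf 131 14 10 4 1).ok 0 1 0 0 (UE1 (11, 24) D21) ⟨0, 1, 1, 0, 1, 2, 1, 2, 2, 0, 1, 1⟩ = true ∧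
      (Tree.leaf 134 14 10 4 1).ok 0 1 0 0 (UE1 (11, 24) D21) ⟨0, 1, 1, 1, 2, 2, 0, 1, 2, 0, 1, 1⟩ = true ∧
      (Tree.leaf 143 14 10 4 1).ok 0 1 0 0 (UE1 (11, 24) D21) ⟨0, 1, 1, 2, 3, 4, 1, 2, 2, 0, 1, 1⟩ = true ∧
      (Tree.leaf 145 14 10 4 1).ok 0 1 0 0 (UE1 (11, 24) D21) ⟨0, 1, 1, 3, 4, 4, 1, 2, 2, 0, 1, 1⟩ = true) ∧
    ((Tree.leaf 149 14 10 4 1).ok 0 1 0 0 (UE0 (22, 24) D22) ⟨0, 1, 2, 0, 1, 4, 0, 1, 1, 0, 1, 1⟩ = true ∧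
      (Tree.leaf 150 14 10 4 1).ok 0 1 0 0 (UE0 (22, 24) D22) ⟨0, 1, 2, 1, 2, 4, 0, 1, 1, 0, 1, 1⟩ = true ∧
      (Tree.leaf 146 14 10 4 1).ok 0 1 0 0 (UE0 (22, 24) D22) ⟨1, 2, 2, 0, 1, 2, 0, 1, 1, 0, 1, 1⟩ = true ∧
      (Tree.leaf 147 14 10 4 1).ok 0 1 0 0 (UE0 (22, 24) D22) ⟨0, 1, 2, 1, 2, 2, 0, 1, 2, 0, 1, 1⟩ = true ∧
      (Tree.leaf 148 14 10 4 1).ok 0 1 0 0 (UE0 (22, 24) D22) ⟨0, 1, 2, 1, 2, 2, 1, 2, 2, 0, 1, 1⟩ = true ∧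
      (Tree.leaf 151 14 10 4 1).ok 0 1 0 0 (UE0 (22, 24) D22) ⟨1, 2, 2, 1, 2, 2, 0, 1, 1, 0, 1, 1⟩ = true) ∧
    ((Tree.leaf 140 14 10 4 1).ok 0 1 0 0 (UE1 (11, 24) D22) ⟨0, 1, 2, 0, 1, 2, 0, 1, 1, 0, 1, 1⟩ = true ∧
      (Tree.leaf 154 14 10 4 1).ok 0 1 0 0 (UE1 (11, 24) D22) ⟨2, 3, 4, 0, 1, 2, 0, 1, 1, 0, 1, 1⟩ = true ∧
      (Tree.leaf 156 14 10 4 1).ok 0 1 0 0 (UE1 (11, 24) D22) ⟨3, 4, 4, 0, 1, 2, 0, 1, 1, 0, 1, 1⟩ = true ∧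
      (Tree.leaf 134 14 10 4 1).ok 0 1 0 0 (UE1 (11, 24) D22) ⟨0, 1, 1, 1, 2, 2, 0, 1, 2, 0, 1, 1⟩ = true ∧
      (Tree.leaf 146 14 10 4 1).ok 0 1 0 0 (UE1 (11, 24) D22) ⟨0, 1, 2, 1, 2, 2, 1, 2, 2, 0, 1, 1⟩ = true ∧
      (Tree.leaf 149 14 10 4 1).ok 0 1 0 0 (UE1 (11, 24) D22) ⟨1, 2, 2, 1, 2, 2, 1, 2, 2, 0, 1, 1⟩ = true) ∧
    ((Tree.leaf 140 14 10 4 1).ok 0 1 0 0 (UE0 (22, 24) D23) ⟨0, 1, 2, 0, 1, 2, 0, 1, 1, 0, 1, 1⟩ = true ∧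
      (Tree.leaf 143 14 10 4 1).ok 0 1 0 0 (UE0 (22, 24) D23) ⟨0, 1, 2, 1, 2, 2, 0, 1, 1, 0, 1, 1⟩ = true ∧
      (Tree.leaf 139 14 10 4 1).ok 0 1 0 0 (UE0 (22, 24) D23) ⟨1, 2, 2, 0, 1, 1, 0, 1, 1, 0, 1, 1⟩ = true) ∧
    ((Tree.leaf 152 14 10 4 1).ok 0 1 0 0 (UE1 (11, 24) D23) ⟨0, 1, 4, 0, 1, 2, 0, 1, 1, 0, 1, 1⟩ = true ∧
      (Tree.leaf 153 14 10 4 1).ok 0 1 0 0 (UE1 (11, 24) D23) ⟨1, 2, 4, 0, 1, 2, 0, 1, 1, 0, 1, 1⟩ = true ∧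
      (Tree.leaf 141 14 10 4 1).ok 0 1 0 0 (UE1 (11, 24) D23) ⟨1, 2, 2, 0, 1, 2, 0, 1, 1, 0, 1, 1⟩ = true ∧
      (Tree.leaf 150 14 10 4 1).ok 0 1 0 0 (UE1 (11, 24) D23) ⟨0, 1, 2, 2, 3, 4, 0, 1, 1, 0, 1, 1⟩ = true ∧
      (Tree.leaf 153 14 10 4 1).ok 0 1 0 0 (UE1 (11, 24) D23) ⟨1, 2, 2, 2, 3, 4, 0, 1, 1, 0, 1, 1⟩ = true ∧
      (Tree.leaf 149 14 10 4 1).ok 0 1 0 0 (UE1 (11, 24) D23) ⟨0, 1, 1, 6, 7, 8, 0, 1, 1, 0, 1, 1⟩ = true ∧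
      (Tree.leaf 150 14 10 4 1).ok 0 1 0 0 (UE1 (11, 24) D23) ⟨0, 1, 1, 7, 8, 8, 0, 1, 1, 0, 1, 1⟩ = true) ∧
    ((Tree.leaf 158 14 14 6 6).ok 0 1 0 0 (GE 2 0 (D 2) (121, 624) (-1331, 15624) (tau0 (121, 624)) p20 k00 k10) ⟨0, 1, 2, 0, 1, 1, 0, 1, 1, 0, 1, 1⟩ = true ∧
      (Tree.leaf 167 14 14 6 6).ok 0 1 0 0 (GE 2 0 (D 2) (121, 624) (-1331, 15624) (tau0 (121, 624)) p20 k00 k10) ⟨1, 2, 2, 0, 1, 1, 0, 1, 2, 0, 1, 1⟩ = true ∧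
      (Tree.leaf 179 14 14 6 6).ok 0 1 0 0 (GE 2 0 (D 2) (121, 624) (-1331, 15624) (tau0 (121, 624)) p20 k00 k10) ⟨1, 2, 2, 0, 1, 2, 1, 2, 2, 0, 1, 1⟩ = true ∧
      (Tree.leaf 183 14 14 6 6).ok 0 1 0 0 (GE 2 0 (D 2) (121, 624) (-1331, 15624) (tau0 (121, 624)) p20 k00 k10) ⟨1, 2, 2, 1, 2, 2, 1, 2, 2, 0, 1, 1⟩ = true) ∧
    ((Tree.leaf 158 14 14 6 6).ok 0 1 0 0 (GE 2 0 (D 2) (121, 624) (-1331, 15624) (tau1 (121, 624)) p20 k00 k10) ⟨0, 1, 2, 0, 1, 1, 0, 1, 1, 0, 1, 1⟩ = true ∧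
      (Tree.leaf 162 14 14 6 6).ok 0 1 0 0 (GE 2 0 (D 2) (121, 624) (-1331, 15624) (tau1 (121, 624)) p20 k00 k10) ⟨1, 2, 2, 0, 1, 1, 0, 1, 1, 0, 1, 1⟩ = true) ∧
    ((Tree.leaf 158 14 14 6 6).ok 0 1 0 0 (GE 2 1 (D 2) (121, 624) (-1331, 15624) (tau0 (121, 624)) p21 k01 k11) ⟨0, 1, 2, 0, 1, 1, 0, 1, 1, 0, 1, 1⟩ = true ∧
      (Tree.leaf 174 14 14 6 6).ok 0 1 0 0 (GE 2 1 (D 2) (121, 624) (-1331, 15624) (tau0 (121, 624)) p21 k01 k11) ⟨1, 2, 2, 0, 1, 2, 0, 1, 1, 0, 1, 1⟩ = true ∧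
      (Tree.leaf 177 14 14 6 6).ok 0 1 0 0 (GE 2 1 (D 2) (121, 624) (-1331, 15624) (tau0 (121, 624)) p21 k01 k11) ⟨1, 2, 2, 1, 2, 2, 0, 1, 1, 0, 1, 1⟩ = true) ∧
    ((Tree.leaf 158 14 14 6 6).ok 0 1 0 0 (GE 2 1 (D 2) (121, 624) (-1331, 15624) (tau1 (121, 624)) p21 k01 k11) ⟨0, 1, 2, 0, 1, 1, 0, 1, 1, 0, 1, 1⟩ = true ∧
      (Tree.leaf 162 14 14 6 6).ok 0 1 0 0 (GE 2 1 (D 2) (121, 624) (-1331, 15624) (tau1 (121, 624)) p21 k01 k11) ⟨1, 2, 2, 0, 1, 1, 0, 1, 1, 0, 1, 1⟩ = true) ∧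
    ((Tree.leaf 184 14 14 6 6).ok 0 1 0 0 (GE 2 2 (D 2) (121, 624) (-1331, 15624) (tau0 (121, 624)) p22 k02 k12) ⟨0, 1, 4, 0, 1, 2, 0, 1, 1, 0, 1, 1⟩ = true ∧
      (Tree.leaf 184 14 14 6 6).ok 0 1 0 0 (GE 2 2 (D 2) (121, 624) (-1331, 15624) (tau0 (121, 624)) p22 k02 k12) ⟨1, 2, 4, 0, 1, 2, 0, 1, 1, 0, 1, 1⟩ = true ∧
      (Tree.leaf 172 14 14 6 6).ok 0 1 0 0 (GE 2 2 (D 2) (121, 624) (-1331, 15624) (tau0 (121, 624)) p22 k02 k12) ⟨0, 1, 2, 1, 2, 2, 0, 1, 1, 0, 1, 1⟩ = true ∧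
      (Tree.leaf 167 14 14 6 6).ok 0 1 0 0 (GE 2 2 (D 2) (121, 624) (-1331, 15624) (tau0 (121, 624)) p22 k02 k12) ⟨1, 2, 2, 0, 1, 1, 0, 1, 2, 0, 1, 1⟩ = true ∧
      (Tree.leaf 168 14 14 6 6).ok 0 1 0 0 (GE 2 2 (D 2) (121, 624) (-1331, 15624) (tau0 (121, 624)) p22 k02 k12) ⟨1, 2, 2, 0, 1, 1, 1, 2, 2, 0, 1, 1⟩ = true) ∧
    ((Tree.leaf 158 14 14 6 6).ok 0 1 0 0 (GE 2 2 (D 2) (121, 624) (-1331, 15624) (tau1 (121, 624)) p22 k02 k12) ⟨0, 1, 2, 0, 1, 1, 0, 1, 1, 0, 1, 1⟩ = true ∧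
      (Tree.leaf 167 14 14 6 6).ok 0 1 0 0 (GE 2 2 (D 2) (121, 624) (-1331, 15624) (tau1 (121, 624)) p22 k02 k12) ⟨1, 2, 2, 0, 1, 1, 0, 1, 2, 0, 1, 1⟩ = true ∧
      (Tree.leaf 168 14 14 6 6).ok 0 1 0 0 (GE 2 2 (D 2) (121, 624) (-1331, 15624) (tau1 (121, 624)) p22 k02 k12) ⟨1, 2, 2, 0, 1, 1, 1, 2, 2, 0, 1, 1⟩ = true) ∧
    ((Tree.leaf 163 14 14 6 6).ok 0 1 0 0 (GE 2 3 (D 2) (121, 624) (-1331, 15624) (tau0 (121, 624)) p23 k03 k13) ⟨0, 1, 1, 0, 1, 2, 0, 1, 2, 0, 1, 1⟩ = true ∧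
      (Tree.leaf 165 14 14 6 6).ok 0 1 0 0 (GE 2 3 (D 2) (121, 624) (-1331, 15624) (tau0 (121, 624)) p23 k03 k13) ⟨0, 1, 1, 1, 2, 2, 0, 1, 2, 0, 1, 1⟩ = true ∧
      (Tree.leaf 169 14 14 6 6).ok 0 1 0 0 (GE 2 3 (D 2) (121, 624) (-1331, 15624) (tau0 (121, 624)) p23 k03 k13) ⟨0, 1, 1, 0, 1, 2, 2, 3, 4, 0, 1, 1⟩ = true ∧
      (Tree.leaf 171 14 14 6 6).ok 0 1 0 0 (GE 2 3 (D 2) (121, 624) (-1331, 15624) (tau0 (121, 624)) p23 k03 k13) ⟨0, 1, 1, 1, 2, 2, 2, 3, 4, 0, 1, 1⟩ = true ∧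
      (Tree.leaf 169 14 14 6 6).ok 0 1 0 0 (GE 2 3 (D 2) (121, 624) (-1331, 15624) (tau0 (121, 624)) p23 k03 k13) ⟨0, 1, 1, 0, 1, 2, 3, 4, 4, 0, 1, 1⟩ = true ∧
      (Tree.leaf 171 14 14 6 6).ok 0 1 0 0 (GE 2 3 (D 2) (121, 624) (-1331, 15624) (tau0 (121, 624)) p23 k03 k13) ⟨0, 1, 1, 1, 2, 2, 3, 4, 4, 0, 1, 1⟩ = true) ∧
    ((Tree.leaf 151 14 14 6 6).ok 0 1 0 0 (GE 2 3 (D 2) (121, 624) (-1331, 15624) (tau1 (121, 624)) p23 k03 k13) ⟨0, 1, 1, 0, 1, 1, 0, 1, 2, 0, 1, 1⟩ = true ∧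
      (Tree.leaf 163 14 14 6 6).ok 0 1 0 0 (GE 2 3 (D 2) (121, 624) (-1331, 15624) (tau1 (121, 624)) p23 k03 k13) ⟨0, 1, 2, 0, 1, 1, 1, 2, 2, 0, 1, 1⟩ = true ∧
      (Tree.leaf 167 14 14 6 6).ok 0 1 0 0 (GE 2 3 (D 2) (121, 624) (-1331, 15624) (tau1 (121, 624)) p23 k03 k13) ⟨1, 2, 2, 0, 1, 1, 1, 2, 2, 0, 1, 1⟩ = true) :=
  ⟨by decide +kernel,
   by decide +kernel,
   ⟨by decide +kernel, by decide +kernel, by decide +kernel, by decide +kernel, by decide +kernel, by decide +kernel⟩,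
   ⟨by decide +kernel, by decide +kernel, by decide +kernel, by decide +kernel, by decide +kernel, by decide +kernel⟩,
   ⟨by decide +kernel, by decide +kernel, by decide +kernel, by decide +kernel, by decide +kernel, by decide +kernel, by decide +kernel⟩,
   ⟨by decide +kernel, by decide +kernel, by decide +kernel, by decide +kernel, by decide +kernel⟩,
   ⟨by decide +kernel, by decide +kernel, by decide +kernel, by decide +kernel⟩,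
   ⟨by decide +kernel, by decide +kernel, by decide +kernel, by decide +kernel, by decide +kernel⟩,
   ⟨by decide +kernel, by decide +kernel, by decide +kernel⟩,
   ⟨by decide +kernel, by decide +kernel, by decide +kernel, by decide +kernel, by decide +kernel, by decide +kernel, by decide +kernel⟩,
   ⟨by decide +kernel, by decide +kernel, by decide +kernel, by decide +kernel⟩,
   ⟨by decide +kernel, by decide +kernel, by decide +kernel, by decide +kernel⟩,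
   ⟨by decide +kernel, by decide +kernel, by decide +kernel, by decide +kernel, by decide +kernel⟩,
   ⟨by decide +kernel, by decide +kernel, by decide +kernel, by decide +kernel⟩,
   ⟨by decide +kernel, by decide +kernel, by decide +kernel, by decide +kernel, by decide +kernel⟩,
   ⟨by decide +kernel, by decide +kernel, by decide +kernel, by decide +kernel⟩,
   ⟨by decide +kernel, by decide +kernel, by decide +kernel, by decide +kernel⟩,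
   ⟨by decide +kernel, by decide +kernel, by decide +kernel, by decide +kernel⟩,
   ⟨by decide +kernel, by decide +kernel, by decide +kernel, by decide +kernel⟩,
   by decide +kernel,
   ⟨by decide +kernel, by decide +kernel, by decide +kernel, by decide +kernel, by decide +kernel⟩,
   ⟨by decide +kernel, by decide +kernel, by decide +kernel, by decide +kernel, by decide +kernel, by decide +kernel⟩,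
   ⟨by decide +kernel, by decide +kernel, by decide +kernel, by decide +kernel, by decide +kernel, by decide +kernel⟩,
   ⟨by decide +kernel, by decide +kernel, by decide +kernel, by decide +kernel, by decide +kernel, by decide +kernel, by decide +kernel⟩,
   ⟨by decide +kernel, by decide +kernel, by decide +kernel, by decide +kernel⟩,
   ⟨by decide +kernel, by decide +kernel, by decide +kernel, by decide +kernel, by decide +kernel⟩,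
   ⟨by decide +kernel, by decide +kernel, by decide +kernel, by decide +kernel, by decide +kernel⟩,
   ⟨by decide +kernel, by decide +kernel, by decide +kernel, by decide +kernel, by decide +kernel⟩,
   ⟨by decide +kernel, by decide +kernel, by decide +kernel, by decide +kernel, by decide +kernel⟩,
   ⟨by decide +kernel, by decide +kernel, by decide +kernel⟩,
   ⟨by decide +kernel, by decide +kernel, by decide +kernel, by decide +kernel, by decide +kernel⟩,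
   ⟨by decide +kernel, by decide +kernel, by decide +kernel, by decide +kernel⟩,
   ⟨by decide +kernel, by decide +kernel, by decide +kernel, by decide +kernel, by decide +kernel, by decide +kernel⟩,
   ⟨by decide +kernel, by decide +kernel, by decide +kernel, by decide +kernel⟩,
   ⟨by decide +kernel, by decide +kernel, by decide +kernel, by decide +kernel, by decide +kernel, by decide +kernel, by decide +kernel⟩,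
   ⟨by decide +kernel, by decide +kernel, by decide +kernel⟩,
   ⟨by decide +kernel, by decide +kernel⟩,
   by decide +kernel,
   ⟨by decide +kernel, by decide +kernel, by decide +kernel, by decide +kernel, by decide +kernel⟩,
   ⟨by decide +kernel, by decide +kernel, by decide +kernel, by decide +kernel, by decide +kernel⟩,
   ⟨by decide +kernel, by decide +kernel, by decide +kernel, by decide +kernel, by decide +kernel, by decide +kernel⟩,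
   ⟨by decide +kernel, by decide +kernel, by decide +kernel, by decide +kernel, by decide +kernel, by decide +kernel⟩,
   ⟨by decide +kernel, by decide +kernel, by decide +kernel, by decide +kernel, by decide +kernel, by decide +kernel⟩,
   ⟨by decide +kernel, by decide +kernel, by decide +kernel, by decide +kernel, by decide +kernel, by decide +kernel⟩,
   ⟨by decide +kernel, by decide +kernel, by decide +kernel⟩,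
   ⟨by decide +kernel, by decide +kernel, by decide +kernel, by decide +kernel, by decide +kernel, by decide +kernel, by decide +kernel⟩,
   ⟨by decide +kernel, by decide +kernel, by decide +kernel, by decide +kernel⟩,
   ⟨by decide +kernel, by decide +kernel⟩,
   ⟨by decide +kernel, by decide +kernel, by decide +kernel⟩,
   ⟨by decide +kernel, by decide +kernel⟩,
   ⟨by decide +kernel, by decide +kernel, by decide +kernel, by decide +kernel, by decide +kernel⟩,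
   ⟨by decide +kernel, by decide +kernel, by decide +kernel⟩,
   ⟨by decide +kernel, by decide +kernel, by decide +kernel, by decide +kernel, by decide +kernel, by decide +kernel⟩,
   ⟨by decide +kernel, by decide +kernel, by decide +kernel⟩⟩

def t_s0 : Tree := (.leaf 60 9 16 6 1)
theorem s0 : t_s0.ok 0 1 0 0 (SEG D03 (0, 0) (sP (0, 0) (1, 0)) p00 p01 p02 p03) unitBx = true :=
  lv.1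

def t_r0 : Tree := (.leaf 53 16 1 6 1)
theorem r0 : t_r0.ok 0 1 0 0 (RE D03 (0, 0)) unitBx = true :=
  lv.2.1

def t_u00 : Tree := (.s1 (.s0 (.s0 (.leaf 193 17 16 6 1) (.leaf 197 17 16 6 1)) (.leaf 185 17 16 6 1)) (.s0 (.s2 (.leaf 189 17 16 6 1) (.leaf 191 17 16 6 1)) (.leaf 192 17 16 6 1)))
theorem u00 : t_u00.ok 0 1 0 0 (UE0 (22, 24) D00) unitBx = true :=
  (Tree.ok_s1 (Tree.ok_s0 (Tree.ok_s0 lv.2.2.1.1 lv.2.2.1.2.1) lv.2.2.1.2.2.1) (Tree.ok_s0 (Tree.ok_s2 lv.2.2.1.2.2.2.1 lv.2.2.1.2.2.2.2.1) lv.2.2.1.2.2.2.2.2))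

def t_v00 : Tree := (.s1 (.s1 (.leaf 177 17 16 6 1) (.leaf 179 17 16 6 1)) (.s2 (.s1 (.leaf 187 17 16 6 1) (.leaf 190 17 16 6 1)) (.s1 (.leaf 188 17 16 6 1) (.leaf 191 17 16 6 1))))
theorem v00 : t_v00.ok 0 1 0 0 (UE1 (11, 24) D00) unitBx = true :=
  (Tree.ok_s1 (Tree.ok_s1 lv.2.2.2.1.1 lv.2.2.2.1.2.1) (Tree.ok_s2 (Tree.ok_s1 lv.2.2.2.1.2.2.1 lv.2.2.2.1.2.2.2.1) (Tree.ok_s1 lv.2.2.2.1.2.2.2.2.1 lv.2.2.2.1.2.2.2.2.2)))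

def t_u01 : Tree := (.s1 (.s0 (.s0 (.leaf 193 17 16 6 1) (.leaf 197 17 16 6 1)) (.leaf 185 17 16 6 1)) (.s0 (.s0 (.leaf 198 17 16 6 1) (.leaf 202 17 16 6 1)) (.s0 (.leaf 206 17 16 6 1) (.leaf 209 17 16 6 1))))
theorem u01 : t_u01.ok 0 1 0 0 (UE0 (22, 24) D01) unitBx = true :=
  (Tree.ok_s1 (Tree.ok_s0 (Tree.ok_s0 lv.2.2.2.2.1.1 lv.2.2.2.2.1.2.1) lv.2.2.2.2.1.2.2.1) (Tree.ok_s0 (Tree.ok_s0 lv.2.2.2.2.1.2.2.2.1 lv.2.2.2.2.1.2.2.2.2.1) (Tree.ok_s0 lv.2.2.2.2.1.2.2.2.2.2.1 lv.2.2.2.2.1.2.2.2.2.2.2)))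

def t_v01 : Tree := (.s1 (.leaf 163 17 16 6 1) (.s2 (.s1 (.leaf 186 17 16 6 1) (.leaf 189 17 16 6 1)) (.s1 (.leaf 187 17 16 6 1) (.leaf 191 17 16 6 1))))
theorem v01 : t_v01.ok 0 1 0 0 (UE1 (11, 24) D01) unitBx = true :=
  (Tree.ok_s1 lv.2.2.2.2.2.1.1 (Tree.ok_s2 (Tree.ok_s1 lv.2.2.2.2.2.1.2.1 lv.2.2.2.2.2.1.2.2.1) (Tree.ok_s1 lv.2.2.2.2.2.1.2.2.2.1 lv.2.2.2.2.2.1.2.2.2.2)))

def t_u02 : Tree := (.s0 (.s1 (.leaf 178 17 16 6 1) (.s0 (.leaf 197 17 16 6 1) (.leaf 201 17 16 6 1))) (.leaf 172 17 16 6 1))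
theorem u02 : t_u02.ok 0 1 0 0 (UE0 (22, 24) D02) unitBx = true :=
  (Tree.ok_s0 (Tree.ok_s1 lv.2.2.2.2.2.2.1.1 (Tree.ok_s0 lv.2.2.2.2.2.2.1.2.1 lv.2.2.2.2.2.2.1.2.2.1)) lv.2.2.2.2.2.2.1.2.2.2)

def t_v02 : Tree := (.s1 (.leaf 162 17 16 6 1) (.s2 (.s1 (.leaf 185 17 16 6 1) (.leaf 188 17 16 6 1)) (.s1 (.leaf 186 17 16 6 1) (.leaf 189 17 16 6 1))))
theorem v02 : t_v02.ok 0 1 0 0 (UE1 (11, 24) D02) unitBx = true :=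
  (Tree.ok_s1 lv.2.2.2.2.2.2.2.1.1 (Tree.ok_s2 (Tree.ok_s1 lv.2.2.2.2.2.2.2.1.2.1 lv.2.2.2.2.2.2.2.1.2.2.1) (Tree.ok_s1 lv.2.2.2.2.2.2.2.1.2.2.2.1 lv.2.2.2.2.2.2.2.1.2.2.2.2)))

def t_u03 : Tree := (.s0 (.s1 (.leaf 178 17 16 6 1) (.leaf 184 17 16 6 1)) (.leaf 173 17 16 6 1))
theorem u03 : t_u03.ok 0 1 0 0 (UE0 (22, 24) D03) unitBx = true :=
  (Tree.ok_s0 (Tree.ok_s1 lv.2.2.2.2.2.2.2.2.1.1 lv.2.2.2.2.2.2.2.2.1.2.1) lv.2.2.2.2.2.2.2.2.1.2.2)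

def t_v03 : Tree := (.s1 (.s0 (.leaf 177 17 16 6 1) (.s0 (.leaf 195 17 16 6 1) (.leaf 197 17 16 6 1))) (.s1 (.s0 (.leaf 195 17 16 6 1) (.leaf 199 17 16 6 1)) (.s2 (.leaf 189 17 16 6 1) (.leaf 190 17 16 6 1))))
theorem v03 : t_v03.ok 0 1 0 0 (UE1 (11, 24) D03) unitBx = true :=
  (Tree.ok_s1 (Tree.ok_s0 lv.2.2.2.2.2.2.2.2.2.1.1 (Tree.ok_s0 lv.2.2.2.2.2.2.2.2.2.1.2.1 lv.2.2.2.2.2.2.2.2.2.1.2.2.1)) (Tree.ok_s1 (Tree.ok_s0 lv.2.2.2.2.2.2.2.2.2.1.2.2.2.1 lv.2.2.2.2.2.2.2.2.2.1.2.2.2.2.1) (Tree.ok_s2 lv.2.2.2.2.2.2.2.2.2.1.2.2.2.2.2.1 lv.2.2.2.2.2.2.2.2.2.1.2.2.2.2.2.2)))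

def t_h000 : Tree := (.s0 (.s1 (.leaf 190 16 16 6 6) (.leaf 191 16 16 6 6)) (.s2 (.leaf 185 16 16 6 6) (.leaf 186 16 16 6 6)))
theorem h000 : t_h000.ok 0 1 0 0 (GE 0 0 (D 0) (121, 624) (-1331, 15624) (tau0 (121, 624)) p00 k00 k10) unitBx = true :=
  (Tree.ok_s0 (Tree.ok_s1 lv.2.2.2.2.2.2.2.2.2.2.1.1 lv.2.2.2.2.2.2.2.2.2.2.1.2.1) (Tree.ok_s2 lv.2.2.2.2.2.2.2.2.2.2.1.2.2.1 lv.2.2.2.2.2.2.2.2.2.2.1.2.2.2))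

def t_h001 : Tree := (.s0 (.s1 (.leaf 190 16 16 6 6) (.leaf 191 16 16 6 6)) (.s2 (.leaf 185 16 16 6 6) (.leaf 187 16 16 6 6)))
theorem h001 : t_h001.ok 0 1 0 0 (GE 0 0 (D 0) (121, 624) (-1331, 15624) (tau1 (121, 624)) p00 k00 k10) unitBx = true :=
  (Tree.ok_s0 (Tree.ok_s1 lv.2.2.2.2.2.2.2.2.2.2.2.1.1 lv.2.2.2.2.2.2.2.2.2.2.2.1.2.1) (Tree.ok_s2 lv.2.2.2.2.2.2.2.2.2.2.2.1.2.2.1 lv.2.2.2.2.2.2.2.2.2.2.2.1.2.2.2))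

def t_h010 : Tree := (.s2 (.s0 (.leaf 180 16 16 6 6) (.leaf 185 16 16 6 6)) (.s0 (.s0 (.leaf 195 16 16 6 6) (.leaf 196 16 16 6 6)) (.leaf 186 16 16 6 6)))
theorem h010 : t_h010.ok 0 1 0 0 (GE 0 1 (D 0) (121, 624) (-1331, 15624) (tau0 (121, 624)) p01 k01 k11) unitBx = true :=
  (Tree.ok_s2 (Tree.ok_s0 lv.2.2.2.2.2.2.2.2.2.2.2.2.1.1 lv.2.2.2.2.2.2.2.2.2.2.2.2.1.2.1) (Tree.ok_s0 (Tree.ok_s0 lv.2.2.2.2.2.2.2.2.2.2.2.2.1.2.2.1 lv.2.2.2.2.2.2.2.2.2.2.2.2.1.2.2.2.1) lv.2.2.2.2.2.2.2.2.2.2.2.2.1.2.2.2.2))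

def t_h011 : Tree := (.s2 (.s0 (.leaf 180 16 16 6 6) (.leaf 185 16 16 6 6)) (.s0 (.leaf 180 16 16 6 6) (.leaf 186 16 16 6 6)))
theorem h011 : t_h011.ok 0 1 0 0 (GE 0 1 (D 0) (121, 624) (-1331, 15624) (tau1 (121, 624)) p01 k01 k11) unitBx = true :=
  (Tree.ok_s2 (Tree.ok_s0 lv.2.2.2.2.2.2.2.2.2.2.2.2.2.1.1 lv.2.2.2.2.2.2.2.2.2.2.2.2.2.1.2.1) (Tree.ok_s0 lv.2.2.2.2.2.2.2.2.2.2.2.2.2.1.2.2.1 lv.2.2.2.2.2.2.2.2.2.2.2.2.2.1.2.2.2))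

def t_h020 : Tree := (.s3 (.s0 (.s0 (.leaf 194 16 16 6 6) (.leaf 195 16 16 6 6)) (.leaf 184 16 16 6 6)) (.s0 (.leaf 180 16 16 6 6) (.leaf 185 16 16 6 6)))
theorem h020 : t_h020.ok 0 1 0 0 (GE 0 2 (D 0) (121, 624) (-1331, 15624) (tau0 (121, 624)) p02 k02 k12) unitBx = true :=
  (Tree.ok_s3 (Tree.ok_s0 (Tree.ok_s0 lv.2.2.2.2.2.2.2.2.2.2.2.2.2.2.1.1 lv.2.2.2.2.2.2.2.2.2.2.2.2.2.2.1.2.1) lv.2.2.2.2.2.2.2.2.2.2.2.2.2.2.1.2.2.1) (Tree.ok_s0 lv.2.2.2.2.2.2.2.2.2.2.2.2.2.2.1.2.2.2.1 lv.2.2.2.2.2.2.2.2.2.2.2.2.2.2.1.2.2.2.2))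

def t_h021 : Tree := (.s3 (.s0 (.leaf 180 16 16 6 6) (.leaf 185 16 16 6 6)) (.s0 (.leaf 180 16 16 6 6) (.leaf 185 16 16 6 6)))
theorem h021 : t_h021.ok 0 1 0 0 (GE 0 2 (D 0) (121, 624) (-1331, 15624) (tau1 (121, 624)) p02 k02 k12) unitBx = true :=
  (Tree.ok_s3 (Tree.ok_s0 lv.2.2.2.2.2.2.2.2.2.2.2.2.2.2.2.1.1 lv.2.2.2.2.2.2.2.2.2.2.2.2.2.2.2.1.2.1) (Tree.ok_s0 lv.2.2.2.2.2.2.2.2.2.2.2.2.2.2.2.1.2.2.1 lv.2.2.2.2.2.2.2.2.2.2.2.2.2.2.2.1.2.2.2))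

def t_h030 : Tree := (.s0 (.s1 (.leaf 189 16 16 6 6) (.leaf 190 16 16 6 6)) (.s2 (.leaf 184 16 16 6 6) (.leaf 186 16 16 6 6)))
theorem h030 : t_h030.ok 0 1 0 0 (GE 0 3 (D 0) (121, 624) (-1331, 15624) (tau0 (121, 624)) p03 k03 k13) unitBx = true :=
  (Tree.ok_s0 (Tree.ok_s1 lv.2.2.2.2.2.2.2.2.2.2.2.2.2.2.2.2.1.1 lv.2.2.2.2.2.2.2.2.2.2.2.2.2.2.2.2.1.2.1) (Tree.ok_s2 lv.2.2.2.2.2.2.2.2.2.2.2.2.2.2.2.2.1.2.2.1 lv.2.2.2.2.2.2.2.2.2.2.2.2.2.2.2.2.1.2.2.2))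

def t_h031 : Tree := (.s0 (.s1 (.leaf 189 16 16 6 6) (.leaf 190 16 16 6 6)) (.s2 (.leaf 184 16 16 6 6) (.leaf 186 16 16 6 6)))
theorem h031 : t_h031.ok 0 1 0 0 (GE 0 3 (D 0) (121, 624) (-1331, 15624) (tau1 (121, 624)) p03 k03 k13) unitBx = true :=
  (Tree.ok_s0 (Tree.ok_s1 lv.2.2.2.2.2.2.2.2.2.2.2.2.2.2.2.2.2.1.1 lv.2.2.2.2.2.2.2.2.2.2.2.2.2.2.2.2.2.1.2.1) (Tree.ok_s2 lv.2.2.2.2.2.2.2.2.2.2.2.2.2.2.2.2.2.1.2.2.1 lv.2.2.2.2.2.2.2.2.2.2.2.2.2.2.2.2.2.1.2.2.2))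

def t_s1 : Tree := (.s2 (.s1 (.leaf 67 9 13 5 1) (.leaf 72 9 13 5 1)) (.s1 (.leaf 67 9 13 5 1) (.leaf 73 9 13 5 1)))
theorem s1 : t_s1.ok 0 1 0 0 (SEG D13 (0, 0) (sP (0, 0) (1, 0)) p10 p11 p12 p13) unitBx = true :=
  (Tree.ok_s2 (Tree.ok_s1 lv.2.2.2.2.2.2.2.2.2.2.2.2.2.2.2.2.2.2.1.1 lv.2.2.2.2.2.2.2.2.2.2.2.2.2.2.2.2.2.2.1.2.1) (Tree.ok_s1 lv.2.2.2.2.2.2.2.2.2.2.2.2.2.2.2.2.2.2.1.2.2.1 lv.2.2.2.2.2.2.2.2.2.2.2.2.2.2.2.2.2.2.1.2.2.2))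

def t_r1 : Tree := (.leaf 47 13 1 5 1)
theorem r1 : t_r1.ok 0 1 0 0 (RE D13 (0, 0)) unitBx = true :=
  lv.2.2.2.2.2.2.2.2.2.2.2.2.2.2.2.2.2.2.2.1

def t_u10 : Tree := (.s1 (.s0 (.s0 (.leaf 161 14 13 5 1) (.leaf 164 14 13 5 1)) (.leaf 156 14 13 5 1)) (.s2 (.leaf 148 14 13 5 1) (.leaf 149 14 13 5 1)))
theorem u10 : t_u10.ok 0 1 0 0 (UE0 (22, 24) D10) unitBx = true :=
  (Tree.ok_s1 (Tree.ok_s0 (Tree.ok_s0 lv.2.2.2.2.2.2.2.2.2.2.2.2.2.2.2.2.2.2.2.2.1.1 lv.2.2.2.2.2.2.2.2.2.2.2.2.2.2.2.2.2.2.2.2.1.2.1) lv.2.2.2.2.2.2.2.2.2.2.2.2.2.2.2.2.2.2.2.2.1.2.2.1) (Tree.ok_s2 lv.2.2.2.2.2.2.2.2.2.2.2.2.2.2.2.2.2.2.2.2.1.2.2.2.1 lv.2.2.2.2.2.2.2.2.2.2.2.2.2.2.2.2.2.2.2.2.1.2.2.2.2))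

def t_v10 : Tree := (.s1 (.s0 (.s0 (.leaf 161 14 13 5 1) (.leaf 162 14 13 5 1)) (.leaf 151 14 13 5 1)) (.s1 (.s0 (.leaf 163 14 13 5 1) (.leaf 167 14 13 5 1)) (.leaf 154 14 13 5 1)))
theorem v10 : t_v10.ok 0 1 0 0 (UE1 (11, 24) D10) unitBx = true :=
  (Tree.ok_s1 (Tree.ok_s0 (Tree.ok_s0 lv.2.2.2.2.2.2.2.2.2.2.2.2.2.2.2.2.2.2.2.2.2.1.1 lv.2.2.2.2.2.2.2.2.2.2.2.2.2.2.2.2.2.2.2.2.2.1.2.1) lv.2.2.2.2.2.2.2.2.2.2.2.2.2.2.2.2.2.2.2.2.2.1.2.2.1) (Tree.ok_s1 (Tree.ok_s0 lv.2.2.2.2.2.2.2.2.2.2.2.2.2.2.2.2.2.2.2.2.2.1.2.2.2.1 lv.2.2.2.2.2.2.2.2.2.2.2.2.2.2.2.2.2.2.2.2.2.1.2.2.2.2.1) lv.2.2.2.2.2.2.2.2.2.2.2.2.2.2.2.2.2.2.2.2.2.1.2.2.2.2.2))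

def t_u11 : Tree := (.s1 (.s0 (.s0 (.leaf 161 14 13 5 1) (.leaf 164 14 13 5 1)) (.leaf 156 14 13 5 1)) (.s0 (.s2 (.leaf 158 14 13 5 1) (.leaf 159 14 13 5 1)) (.leaf 161 14 13 5 1)))
theorem u11 : t_u11.ok 0 1 0 0 (UE0 (22, 24) D11) unitBx = true :=
  (Tree.ok_s1 (Tree.ok_s0 (Tree.ok_s0 lv.2.2.2.2.2.2.2.2.2.2.2.2.2.2.2.2.2.2.2.2.2.2.1.1 lv.2.2.2.2.2.2.2.2.2.2.2.2.2.2.2.2.2.2.2.2.2.2.1.2.1) lv.2.2.2.2.2.2.2.2.2.2.2.2.2.2.2.2.2.2.2.2.2.2.1.2.2.1) (Tree.ok_s0 (Tree.ok_s2 lv.2.2.2.2.2.2.2.2.2.2.2.2.2.2.2.2.2.2.2.2.2.2.1.2.2.2.1 lv.2.2.2.2.2.2.2.2.2.2.2.2.2.2.2.2.2.2.2.2.2.2.1.2.2.2.2.1) lv.2.2.2.2.2.2.2.2.2.2.2.2.2.2.2.2.2.2.2.2.2.2.1.2.2.2.2.2))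

def t_v11 : Tree := (.s1 (.s0 (.s0 (.leaf 161 14 13 5 1) (.leaf 162 14 13 5 1)) (.leaf 151 14 13 5 1)) (.s1 (.s2 (.leaf 156 14 13 5 1) (.leaf 156 14 13 5 1)) (.s1 (.leaf 166 14 13 5 1) (.leaf 168 14 13 5 1))))
theorem v11 : t_v11.ok 0 1 0 0 (UE1 (11, 24) D11) unitBx = true :=
  (Tree.ok_s1 (Tree.ok_s0 (Tree.ok_s0 lv.2.2.2.2.2.2.2.2.2.2.2.2.2.2.2.2.2.2.2.2.2.2.2.1.1 lv.2.2.2.2.2.2.2.2.2.2.2.2.2.2.2.2.2.2.2.2.2.2.2.1.2.1) lv.2.2.2.2.2.2.2.2.2.2.2.2.2.2.2.2.2.2.2.2.2.2.2.1.2.2.1) (Tree.ok_s1 (Tree.ok_s2 lv.2.2.2.2.2.2.2.2.2.2.2.2.2.2.2.2.2.2.2.2.2.2.2.1.2.2.2.1 lv.2.2.2.2.2.2.2.2.2.2.2.2.2.2.2.2.2.2.2.2.2.2.2.1.2.2.2.2.1) (Tree.ok_s1 lv.2.2.2.2.2.2.2.2.2.2.2.2.2.2.2.2.2.2.2.2.2.2.2.1.2.2.2.2.2.1 lv.2.2.2.2.2.2.2.2.2.2.2.2.2.2.2.2.2.2.2.2.2.2.2.1.2.2.2.2.2.2)))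

def t_u12 : Tree := (.s0 (.s1 (.s0 (.leaf 161 14 13 5 1) (.leaf 163 14 13 5 1)) (.leaf 153 14 13 5 1)) (.leaf 145 14 13 5 1))
theorem u12 : t_u12.ok 0 1 0 0 (UE0 (22, 24) D12) unitBx = true :=
  (Tree.ok_s0 (Tree.ok_s1 (Tree.ok_s0 lv.2.2.2.2.2.2.2.2.2.2.2.2.2.2.2.2.2.2.2.2.2.2.2.2.1.1 lv.2.2.2.2.2.2.2.2.2.2.2.2.2.2.2.2.2.2.2.2.2.2.2.2.1.2.1) lv.2.2.2.2.2.2.2.2.2.2.2.2.2.2.2.2.2.2.2.2.2.2.2.2.1.2.2.1) lv.2.2.2.2.2.2.2.2.2.2.2.2.2.2.2.2.2.2.2.2.2.2.2.2.1.2.2.2)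

def t_v12 : Tree := (.s1 (.leaf 136 14 13 5 1) (.s1 (.s0 (.leaf 162 14 13 5 1) (.leaf 165 14 13 5 1)) (.s1 (.leaf 164 14 13 5 1) (.leaf 165 14 13 5 1))))
theorem v12 : t_v12.ok 0 1 0 0 (UE1 (11, 24) D12) unitBx = true :=
  (Tree.ok_s1 lv.2.2.2.2.2.2.2.2.2.2.2.2.2.2.2.2.2.2.2.2.2.2.2.2.2.1.1 (Tree.ok_s1 (Tree.ok_s0 lv.2.2.2.2.2.2.2.2.2.2.2.2.2.2.2.2.2.2.2.2.2.2.2.2.2.1.2.1 lv.2.2.2.2.2.2.2.2.2.2.2.2.2.2.2.2.2.2.2.2.2.2.2.2.2.1.2.2.1) (Tree.ok_s1 lv.2.2.2.2.2.2.2.2.2.2.2.2.2.2.2.2.2.2.2.2.2.2.2.2.2.1.2.2.2.1 lv.2.2.2.2.2.2.2.2.2.2.2.2.2.2.2.2.2.2.2.2.2.2.2.2.2.1.2.2.2.2)))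

def t_u13 : Tree := (.s0 (.s1 (.s0 (.leaf 161 14 13 5 1) (.leaf 163 14 13 5 1)) (.s2 (.leaf 157 14 13 5 1) (.leaf 158 14 13 5 1))) (.leaf 145 14 13 5 1))
theorem u13 : t_u13.ok 0 1 0 0 (UE0 (22, 24) D13) unitBx = true :=
  (Tree.ok_s0 (Tree.ok_s1 (Tree.ok_s0 lv.2.2.2.2.2.2.2.2.2.2.2.2.2.2.2.2.2.2.2.2.2.2.2.2.2.2.1.1 lv.2.2.2.2.2.2.2.2.2.2.2.2.2.2.2.2.2.2.2.2.2.2.2.2.2.2.1.2.1) (Tree.ok_s2 lv.2.2.2.2.2.2.2.2.2.2.2.2.2.2.2.2.2.2.2.2.2.2.2.2.2.2.1.2.2.1 lv.2.2.2.2.2.2.2.2.2.2.2.2.2.2.2.2.2.2.2.2.2.2.2.2.2.2.1.2.2.2.1)) lv.2.2.2.2.2.2.2.2.2.2.2.2.2.2.2.2.2.2.2.2.2.2.2.2.2.2.1.2.2.2.2)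

def t_v13 : Tree := (.s1 (.leaf 136 14 13 5 1) (.s1 (.s2 (.leaf 154 14 13 5 1) (.leaf 155 14 13 5 1)) (.s1 (.leaf 165 14 13 5 1) (.leaf 167 14 13 5 1))))
theorem v13 : t_v13.ok 0 1 0 0 (UE1 (11, 24) D13) unitBx = true :=
  (Tree.ok_s1 lv.2.2.2.2.2.2.2.2.2.2.2.2.2.2.2.2.2.2.2.2.2.2.2.2.2.2.2.1.1 (Tree.ok_s1 (Tree.ok_s2 lv.2.2.2.2.2.2.2.2.2.2.2.2.2.2.2.2.2.2.2.2.2.2.2.2.2.2.2.1.2.1 lv.2.2.2.2.2.2.2.2.2.2.2.2.2.2.2.2.2.2.2.2.2.2.2.2.2.2.2.1.2.2.1) (Tree.ok_s1 lv.2.2.2.2.2.2.2.2.2.2.2.2.2.2.2.2.2.2.2.2.2.2.2.2.2.2.2.1.2.2.2.1 lv.2.2.2.2.2.2.2.2.2.2.2.2.2.2.2.2.2.2.2.2.2.2.2.2.2.2.2.1.2.2.2.2)))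

def t_h100 : Tree := (.s0 (.s1 (.leaf 169 14 14 6 6) (.leaf 170 14 14 6 6)) (.s2 (.leaf 166 14 14 6 6) (.s0 (.leaf 179 14 14 6 6) (.leaf 182 14 14 6 6))))
theorem h100 : t_h100.ok 0 1 0 0 (GE 1 0 (D 1) (121, 624) (-1331, 15624) (tau0 (121, 624)) p10 k00 k10) unitBx = true :=
  (Tree.ok_s0 (Tree.ok_s1 lv.2.2.2.2.2.2.2.2.2.2.2.2.2.2.2.2.2.2.2.2.2.2.2.2.2.2.2.2.1.1 lv.2.2.2.2.2.2.2.2.2.2.2.2.2.2.2.2.2.2.2.2.2.2.2.2.2.2.2.2.1.2.1) (Tree.ok_s2 lv.2.2.2.2.2.2.2.2.2.2.2.2.2.2.2.2.2.2.2.2.2.2.2.2.2.2.2.2.1.2.2.1 (Tree.ok_s0 lv.2.2.2.2.2.2.2.2.2.2.2.2.2.2.2.2.2.2.2.2.2.2.2.2.2.2.2.2.1.2.2.2.1 lv.2.2.2.2.2.2.2.2.2.2.2.2.2.2.2.2.2.2.2.2.2.2.2.2.2.2.2.2.1.2.2.2.2)))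

def t_h101 : Tree := (.s0 (.s0 (.leaf 169 14 14 6 6) (.leaf 171 14 14 6 6)) (.leaf 162 14 14 6 6))
theorem h101 : t_h101.ok 0 1 0 0 (GE 1 0 (D 1) (121, 624) (-1331, 15624) (tau1 (121, 624)) p10 k00 k10) unitBx = true :=
  (Tree.ok_s0 (Tree.ok_s0 lv.2.2.2.2.2.2.2.2.2.2.2.2.2.2.2.2.2.2.2.2.2.2.2.2.2.2.2.2.2.1.1 lv.2.2.2.2.2.2.2.2.2.2.2.2.2.2.2.2.2.2.2.2.2.2.2.2.2.2.2.2.2.1.2.1) lv.2.2.2.2.2.2.2.2.2.2.2.2.2.2.2.2.2.2.2.2.2.2.2.2.2.2.2.2.2.1.2.2)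

def t_h110 : Tree := (.s0 (.s0 (.leaf 169 14 14 6 6) (.s1 (.leaf 183 14 14 6 6) (.leaf 185 14 14 6 6))) (.s2 (.leaf 166 14 14 6 6) (.leaf 167 14 14 6 6)))
theorem h110 : t_h110.ok 0 1 0 0 (GE 1 1 (D 1) (121, 624) (-1331, 15624) (tau0 (121, 624)) p11 k01 k11) unitBx = true :=
  (Tree.ok_s0 (Tree.ok_s0 lv.2.2.2.2.2.2.2.2.2.2.2.2.2.2.2.2.2.2.2.2.2.2.2.2.2.2.2.2.2.2.1.1 (Tree.ok_s1 lv.2.2.2.2.2.2.2.2.2.2.2.2.2.2.2.2.2.2.2.2.2.2.2.2.2.2.2.2.2.2.1.2.1 lv.2.2.2.2.2.2.2.2.2.2.2.2.2.2.2.2.2.2.2.2.2.2.2.2.2.2.2.2.2.2.1.2.2.1)) (Tree.ok_s2 lv.2.2.2.2.2.2.2.2.2.2.2.2.2.2.2.2.2.2.2.2.2.2.2.2.2.2.2.2.2.2.1.2.2.2.1 lv.2.2.2.2.2.2.2.2.2.2.2.2.2.2.2.2.2.2.2.2.2.2.2.2.2.2.2.2.2.2.1.2.2.2.2))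

def t_h111 : Tree := (.s0 (.s0 (.leaf 169 14 14 6 6) (.leaf 171 14 14 6 6)) (.s2 (.leaf 166 14 14 6 6) (.leaf 167 14 14 6 6)))
theorem h111 : t_h111.ok 0 1 0 0 (GE 1 1 (D 1) (121, 624) (-1331, 15624) (tau1 (121, 624)) p11 k01 k11) unitBx = true :=
  (Tree.ok_s0 (Tree.ok_s0 lv.2.2.2.2.2.2.2.2.2.2.2.2.2.2.2.2.2.2.2.2.2.2.2.2.2.2.2.2.2.2.2.1.1 lv.2.2.2.2.2.2.2.2.2.2.2.2.2.2.2.2.2.2.2.2.2.2.2.2.2.2.2.2.2.2.2.1.2.1) (Tree.ok_s2 lv.2.2.2.2.2.2.2.2.2.2.2.2.2.2.2.2.2.2.2.2.2.2.2.2.2.2.2.2.2.2.2.1.2.2.1 lv.2.2.2.2.2.2.2.2.2.2.2.2.2.2.2.2.2.2.2.2.2.2.2.2.2.2.2.2.2.2.2.1.2.2.2))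

def t_h120 : Tree := (.s0 (.s3 (.s0 (.leaf 174 14 14 6 6) (.leaf 175 14 14 6 6)) (.leaf 161 14 14 6 6)) (.s3 (.s1 (.leaf 177 14 14 6 6) (.leaf 181 14 14 6 6)) (.leaf 166 14 14 6 6)))
theorem h120 : t_h120.ok 0 1 0 0 (GE 1 2 (D 1) (121, 624) (-1331, 15624) (tau0 (121, 624)) p12 k02 k12) unitBx = true :=
  (Tree.ok_s0 (Tree.ok_s3 (Tree.ok_s0 lv.2.2.2.2.2.2.2.2.2.2.2.2.2.2.2.2.2.2.2.2.2.2.2.2.2.2.2.2.2.2.2.2.1.1 lv.2.2.2.2.2.2.2.2.2.2.2.2.2.2.2.2.2.2.2.2.2.2.2.2.2.2.2.2.2.2.2.2.1.2.1) lv.2.2.2.2.2.2.2.2.2.2.2.2.2.2.2.2.2.2.2.2.2.2.2.2.2.2.2.2.2.2.2.2.1.2.2.1) (Tree.ok_s3 (Tree.ok_s1 lv.2.2.2.2.2.2.2.2.2.2.2.2.2.2.2.2.2.2.2.2.2.2.2.2.2.2.2.2.2.2.2.2.1.2.2.2.1 lv.2.2.2.2.2.2.2.2.2.2.2.2.2.2.2.2.2.2.2.2.2.2.2.2.2.2.2.2.2.2.2.2.1.2.2.2.2.1) lv.2.2.2.2.2.2.2.2.2.2.2.2.2.2.2.2.2.2.2.2.2.2.2.2.2.2.2.2.2.2.2.2.1.2.2.2.2.2))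

def t_h121 : Tree := (.s0 (.s3 (.leaf 161 14 14 6 6) (.leaf 161 14 14 6 6)) (.s3 (.leaf 166 14 14 6 6) (.leaf 166 14 14 6 6)))
theorem h121 : t_h121.ok 0 1 0 0 (GE 1 2 (D 1) (121, 624) (-1331, 15624) (tau1 (121, 624)) p12 k02 k12) unitBx = true :=
  (Tree.ok_s0 (Tree.ok_s3 lv.2.2.2.2.2.2.2.2.2.2.2.2.2.2.2.2.2.2.2.2.2.2.2.2.2.2.2.2.2.2.2.2.2.1.1 lv.2.2.2.2.2.2.2.2.2.2.2.2.2.2.2.2.2.2.2.2.2.2.2.2.2.2.2.2.2.2.2.2.2.1.2.1) (Tree.ok_s3 lv.2.2.2.2.2.2.2.2.2.2.2.2.2.2.2.2.2.2.2.2.2.2.2.2.2.2.2.2.2.2.2.2.2.1.2.2.1 lv.2.2.2.2.2.2.2.2.2.2.2.2.2.2.2.2.2.2.2.2.2.2.2.2.2.2.2.2.2.2.2.2.2.1.2.2.2))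

def t_h130 : Tree := (.s0 (.s0 (.leaf 169 14 14 6 6) (.s1 (.leaf 182 14 14 6 6) (.leaf 184 14 14 6 6))) (.s2 (.s1 (.leaf 177 14 14 6 6) (.leaf 180 14 14 6 6)) (.s1 (.leaf 178 14 14 6 6) (.leaf 182 14 14 6 6))))
theorem h130 : t_h130.ok 0 1 0 0 (GE 1 3 (D 1) (121, 624) (-1331, 15624) (tau0 (121, 624)) p13 k03 k13) unitBx = true :=
  (Tree.ok_s0 (Tree.ok_s0 lv.2.2.2.2.2.2.2.2.2.2.2.2.2.2.2.2.2.2.2.2.2.2.2.2.2.2.2.2.2.2.2.2.2.2.1.1 (Tree.ok_s1 lv.2.2.2.2.2.2.2.2.2.2.2.2.2.2.2.2.2.2.2.2.2.2.2.2.2.2.2.2.2.2.2.2.2.2.1.2.1 lv.2.2.2.2.2.2.2.2.2.2.2.2.2.2.2.2.2.2.2.2.2.2.2.2.2.2.2.2.2.2.2.2.2.2.1.2.2.1)) (Tree.ok_s2 (Tree.ok_s1 lv.2.2.2.2.2.2.2.2.2.2.2.2.2.2.2.2.2.2.2.2.2.2.2.2.2.2.2.2.2.2.2.2.2.2.1.2.2.2.1 lv.2.2.2.2.2.2.2.2.2.2.2.2.2.2.2.2.2.2.2.2.2.2.2.2.2.2.2.2.2.2.2.2.2.2.1.2.2.2.2.1)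 (Tree.ok_s1 lv.2.2.2.2.2.2.2.2.2.2.2.2.2.2.2.2.2.2.2.2.2.2.2.2.2.2.2.2.2.2.2.2.2.2.1.2.2.2.2.2.1 lv.2.2.2.2.2.2.2.2.2.2.2.2.2.2.2.2.2.2.2.2.2.2.2.2.2.2.2.2.2.2.2.2.2.2.1.2.2.2.2.2.2)))

def t_h131 : Tree := (.s0 (.leaf 156 14 14 6 6) (.s2 (.leaf 165 14 14 6 6) (.leaf 167 14 14 6 6)))
theorem h131 : t_h131.ok 0 1 0 0 (GE 1 3 (D 1) (121, 624) (-1331, 15624) (tau1 (121, 624)) p13 k03 k13) unitBx = true :=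
  (Tree.ok_s0 lv.2.2.2.2.2.2.2.2.2.2.2.2.2.2.2.2.2.2.2.2.2.2.2.2.2.2.2.2.2.2.2.2.2.2.2.1.1 (Tree.ok_s2 lv.2.2.2.2.2.2.2.2.2.2.2.2.2.2.2.2.2.2.2.2.2.2.2.2.2.2.2.2.2.2.2.2.2.2.2.1.2.1 lv.2.2.2.2.2.2.2.2.2.2.2.2.2.2.2.2.2.2.2.2.2.2.2.2.2.2.2.2.2.2.2.2.2.2.2.1.2.2))

def t_s2 : Tree := (.s1 (.leaf 57 9 10 5 1) (.leaf 60 9 10 5 1))
theorem s2 : t_s2.ok 0 1 0 0 (SEG D23 (-31156, 4095) (sP (0, 0) (1, 0)) p20 p21 p22 p23) unitBx = true :=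
  (Tree.ok_s1 lv.2.2.2.2.2.2.2.2.2.2.2.2.2.2.2.2.2.2.2.2.2.2.2.2.2.2.2.2.2.2.2.2.2.2.2.2.1.1 lv.2.2.2.2.2.2.2.2.2.2.2.2.2.2.2.2.2.2.2.2.2.2.2.2.2.2.2.2.2.2.2.2.2.2.2.2.1.2)

def t_r2 : Tree := (.leaf 42 10 1 4 1)
theorem r2 : t_r2.ok 0 1 0 0 (RE D23 (-31156, 4095)) unitBx = true :=
  lv.2.2.2.2.2.2.2.2.2.2.2.2.2.2.2.2.2.2.2.2.2.2.2.2.2.2.2.2.2.2.2.2.2.2.2.2.2.1

def t_u20 : Tree := (.s0 (.s1 (.s0 (.leaf 152 14 10 4 1) (.leaf 155 14 10 4 1)) (.s2 (.leaf 147 14 10 4 1) (.leaf 148 14 10 4 1))) (.leaf 139 14 10 4 1))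
theorem u20 : t_u20.ok 0 1 0 0 (UE0 (22, 24) D20) unitBx = true :=
  (Tree.ok_s0 (Tree.ok_s1 (Tree.ok_s0 lv.2.2.2.2.2.2.2.2.2.2.2.2.2.2.2.2.2.2.2.2.2.2.2.2.2.2.2.2.2.2.2.2.2.2.2.2.2.2.1.1 lv.2.2.2.2.2.2.2.2.2.2.2.2.2.2.2.2.2.2.2.2.2.2.2.2.2.2.2.2.2.2.2.2.2.2.2.2.2.2.1.2.1) (Tree.ok_s2 lv.2.2.2.2.2.2.2.2.2.2.2.2.2.2.2.2.2.2.2.2.2.2.2.2.2.2.2.2.2.2.2.2.2.2.2.2.2.2.1.2.2.1 lv.2.2.2.2.2.2.2.2.2.2.2.2.2.2.2.2.2.2.2.2.2.2.2.2.2.2.2.2.2.2.2.2.2.2.2.2.2.2.1.2.2.2.1)) lv.2.2.2.2.2.2.2.2.2.2.2.2.2.2.2.2.2.2.2.2.2.2.2.2.2.2.2.2.2.2.2.2.2.2.2.2.2.2.1.2.2.2.2)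

def t_v20 : Tree := (.s1 (.s0 (.leaf 139 14 10 4 1) (.leaf 142 14 10 4 1)) (.s0 (.s1 (.leaf 151 14 10 4 1) (.leaf 152 14 10 4 1)) (.leaf 146 14 10 4 1)))
theorem v20 : t_v20.ok 0 1 0 0 (UE1 (11, 24) D20) unitBx = true :=
  (Tree.ok_s1 (Tree.ok_s0 lv.2.2.2.2.2.2.2.2.2.2.2.2.2.2.2.2.2.2.2.2.2.2.2.2.2.2.2.2.2.2.2.2.2.2.2.2.2.2.2.1.1 lv.2.2.2.2.2.2.2.2.2.2.2.2.2.2.2.2.2.2.2.2.2.2.2.2.2.2.2.2.2.2.2.2.2.2.2.2.2.2.2.1.2.1) (Tree.ok_s0 (Tree.ok_s1 lv.2.2.2.2.2.2.2.2.2.2.2.2.2.2.2.2.2.2.2.2.2.2.2.2.2.2.2.2.2.2.2.2.2.2.2.2.2.2.2.1.2.2.1 lv.2.2.2.2.2.2.2.2.2.2.2.2.2.2.2.2.2.2.2.2.2.2.2.2.2.2.2.2.2.2.2.2.2.2.2.2.2.2.2.1.2.2.2.1) lv.2.2.2.2.2.2.2.2.2.2.2.2.2.2.2.2.2.2.2.2.2.2.2.2.2.2.2.2.2.2.2.2.2.2.2.2.2.2.2.1.2.2.2.2))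

def t_u21 : Tree := (.s1 (.s0 (.s0 (.leaf 153 14 10 4 1) (.leaf 155 14 10 4 1)) (.leaf 146 14 10 4 1)) (.s0 (.s2 (.leaf 147 14 10 4 1) (.leaf 148 14 10 4 1)) (.leaf 151 14 10 4 1)))
theorem u21 : t_u21.ok 0 1 0 0 (UE0 (22, 24) D21) unitBx = true :=
  (Tree.ok_s1 (Tree.ok_s0 (Tree.ok_s0 lv.2.2.2.2.2.2.2.2.2.2.2.2.2.2.2.2.2.2.2.2.2.2.2.2.2.2.2.2.2.2.2.2.2.2.2.2.2.2.2.2.1.1 lv.2.2.2.2.2.2.2.2.2.2.2.2.2.2.2.2.2.2.2.2.2.2.2.2.2.2.2.2.2.2.2.2.2.2.2.2.2.2.2.2.1.2.1) lv.2.2.2.2.2.2.2.2.2.2.2.2.2.2.2.2.2.2.2.2.2.2.2.2.2.2.2.2.2.2.2.2.2.2.2.2.2.2.2.2.1.2.2.1) (Tree.ok_s0 (Tree.ok_s2 lv.2.2.2.2.2.2.2.2.2.2.2.2.2.2.2.2.2.2.2.2.2.2.2.2.2.2.2.2.2.2.2.2.2.2.2.2.2.2.2.2.1.2.2.2.1 lv.2.2.2.2.2.2.2.2.2.2.2.2.2.2.2.2.2.2.2.2.2.2.2.2.2.2.2.2.2.2.2.2.2.2.2.2.2.2.2.2.1.2.2.2.2.1) lv.2.2.2.2.2.2.2.2.2.2.2.2.2.2.2.2.2.2.2.2.2.2.2.2.2.2.2.2.2.2.2.2.2.2.2.2.2.2.2.2.1.2.2.2.2.2))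

def t_v21 : Tree := (.s1 (.s2 (.s0 (.leaf 142 14 10 4 1) (.leaf 145 14 10 4 1)) (.leaf 131 14 10 4 1)) (.s2 (.leaf 134 14 10 4 1) (.s1 (.leaf 143 14 10 4 1) (.leaf 145 14 10 4 1))))
theorem v21 : t_v21.ok 0 1 0 0 (UE1 (11, 24) D21) unitBx = true :=
  (Tree.ok_s1 (Tree.ok_s2 (Tree.ok_s0 lv.2.2.2.2.2.2.2.2.2.2.2.2.2.2.2.2.2.2.2.2.2.2.2.2.2.2.2.2.2.2.2.2.2.2.2.2.2.2.2.2.2.1.1 lv.2.2.2.2.2.2.2.2.2.2.2.2.2.2.2.2.2.2.2.2.2.2.2.2.2.2.2.2.2.2.2.2.2.2.2.2.2.2.2.2.2.1.2.1) lv.2.2.2.2.2.2.2.2.2.2.2.2.2.2.2.2.2.2.2.2.2.2.2.2.2.2.2.2.2.2.2.2.2.2.2.2.2.2.2.2.2.1.2.2.1) (Tree.ok_s2 lv.2.2.2.2.2.2.2.2.2.2.2.2.2.2.2.2.2.2.2.2.2.2.2.2.2.2.2.2.2.2.2.2.2.2.2.2.2.2.2.2.2.1.2.2.2.1 (Tree.ok_s1 lv.2.2.2.2.2.2.2.2.2.2.2.2.2.2.2.2.2.2.2.2.2.2.2.2.2.2.2.2.2.2.2.2.2.2.2.2.2.2.2.2.2.1.2.2.2.2.1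 lv.2.2.2.2.2.2.2.2.2.2.2.2.2.2.2.2.2.2.2.2.2.2.2.2.2.2.2.2.2.2.2.2.2.2.2.2.2.2.2.2.2.1.2.2.2.2.2)))

def t_u22 : Tree := (.s1 (.s0 (.s1 (.leaf 149 14 10 4 1) (.leaf 150 14 10 4 1)) (.leaf 146 14 10 4 1)) (.s0 (.s2 (.leaf 147 14 10 4 1) (.leaf 148 14 10 4 1)) (.leaf 151 14 10 4 1)))
theorem u22 : t_u22.ok 0 1 0 0 (UE0 (22, 24) D22) unitBx = true :=
  (Tree.ok_s1 (Tree.ok_s0 (Tree.ok_s1 lv.2.2.2.2.2.2.2.2.2.2.2.2.2.2.2.2.2.2.2.2.2.2.2.2.2.2.2.2.2.2.2.2.2.2.2.2.2.2.2.2.2.2.1.1 lv.2.2.2.2.2.2.2.2.2.2.2.2.2.2.2.2.2.2.2.2.2.2.2.2.2.2.2.2.2.2.2.2.2.2.2.2.2.2.2.2.2.2.1.2.1) lv.2.2.2.2.2.2.2.2.2.2.2.2.2.2.2.2.2.2.2.2.2.2.2.2.2.2.2.2.2.2.2.2.2.2.2.2.2.2.2.2.2.2.1.2.2.1) (Tree.ok_s0 (Tree.ok_s2 lv.2.2.2.2.2.2.2.2.2.2.2.2.2.2.2.2.2.2.2.2.2.2.2.2.2.2.2.2.2.2.2.2.2.2.2.2.2.2.2.2.2.2.1.2.2.2.1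 lv.2.2.2.2.2.2.2.2.2.2.2.2.2.2.2.2.2.2.2.2.2.2.2.2.2.2.2.2.2.2.2.2.2.2.2.2.2.2.2.2.2.2.1.2.2.2.2.1) lv.2.2.2.2.2.2.2.2.2.2.2.2.2.2.2.2.2.2.2.2.2.2.2.2.2.2.2.2.2.2.2.2.2.2.2.2.2.2.2.2.2.2.1.2.2.2.2.2))

def t_v22 : Tree := (.s1 (.s0 (.leaf 140 14 10 4 1) (.s0 (.leaf 154 14 10 4 1) (.leaf 156 14 10 4 1))) (.s2 (.leaf 134 14 10 4 1) (.s0 (.leaf 146 14 10 4 1) (.leaf 149 14 10 4 1))))
theorem v22 : t_v22.ok 0 1 0 0 (UE1 (11, 24) D22) unitBx = true :=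
  (Tree.ok_s1 (Tree.ok_s0 lv.2.2.2.2.2.2.2.2.2.2.2.2.2.2.2.2.2.2.2.2.2.2.2.2.2.2.2.2.2.2.2.2.2.2.2.2.2.2.2.2.2.2.2.1.1 (Tree.ok_s0 lv.2.2.2.2.2.2.2.2.2.2.2.2.2.2.2.2.2.2.2.2.2.2.2.2.2.2.2.2.2.2.2.2.2.2.2.2.2.2.2.2.2.2.2.1.2.1 lv.2.2.2.2.2.2.2.2.2.2.2.2.2.2.2.2.2.2.2.2.2.2.2.2.2.2.2.2.2.2.2.2.2.2.2.2.2.2.2.2.2.2.2.1.2.2.1)) (Tree.ok_s2 lv.2.2.2.2.2.2.2.2.2.2.2.2.2.2.2.2.2.2.2.2.2.2.2.2.2.2.2.2.2.2.2.2.2.2.2.2.2.2.2.2.2.2.2.1.2.2.2.1 (Tree.ok_s0 lv.2.2.2.2.2.2.2.2.2.2.2.2.2.2.2.2.2.2.2.2.2.2.2.2.2.2.2.2.2.2.2.2.2.2.2.2.2.2.2.2.2.2.2.1.2.2.2.2.1 lv.2.2.2.2.2.2.2.2.2.2.2.2.2.2.2.2.2.2.2.2.2.2.2.2.2.2.2.2.2.2.2.2.2.2.2.2.2.2.2.2.2.2.2.1.2.2.2.2.2)))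

def t_u23 : Tree := (.s0 (.s1 (.leaf 140 14 10 4 1) (.leaf 143 14 10 4 1)) (.leaf 139 14 10 4 1))
theorem u23 : t_u23.ok 0 1 0 0 (UE0 (22, 24) D23) unitBx = true :=
  (Tree.ok_s0 (Tree.ok_s1 lv.2.2.2.2.2.2.2.2.2.2.2.2.2.2.2.2.2.2.2.2.2.2.2.2.2.2.2.2.2.2.2.2.2.2.2.2.2.2.2.2.2.2.2.2.1.1 lv.2.2.2.2.2.2.2.2.2.2.2.2.2.2.2.2.2.2.2.2.2.2.2.2.2.2.2.2.2.2.2.2.2.2.2.2.2.2.2.2.2.2.2.2.1.2.1) lv.2.2.2.2.2.2.2.2.2.2.2.2.2.2.2.2.2.2.2.2.2.2.2.2.2.2.2.2.2.2.2.2.2.2.2.2.2.2.2.2.2.2.2.2.1.2.2)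

def t_v23 : Tree := (.s1 (.s0 (.s0 (.leaf 152 14 10 4 1) (.leaf 153 14 10 4 1)) (.leaf 141 14 10 4 1)) (.s1 (.s0 (.leaf 150 14 10 4 1) (.leaf 153 14 10 4 1)) (.s1 (.leaf 149 14 10 4 1) (.leaf 150 14 10 4 1))))
theorem v23 : t_v23.ok 0 1 0 0 (UE1 (11, 24) D23) unitBx = true :=
  (Tree.ok_s1 (Tree.ok_s0 (Tree.ok_s0 lv.2.2.2.2.2.2.2.2.2.2.2.2.2.2.2.2.2.2.2.2.2.2.2.2.2.2.2.2.2.2.2.2.2.2.2.2.2.2.2.2.2.2.2.2.2.1.1 lv.2.2.2.2.2.2.2.2.2.2.2.2.2.2.2.2.2.2.2.2.2.2.2.2.2.2.2.2.2.2.2.2.2.2.2.2.2.2.2.2.2.2.2.2.2.1.2.1) lv.2.2.2.2.2.2.2.2.2.2.2.2.2.2.2.2.2.2.2.2.2.2.2.2.2.2.2.2.2.2.2.2.2.2.2.2.2.2.2.2.2.2.2.2.2.1.2.2.1) (Tree.ok_s1 (Tree.ok_s0 lv.2.2.2.2.2.2.2.2.2.2.2.2.2.2.2.2.2.2.2.2.2.2.2.2.2.2.2.2.2.2.2.2.2.2.2.2.2.2.2.2.2.2.2.2.2.1.2.2.2.1 lv.2.2.2.2.2.2.2.2.2.2.2.2.2.2.2.2.2.2.2.2.2.2.2.2.2.2.2.2.2.2.2.2.2.2.2.2.2.2.2.2.2.2.2.2.2.1.2.2.2.2.1)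 (Tree.ok_s1 lv.2.2.2.2.2.2.2.2.2.2.2.2.2.2.2.2.2.2.2.2.2.2.2.2.2.2.2.2.2.2.2.2.2.2.2.2.2.2.2.2.2.2.2.2.2.1.2.2.2.2.2.1 lv.2.2.2.2.2.2.2.2.2.2.2.2.2.2.2.2.2.2.2.2.2.2.2.2.2.2.2.2.2.2.2.2.2.2.2.2.2.2.2.2.2.2.2.2.2.1.2.2.2.2.2.2)))

def t_h200 : Tree := (.s0 (.leaf 158 14 14 6 6) (.s2 (.leaf 167 14 14 6 6) (.s1 (.leaf 179 14 14 6 6) (.leaf 183 14 14 6 6))))
theorem h200 : t_h200.ok 0 1 0 0 (GE 2 0 (D 2) (121, 624) (-1331, 15624) (tau0 (121, 624)) p20 k00 k10) unitBx = true :=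
  (Tree.ok_s0 lv.2.2.2.2.2.2.2.2.2.2.2.2.2.2.2.2.2.2.2.2.2.2.2.2.2.2.2.2.2.2.2.2.2.2.2.2.2.2.2.2.2.2.2.2.2.2.1.1 (Tree.ok_s2 lv.2.2.2.2.2.2.2.2.2.2.2.2.2.2.2.2.2.2.2.2.2.2.2.2.2.2.2.2.2.2.2.2.2.2.2.2.2.2.2.2.2.2.2.2.2.2.1.2.1 (Tree.ok_s1 lv.2.2.2.2.2.2.2.2.2.2.2.2.2.2.2.2.2.2.2.2.2.2.2.2.2.2.2.2.2.2.2.2.2.2.2.2.2.2.2.2.2.2.2.2.2.2.1.2.2.1 lv.2.2.2.2.2.2.2.2.2.2.2.2.2.2.2.2.2.2.2.2.2.2.2.2.2.2.2.2.2.2.2.2.2.2.2.2.2.2.2.2.2.2.2.2.2.2.1.2.2.2)))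

def t_h201 : Tree := (.s0 (.leaf 158 14 14 6 6) (.leaf 162 14 14 6 6))
theorem h201 : t_h201.ok 0 1 0 0 (GE 2 0 (D 2) (121, 624) (-1331, 15624) (tau1 (121, 624)) p20 k00 k10) unitBx = true :=
  (Tree.ok_s0 lv.2.2.2.2.2.2.2.2.2.2.2.2.2.2.2.2.2.2.2.2.2.2.2.2.2.2.2.2.2.2.2.2.2.2.2.2.2.2.2.2.2.2.2.2.2.2.2.1.1 lv.2.2.2.2.2.2.2.2.2.2.2.2.2.2.2.2.2.2.2.2.2.2.2.2.2.2.2.2.2.2.2.2.2.2.2.2.2.2.2.2.2.2.2.2.2.2.2.1.2)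

def t_h210 : Tree := (.s0 (.leaf 158 14 14 6 6) (.s1 (.leaf 174 14 14 6 6) (.leaf 177 14 14 6 6)))
theorem h210 : t_h210.ok 0 1 0 0 (GE 2 1 (D 2) (121, 624) (-1331, 15624) (tau0 (121, 624)) p21 k01 k11) unitBx = true :=
  (Tree.ok_s0 lv.2.2.2.2.2.2.2.2.2.2.2.2.2.2.2.2.2.2.2.2.2.2.2.2.2.2.2.2.2.2.2.2.2.2.2.2.2.2.2.2.2.2.2.2.2.2.2.2.1.1 (Tree.ok_s1 lv.2.2.2.2.2.2.2.2.2.2.2.2.2.2.2.2.2.2.2.2.2.2.2.2.2.2.2.2.2.2.2.2.2.2.2.2.2.2.2.2.2.2.2.2.2.2.2.2.1.2.1 lv.2.2.2.2.2.2.2.2.2.2.2.2.2.2.2.2.2.2.2.2.2.2.2.2.2.2.2.2.2.2.2.2.2.2.2.2.2.2.2.2.2.2.2.2.2.2.2.2.1.2.2))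

def t_h211 : Tree := (.s0 (.leaf 158 14 14 6 6) (.leaf 162 14 14 6 6))
theorem h211 : t_h211.ok 0 1 0 0 (GE 2 1 (D 2) (121, 624) (-1331, 15624) (tau1 (121, 624)) p21 k01 k11) unitBx = true :=
  (Tree.ok_s0 lv.2.2.2.2.2.2.2.2.2.2.2.2.2.2.2.2.2.2.2.2.2.2.2.2.2.2.2.2.2.2.2.2.2.2.2.2.2.2.2.2.2.2.2.2.2.2.2.2.2.1.1 lv.2.2.2.2.2.2.2.2.2.2.2.2.2.2.2.2.2.2.2.2.2.2.2.2.2.2.2.2.2.2.2.2.2.2.2.2.2.2.2.2.2.2.2.2.2.2.2.2.2.1.2)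

def t_h220 : Tree := (.s0 (.s1 (.s0 (.leaf 184 14 14 6 6) (.leaf 184 14 14 6 6)) (.leaf 172 14 14 6 6)) (.s2 (.leaf 167 14 14 6 6) (.leaf 168 14 14 6 6)))
theorem h220 : t_h220.ok 0 1 0 0 (GE 2 2 (D 2) (121, 624) (-1331, 15624) (tau0 (121, 624)) p22 k02 k12) unitBx = true :=
  (Tree.ok_s0 (Tree.ok_s1 (Tree.ok_s0 lv.2.2.2.2.2.2.2.2.2.2.2.2.2.2.2.2.2.2.2.2.2.2.2.2.2.2.2.2.2.2.2.2.2.2.2.2.2.2.2.2.2.2.2.2.2.2.2.2.2.2.1.1 lv.2.2.2.2.2.2.2.2.2.2.2.2.2.2.2.2.2.2.2.2.2.2.2.2.2.2.2.2.2.2.2.2.2.2.2.2.2.2.2.2.2.2.2.2.2.2.2.2.2.2.1.2.1) lv.2.2.2.2.2.2.2.2.2.2.2.2.2.2.2.2.2.2.2.2.2.2.2.2.2.2.2.2.2.2.2.2.2.2.2.2.2.2.2.2.2.2.2.2.2.2.2.2.2.2.1.2.2.1) (Tree.ok_s2 lv.2.2.2.2.2.2.2.2.2.2.2.2.2.2.2.2.2.2.2.2.2.2.2.2.2.2.2.2.2.2.2.2.2.2.2.2.2.2.2.2.2.2.2.2.2.2.2.2.2.2.1.2.2.2.1 lv.2.2.2.2.2.2.2.2.2.2.2.2.2.2.2.2.2.2.2.2.2.2.2.2.2.2.2.2.2.2.2.2.2.2.2.2.2.2.2.2.2.2.2.2.2.2.2.2.2.2.1.2.2.2.2))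

def t_h221 : Tree := (.s0 (.leaf 158 14 14 6 6) (.s2 (.leaf 167 14 14 6 6) (.leaf 168 14 14 6 6)))
theorem h221 : t_h221.ok 0 1 0 0 (GE 2 2 (D 2) (121, 624) (-1331, 15624) (tau1 (121, 624)) p22 k02 k12) unitBx = true :=
  (Tree.ok_s0 lv.2.2.2.2.2.2.2.2.2.2.2.2.2.2.2.2.2.2.2.2.2.2.2.2.2.2.2.2.2.2.2.2.2.2.2.2.2.2.2.2.2.2.2.2.2.2.2.2.2.2.2.1.1 (Tree.ok_s2 lv.2.2.2.2.2.2.2.2.2.2.2.2.2.2.2.2.2.2.2.2.2.2.2.2.2.2.2.2.2.2.2.2.2.2.2.2.2.2.2.2.2.2.2.2.2.2.2.2.2.2.2.1.2.1 lv.2.2.2.2.2.2.2.2.2.2.2.2.2.2.2.2.2.2.2.2.2.2.2.2.2.2.2.2.2.2.2.2.2.2.2.2.2.2.2.2.2.2.2.2.2.2.2.2.2.2.2.1.2.2))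

def t_h230 : Tree := (.s2 (.s1 (.leaf 163 14 14 6 6) (.leaf 165 14 14 6 6)) (.s2 (.s1 (.leaf 169 14 14 6 6) (.leaf 171 14 14 6 6)) (.s1 (.leaf 169 14 14 6 6) (.leaf 171 14 14 6 6))))
theorem h230 : t_h230.ok 0 1 0 0 (GE 2 3 (D 2) (121, 624) (-1331, 15624) (tau0 (121, 624)) p23 k03 k13) unitBx = true :=
  (Tree.ok_s2 (Tree.ok_s1 lv.2.2.2.2.2.2.2.2.2.2.2.2.2.2.2.2.2.2.2.2.2.2.2.2.2.2.2.2.2.2.2.2.2.2.2.2.2.2.2.2.2.2.2.2.2.2.2.2.2.2.2.2.1.1 lv.2.2.2.2.2.2.2.2.2.2.2.2.2.2.2.2.2.2.2.2.2.2.2.2.2.2.2.2.2.2.2.2.2.2.2.2.2.2.2.2.2.2.2.2.2.2.2.2.2.2.2.2.1.2.1) (Tree.ok_s2 (Tree.ok_s1 lv.2.2.2.2.2.2.2.2.2.2.2.2.2.2.2.2.2.2.2.2.2.2.2.2.2.2.2.2.2.2.2.2.2.2.2.2.2.2.2.2.2.2.2.2.2.2.2.2.2.2.2.2.1.2.2.1 lv.2.2.2.2.2.2.2.2.2.2.2.2.2.2.2.2.2.2.2.2.2.2.2.2.2.2.2.2.2.2.2.2.2.2.2.2.2.2.2.2.2.2.2.2.2.2.2.2.2.2.2.2.1.2.2.2.1)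 (Tree.ok_s1 lv.2.2.2.2.2.2.2.2.2.2.2.2.2.2.2.2.2.2.2.2.2.2.2.2.2.2.2.2.2.2.2.2.2.2.2.2.2.2.2.2.2.2.2.2.2.2.2.2.2.2.2.2.1.2.2.2.2.1 lv.2.2.2.2.2.2.2.2.2.2.2.2.2.2.2.2.2.2.2.2.2.2.2.2.2.2.2.2.2.2.2.2.2.2.2.2.2.2.2.2.2.2.2.2.2.2.2.2.2.2.2.2.1.2.2.2.2.2)))

def t_h231 : Tree := (.s2 (.leaf 151 14 14 6 6) (.s0 (.leaf 163 14 14 6 6) (.leaf 167 14 14 6 6)))
theorem h231 : t_h231.ok 0 1 0 0 (GE 2 3 (D 2) (121, 624) (-1331, 15624) (tau1 (121, 624)) p23 k03 k13) unitBx = true :=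
  (Tree.ok_s2 lv.2.2.2.2.2.2.2.2.2.2.2.2.2.2.2.2.2.2.2.2.2.2.2.2.2.2.2.2.2.2.2.2.2.2.2.2.2.2.2.2.2.2.2.2.2.2.2.2.2.2.2.2.2.1 (Tree.ok_s0 lv.2.2.2.2.2.2.2.2.2.2.2.2.2.2.2.2.2.2.2.2.2.2.2.2.2.2.2.2.2.2.2.2.2.2.2.2.2.2.2.2.2.2.2.2.2.2.2.2.2.2.2.2.2.2.1 lv.2.2.2.2.2.2.2.2.2.2.2.2.2.2.2.2.2.2.2.2.2.2.2.2.2.2.2.2.2.2.2.2.2.2.2.2.2.2.2.2.2.2.2.2.2.2.2.2.2.2.2.2.2.2.2))

/-! The certified family. -/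

theorem cert : PoisCert (-44 / 100) D psi hh (121, 624) (-1331, 15624) (22, 24) (11, 24) (4, 4095) (0, 0) (1, 0)
    (tau0 (121, 624)) w2 where
  hl0 := by norm_num
  hl1 := by norm_num
  hne := by norm_num
  e2 := by norm_num [cv]
  e3 := by norm_num [cv]
  hδ := by norm_num [cv]
  hta := by norm_num [cv]
  htb := by norm_num [cv]
  htb0 := by norm_num [cv]
  r1 := by norm_num [cv]
  r2 := by norm_num [cv]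
  r3 := by norm_num [cv]
  r4 := by norm_num [cv]
  hc := by norm_num [cv]
  hc' := by norm_num [cv]
  htau := by
    intro s ρ a b e _ h1 h2 h3 h4
    simp only [tau0, PE.real_mul, PE.real_q, PE.real_x, env]
    have k1 : 0 ≤ s * ρ := mul_nonneg h2 h3
    have k2 : s * ρ ≤ s := by nlinarith
    push_cast
    nlinarith [mul_le_mul k2 k2 k1 h2]
  hU0 := by
    intro j k hj hk
    interval_cases j <;> interval_cases k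
    exacts [box_zero _ _ u00, box_zero _ _ u01, box_zero _ _ u02, box_zero _ _ u03, box_zero _ _ u10, box_zero _ _ u11, box_zero _ _ u12, box_zero _ _ u13, box_zero _ _ u20, box_zero _ _ u21, box_zero _ _ u22, box_zero _ _ u23]
  hU1 := by
    intro j k hj hk
    interval_cases j <;> interval_cases k
    exacts [box_zero _ _ v00, box_zero _ _ v01, box_zero _ _ v02, box_zero _ _ v03, box_zero _ _ v10, box_zero _ _ v11, box_zero _ _ v12, box_zero _ _ v13, box_zero _ _ v20, box_zero _ _ v21, box_zero _ _ v22, box_zero _ _ v23]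
  hH0 := by
    intro j k hj hk
    interval_cases j <;> interval_cases k
    exacts [box_zero _ _ h000, box_zero _ _ h010, box_zero _ _ h020, box_zero _ _ h030, box_zero _ _ h100, box_zero _ _ h110, box_zero _ _ h120, box_zero _ _ h130, box_zero _ _ h200, box_zero _ _ h210, box_zero _ _ h220, box_zero _ _ h230]
  hH1 := by
    intro j k hj hk
    interval_cases j <;> interval_cases k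
    exacts [box_zero _ _ h001, box_zero _ _ h011, box_zero _ _ h021, box_zero _ _ h031, box_zero _ _ h101, box_zero _ _ h111, box_zero _ _ h121, box_zero _ _ h131, box_zero _ _ h201, box_zero _ _ h211, box_zero _ _ h221, box_zero _ _ h231]
  hS := by
    intro j hj
    interval_cases j
    exacts [box_zero _ _ s0, box_zero _ _ s1, box_zero _ _ s2]
  hR := by
    intro j hj
    interval_cases j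
    exacts [box_zero _ _ r0, box_zero _ _ r1, box_zero _ _ r2]
  hw2 := by
    intro j hj
    interval_cases j <;> norm_num [gR, wR, hr, cv, D, D00, D10, D20, w2]
  hψ0 := by
    intro j k hj hk
    interval_cases j <;> interval_cases k <;> simp [h2R, hr, psi, cv, p00, p01, p02, p03, p10, p11, p12, p13, p20, p21, p22, p23]

end Vale.Agent.P154.QN
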