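import Vale.Agent.P154.Data.U7D

/-! Certificates of a uniform family of potentials, node 0. -/

namespace Vale.Agent.P154.U7

def t_s0 : Tree := (.s2 (.s1 (.leaf 77 9 16 6 1) (.leaf 82 9 16 6 1)) (.leaf 65 9 16 6 1))
theorem s0_0 : (Tree.leaf 77 9 16 6 1).ok 0 1 0 0 (SE2 D01 (0, 0) (1, 1) (1, 1) p00 p01)
    ⟨0, 1, 1, 0, 1, 2, 0, 1, 2, 0, 1, 1⟩ = true := by decide +kernel
theorem s0_1 : (Tree.leaf 82 9 16 6 1).ok 0 1 0 0 (SE2 D01 (0, 0) (1, 1) (1, 1) p00 p01)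
    ⟨0, 1, 1, 1, 2, 2, 0, 1, 2, 0, 1, 1⟩ = true := by decide +kernel
theorem s0_2 : (Tree.leaf 65 9 16 6 1).ok 0 1 0 0 (SE2 D01 (0, 0) (1, 1) (1, 1) p00 p01)
    ⟨0, 1, 1, 0, 1, 1, 1, 2, 2, 0, 1, 1⟩ = true := by decide +kernel
theorem s0 : t_s0.ok 0 1 0 0 (SE2 D01 (0, 0) (1, 1) (1, 1) p00 p01) unitBx = true :=
  (Tree.ok_s2 (Tree.ok_s1 s0_0 s0_1) s0_2)

def t_q0 : Tree := (.s2 (.s1 (.leaf 87 9 16 6 1) (.leaf 93 9 16 6 1)) (.leaf 75 9 16 6 1))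
theorem q0_0 : (Tree.leaf 87 9 16 6 1).ok 0 1 0 0 (SE2 D01 (0, 0) (1173, 2737) (1565, 2737) p00 p01)
    ⟨0, 1, 1, 0, 1, 2, 0, 1, 2, 0, 1, 1⟩ = true := by decide +kernel
theorem q0_1 : (Tree.leaf 93 9 16 6 1).ok 0 1 0 0 (SE2 D01 (0, 0) (1173, 2737) (1565, 2737) p00 p01)
    ⟨0, 1, 1, 1, 2, 2, 0, 1, 2, 0, 1, 1⟩ = true := by decide +kernel
theorem q0_2 : (Tree.leaf 75 9 16 6 1).ok 0 1 0 0 (SE2 D01 (0, 0) (1173, 2737) (1565, 2737) p00 p01)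
    ⟨0, 1, 1, 0, 1, 1, 1, 2, 2, 0, 1, 1⟩ = true := by decide +kernel
theorem q0 : t_q0.ok 0 1 0 0 (SE2 D01 (0, 0) (1173, 2737) (1565, 2737) p00 p01) unitBx = true :=
  (Tree.ok_s2 (Tree.ok_s1 q0_0 q0_1) q0_2)

def t_r0 : Tree := (.leaf 53 16 1 6 1)
theorem r0 : t_r0.ok 0 1 0 0 (RE D01 (0, 0)) unitBx = true := by decide +kernel

def t_u00 : Tree := (.s1 (.s0 (.leaf 187 17 16 6 1) (.leaf 192 17 16 6 1)) (.s0 (.leaf 193 17 16 6 1) (.leaf 200 17 16 6 1)))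
theorem u00_0 : (Tree.leaf 187 17 16 6 1).ok 0 1 0 0 (UE0 (28, 36) D00)
    ⟨0, 1, 2, 0, 1, 2, 0, 1, 1, 0, 1, 1⟩ = true := by decide +kernel
theorem u00_1 : (Tree.leaf 192 17 16 6 1).ok 0 1 0 0 (UE0 (28, 36) D00)
    ⟨1, 2, 2, 0, 1, 2, 0, 1, 1, 0, 1, 1⟩ = true := by decide +kernel
theorem u00_2 : (Tree.leaf 193 17 16 6 1).ok 0 1 0 0 (UE0 (28, 36) D00)
    ⟨0, 1, 2, 1, 2, 2, 0, 1, 1, 0, 1, 1⟩ = true := by decide +kernel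
theorem u00_3 : (Tree.leaf 200 17 16 6 1).ok 0 1 0 0 (UE0 (28, 36) D00)
    ⟨1, 2, 2, 1, 2, 2, 0, 1, 1, 0, 1, 1⟩ = true := by decide +kernel
theorem u00 : t_u00.ok 0 1 0 0 (UE0 (28, 36) D00) unitBx = true :=
  (Tree.ok_s1 (Tree.ok_s0 u00_0 u00_1) (Tree.ok_s0 u00_2 u00_3))

def t_v00 : Tree := (.s1 (.s1 (.leaf 185 17 16 6 1) (.leaf 187 17 16 6 1)) (.s1 (.leaf 190 17 16 6 1) (.leaf 194 17 16 6 1)))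
theorem v00_0 : (Tree.leaf 185 17 16 6 1).ok 0 1 0 0 (UE1 (14, 36) D00)
    ⟨0, 1, 1, 0, 1, 4, 0, 1, 1, 0, 1, 1⟩ = true := by decide +kernel
theorem v00_1 : (Tree.leaf 187 17 16 6 1).ok 0 1 0 0 (UE1 (14, 36) D00)
    ⟨0, 1, 1, 1, 2, 4, 0, 1, 1, 0, 1, 1⟩ = true := by decide +kernel
theorem v00_2 : (Tree.leaf 190 17 16 6 1).ok 0 1 0 0 (UE1 (14, 36) D00)
    ⟨0, 1, 1, 2, 3, 4, 0, 1, 1, 0, 1, 1⟩ = true := by decide +kernel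
theorem v00_3 : (Tree.leaf 194 17 16 6 1).ok 0 1 0 0 (UE1 (14, 36) D00)
    ⟨0, 1, 1, 3, 4, 4, 0, 1, 1, 0, 1, 1⟩ = true := by decide +kernel
theorem v00 : t_v00.ok 0 1 0 0 (UE1 (14, 36) D00) unitBx = true :=
  (Tree.ok_s1 (Tree.ok_s1 v00_0 v00_1) (Tree.ok_s1 v00_2 v00_3))

def t_u01 : Tree := (.s1 (.s0 (.leaf 186 17 16 6 1) (.leaf 192 17 16 6 1)) (.s0 (.leaf 192 17 16 6 1) (.leaf 198 17 16 6 1)))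
theorem u01_0 : (Tree.leaf 186 17 16 6 1).ok 0 1 0 0 (UE0 (28, 36) D01)
    ⟨0, 1, 2, 0, 1, 2, 0, 1, 1, 0, 1, 1⟩ = true := by decide +kernel
theorem u01_1 : (Tree.leaf 192 17 16 6 1).ok 0 1 0 0 (UE0 (28, 36) D01)
    ⟨1, 2, 2, 0, 1, 2, 0, 1, 1, 0, 1, 1⟩ = true := by decide +kernel
theorem u01_2 : (Tree.leaf 192 17 16 6 1).ok 0 1 0 0 (UE0 (28, 36) D01)
    ⟨0, 1, 2, 1, 2, 2, 0, 1, 1, 0, 1, 1⟩ = true := by decide +kernel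
theorem u01_3 : (Tree.leaf 198 17 16 6 1).ok 0 1 0 0 (UE0 (28, 36) D01)
    ⟨1, 2, 2, 1, 2, 2, 0, 1, 1, 0, 1, 1⟩ = true := by decide +kernel
theorem u01 : t_u01.ok 0 1 0 0 (UE0 (28, 36) D01) unitBx = true :=
  (Tree.ok_s1 (Tree.ok_s0 u01_0 u01_1) (Tree.ok_s0 u01_2 u01_3))

def t_v01 : Tree := (.s1 (.leaf 170 17 16 6 1) (.s1 (.leaf 189 17 16 6 1) (.leaf 193 17 16 6 1)))
theorem v01_0 : (Tree.leaf 170 17 16 6 1).ok 0 1 0 0 (UE1 (14, 36) D01)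
    ⟨0, 1, 1, 0, 1, 2, 0, 1, 1, 0, 1, 1⟩ = true := by decide +kernel
theorem v01_1 : (Tree.leaf 189 17 16 6 1).ok 0 1 0 0 (UE1 (14, 36) D01)
    ⟨0, 1, 1, 2, 3, 4, 0, 1, 1, 0, 1, 1⟩ = true := by decide +kernel
theorem v01_2 : (Tree.leaf 193 17 16 6 1).ok 0 1 0 0 (UE1 (14, 36) D01)
    ⟨0, 1, 1, 3, 4, 4, 0, 1, 1, 0, 1, 1⟩ = true := by decide +kernel
theorem v01 : t_v01.ok 0 1 0 0 (UE1 (14, 36) D01) unitBx = true :=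
  (Tree.ok_s1 v01_0 (Tree.ok_s1 v01_1 v01_2))

end Vale.Agent.P154.U7
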