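import Vale.Agent.P154.Data.U7D

/-! Certificates of a uniform family of potentials, node 1. -/

namespace Vale.Agent.P154.U7

def t_s1 : Tree := (.s2 (.s1 (.leaf 66 9 13 5 1) (.leaf 71 9 13 5 1)) (.s2 (.leaf 61 9 13 5 1) (.leaf 61 9 13 5 1)))
theorem s1_0 : (Tree.leaf 66 9 13 5 1).ok 0 1 0 0 (SE2 D11 (0, 0) (1, 1) (1, 1) p10 p11)
    ⟨0, 1, 1, 0, 1, 2, 0, 1, 2, 0, 1, 1⟩ = true := by decide +kernel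
theorem s1_1 : (Tree.leaf 71 9 13 5 1).ok 0 1 0 0 (SE2 D11 (0, 0) (1, 1) (1, 1) p10 p11)
    ⟨0, 1, 1, 1, 2, 2, 0, 1, 2, 0, 1, 1⟩ = true := by decide +kernel
theorem s1_2 : (Tree.leaf 61 9 13 5 1).ok 0 1 0 0 (SE2 D11 (0, 0) (1, 1) (1, 1) p10 p11)
    ⟨0, 1, 1, 0, 1, 1, 2, 3, 4, 0, 1, 1⟩ = true := by decide +kernel
theorem s1_3 : (Tree.leaf 61 9 13 5 1).ok 0 1 0 0 (SE2 D11 (0, 0) (1, 1) (1, 1) p10 p11)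
    ⟨0, 1, 1, 0, 1, 1, 3, 4, 4, 0, 1, 1⟩ = true := by decide +kernel
theorem s1 : t_s1.ok 0 1 0 0 (SE2 D11 (0, 0) (1, 1) (1, 1) p10 p11) unitBx = true :=
  (Tree.ok_s2 (Tree.ok_s1 s1_0 s1_1) (Tree.ok_s2 s1_2 s1_3))

def t_q1 : Tree := (.s2 (.s1 (.leaf 77 9 13 5 1) (.leaf 81 9 13 5 1)) (.leaf 68 9 13 5 1))
theorem q1_0 : (Tree.leaf 77 9 13 5 1).ok 0 1 0 0 (SE2 D11 (0, 0) (1173, 2737) (1565, 2737) p10 p11)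
    ⟨0, 1, 1, 0, 1, 2, 0, 1, 2, 0, 1, 1⟩ = true := by decide +kernel
theorem q1_1 : (Tree.leaf 81 9 13 5 1).ok 0 1 0 0 (SE2 D11 (0, 0) (1173, 2737) (1565, 2737) p10 p11)
    ⟨0, 1, 1, 1, 2, 2, 0, 1, 2, 0, 1, 1⟩ = true := by decide +kernel
theorem q1_2 : (Tree.leaf 68 9 13 5 1).ok 0 1 0 0 (SE2 D11 (0, 0) (1173, 2737) (1565, 2737) p10 p11)
    ⟨0, 1, 1, 0, 1, 1, 1, 2, 2, 0, 1, 1⟩ = true := by decide +kernel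
theorem q1 : t_q1.ok 0 1 0 0 (SE2 D11 (0, 0) (1173, 2737) (1565, 2737) p10 p11) unitBx = true :=
  (Tree.ok_s2 (Tree.ok_s1 q1_0 q1_1) q1_2)

def t_r1 : Tree := (.leaf 47 13 1 5 1)
theorem r1 : t_r1.ok 0 1 0 0 (RE D11 (0, 0)) unitBx = true := by decide +kernel

def t_u10 : Tree := (.s1 (.s0 (.leaf 157 14 13 5 1) (.leaf 162 14 13 5 1)) (.s0 (.leaf 162 14 13 5 1) (.leaf 168 14 13 5 1)))
theorem u10_0 : (Tree.leaf 157 14 13 5 1).ok 0 1 0 0 (UE0 (28, 36) D10)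
    ⟨0, 1, 2, 0, 1, 2, 0, 1, 1, 0, 1, 1⟩ = true := by decide +kernel
theorem u10_1 : (Tree.leaf 162 14 13 5 1).ok 0 1 0 0 (UE0 (28, 36) D10)
    ⟨1, 2, 2, 0, 1, 2, 0, 1, 1, 0, 1, 1⟩ = true := by decide +kernel
theorem u10_2 : (Tree.leaf 162 14 13 5 1).ok 0 1 0 0 (UE0 (28, 36) D10)
    ⟨0, 1, 2, 1, 2, 2, 0, 1, 1, 0, 1, 1⟩ = true := by decide +kernel
theorem u10_3 : (Tree.leaf 168 14 13 5 1).ok 0 1 0 0 (UE0 (28, 36) D10)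
    ⟨1, 2, 2, 1, 2, 2, 0, 1, 1, 0, 1, 1⟩ = true := by decide +kernel
theorem u10 : t_u10.ok 0 1 0 0 (UE0 (28, 36) D10) unitBx = true :=
  (Tree.ok_s1 (Tree.ok_s0 u10_0 u10_1) (Tree.ok_s0 u10_2 u10_3))

def t_v10 : Tree := (.s1 (.s0 (.leaf 156 14 13 5 1) (.leaf 158 14 13 5 1)) (.s1 (.leaf 160 14 13 5 1) (.leaf 163 14 13 5 1)))
theorem v10_0 : (Tree.leaf 156 14 13 5 1).ok 0 1 0 0 (UE1 (14, 36) D10)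
    ⟨0, 1, 2, 0, 1, 2, 0, 1, 1, 0, 1, 1⟩ = true := by decide +kernel
theorem v10_1 : (Tree.leaf 158 14 13 5 1).ok 0 1 0 0 (UE1 (14, 36) D10)
    ⟨1, 2, 2, 0, 1, 2, 0, 1, 1, 0, 1, 1⟩ = true := by decide +kernel
theorem v10_2 : (Tree.leaf 160 14 13 5 1).ok 0 1 0 0 (UE1 (14, 36) D10)
    ⟨0, 1, 1, 2, 3, 4, 0, 1, 1, 0, 1, 1⟩ = true := by decide +kernel
theorem v10_3 : (Tree.leaf 163 14 13 5 1).ok 0 1 0 0 (UE1 (14, 36) D10)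
    ⟨0, 1, 1, 3, 4, 4, 0, 1, 1, 0, 1, 1⟩ = true := by decide +kernel
theorem v10 : t_v10.ok 0 1 0 0 (UE1 (14, 36) D10) unitBx = true :=
  (Tree.ok_s1 (Tree.ok_s0 v10_0 v10_1) (Tree.ok_s1 v10_2 v10_3))

def t_u11 : Tree := (.s0 (.s1 (.leaf 155 14 13 5 1) (.leaf 160 14 13 5 1)) (.leaf 151 14 13 5 1))
theorem u11_0 : (Tree.leaf 155 14 13 5 1).ok 0 1 0 0 (UE0 (28, 36) D11)
    ⟨0, 1, 2, 0, 1, 2, 0, 1, 1, 0, 1, 1⟩ = true := by decide +kernel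
theorem u11_1 : (Tree.leaf 160 14 13 5 1).ok 0 1 0 0 (UE0 (28, 36) D11)
    ⟨0, 1, 2, 1, 2, 2, 0, 1, 1, 0, 1, 1⟩ = true := by decide +kernel
theorem u11_2 : (Tree.leaf 151 14 13 5 1).ok 0 1 0 0 (UE0 (28, 36) D11)
    ⟨1, 2, 2, 0, 1, 1, 0, 1, 1, 0, 1, 1⟩ = true := by decide +kernel
theorem u11 : t_u11.ok 0 1 0 0 (UE0 (28, 36) D11) unitBx = true :=
  (Tree.ok_s0 (Tree.ok_s1 u11_0 u11_1) u11_2)

def t_v11 : Tree := (.s1 (.leaf 142 14 13 5 1) (.s1 (.leaf 157 14 13 5 1) (.leaf 160 14 13 5 1)))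
theorem v11_0 : (Tree.leaf 142 14 13 5 1).ok 0 1 0 0 (UE1 (14, 36) D11)
    ⟨0, 1, 1, 0, 1, 2, 0, 1, 1, 0, 1, 1⟩ = true := by decide +kernel
theorem v11_1 : (Tree.leaf 157 14 13 5 1).ok 0 1 0 0 (UE1 (14, 36) D11)
    ⟨0, 1, 1, 2, 3, 4, 0, 1, 1, 0, 1, 1⟩ = true := by decide +kernel
theorem v11_2 : (Tree.leaf 160 14 13 5 1).ok 0 1 0 0 (UE1 (14, 36) D11)
    ⟨0, 1, 1, 3, 4, 4, 0, 1, 1, 0, 1, 1⟩ = true := by decide +kernel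
theorem v11 : t_v11.ok 0 1 0 0 (UE1 (14, 36) D11) unitBx = true :=
  (Tree.ok_s1 v11_0 (Tree.ok_s1 v11_1 v11_2))

end Vale.Agent.P154.U7
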