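import Vale.Agent.P154.Data.U7D

/-! Certificates of a uniform family of potentials, node 2. -/

namespace Vale.Agent.P154.U7

def t_s2 : Tree := (.s1 (.leaf 55 9 10 5 1) (.s2 (.leaf 62 9 10 5 1) (.leaf 62 9 10 5 1)))
theorem s2_0 : (Tree.leaf 55 9 10 5 1).ok 0 1 0 0 (SE2 D21 (-17836, 4095) (1, 1) (1, 1) p20 p21)
    ⟨0, 1, 1, 0, 1, 2, 0, 1, 1, 0, 1, 1⟩ = true := by decide +kernel
theorem s2_1 : (Tree.leaf 62 9 10 5 1).ok 0 1 0 0 (SE2 D21 (-17836, 4095) (1, 1) (1, 1) p20 p21)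
    ⟨0, 1, 1, 1, 2, 2, 0, 1, 2, 0, 1, 1⟩ = true := by decide +kernel
theorem s2_2 : (Tree.leaf 62 9 10 5 1).ok 0 1 0 0 (SE2 D21 (-17836, 4095) (1, 1) (1, 1) p20 p21)
    ⟨0, 1, 1, 1, 2, 2, 1, 2, 2, 0, 1, 1⟩ = true := by decide +kernel
theorem s2 : t_s2.ok 0 1 0 0 (SE2 D21 (-17836, 4095) (1, 1) (1, 1) p20 p21) unitBx = true :=
  (Tree.ok_s1 s2_0 (Tree.ok_s2 s2_1 s2_2))

def t_q2 : Tree := (.s1 (.leaf 66 9 10 5 1) (.leaf 69 9 10 5 1))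
theorem q2_0 : (Tree.leaf 66 9 10 5 1).ok 0 1 0 0 (SE2 D21 (-17836, 4095) (1173, 2737) (1565, 2737) p20 p21)
    ⟨0, 1, 1, 0, 1, 2, 0, 1, 1, 0, 1, 1⟩ = true := by decide +kernel
theorem q2_1 : (Tree.leaf 69 9 10 5 1).ok 0 1 0 0 (SE2 D21 (-17836, 4095) (1173, 2737) (1565, 2737) p20 p21)
    ⟨0, 1, 1, 1, 2, 2, 0, 1, 1, 0, 1, 1⟩ = true := by decide +kernel
theorem q2 : t_q2.ok 0 1 0 0 (SE2 D21 (-17836, 4095) (1173, 2737) (1565, 2737) p20 p21) unitBx = true :=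
  (Tree.ok_s1 q2_0 q2_1)

def t_r2 : Tree := (.leaf 41 10 1 4 1)
theorem r2 : t_r2.ok 0 1 0 0 (RE D21 (-17836, 4095)) unitBx = true := by decide +kernel

def t_u20 : Tree := (.s1 (.s0 (.leaf 147 14 10 4 1) (.leaf 152 14 10 4 1)) (.s2 (.leaf 144 14 10 4 1) (.leaf 145 14 10 4 1)))
theorem u20_0 : (Tree.leaf 147 14 10 4 1).ok 0 1 0 0 (UE0 (28, 36) D20)
    ⟨0, 1, 2, 0, 1, 2, 0, 1, 1, 0, 1, 1⟩ = true := by decide +kernel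
theorem u20_1 : (Tree.leaf 152 14 10 4 1).ok 0 1 0 0 (UE0 (28, 36) D20)
    ⟨1, 2, 2, 0, 1, 2, 0, 1, 1, 0, 1, 1⟩ = true := by decide +kernel
theorem u20_2 : (Tree.leaf 144 14 10 4 1).ok 0 1 0 0 (UE0 (28, 36) D20)
    ⟨0, 1, 1, 1, 2, 2, 0, 1, 2, 0, 1, 1⟩ = true := by decide +kernel
theorem u20_3 : (Tree.leaf 145 14 10 4 1).ok 0 1 0 0 (UE0 (28, 36) D20)
    ⟨0, 1, 1, 1, 2, 2, 1, 2, 2, 0, 1, 1⟩ = true := by decide +kernel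
theorem u20 : t_u20.ok 0 1 0 0 (UE0 (28, 36) D20) unitBx = true :=
  (Tree.ok_s1 (Tree.ok_s0 u20_0 u20_1) (Tree.ok_s2 u20_2 u20_3))

def t_v20 : Tree := (.s1 (.leaf 134 14 10 4 1) (.s1 (.leaf 147 14 10 4 1) (.leaf 149 14 10 4 1)))
theorem v20_0 : (Tree.leaf 134 14 10 4 1).ok 0 1 0 0 (UE1 (14, 36) D20)
    ⟨0, 1, 1, 0, 1, 2, 0, 1, 1, 0, 1, 1⟩ = true := by decide +kernel
theorem v20_1 : (Tree.leaf 147 14 10 4 1).ok 0 1 0 0 (UE1 (14, 36) D20)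
    ⟨0, 1, 1, 2, 3, 4, 0, 1, 1, 0, 1, 1⟩ = true := by decide +kernel
theorem v20_2 : (Tree.leaf 149 14 10 4 1).ok 0 1 0 0 (UE1 (14, 36) D20)
    ⟨0, 1, 1, 3, 4, 4, 0, 1, 1, 0, 1, 1⟩ = true := by decide +kernel
theorem v20 : t_v20.ok 0 1 0 0 (UE1 (14, 36) D20) unitBx = true :=
  (Tree.ok_s1 v20_0 (Tree.ok_s1 v20_1 v20_2))

def t_u21 : Tree := (.s1 (.s0 (.leaf 146 14 10 4 1) (.leaf 152 14 10 4 1)) (.s0 (.leaf 150 14 10 4 1) (.leaf 157 14 10 4 1)))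
theorem u21_0 : (Tree.leaf 146 14 10 4 1).ok 0 1 0 0 (UE0 (28, 36) D21)
    ⟨0, 1, 2, 0, 1, 2, 0, 1, 1, 0, 1, 1⟩ = true := by decide +kernel
theorem u21_1 : (Tree.leaf 152 14 10 4 1).ok 0 1 0 0 (UE0 (28, 36) D21)
    ⟨1, 2, 2, 0, 1, 2, 0, 1, 1, 0, 1, 1⟩ = true := by decide +kernel
theorem u21_2 : (Tree.leaf 150 14 10 4 1).ok 0 1 0 0 (UE0 (28, 36) D21)
    ⟨0, 1, 2, 1, 2, 2, 0, 1, 1, 0, 1, 1⟩ = true := by decide +kernel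
theorem u21_3 : (Tree.leaf 157 14 10 4 1).ok 0 1 0 0 (UE0 (28, 36) D21)
    ⟨1, 2, 2, 1, 2, 2, 0, 1, 1, 0, 1, 1⟩ = true := by decide +kernel
theorem u21 : t_u21.ok 0 1 0 0 (UE0 (28, 36) D21) unitBx = true :=
  (Tree.ok_s1 (Tree.ok_s0 u21_0 u21_1) (Tree.ok_s0 u21_2 u21_3))

def t_v21 : Tree := (.s1 (.leaf 133 14 10 4 1) (.s1 (.leaf 145 14 10 4 1) (.leaf 147 14 10 4 1)))
theorem v21_0 : (Tree.leaf 133 14 10 4 1).ok 0 1 0 0 (UE1 (14, 36) D21)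
    ⟨0, 1, 1, 0, 1, 2, 0, 1, 1, 0, 1, 1⟩ = true := by decide +kernel
theorem v21_1 : (Tree.leaf 145 14 10 4 1).ok 0 1 0 0 (UE1 (14, 36) D21)
    ⟨0, 1, 1, 2, 3, 4, 0, 1, 1, 0, 1, 1⟩ = true := by decide +kernel
theorem v21_2 : (Tree.leaf 147 14 10 4 1).ok 0 1 0 0 (UE1 (14, 36) D21)
    ⟨0, 1, 1, 3, 4, 4, 0, 1, 1, 0, 1, 1⟩ = true := by decide +kernel
theorem v21 : t_v21.ok 0 1 0 0 (UE1 (14, 36) D21) unitBx = true :=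
  (Tree.ok_s1 v21_0 (Tree.ok_s1 v21_1 v21_2))

end Vale.Agent.P154.U7
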